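import Mathlib.RingTheory.Length
import Mathlib.RingTheory.Ideal.Colon
import Mathlib.RingTheory.Noetherian.Basic

/-!
Basic length identities for quotients of a commutative ring.
-/

namespace Vale.Agent.P202

open Ideal

variable {A : Type*} [CommRing A]

/-- `col I x = (I : x)`. -/
def col (I : Ideal A) (x : A) : Ideal A := Submodule.comap (LinearMap.toSpanSingleton A A x) I

@[simp] lemma mem_col {I : Ideal A} {x a : A} : a ∈ col I x ↔ a * x ∈ I := by
  simp [col, LinearMap.toSpanSingleton_apply]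

lemma le_col (I : Ideal A) (x : A) : I ≤ col I x := fun a ha => by
  rw [mem_col]; exact Ideal.mul_mem_right _ _ ha

lemma col_mono {I J : Ideal A} (h : I ≤ J) (x : A) : col I x ≤ col J x := fun a ha => by
  rw [mem_col] at ha ⊢; exact h ha

lemma col_eq_top_iff {I : Ideal A} {x : A} : col I x = ⊤ ↔ x ∈ I := by
  rw [Ideal.eq_top_iff_one, mem_col, one_mul]

/-- length of a cyclic module `A/I`. -/
noncomputable def ell (I : Ideal A) : ℕ∞ := Module.length A (A ⧸ I)

lemma ell_mono {I J : Ideal A} (h : I ≤ J) : ell J ≤ ell I := by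
  refine Module.length_le_of_surjective (Submodule.factor h) (Submodule.factor_surjective h)

lemma ell_top : ell (⊤ : Ideal A) = 0 := by
  have : Subsingleton (A ⧸ (⊤ : Ideal A)) := Ideal.Quotient.subsingleton_iff.mpr rfl
  exact Module.length_eq_zero

lemma ell_eq_zero_iff {I : Ideal A} : ell I = 0 ↔ I = ⊤ := by
  rw [ell, Module.length_eq_zero_iff, Ideal.Quotient.subsingleton_iff]

lemma one_le_ell {I : Ideal A} (h : I ≠ ⊤) : 1 ≤ ell I :=
  Order.one_le_iff_ne_zero.mpr fun h' => h (ell_eq_zero_iff.mp h')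

/-- `ℓ(A/I) = ℓ(A/(I:x)) + ℓ(A/(I + xA))`. -/
lemma ell_eq_add (I : Ideal A) (x : A) : ell I = ell (col I x) + ell (I ⊔ Ideal.span {x}) := by
  let f : (A ⧸ col I x) →ₗ[A] (A ⧸ I) :=
    Submodule.mapQ (col I x) I (LinearMap.toSpanSingleton A A x)
      (fun a ha => by simpa [LinearMap.toSpanSingleton_apply] using ha)
  let g : (A ⧸ I) →ₗ[A] (A ⧸ (I ⊔ Ideal.span {x})) := Submodule.factor le_sup_left
  refine Module.length_eq_add_of_exact f g ?_ (Submodule.factor_surjective _) ?_
  · rw [injective_iff_map_eq_zero]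
    intro z
    obtain ⟨z, rfl⟩ := Submodule.Quotient.mk_surjective _ z
    intro hz
    have hz' : (Submodule.Quotient.mk (z • x) : A ⧸ I) = 0 := hz
    rw [Submodule.Quotient.mk_eq_zero] at hz' ⊢
    simpa using hz'
  · rw [LinearMap.exact_iff]
    ext z
    obtain ⟨z, rfl⟩ := Submodule.Quotient.mk_surjective _ z
    constructor
    · intro hz
      have hz' : z ∈ I ⊔ Ideal.span {x} := by
        have : Submodule.Quotient.mk z = (0 : A ⧸ (I ⊔ Ideal.span {x})) := hz
        exact (Submodule.Quotient.mk_eq_zero _).mp this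
      obtain ⟨a, ha, b, hb, rfl⟩ := Submodule.mem_sup.mp hz'
      obtain ⟨c, rfl⟩ := Ideal.mem_span_singleton'.mp hb
      refine ⟨Submodule.Quotient.mk c, ?_⟩
      change Submodule.Quotient.mk (c • x) = _
      rw [Submodule.Quotient.eq]
      simpa using ha
    · rintro ⟨c, hc⟩
      obtain ⟨c, rfl⟩ := Submodule.Quotient.mk_surjective _ c
      rw [← hc]
      change Submodule.Quotient.mk (c • x) = (0 : A ⧸ (I ⊔ Ideal.span {x}))
      rw [Submodule.Quotient.mk_eq_zero]
      exact Ideal.mem_sup_right (Ideal.mul_mem_left _ _ (Ideal.mem_span_singleton_self x))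

end Vale.Agent.P202
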