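import Mathlib

/-!
Completion of a flat local homomorphism of Noetherian local rings (P202-COMP).
-/

namespace Vale.Agent.P202

open IsLocalRing MvPolynomial

section Noeth

variable {R : Type*} [CommRing R]

theorem compl_sum_mem {P R : Type*} [CommRing P] [CommRing R] (J : Ideal P) (I : Ideal R)
    (φ : P →+* R) (hφ : Function.Surjective φ) (hJ : J.map φ = I) (k : ℕ) (y : R)
    (hy : y ∈ I ^ k) : ∃ q ∈ J ^ k, φ q = y := by
  rw [← hJ, ← Ideal.map_pow] at hy
  exact (Ideal.mem_map_iff_of_surjective φ hφ).1 hy

/-- Functoriality of adic completion for a surjection of rings mapping `J` onto `I`. -/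
theorem exists_surjection_adicCompletion {P R : Type*} [CommRing P] [CommRing R] (J : Ideal P)
    (I : Ideal R) (φ : P →+* R) (hφ : Function.Surjective φ) (hJ : J.map φ = I) :
    ∃ Φ : AdicCompletion J P →+* AdicCompletion I R, Function.Surjective Φ := by
  have hle : ∀ n, J ^ n ≤ (I ^ n).comap φ := fun n => by
    rw [← hJ, ← Ideal.map_pow]; exact Ideal.le_comap_map
  let f : (n : ℕ) → AdicCompletion J P →+* R ⧸ I ^ n := fun n =>
    (Ideal.quotientMap (I ^ n) φ (hle n)).comp (AdicCompletion.evalₐ J n).toRingHom
  have hf : ∀ {m n : ℕ} (hle : m ≤ n), (Ideal.Quotient.factorPow I hle).comp (f n) = f m := by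
    intro m n hmn
    ext x
    obtain ⟨x, rfl⟩ := AdicCompletion.mk_surjective J P x
    simp only [f, RingHom.comp_apply, AlgHom.toRingHom_eq_coe, RingHom.coe_coe,
      AdicCompletion.evalₐ_mk, Ideal.quotientMap_mk]
    rw [Ideal.Quotient.factor_mk]
    rw [← sub_eq_zero, ← map_sub, ← map_sub, Ideal.Quotient.eq_zero_iff_mem]
    apply hle m
    have := AdicCompletion.Ideal.mk_eq_mk J hmn x
    rw [← sub_eq_zero, ← map_sub, Ideal.Quotient.eq_zero_iff_mem] at this
    exact this
  refine ⟨AdicCompletion.liftRingHom I f hf, ?_⟩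
  intro y
  obtain ⟨y, rfl⟩ := AdicCompletion.mk_surjective I R y
  have hstep : ∀ k : ℕ, ∃ q ∈ J ^ k, φ q = y (k + 1) - y k := by
    intro k
    apply compl_sum_mem J I φ hφ hJ
    have := AdicCompletion.Ideal.mk_eq_mk I (Nat.le_succ k) y
    rw [← sub_eq_zero, ← map_sub, Ideal.Quotient.eq_zero_iff_mem] at this
    exact this
  choose q hqJ hq using hstep
  obtain ⟨p0, hp0⟩ := hφ (y 0)
  let p : ℕ → P := fun k => p0 + ∑ i ∈ Finset.range k, q i
  have hp : ∀ k, φ (p k) = y k := by
    intro k
    induction k with
    | zero => simp [p, hp0]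
    | succ k ih =>
      have : p (k + 1) = p k + q k := by simp [p, Finset.sum_range_succ, add_assoc]
      rw [this, map_add, ih, hq]; ring
  let s : AdicCompletion.AdicCauchySequence J P := AdicCompletion.AdicCauchySequence.mk J P p (by
    intro n
    rw [SModEq.sub_mem]
    have : p n - p (n + 1) = - q n := by simp [p, Finset.sum_range_succ]
    rw [this]
    simpa using hqJ n)
  refine ⟨AdicCompletion.mk J P s, ?_⟩
  apply AdicCompletion.ext_evalₐ
  intro n
  rw [AdicCompletion.evalₐ_liftRingHom]
  simp only [f, RingHom.comp_apply, AlgHom.toRingHom_eq_coe, RingHom.coe_coe,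
      AdicCompletion.evalₐ_mk, Ideal.quotientMap_mk]
  congr 1
  exact hp n

theorem isNoetherianRing_adicCompletion [IsNoetherianRing R] (I : Ideal R) :
    IsNoetherianRing (AdicCompletion I R) := by
  obtain ⟨n, a, ha⟩ := Submodule.fg_iff_exists_fin_generating_family.1
    (IsNoetherian.noetherian I)
  let φ : MvPolynomial (Fin n) R →+* R := (MvPolynomial.aeval (R := R) a).toRingHom
  have hφ : Function.Surjective φ := fun r => ⟨C r, by simp [φ]⟩
  have hJ : (MvPolynomial.idealOfVars (Fin n) R).map φ = I := by
    rw [MvPolynomial.idealOfVars, Ideal.map_span, ← Set.range_comp]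
    rw [← ha]
    congr 1
    ext x
    simp [φ]
  obtain ⟨Φ, hΦ⟩ := exists_surjection_adicCompletion _ I φ hφ hJ
  have h1 : IsNoetherianRing (AdicCompletion (MvPolynomial.idealOfVars (Fin n) R)
      (MvPolynomial (Fin n) R)) :=
    isNoetherianRing_of_ringEquiv (MvPowerSeries (Fin n) R)
      (MvPowerSeries.toAdicCompletionAlgEquiv (Fin n) R).toRingEquiv
  exact isNoetherianRing_of_surjective _ _ Φ hΦ

end Noeth


section Flatness

/-- Vectors with all coordinates in an ideal `J` lie in `J • ⊤`. -/
theorem pi_mem_smul_top {A : Type*} [CommRing A] (J : Ideal A) {l : ℕ} (v : Fin l → A)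
    (hv : ∀ i, v i ∈ J) : v ∈ (J • ⊤ : Submodule A (Fin l → A)) := by
  have : v = ∑ i, v i • (Pi.single i (1 : A) : Fin l → A) := by
    ext j
    simp [Finset.sum_apply, Pi.single_apply]
  rw [this]
  exact Submodule.sum_mem _ fun i _ => Submodule.smul_mem_smul (hv i) trivial

/-- Elements of an extended ideal are finite sums. -/
theorem mem_map_exists_sum {A B : Type*} [CommRing A] [CommRing B] [Algebra A B] (I : Ideal A)
    (z : B) (hz : z ∈ I.map (algebraMap A B)) :
    ∃ (m : ℕ) (a : Fin m → A) (y : Fin m → B), (∀ i, a i ∈ I) ∧ z = ∑ i, a i • y i := by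
  rw [Ideal.map] at hz
  refine Submodule.span_induction (p := fun z _ => ∃ (m : ℕ) (a : Fin m → A) (y : Fin m → B),
    (∀ i, a i ∈ I) ∧ z = ∑ i, a i • y i) ?_ ?_ ?_ ?_ hz
  · rintro _ ⟨a, ha, rfl⟩
    exact ⟨1, fun _ => a, fun _ => 1, fun _ => ha, by simp [Algebra.smul_def]⟩
  · exact ⟨0, Fin.elim0, Fin.elim0, fun i => i.elim0, by simp⟩
  · rintro x y - - ⟨m, a, u, ha, rfl⟩ ⟨n, b, v, hb, rfl⟩
    refine ⟨m + n, Fin.append a b, Fin.append u v, ?_, ?_⟩
    · intro i
      refine Fin.addCases (fun i => ?_) (fun i => ?_) i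
      · simpa using ha i
      · simpa using hb i
    · simp [Fin.sum_univ_add]
  · rintro c x - ⟨m, a, u, ha, rfl⟩
    exact ⟨m, a, fun i => c * u i, ha, by simp [Finset.mul_sum]⟩

theorem flat_of_dense {R R' S' : Type*} [CommRing R] [CommRing R'] [CommRing S']
    [IsNoetherianRing R'] [IsNoetherianRing S'] [IsLocalRing S']
    [Algebra R R'] [Algebra R' S'] [Algebra R S'] [IsScalarTower R R' S'] [Module.Flat R S']
    (I : Ideal R) (hI : I.map (algebraMap R S') ≤ maximalIdeal S')
    (hdense : ∀ (j : ℕ) (y : R'), ∃ x : R,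
      y - algebraMap R R' x ∈ (I.map (algebraMap R R')) ^ j) : Module.Flat R' S' := by
  classical
  apply Module.Flat.of_forall_isTrivialRelation
  intro l f x hfx
  set 𝔞 : Ideal R' := I.map (algebraMap R R') with h𝔞
  have h𝔞n : 𝔞.map (algebraMap R' S') ≤ maximalIdeal S' := by
    rw [h𝔞, Ideal.map_map, ← IsScalarTower.algebraMap_eq]; exact hI
  have h𝔞k : ∀ k, ∀ a ∈ 𝔞 ^ k, algebraMap R' S' a ∈ maximalIdeal S' ^ k := by
    intro k a ha
    have : algebraMap R' S' a ∈ (𝔞 ^ k).map (algebraMap R' S') := Ideal.mem_map_of_mem _ ha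
    rw [Ideal.map_pow] at this
    exact Ideal.pow_right_mono h𝔞n k this
  let K : Submodule R' (Fin l → R') :=
    { carrier := {b | ∑ i, f i * b i = 0}
      add_mem' := by
        intro a b ha hb
        simp only [Set.mem_ofPred_eq] at ha hb ⊢
        simp [mul_add, Finset.sum_add_distrib, ha, hb]
      zero_mem' := by simp
      smul_mem' := by
        intro c b hb
        simp only [Set.mem_ofPred_eq] at hb ⊢
        have : ∑ i, f i * (c • b) i = c * ∑ i, f i * b i := by
          rw [Finset.mul_sum]
          refine Finset.sum_congr rfl fun i _ => ?_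
          simp only [Pi.smul_apply, smul_eq_mul]; ring
        rw [this, hb, mul_zero] }
  let ι : (Fin l → R') → (Fin l → S') := fun b i => algebraMap R' S' (b i)
  let T : Submodule S' (Fin l → S') := Submodule.span S' (ι '' (K : Set (Fin l → R')))
  obtain ⟨c, hc⟩ := Ideal.exists_pow_inf_eq_pow_smul 𝔞 (Ideal.span (Set.range f))
  have key : ∀ k : ℕ, ∃ t ∈ T, ∃ e ∈ (maximalIdeal S' ^ k • ⊤ : Submodule S' (Fin l → S')),
      x = t + e := by
    intro k
    choose g hg using fun i => hdense (k + c) (f i)
    -- the relation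
    have h1 : (∑ i, g i • x i) ∈ (I ^ (k + c)).map (algebraMap R S') := by
      have e1 : ∑ i, g i • x i = - ∑ i, (f i - algebraMap R R' (g i)) • x i := by
        simp only [sub_smul, Finset.sum_sub_distrib, hfx, algebraMap_smul]
        ring
      rw [e1, IsScalarTower.algebraMap_eq R R' S', ← Ideal.map_map, Ideal.map_pow, ← h𝔞]
      refine neg_mem (Ideal.sum_mem _ fun i _ => ?_)
      rw [Algebra.smul_def]
      exact Ideal.mul_mem_right _ _ (Ideal.mem_map_of_mem _ (hg i))
    obtain ⟨m, a, y, ha, hsum⟩ := mem_map_exists_sum _ _ h1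
    have hrel : ∑ s : Fin l ⊕ Fin m, (Sum.elim g (fun j => - a j) s) • (Sum.elim x y s) = 0 := by
      rw [Fintype.sum_sum_type]
      simp only [Sum.elim_inl, Sum.elim_inr, neg_smul, Finset.sum_neg_distrib, hsum]
      ring
    obtain ⟨κ, b, z, hxz, hb⟩ := Module.Flat.isTrivialRelation_of_sum_smul_eq_zero
      (R := R) (M := S') (f := Sum.elim g (fun j => - a j)) (x := Sum.elim x y) hrel
    -- for each t find the correction
    have hcor : ∀ t : Fin κ, ∃ e : Fin l → R', (∀ i, e i ∈ 𝔞 ^ k) ∧
        ∑ i, f i * (algebraMap R R' (b (Sum.inl i) t)) = ∑ i, f i * e i := by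
      intro t
      have hbt := hb t
      rw [Fintype.sum_sum_type] at hbt
      simp only [Sum.elim_inl, Sum.elim_inr] at hbt
      have m1 : ∑ i, f i * (algebraMap R R' (b (Sum.inl i) t)) ∈ 𝔞 ^ (k + c) := by
        have e2 : ∑ i, f i * (algebraMap R R' (b (Sum.inl i) t)) =
            ∑ i, (f i - algebraMap R R' (g i)) * (algebraMap R R' (b (Sum.inl i) t)) +
            algebraMap R R' (∑ i, a i * b (Sum.inr i) t) := by
          have : ∑ i, a i * b (Sum.inr i) t = ∑ i, g i * b (Sum.inl i) t := by
            have : ∑ x, -a x * b (Sum.inr x) t = - ∑ x, a x * b (Sum.inr x) t := by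
              simp
            rw [this] at hbt
            linear_combination -hbt
          rw [this]
          simp only [map_sum, map_mul, sub_mul, Finset.sum_sub_distrib]
          ring
        rw [e2]
        refine add_mem (Ideal.sum_mem _ fun i _ => Ideal.mul_mem_right _ _ (hg i)) ?_
        rw [h𝔞, ← Ideal.map_pow]
        exact Ideal.mem_map_of_mem _ (Ideal.sum_mem _ fun i _ => Ideal.mul_mem_right _ _ (ha i))
      have m2 : ∑ i, f i * (algebraMap R R' (b (Sum.inl i) t)) ∈ Ideal.span (Set.range f) :=
        Ideal.sum_mem _ fun i _ => Ideal.mul_mem_right _ _ (Ideal.subset_span ⟨i, rfl⟩)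
      have m3 : ∑ i, f i * (algebraMap R R' (b (Sum.inl i) t)) ∈
          𝔞 ^ k • Submodule.span R' (Set.range f) := by
        have h3 := hc (k + c) (Nat.le_add_left _ _)
        have : ∑ i, f i * (algebraMap R R' (b (Sum.inl i) t)) ∈
            𝔞 ^ (k + c) • ⊤ ⊓ Ideal.span (Set.range f) := by
          refine ⟨?_, m2⟩
          simpa using m1
        rw [h3, Nat.add_sub_cancel] at this
        exact Submodule.smul_mono le_rfl inf_le_right this
      rw [Submodule.mem_ideal_smul_span_iff_exists_sum] at m3
      obtain ⟨e, he, hes⟩ := m3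
      refine ⟨e, he, ?_⟩
      rw [← hes, Finsupp.sum_fintype _ _ (by simp)]
      refine Finset.sum_congr rfl fun i _ => ?_
      rw [smul_eq_mul, mul_comm]
    choose e he hesum using hcor
    refine ⟨∑ t, z t • ι (fun i => algebraMap R R' (b (Sum.inl i) t) - e t i), ?_,
      ∑ t, z t • ι (e t), ?_, ?_⟩
    · refine Submodule.sum_mem _ fun t _ => Submodule.smul_mem _ _ (Submodule.subset_span
        ⟨_, ?_, rfl⟩)
      change ∑ i, f i * _ = 0
      simp only [mul_sub, Finset.sum_sub_distrib, hesum t, sub_self]
    · refine Submodule.sum_mem _ fun t _ => Submodule.smul_mem _ _ (pi_mem_smul_top _ _ fun i => ?_)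
      exact h𝔞k k _ (he t i)
    · ext i
      have := hxz (Sum.inl i)
      simp only [Sum.elim_inl] at this
      rw [this, ← Finset.sum_add_distrib, Finset.sum_apply]
      refine Finset.sum_congr rfl fun t _ => ?_
      simp only [ι, Pi.add_apply, Pi.smul_apply, smul_eq_mul, map_sub,
        ← IsScalarTower.algebraMap_apply R R' S']
      rw [Algebra.smul_def]
      ring
  -- Krull
  have hxT : x ∈ T := by
    have hh : (⨅ k : ℕ, maximalIdeal S' ^ k • (⊤ : Submodule S' ((Fin l → S') ⧸ T))) = ⊥ :=
      Ideal.iInf_pow_smul_eq_bot_of_isLocalRing _ (Ideal.IsPrime.ne_top inferInstance)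
    rw [← Submodule.Quotient.mk_eq_zero, ← Submodule.mem_bot S', ← hh, Submodule.mem_iInf]
    intro k
    obtain ⟨t, ht, e, he, hx⟩ := key k
    rw [hx, Submodule.Quotient.mk_add, (Submodule.Quotient.mk_eq_zero T).2 ht, zero_add]
    have : Submodule.map T.mkQ (maximalIdeal S' ^ k • ⊤) ≤
        maximalIdeal S' ^ k • (⊤ : Submodule S' ((Fin l → S') ⧸ T)) := by
      rw [Submodule.map_smul'']
      exact Submodule.smul_mono le_rfl le_top
    exact this ⟨e, he, rfl⟩
  -- conclude
  have hspan : ∀ v ∈ T, ∃ (k : ℕ) (a : Fin l → Fin k → R') (y : Fin k → S'),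
      (∀ i, v i = ∑ j, a i j • y j) ∧ ∀ j, ∑ i, f i * a i j = 0 := by
    intro v hv
    refine Submodule.span_induction (p := fun v _ => ∃ (k : ℕ) (a : Fin l → Fin k → R')
      (y : Fin k → S'), (∀ i, v i = ∑ j, a i j • y j) ∧ ∀ j, ∑ i, f i * a i j = 0)
      ?_ ?_ ?_ ?_ hv
    · rintro _ ⟨b, hb, rfl⟩
      refine ⟨1, fun i _ => b i, fun _ => 1, fun i => ?_, fun _ => hb⟩
      simp [ι, Algebra.smul_def]
    · exact ⟨0, fun _ => Fin.elim0, Fin.elim0, fun i => by simp, fun j => j.elim0⟩
    · rintro u v - - ⟨m, a, y, h1, h2⟩ ⟨n, b, w, h3, h4⟩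
      refine ⟨m + n, fun i => Fin.append (a i) (b i), Fin.append y w, fun i => ?_, fun j => ?_⟩
      · simp [Fin.sum_univ_add, h1, h3]
      · refine Fin.addCases (fun j => ?_) (fun j => ?_) j
        · simpa using h2 j
        · simpa using h4 j
    · rintro c u - ⟨m, a, y, h1, h2⟩
      refine ⟨m, a, fun j => c * y j, fun i => ?_, h2⟩
      simp [h1, Finset.mul_sum]
  exact hspan x hxT

end Flatness


section Unram

variable {A B : Type*} [CommRing A] [CommRing B] [IsLocalRing A] [IsLocalRing B] [Algebra A B]
  [IsLocalHom (algebraMap A B)] [Module.Flat A B]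

theorem length_quot_map_of_unram (hm : maximalIdeal B = (maximalIdeal A).map (algebraMap A B))
    (I : Ideal A) :
    Module.length B (B ⧸ I.map (algebraMap A B)) = Module.length A (A ⧸ I) := by
  have h := IsLocalRing.length_baseChange A B (A ⧸ I)
  rw [← hm] at h
  have h1 : Module.length B (B ⧸ maximalIdeal B) = 1 := by
    rw [Module.length_eq_one_iff]
    exact isSimpleModule_iff_quot_maximal.2 ⟨maximalIdeal B, inferInstance, ⟨LinearEquiv.refl _ _⟩⟩
  rw [h1, mul_one] at h
  rw [← h]
  exact (Algebra.TensorProduct.quotIdealMapEquivTensorQuot B I).toLinearEquiv.length_eq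

theorem length_quot_pow_of_unram (hm : maximalIdeal B = (maximalIdeal A).map (algebraMap A B))
    (j : ℕ) :
    Module.length B (B ⧸ maximalIdeal B ^ j) = Module.length A (A ⧸ maximalIdeal A ^ j) := by
  rw [hm, ← Ideal.map_pow]
  exact length_quot_map_of_unram hm _

theorem ringKrullDim_of_unram [IsNoetherianRing A] [IsNoetherianRing B]
    (hm : maximalIdeal B = (maximalIdeal A).map (algebraMap A B)) :
    ringKrullDim B = ringKrullDim A := by
  rw [← IsLocalRing.maximalIdeal_height_eq_ringKrullDim,
    ← IsLocalRing.maximalIdeal_height_eq_ringKrullDim]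
  have : (maximalIdeal B).LiesOver (maximalIdeal A) :=
    ⟨(IsLocalRing.maximalIdeal_comap (algebraMap A B)).symm⟩
  rw [Ideal.height_eq_height_add_of_liesOver_of_hasGoingDown (maximalIdeal A) (maximalIdeal B)]
  rw [← hm, Ideal.map_quotient_self]
  have : (⊥ : Ideal (B ⧸ maximalIdeal B)).height = 0 := by
    have : IsField (B ⧸ maximalIdeal B) :=
      (Ideal.Quotient.maximal_ideal_iff_isField_quotient _).1 inferInstance
    rw [Ideal.height_bot]
  rw [this, add_zero]

end Unram


section Assembly

/-- Invariance of the residue extension length under completion-like maps. -/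
theorem length_residue_of_bij {R S R' S' : Type*} [CommRing R] [IsLocalRing R] [CommRing S]
    [IsLocalRing S] [CommRing R'] [IsLocalRing R'] [CommRing S'] [IsLocalRing S']
    [Algebra R S] [Algebra R R'] [Algebra S S'] [Algebra R' S'] [Algebra R S']
    [IsScalarTower R R' S'] [IsScalarTower R S S']
    [IsLocalHom (algebraMap R S)] [IsLocalHom (algebraMap R R')] [IsLocalHom (algebraMap S S')]
    [IsLocalHom (algebraMap R' S')]
    (h1 : Function.Surjective (ResidueField.map (algebraMap R R')))
    (h2 : Function.Bijective (ResidueField.map (algebraMap S S'))) :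
    Module.length (ResidueField R') (ResidueField S') =
      Module.length (ResidueField R) (ResidueField S) := by
  have e1 : Module.length R (ResidueField S) = Module.length (ResidueField R) (ResidueField S) :=
    Module.length_eq_of_surjective (S := R) (R := ResidueField R) residue_surjective
  have hs : Function.Surjective (algebraMap R (ResidueField R')) := by
    intro y
    obtain ⟨x, rfl⟩ := h1 y
    obtain ⟨x, rfl⟩ := residue_surjective x
    exact ⟨x, rfl⟩
  have e2 : Module.length R (ResidueField S') =
      Module.length (ResidueField R') (ResidueField S') :=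
    Module.length_eq_of_surjective (S := R) (R := ResidueField R') hs
  have e3 : Module.length R (ResidueField S) = Module.length R (ResidueField S') := by
    let f : ResidueField S →ₗ[R] ResidueField S' :=
      (IsScalarTower.toAlgHom R (ResidueField S) (ResidueField S')).toLinearMap
    have hf : Function.Bijective f := h2
    exact (LinearEquiv.ofBijective f hf).length_eq
  rw [← e1, ← e2, e3]

theorem adicCompletion_dense {R : Type*} [CommRing R] [IsLocalRing R] [IsNoetherianRing R]
    (j : ℕ) (y : AdicCompletion (maximalIdeal R) R) : ∃ x : R,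
      y - algebraMap R (AdicCompletion (maximalIdeal R) R) x ∈
        ((maximalIdeal R).map (algebraMap R (AdicCompletion (maximalIdeal R) R))) ^ j := by
  obtain ⟨x, hx⟩ := Ideal.Quotient.mk_surjective (AdicCompletion.evalₐ (maximalIdeal R) j y)
  refine ⟨x, ?_⟩
  rw [← Ideal.map_pow]
  have h := AdicCompletion.pow_smul_top_eq_ker_eval (M := R) (n := j)
    (maximalIdeal R).fg_of_isNoetherianRing
  have h2 : y - algebraMap R (AdicCompletion (maximalIdeal R) R) x ∈
      (AdicCompletion.eval (maximalIdeal R) R j).ker := by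
    rw [LinearMap.mem_ker, map_sub, sub_eq_zero, AdicCompletion.algebraMap_apply]
    have h3 : maximalIdeal R ^ j • (⊤ : Submodule R R) ≤ maximalIdeal R ^ j := by simp
    have h4 : maximalIdeal R ^ j ≤ maximalIdeal R ^ j • (⊤ : Submodule R R) := by simp
    have h5 := AdicCompletion.factor_evalₐ_eq_eval (maximalIdeal R) y h4
    rw [← h5, ← hx]
    rfl
  rw [← h] at h2
  rw [← Submodule.restrictScalars_mem R, ← Ideal.smul_top_eq_map]
  exact h2


/-- Functoriality of the completion for local homomorphisms. -/
theorem exists_complHom {R S : Type*} [CommRing R] [IsLocalRing R] [CommRing S] [IsLocalRing S]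
    (φ : R →+* S) (h : (maximalIdeal R).map φ ≤ maximalIdeal S) :
    ∃ Φ : AdicCompletion (maximalIdeal R) R →+* AdicCompletion (maximalIdeal S) S,
      ∀ x : R, Φ (algebraMap R _ x) = algebraMap S _ (φ x) := by
  have hle : ∀ n, maximalIdeal R ^ n ≤ (maximalIdeal S ^ n).comap φ := fun n => by
    rw [← Ideal.map_le_iff_le_comap, Ideal.map_pow]
    exact Ideal.pow_right_mono h n
  let f : (n : ℕ) → AdicCompletion (maximalIdeal R) R →+* S ⧸ maximalIdeal S ^ n := fun n =>
    (Ideal.quotientMap (maximalIdeal S ^ n) φ (hle n)).comp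
      (AdicCompletion.evalₐ (maximalIdeal R) n).toRingHom
  have hf : ∀ {m n : ℕ} (hle : m ≤ n),
      (Ideal.Quotient.factorPow (maximalIdeal S) hle).comp (f n) = f m := by
    intro m n hmn
    ext x
    obtain ⟨x, rfl⟩ := AdicCompletion.mk_surjective (maximalIdeal R) R x
    simp only [f, RingHom.comp_apply, AlgHom.toRingHom_eq_coe, RingHom.coe_coe,
      AdicCompletion.evalₐ_mk, Ideal.quotientMap_mk]
    rw [Ideal.Quotient.factor_mk]
    rw [← sub_eq_zero, ← map_sub, ← map_sub, Ideal.Quotient.eq_zero_iff_mem]
    apply hle m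
    have := AdicCompletion.Ideal.mk_eq_mk (maximalIdeal R) hmn x
    rw [← sub_eq_zero, ← map_sub, Ideal.Quotient.eq_zero_iff_mem] at this
    exact this
  refine ⟨AdicCompletion.liftRingHom (maximalIdeal S) f hf, ?_⟩
  intro x
  apply AdicCompletion.ext_evalₐ
  intro n
  rw [AdicCompletion.evalₐ_liftRingHom]
  simp only [f, RingHom.comp_apply, AlgHom.toRingHom_eq_coe, RingHom.coe_coe]
  rw [AlgHom.commutes, AlgHom.commutes]
  rfl

universe u

/-- Abstract package: completion-like extensions `R → R'`, `S → S'` of a flat local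
homomorphism. -/
theorem completion_package {R S R' S' : Type u} [CommRing R] [IsLocalRing R] [IsNoetherianRing R]
    [CommRing S] [IsLocalRing S] [IsNoetherianRing S] [Algebra R S]
    [IsLocalHom (algebraMap R S)] [Module.Flat R S]
    [CommRing R'] [IsLocalRing R'] [IsNoetherianRing R']
    [CommRing S'] [IsLocalRing S'] [IsNoetherianRing S']
    [Algebra R R'] [Algebra S S'] [Algebra R' S'] [Algebra R S']
    [IsScalarTower R R' S'] [IsScalarTower R S S']
    [IsLocalHom (algebraMap R R')] [IsLocalHom (algebraMap S S')]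
    [Module.Flat R R'] [Module.Flat S S']
    (mR : maximalIdeal R' = (maximalIdeal R).map (algebraMap R R'))
    (mS : maximalIdeal S' = (maximalIdeal S).map (algebraMap S S'))
    (hdense : ∀ (j : ℕ) (y : R'), ∃ x : R,
      y - algebraMap R R' x ∈ ((maximalIdeal R).map (algebraMap R R')) ^ j)
    (bR : Function.Bijective (ResidueField.map (algebraMap R R')))
    (bS : Function.Bijective (ResidueField.map (algebraMap S S'))) :
    ∃ (_ : IsLocalHom (algebraMap R' S')) (_ : Module.Flat R' S'),
      (∀ j, Module.length R' (R' ⧸ maximalIdeal R' ^ j) =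
        Module.length R (R ⧸ maximalIdeal R ^ j)) ∧
      (∀ j, Module.length S' (S' ⧸ maximalIdeal S' ^ j) =
        Module.length S (S ⧸ maximalIdeal S ^ j)) ∧
      ringKrullDim R' = ringKrullDim R ∧ ringKrullDim S' = ringKrullDim S ∧
      Module.length S' (S' ⧸ (maximalIdeal R').map (algebraMap R' S')) =
        Module.length S (S ⧸ (maximalIdeal R).map (algebraMap R S)) ∧
      (Infinite (ResidueField R) → Infinite (ResidueField R')) ∧
      Module.length (ResidueField R') (ResidueField S') =
        Module.length (ResidueField R) (ResidueField S) := by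
  have hmap : (maximalIdeal R').map (algebraMap R' S') =
      ((maximalIdeal R).map (algebraMap R S)).map (algebraMap S S') := by
    rw [mR, Ideal.map_map, Ideal.map_map, ← IsScalarTower.algebraMap_eq R R' S',
      ← IsScalarTower.algebraMap_eq R S S']
  have hRS : (maximalIdeal R).map (algebraMap R S) ≤ maximalIdeal S :=
    (((IsLocalRing.local_hom_TFAE (algebraMap R S)).out 0 2) :
      IsLocalHom (algebraMap R S) ↔ _).mp inferInstance
  have loc : IsLocalHom (algebraMap R' S') := by
    apply ((IsLocalRing.local_hom_TFAE _).out 0 2).mpr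
    rw [hmap, mS]
    exact Ideal.map_mono hRS
  have flRS' : Module.Flat R S' := Module.Flat.trans R S S'
  have fl : Module.Flat R' S' := by
    refine flat_of_dense (R := R) (maximalIdeal R) ?_ hdense
    rw [IsScalarTower.algebraMap_eq R S S', ← Ideal.map_map, mS]
    exact Ideal.map_mono hRS
  refine ⟨loc, fl, ?_, ?_, ?_, ?_, ?_, ?_, ?_⟩
  · exact fun j => length_quot_pow_of_unram mR j
  · exact fun j => length_quot_pow_of_unram mS j
  · exact ringKrullDim_of_unram mR
  · exact ringKrullDim_of_unram mS
  · rw [hmap]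
    exact length_quot_map_of_unram mS _
  · intro h
    exact Infinite.of_injective _ bR.1
  · exact length_residue_of_bij bR.2 bS

/-- Completion of a flat local homomorphism. -/
theorem exists_completion {R S : Type u} [CommRing R] [IsLocalRing R] [IsNoetherianRing R]
    [CommRing S] [IsLocalRing S] [IsNoetherianRing S] [Algebra R S]
    [IsLocalHom (algebraMap R S)] [Module.Flat R S] :
    ∃ (R' S' : Type u) (_ : CommRing R') (_ : IsLocalRing R') (_ : IsNoetherianRing R')
      (_ : CommRing S') (_ : IsLocalRing S') (_ : IsNoetherianRing S') (_ : Algebra R' S')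
      (_ : IsLocalHom (algebraMap R' S')) (_ : Module.Flat R' S')
      (_ : IsAdicComplete (maximalIdeal R') R') (_ : IsAdicComplete (maximalIdeal S') S'),
      (∀ j, Module.length R' (R' ⧸ maximalIdeal R' ^ j) =
        Module.length R (R ⧸ maximalIdeal R ^ j)) ∧
      (∀ j, Module.length S' (S' ⧸ maximalIdeal S' ^ j) =
        Module.length S (S ⧸ maximalIdeal S ^ j)) ∧
      ringKrullDim R' = ringKrullDim R ∧ ringKrullDim S' = ringKrullDim S ∧
      Module.length S' (S' ⧸ (maximalIdeal R').map (algebraMap R' S')) =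
        Module.length S (S ⧸ (maximalIdeal R).map (algebraMap R S)) ∧
      (Infinite (ResidueField R) → Infinite (ResidueField R')) ∧
      Module.length (ResidueField R') (ResidueField S') =
        Module.length (ResidueField R) (ResidueField S) := by
  have nR : IsNoetherianRing (AdicCompletion (maximalIdeal R) R) :=
    isNoetherianRing_adicCompletion _
  have nS : IsNoetherianRing (AdicCompletion (maximalIdeal S) S) :=
    isNoetherianRing_adicCompletion _
  have hRS : (maximalIdeal R).map (algebraMap R S) ≤ maximalIdeal S :=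
    (((IsLocalRing.local_hom_TFAE (algebraMap R S)).out 0 2) :
      IsLocalHom (algebraMap R S) ↔ _).mp inferInstance
  obtain ⟨Φ, hΦ⟩ := exists_complHom (algebraMap R S) hRS
  let algR'S' : Algebra (AdicCompletion (maximalIdeal R) R) (AdicCompletion (maximalIdeal S) S) :=
    Φ.toAlgebra
  have st1 : IsScalarTower R (AdicCompletion (maximalIdeal R) R)
      (AdicCompletion (maximalIdeal S) S) := IsScalarTower.of_algebraMap_eq fun x => by
    rw [IsScalarTower.algebraMap_apply R S (AdicCompletion (maximalIdeal S) S)]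
    exact (hΦ x).symm
  obtain ⟨loc, fl, hpack⟩ := completion_package (R := R) (S := S)
    (R' := AdicCompletion (maximalIdeal R) R) (S' := AdicCompletion (maximalIdeal S) S)
    AdicCompletion.maximalIdeal_eq_map AdicCompletion.maximalIdeal_eq_map adicCompletion_dense
    (AdicCompletion.residueField_map_bijective R) (AdicCompletion.residueField_map_bijective S)
  exact ⟨_, _, inferInstance, inferInstance, nR, inferInstance, inferInstance, nS, algR'S',
    loc, fl, inferInstance, inferInstance, hpack⟩

end Assembly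

end Vale.Agent.P202
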