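import Vale.Agent.P202.MultExists
import Vale.Agent.P202.Completion

/-!
Assembly: from the inequality for complete rings of the same dimension to all flat local maps.
-/

set_option linter.unusedSectionVars false

namespace Vale.Agent.P202

open Ideal IsLocalRing Finset Filter Topology

universe u

/-- The sequence whose limit is the multiplicity. -/
noncomputable def hsSeq (A : Type u) [CommRing A] [IsLocalRing A] (d : ℕ) : ℕ → ℝ := fun N =>
  (d.factorial : ℝ) * ((Module.length A (A ⧸ maximalIdeal A ^ N)).toNat : ℝ) / (N : ℝ) ^ d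

lemma le_of_growth {d : ℕ} (hd : 0 < d) (κ c K : ℕ) (a b : ℕ → ℕ)
    (h : ∀ N, d.factorial * a N ≤ κ * (d.factorial * b (N + c)) + K * (N + 1) ^ (d - 1))
    (eR eS : ℝ)
    (hR : Tendsto (fun N : ℕ => (d.factorial : ℝ) * (a N : ℝ) / (N : ℝ) ^ d) atTop (𝓝 eR))
    (hS : Tendsto (fun N : ℕ => (d.factorial : ℝ) * (b N : ℝ) / (N : ℝ) ^ d) atTop (𝓝 eS)) :
    eR ≤ κ * eS := by
  have h0 : Tendsto (fun N : ℕ => (d.factorial : ℝ) * (b (N + c) : ℝ) / ((N + c : ℕ) : ℝ) ^ d)
      atTop (𝓝 eS) := hS.comp (tendsto_add_atTop_nat c)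
  have h1 := h0.mul (tendsto_shift_pow_ratio c d)
  have h2 := (h1.const_mul (κ : ℝ)).add
    ((tendsto_lower_ratio 1 d hd).const_mul (K : ℝ))
  rw [mul_one, mul_zero, add_zero] at h2
  refine le_of_tendsto_of_tendsto hR h2 ?_
  filter_upwards [eventually_gt_atTop 0] with n hn
  have hnd : (0 : ℝ) < (n : ℝ) ^ d := by positivity
  have hnd' : (0 : ℝ) < ((n + c : ℕ) : ℝ) ^ d := by positivity
  rw [div_mul_div_comm, mul_comm (((n + c : ℕ) : ℝ) ^ d), mul_div_mul_right _ _ hnd'.ne',
    mul_div_assoc', mul_div_assoc', ← add_div]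
  refine (div_le_div_iff_of_pos_right hnd).mpr ?_
  exact_mod_cast h n

/-- conversion to natural numbers of a growth inequality. -/
lemma growth_toNat {A B : Type*} [CommRing A] [IsLocalRing A] [IsNoetherianRing A]
    [CommRing B] [IsLocalRing B] [IsNoetherianRing B] (d κ c K N : ℕ)
    (h : (d.factorial : ℕ∞) * ell (maximalIdeal A ^ N) ≤
      (κ : ℕ∞) * ((d.factorial : ℕ∞) * ell (maximalIdeal B ^ (N + c))) +
        (K : ℕ∞) * ((N : ℕ∞) + 1) ^ (d - 1)) :
    d.factorial * (Module.length A (A ⧸ maximalIdeal A ^ N)).toNat ≤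
      κ * (d.factorial * (Module.length B (B ⧸ maximalIdeal B ^ (N + c))).toNat) +
        K * (N + 1) ^ (d - 1) := by
  have hA : ell (maximalIdeal A ^ N) ≠ ⊤ := ell_ne_top_of_pow_le le_rfl
  have hB : ell (maximalIdeal B ^ (N + c)) ≠ ⊤ := ell_ne_top_of_pow_le le_rfl
  obtain ⟨a, ha⟩ := ENat.ne_top_iff_exists.mp hA
  obtain ⟨b, hb⟩ := ENat.ne_top_iff_exists.mp hB
  rw [← ha, ← hb] at h
  have h1 : Module.length A (A ⧸ maximalIdeal A ^ N) = (a : ℕ∞) := ha.symm
  have h2 : Module.length B (B ⧸ maximalIdeal B ^ (N + c)) = (b : ℕ∞) := hb.symm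
  rw [h1, h2, ENat.toNat_natCast, ENat.toNat_natCast]
  exact_mod_cast h

/-- The statement for complete rings of the same dimension. -/
def CompleteCase (d κ : ℕ) : Prop :=
  ∀ (R S : Type u) [CommRing R] [IsLocalRing R] [IsNoetherianRing R]
    [IsAdicComplete (maximalIdeal R) R] [Infinite (ResidueField R)]
    [CommRing S] [IsLocalRing S] [IsNoetherianRing S] [Algebra R S]
    [IsLocalHom (algebraMap R S)] [Module.Flat R S],
    ringKrullDim R = d → ringKrullDim S = d →
    ∃ c K : ℕ, ∀ N : ℕ, (d.factorial : ℕ∞) * ell (maximalIdeal R ^ N) ≤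
      (κ : ℕ∞) * ((d.factorial : ℕ∞) * ell (maximalIdeal S ^ (N + c))) +
        (K : ℕ∞) * ((N : ℕ∞) + 1) ^ (d - 1)

/-- The localization inequality. -/
def LocCase : Prop :=
  ∀ (S : Type u) [CommRing S] [IsLocalRing S] [IsNoetherianRing S]
    [IsAdicComplete (maximalIdeal S) S] (Q : Ideal S) [Q.IsPrime] (s : ℕ),
    ringKrullDim (S ⧸ Q) = 1 → ringKrullDim (Localization.AtPrime Q) = s →
    ringKrullDim S = s + 1 → ∀ eQ eS : ℕ,
    Tendsto (hsSeq (Localization.AtPrime Q) s) atTop (𝓝 (eQ : ℝ)) →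
    Tendsto (hsSeq S (s + 1)) atTop (𝓝 (eS : ℝ)) → eQ ≤ eS

/-- The choice of the prime ideal. -/
def DimCase : Prop :=
  ∀ (R S : Type u) [CommRing R] [IsLocalRing R] [IsNoetherianRing R]
    [CommRing S] [IsLocalRing S] [IsNoetherianRing S] [Algebra R S]
    [IsLocalHom (algebraMap R S)] [Module.Flat R S] (s : ℕ), ringKrullDim S = s + 1 →
    ringKrullDim R < ringKrullDim S →
    ∃ Q : Ideal S, ∃ _ : Q.IsPrime, (maximalIdeal R).map (algebraMap R S) ≤ Q ∧
      ringKrullDim (S ⧸ Q) = 1 ∧ ringKrullDim (Localization.AtPrime Q) = s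

/-- Equal dimensions. -/
theorem lech_equal_dim {d κ : ℕ} (hd : 0 < d) (H : CompleteCase.{u} d κ) {R S : Type u}
    [CommRing R] [IsLocalRing R] [IsNoetherianRing R]
    [CommRing S] [IsLocalRing S] [IsNoetherianRing S] [Algebra R S]
    [IsLocalHom (algebraMap R S)] [Module.Flat R S]
    (hR : ringKrullDim R = d) (hS : ringKrullDim S = d) (eR eS : ℝ)
    (heR : Tendsto (hsSeq R d) atTop (𝓝 eR)) (heS : Tendsto (hsSeq S d) atTop (𝓝 eS)) :
    eR ≤ κ * eS := by
  obtain ⟨R1, S1, _, _, _, _, _, _, _, _, _, hinf, hlR, hlS, hdR, hdS, -⟩ :=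
    exists_infinite_residue (R := R) (S := S)
  obtain ⟨R2, S2, _, _, _, _, _, _, _, _, _, _, _, hlR2, hlS2, hdR2, hdS2, -, hinf2, -⟩ :=
    exists_completion (R := R1) (S := S1)
  have := hinf2 hinf
  obtain ⟨c, K, hN⟩ := H R2 S2 (hdR2.trans (hdR.trans hR)) (hdS2.trans (hdS.trans hS))
  refine le_of_growth hd κ c K (fun N => (Module.length R2 (R2 ⧸ maximalIdeal R2 ^ N)).toNat)
    (fun N => (Module.length S2 (S2 ⧸ maximalIdeal S2 ^ N)).toNat)
    (fun N => growth_toNat d κ c K N (hN N)) eR eS ?_ ?_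
  · simp only [hlR2, hlR]
    exact heR
  · simp only [hlS2, hlS]
    exact heS

/-- All flat local homomorphisms. -/
theorem lech_all {d κ : ℕ} (hd : 0 < d) (H : CompleteCase.{u} d κ) (HL : LocCase.{u})
    (HD : DimCase.{u}) (n : ℕ) : ∀ {R S : Type u}
    [CommRing R] [IsLocalRing R] [IsNoetherianRing R]
    [CommRing S] [IsLocalRing S] [IsNoetherianRing S] [Algebra R S]
    [IsLocalHom (algebraMap R S)] [Module.Flat R S]
    (_ : ringKrullDim R = d) (_ : ringKrullDim S = (d + n : ℕ)) (eR eS : ℕ)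
    (_ : Tendsto (hsSeq R d) atTop (𝓝 (eR : ℝ)))
    (_ : Tendsto (hsSeq S (d + n)) atTop (𝓝 (eS : ℝ))),
    eR ≤ κ * eS := by
  induction n with
  | zero =>
    intro R S _ _ _ _ _ _ _ _ _ hR hS eR eS heR heS
    have := lech_equal_dim hd H hR (by simpa using hS) eR eS heR (by simpa using heS)
    exact_mod_cast this
  | succ n ih =>
    intro R S _ _ _ _ _ _ _ _ _ hR hS eR eS heR heS
    obtain ⟨R2, S2, _, _, _, _, _, _, _, _, _, _, _, hlR2, hlS2, hdR2, hdS2, -⟩ :=
      exists_completion (R := R) (S := S)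
    have hR2 : ringKrullDim R2 = d := hdR2.trans hR
    have hS2 : ringKrullDim S2 = (d + n : ℕ) + 1 := by
      rw [hdS2, hS]
      push_cast
      rw [add_assoc]
    obtain ⟨Q, _, hmQ, hQ1, hQs⟩ := HD R2 S2 (d + n) hS2 (by
      rw [hR2, hS2]
      have : (d : WithBot ℕ∞) < ((d + n + 1 : ℕ) : WithBot ℕ∞) := by
        exact_mod_cast (by omega : d < d + n + 1)
      refine this.trans_le (le_of_eq ?_)
      push_cast
      rfl)
    have heR2 : Tendsto (hsSeq R2 d) atTop (𝓝 (eR : ℝ)) := by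
      have : hsSeq R2 d = hsSeq R d := by
        funext N
        simp only [hsSeq, hlR2]
      rw [this]; exact heR
    have heS2 : Tendsto (hsSeq S2 (d + n + 1)) atTop (𝓝 (eS : ℝ)) := by
      have : hsSeq S2 (d + n + 1) = hsSeq S (d + (n + 1)) := by
        funext N
        simp only [hsSeq, hlS2, add_assoc]
      rw [this]; exact heS
    have hflat : Module.Flat R2 (Localization.AtPrime Q) := Module.Flat.trans R2 S2 _
    have hloc : IsLocalHom (algebraMap R2 (Localization.AtPrime Q)) := by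
      refine ⟨fun a ha => ?_⟩
      by_contra hna
      have h1 : algebraMap R2 S2 a ∈ Q :=
        hmQ (Ideal.mem_map_of_mem _ ((IsLocalRing.mem_maximalIdeal _).mpr hna))
      rw [IsScalarTower.algebraMap_apply R2 S2 (Localization.AtPrime Q),
        IsLocalization.AtPrime.isUnit_to_map_iff (Localization.AtPrime Q) Q] at ha
      exact ha h1
    obtain ⟨eQ, heQ⟩ := exists_mult (A := Localization.AtPrime Q) (d := d + n) (by omega) hQs
    have h1 : eR ≤ κ * eQ := ih (R := R2) (S := Localization.AtPrime Q) hR2 hQs eR eQ heR2 heQ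
    have h2 : eQ ≤ eS := HL S2 Q (d + n) hQ1 hQs hS2 eQ eS heQ heS2
    exact h1.trans (Nat.mul_le_mul_left _ h2)

/-- The final form: everything exists, and the inequality holds. -/
theorem lech_final {d κ : ℕ} (hd : 0 < d) (H : CompleteCase.{u} d κ) (HL : LocCase.{u})
    (HD : DimCase.{u}) {R S : Type u}
    [CommRing R] [IsLocalRing R] [IsNoetherianRing R]
    [CommRing S] [IsLocalRing S] [IsNoetherianRing S] [Algebra R S]
    [IsLocalHom (algebraMap R S)] [Module.Flat R S] (hR : ringKrullDim R = d) :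
    ∃ s eR eS : ℕ, ringKrullDim S = s ∧ Tendsto (hsSeq R d) atTop (𝓝 (eR : ℝ)) ∧
      Tendsto (hsSeq S s) atTop (𝓝 (eS : ℝ)) ∧ eR ≤ κ * eS := by
  obtain ⟨s, hs⟩ : ∃ s : ℕ, ringKrullDim S = s := by
    have h1 := IsLocalRing.maximalIdeal_height_eq_ringKrullDim (R := S)
    have h2 : (maximalIdeal S).height ≠ ⊤ := Ideal.height_ne_top_of_isPrime
    obtain ⟨s, hs⟩ := ENat.ne_top_iff_exists.mp h2
    exact ⟨s, by rw [← h1, ← hs]; rfl⟩
  have hle : d ≤ s := by
    have h1 := Ideal.height_eq_height_add_of_liesOver_of_hasGoingDown (maximalIdeal R)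
      (maximalIdeal S)
    have h2 : (maximalIdeal R).height ≤ (maximalIdeal S).height := by
      rw [h1]; exact le_self_add
    rw [← IsLocalRing.maximalIdeal_height_eq_ringKrullDim] at hR hs
    have h3 : (maximalIdeal R).height = d := by exact_mod_cast hR
    have h4 : (maximalIdeal S).height = s := by exact_mod_cast hs
    rw [h3, h4] at h2
    exact_mod_cast h2
  obtain ⟨n, rfl⟩ := Nat.exists_eq_add_of_le hle
  obtain ⟨eR, heR⟩ := exists_mult (A := R) hd hR
  obtain ⟨eS, heS⟩ := exists_mult (A := S) (d := d + n) (by omega) hs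
  exact ⟨d + n, eR, eS, hs, heR, heS, lech_all hd H HL HD n hR hs eR eS heR heS⟩

end Vale.Agent.P202
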