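import Vale.Agent.P202.Assembly

/-!
Assembly: special cases.
-/

set_option linter.unusedSectionVars false

namespace Vale.Agent.P202

open Ideal IsLocalRing Finset Filter Topology

universe u

/-- The factorial bound in the form used in the assembly. -/
theorem completeCase_factorial {δ : ℕ} (hδ : 0 < δ) : CompleteCase.{u} (δ + 1) δ.factorial := by
  intro R S _ _ _ _ _ _ _ _ _ _ _ hR hS
  have : Infinite (ResidueField S) :=
    Infinite.of_injective (algebraMap (ResidueField R) (ResidueField S)) (RingHom.injective _)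
  have hfib := ell_fibre_ne_top (R := R) (S := S) (by rw [hR, hS])
  obtain ⟨E, B, c, h1, h2⟩ := growth_bound (R := R) (S := S) (δ := δ) hδ hS hfib
  refine ⟨1 + c, (δ + 1).factorial * B, fun N => ?_⟩
  have hRt : ∀ s, ell (maximalIdeal R ^ s) ≠ ⊤ := fun s => ell_ne_top_of_pow_le le_rfl
  have ha : ∀ T, (δ + 1) * (ell (maximalIdeal R ^ T)).toNat ≤
      E * (T + 1) ^ (δ + 1) + (δ + 1) * B * (T + 1) ^ δ := by
    intro T
    refine sum_bound δ E B hδ (fun t => (ell (maximalIdeal R ^ t)).toNat) ?_ ?_ T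
    · have : ell (maximalIdeal R ^ 0) = 0 := by
        rw [pow_zero, ell_eq_zero_iff, Ideal.one_eq_top]
      simp only [this]
      rfl
    · intro t
      have h3 := h2 t
      obtain ⟨a, ha⟩ := ENat.ne_top_iff_exists.mp (hRt t)
      obtain ⟨b, hb⟩ := ENat.ne_top_iff_exists.mp (hRt (t + 1))
      simp only [← ha, ← hb] at h3 ⊢
      simp only [ENat.toNat_natCast]
      exact_mod_cast h3
  have h3 := ha N
  obtain ⟨a, ha'⟩ := ENat.ne_top_iff_exists.mp (hRt N)
  obtain ⟨b, hb⟩ := ENat.ne_top_iff_exists.mp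
    (ell_ne_top_of_pow_le (I := maximalIdeal S ^ (N + (1 + c))) le_rfl)
  have h4 := h1 (N + 1)
  rw [show N + 1 + c = N + (1 + c) by ring, ← hb] at h4
  have h4' : E * (tri (Fin (δ + 1)) (N + 1)).card ≤ b := by exact_mod_cast h4
  have h5 := pow_le_factorial_mul_card_tri (σ := Fin (δ + 1)) (N + 1) (Nat.succ_pos N)
  rw [Fintype.card_fin] at h5
  rw [← ha', ENat.toNat_natCast] at h3
  rw [← ha', ← hb, Nat.add_sub_cancel]
  have h6 : (δ + 1).factorial * a ≤ δ.factorial * ((δ + 1).factorial * b) +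
      (δ + 1).factorial * B * (N + 1) ^ δ := by
    calc (δ + 1).factorial * a = δ.factorial * ((δ + 1) * a) := by
          rw [Nat.factorial_succ]; ring
      _ ≤ δ.factorial * (E * (N + 1) ^ (δ + 1) + (δ + 1) * B * (N + 1) ^ δ) :=
          Nat.mul_le_mul_left _ h3
      _ ≤ δ.factorial * (E * ((δ + 1).factorial * (tri (Fin (δ + 1)) (N + 1)).card) +
          (δ + 1) * B * (N + 1) ^ δ) := by gcongr
      _ = δ.factorial * ((δ + 1).factorial * (E * (tri (Fin (δ + 1)) (N + 1)).card)) +
          (δ + 1).factorial * B * (N + 1) ^ δ := by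
          rw [Nat.factorial_succ]; ring
      _ ≤ _ := by gcongr
  exact_mod_cast h6

/-- The statement of the final chain, with a finiteness condition on the residue fields. -/
def FinalRes : Prop :=
  ∀ (R S : Type u) [CommRing R] [IsLocalRing R] [IsNoetherianRing R]
    [IsAdicComplete (maximalIdeal R) R] [Infinite (ResidueField R)]
    [CommRing S] [IsLocalRing S] [IsNoetherianRing S] [Algebra R S]
    [IsLocalHom (algebraMap R S)] [Module.Flat R S],
    Module.length (ResidueField R) (ResidueField S) ≠ ⊤ →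
    Module.length S (S ⧸ (maximalIdeal R).map (algebraMap R S)) ≠ ⊤ →
    ringKrullDim S = 3 →
    ∃ c K : ℕ, ∀ N : ℕ, 6 * ell (maximalIdeal R ^ N) ≤
      6 * ell (maximalIdeal S ^ (N + c)) + (K : ℕ∞) * ((N : ℕ∞) + 1) ^ 2

/-- Equal dimension three, finite residue field extension. -/
theorem lech_three_res (H : FinalRes.{u}) {R S : Type u}
    [CommRing R] [IsLocalRing R] [IsNoetherianRing R]
    [CommRing S] [IsLocalRing S] [IsNoetherianRing S] [Algebra R S]
    [IsLocalHom (algebraMap R S)] [Module.Flat R S]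
    (hres : Module.length (ResidueField R) (ResidueField S) ≠ ⊤)
    (hR : ringKrullDim R = 3) (hS : ringKrullDim S = 3) :
    ∃ eR eS : ℕ, Tendsto (hsSeq R 3) atTop (𝓝 (eR : ℝ)) ∧
      Tendsto (hsSeq S 3) atTop (𝓝 (eS : ℝ)) ∧ eR ≤ eS := by
  obtain ⟨eR, heR⟩ := exists_mult (A := R) (d := 3) (by omega) (by exact_mod_cast hR)
  obtain ⟨eS, heS⟩ := exists_mult (A := S) (d := 3) (by omega) (by exact_mod_cast hS)
  refine ⟨eR, eS, heR, heS, ?_⟩
  obtain ⟨R1, S1, _, _, _, _, _, _, _, _, _, hinf, hlR, hlS, hdR, hdS, hf1, hr1⟩ :=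
    exists_infinite_residue (R := R) (S := S)
  obtain ⟨R2, S2, _, _, _, _, _, _, _, _, _, _, _, hlR2, hlS2, hdR2, hdS2, hf2, hinf2, hr2⟩ :=
    exists_completion (R := R1) (S := S1)
  have := hinf2 hinf
  have hfib : Module.length S (S ⧸ (maximalIdeal R).map (algebraMap R S)) ≠ ⊤ :=
    ell_fibre_ne_top (by rw [hR, hS])
  obtain ⟨c, K, hN⟩ := H R2 S2 (by rw [hr2, hr1 hres]; exact hres) (by rw [hf2, hf1]; exact hfib)
    (hdS2.trans (hdS.trans hS))
  have key : (eR : ℝ) ≤ (1 : ℕ) * (eS : ℝ) := by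
    refine le_of_growth (d := 3) (by omega) 1 c K
      (fun N => (Module.length R2 (R2 ⧸ maximalIdeal R2 ^ N)).toNat)
      (fun N => (Module.length S2 (S2 ⧸ maximalIdeal S2 ^ N)).toNat)
      (fun N => growth_toNat 3 1 c K N ?_) eR eS ?_ ?_
    · have h1 : ((3 : ℕ).factorial : ℕ∞) = 6 := by
        simp [Nat.factorial]
      rw [h1, Nat.cast_one, one_mul]
      exact hN N
    · simp only [hlR2, hlR]
      exact heR
    · simp only [hlS2, hlS]
      exact heS
  rw [Nat.cast_one, one_mul] at key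
  exact_mod_cast key

/-- The complete case in dimension three from the final chain without condition on residue
fields. -/
theorem completeCase_three
    (H : ∀ (R S : Type u) [CommRing R] [IsLocalRing R] [IsNoetherianRing R]
      [IsAdicComplete (maximalIdeal R) R] [Infinite (ResidueField R)]
      [CommRing S] [IsLocalRing S] [IsNoetherianRing S] [Algebra R S]
      [IsLocalHom (algebraMap R S)] [Module.Flat R S],
      Module.length S (S ⧸ (maximalIdeal R).map (algebraMap R S)) ≠ ⊤ →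
      ringKrullDim S = 3 →
      ∃ c K : ℕ, ∀ N : ℕ, 6 * ell (maximalIdeal R ^ N) ≤
        6 * ell (maximalIdeal S ^ (N + c)) + (K : ℕ∞) * ((N : ℕ∞) + 1) ^ 2) :
    CompleteCase.{u} 3 1 := by
  intro R S _ _ _ _ _ _ _ _ _ _ _ hR hS
  have hfib : Module.length S (S ⧸ (maximalIdeal R).map (algebraMap R S)) ≠ ⊤ :=
    ell_fibre_ne_top (by rw [hR, hS])
  obtain ⟨c, K, hN⟩ := H R S hfib hS
  refine ⟨c, K, fun N => ?_⟩
  have h1 : ((3 : ℕ).factorial : ℕ∞) = 6 := by
    simp [Nat.factorial]
  rw [h1, Nat.cast_one, one_mul]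
  exact hN N

end Vale.Agent.P202
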