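import Vale.Agent.P202.Count

/-!
Asymptotic length estimates for the monomial filtration.
-/

set_option linter.unusedSectionVars false

namespace Vale.Agent.P202

open Ideal Finset

variable {A : Type*} [CommRing A] {σ : Type*} [Fintype σ] [LinearOrder σ]

/-- The minimal length of a graded piece of the monomial filtration. -/
noncomputable def emin (y : σ → A) : ℕ∞ := ⨅ u, gp y u

lemma emin_le (y : σ → A) (u : σ →₀ ℕ) : emin y ≤ gp y u := iInf_le _ u

lemma exists_gp_eq_emin (y : σ → A) : ∃ u, gp y u = emin y := by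
  obtain ⟨a, ⟨u, rfl⟩, hu⟩ := (wellFounded_lt (α := ℕ∞)).has_min (Set.range (gp y)) ⟨_, 0, rfl⟩
  refine ⟨u, le_antisymm (le_iInf fun w => ?_) (emin_le y u)⟩
  exact not_lt.mp (hu _ ⟨w, rfl⟩)

lemma card_box_filter_lt (t a : ℕ) (i : σ) :
    ((box σ t).filter (fun u => u i < a)).card ≤ a * t ^ (Fintype.card σ - 1) := by
  classical
  have h1 : ((box σ t).filter (fun u => u i < a)) ⊆
      (Fintype.piFinset (Function.update (fun _ : σ => Finset.range t) i (Finset.range a))).map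
        (Finsupp.equivFunOnFinite : (σ →₀ ℕ) ≃ (σ → ℕ)).symm.toEmbedding := by
    intro u hu
    rw [Finset.mem_filter, mem_box] at hu
    simp only [Finset.mem_map_equiv, Equiv.symm_symm, Fintype.mem_piFinset]
    intro j
    by_cases hj : j = i
    · subst hj
      simpa using hu.2
    · simp only [Function.update_of_ne hj, Finset.mem_range]
      exact hu.1 j
  refine (Finset.card_le_card h1).trans ?_
  rw [Finset.card_map, Fintype.card_piFinset, ← Finset.mul_prod_erase _ _ (Finset.mem_univ i)]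
  simp only [Function.update_self, Finset.card_range]
  refine Nat.mul_le_mul_left _ (le_of_eq ?_)
  rw [Finset.prod_congr rfl (g := fun _ => t)]
  · rw [Finset.prod_const, Finset.card_erase_of_mem (Finset.mem_univ i), Finset.card_univ]
  · intro j hj
    rw [Function.update_of_ne (Finset.ne_of_mem_erase hj), Finset.card_range]

/-- general counting estimate. -/
lemma sum_le_of_bounds (g : (σ →₀ ℕ) → ℕ∞) (G m : ℕ∞) (v : σ →₀ ℕ) (hG : ∀ u, g u ≤ G)
    (hm : ∀ u, v ≤ u → g u ≤ m) (t : ℕ) (s : Finset (σ →₀ ℕ)) (hs : s ⊆ box σ t) :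
    ∑ u ∈ s, g u ≤ s.card * m + G * ((∑ i, v i : ℕ) : ℕ∞) * (t ^ (Fintype.card σ - 1) : ℕ) := by
  classical
  have h1 : ∀ u ∈ s, g u ≤ m + (if v ≤ u then 0 else G) := by
    intro u _
    split_ifs with h
    · rw [add_zero]
      exact hm u h
    · exact le_add_left (hG u)
  refine (Finset.sum_le_sum h1).trans ?_
  rw [Finset.sum_add_distrib, Finset.sum_const, nsmul_eq_mul]
  refine add_le_add le_rfl ?_
  rw [Finset.sum_ite, Finset.sum_const_zero, zero_add, Finset.sum_const, nsmul_eq_mul]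
  have h2 : (s.filter (fun u => ¬ v ≤ u)).card ≤
      (∑ i, v i) * t ^ (Fintype.card σ - 1) := by
    have h3 : s.filter (fun u => ¬ v ≤ u) ⊆
        Finset.univ.biUnion (fun i => (box σ t).filter (fun u => u i < v i)) := by
      intro u hu
      rw [Finset.mem_filter] at hu
      obtain ⟨hus, hu⟩ := hu
      rw [Finsupp.le_def] at hu
      push Not at hu
      obtain ⟨i, hi⟩ := hu
      rw [Finset.mem_biUnion]
      exact ⟨i, Finset.mem_univ _, Finset.mem_filter.mpr ⟨hs hus, hi⟩⟩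
    refine (Finset.card_le_card h3).trans (Finset.card_biUnion_le.trans ?_)
    rw [Finset.sum_mul]
    exact Finset.sum_le_sum fun i _ => card_box_filter_lt t (v i) i
  have h2' : ((s.filter (fun u => ¬ v ≤ u)).card : ℕ∞) ≤
      ((∑ i, v i : ℕ) : ℕ∞) * ((t ^ (Fintype.card σ - 1) : ℕ) : ℕ∞) := by
    exact_mod_cast h2
  calc ((s.filter (fun u => ¬ v ≤ u)).card : ℕ∞) * G
      ≤ (((∑ i, v i : ℕ) : ℕ∞) * ((t ^ (Fintype.card σ - 1) : ℕ) : ℕ∞)) * G := by gcongr
    _ = G * ((∑ i, v i : ℕ) : ℕ∞) * (t ^ (Fintype.card σ - 1) : ℕ) := by ring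

/-- an exponent where the minimum is attained. -/
noncomputable def umin (y : σ → A) : σ →₀ ℕ := Classical.choose (exists_gp_eq_emin y)

lemma gp_umin (y : σ → A) : gp y (umin y) = emin y := Classical.choose_spec (exists_gp_eq_emin y)

lemma gp_le_emin {y : σ → A} {u : σ →₀ ℕ} (h : umin y ≤ u) : gp y u ≤ emin y := by
  rw [← gp_umin]; exact gp_antitone y h

lemma gp_le_zero (y : σ → A) (u : σ →₀ ℕ) : gp y u ≤ gp y 0 := gp_antitone y (zero_le : 0 ≤ u)

/-- the constant in the error terms. -/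
noncomputable def errB (y : σ → A) : ℕ∞ := gp y 0 * ((∑ i, umin y i : ℕ) : ℕ∞)

lemma sum_gp_le (y : σ → A) (t : ℕ) (s : Finset (σ →₀ ℕ)) (hs : s ⊆ box σ t) :
    ∑ u ∈ s, gp y u ≤ s.card * emin y + errB y * (t ^ (Fintype.card σ - 1) : ℕ) :=
  sum_le_of_bounds (gp y) (gp y 0) (emin y) (umin y) (gp_le_zero y) (fun _ h => gp_le_emin h) t s hs

lemma tri_subset_box (n : ℕ) : tri σ n ⊆ box σ n := by
  intro u hu
  rw [mem_tri] at hu
  rw [mem_box]
  intro i
  exact lt_of_le_of_lt (Finsupp.le_degree i u) hu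

/-- monomials of degree `n` generate a subideal of the `n`-th power. -/
lemma mon_mem_pow (y : σ → A) (u : σ →₀ ℕ) : mon y u ∈ Ideal.span (Set.range y) ^ u.degree := by
  classical
  rw [mon, Finsupp.degree_eq_sum]
  induction (Finset.univ : Finset σ) using Finset.induction_on with
  | empty => simp
  | insert a s ha ih =>
    rw [Finset.prod_insert ha, Finset.sum_insert ha, pow_add]
    exact Ideal.mul_mem_mul (Ideal.pow_mem_pow
      (Ideal.subset_span (Set.mem_range_self a) : y a ∈ Ideal.span (Set.range y)) _) ih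

lemma FS_tri_le (y : σ → A) (n : ℕ) :
    FS y {w | w ∉ tri σ n} ≤ Ideal.span (Set.range y) ^ n := by
  rw [FS, Ideal.span_le]
  rintro _ ⟨u, hu, rfl⟩
  rw [Set.mem_ofPred_eq, mem_tri, not_lt] at hu
  exact Ideal.pow_le_pow_right hu (mon_mem_pow y u)

lemma pow_le_FS_tri (y : σ → A) (n : ℕ) :
    Ideal.span (Set.range y) ^ n ≤ FS y {w | w ∉ tri σ n} := by
  induction n with
  | zero =>
    have : mon y (0 : σ →₀ ℕ) ∈ FS y {w | w ∉ tri σ 0} := mon_mem_FS (by simp [mem_tri])
    rw [mon_zero] at this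
    rw [(Ideal.eq_top_iff_one _).mpr this]
    exact le_top
  | succ n ih =>
    rw [pow_succ]
    refine (Ideal.mul_mono ih le_rfl).trans ?_
    rw [FS, Ideal.span_mul_span', Ideal.span_le]
    rintro _ ⟨_, ⟨u, hu, rfl⟩, _, ⟨i, rfl⟩, rfl⟩
    rw [Set.mem_ofPred_eq, mem_tri, not_lt] at hu
    have h : mon y u * y i = mon y (u + Finsupp.single i 1) := by
      rw [mon_add]
      congr 1
      rw [mon, Finset.prod_eq_single i]
      · simp
      · intro j _ hj; simp [Finsupp.single_eq_of_ne hj]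
      · simp
    simp only [SetLike.mem_coe]
    rw [h]
    refine mon_mem_FS ?_
    rw [Set.mem_ofPred_eq, mem_tri, not_lt, map_add, Finsupp.degree_single]
    omega

lemma FS_tri_eq (y : σ → A) (n : ℕ) :
    FS y {w | w ∉ tri σ n} = Ideal.span (Set.range y) ^ n :=
  le_antisymm (FS_tri_le y n) (pow_le_FS_tri y n)

lemma ell_pow_eq (y : σ → A) (n : ℕ) :
    ell (Ideal.span (Set.range y) ^ n) = ∑ u ∈ tri σ n, gp y u := by
  have := ell_eq_sum y ⊥ (tri σ n) (tri_initial n)
  rw [sup_bot_eq, FS_tri_eq] at this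
  exact this

/-- (P2) -/
lemma emin_mul_card_le (y : σ → A) (n : ℕ) :
    emin y * (tri σ n).card ≤ ell (Ideal.span (Set.range y) ^ n) := by
  rw [ell_pow_eq, mul_comm, ← nsmul_eq_mul, ← Finset.sum_const]
  exact Finset.sum_le_sum fun u _ => emin_le y u

lemma ell_pow_le (y : σ → A) (n : ℕ) :
    ell (Ideal.span (Set.range y) ^ n) ≤
      (tri σ n).card * emin y + errB y * (n ^ (Fintype.card σ - 1) : ℕ) := by
  rw [ell_pow_eq]
  exact sum_gp_le y n _ (tri_subset_box n)

lemma card_le_ell (y : σ → A) (I : Ideal A) (s : Finset (σ →₀ ℕ)) (hs : ∀ u ∈ s, u ∉ Gam y I) :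
    (s.card : ℕ∞) ≤ ell I := by
  classical
  obtain ⟨n, hn⟩ : ∃ n, s ⊆ tri σ n := by
    refine ⟨(s.sup fun u => u.degree) + 1, fun u hu => ?_⟩
    rw [mem_tri, Nat.lt_succ_iff]
    exact Finset.le_sup (f := fun u => Finsupp.degree u) hu
  calc (s.card : ℕ∞) = ∑ u ∈ s, 1 := by simp
    _ ≤ ∑ u ∈ s, piece y I u := Finset.sum_le_sum fun u hu => one_le_piece (hs u hu)
    _ ≤ ∑ u ∈ tri σ n, piece y I u :=
        Finset.sum_le_sum_of_subset_of_nonneg hn fun _ _ _ => zero_le
    _ = ell (FS y {w | w ∉ tri σ n} ⊔ I) := (ell_eq_sum y I _ (tri_initial n)).symm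
    _ ≤ ell I := ell_mono le_sup_right

/-- the integral part of `u / t`. -/
noncomputable def fdiv (t : ℕ) (u : σ →₀ ℕ) : σ →₀ ℕ :=
  u.mapRange (fun a => a / t) (Nat.zero_div t)

/-- the remainder of `u / t`. -/
noncomputable def fmod (t : ℕ) (u : σ →₀ ℕ) : σ →₀ ℕ :=
  u.mapRange (fun a => a % t) (Nat.zero_mod t)

lemma fdiv_fmod (t : ℕ) (u : σ →₀ ℕ) : t • fdiv t u + fmod t u = u := by
  ext i
  simp only [fdiv, fmod, Finsupp.coe_add, Finsupp.coe_smul, Pi.add_apply, Pi.smul_apply,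
    Finsupp.mapRange_apply, smul_eq_mul]
  exact Nat.div_add_mod _ _

lemma fmod_mem_box {t : ℕ} (ht : 0 < t) (u : σ →₀ ℕ) : fmod t u ∈ box σ t := by
  rw [mem_box]
  intro i
  simp only [fmod, Finsupp.mapRange_apply]
  exact Nat.mod_lt _ ht

lemma degree_fdiv_lt {t D : ℕ} {u : σ →₀ ℕ} (hu : u.degree < D * t) :
    (fdiv t u).degree < D := by
  have h1 : t * (fdiv t u).degree ≤ u.degree := by
    conv_rhs => rw [← fdiv_fmod t u]
    rw [map_add, map_nsmul, smul_eq_mul]
    exact Nat.le_add_right _ _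
  by_contra h
  push Not at h
  have : D * t ≤ t * (fdiv t u).degree := by
    rw [mul_comm]; exact Nat.mul_le_mul_left _ h
  omega

/-- (P1), first form. -/
lemma ell_pow_le_mul_sum (y : σ → A) (I : Ideal A) (D : ℕ) (hD : Ideal.span (Set.range y) ^ D ≤ I)
    (t : ℕ) (ht : 0 < t) : ell (I ^ t) ≤ ell I * ∑ r ∈ box σ t, gp y r := by
  classical
  have h0 : FS y {w | w ∉ tri σ (D * t)} ⊔ I ^ t = I ^ t := by
    rw [sup_eq_right, FS_tri_eq, pow_mul]
    exact Ideal.pow_right_mono hD t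
  have h1 : ell (I ^ t) = ∑ u ∈ tri σ (D * t), piece y (I ^ t) u := by
    rw [← ell_eq_sum y (I ^ t) _ (tri_initial _), h0]
  set T0 := (tri σ D).filter (fun v => v ∉ Gam y I) with hT0
  have hT0c : (T0.card : ℕ∞) ≤ ell I :=
    card_le_ell y I T0 (fun u hu => (Finset.mem_filter.mp hu).2)
  set S0 := (tri σ (D * t)).filter (fun u => fdiv t u ∉ Gam y I) with hS0
  have h2 : ∑ u ∈ tri σ (D * t), piece y (I ^ t) u ≤ ∑ u ∈ S0, gp y u := by
    rw [hS0, Finset.sum_filter]
    refine Finset.sum_le_sum fun u _ => ?_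
    by_cases h : fdiv t u ∈ Gam y I
    · have h' : u ∈ Gam y (I ^ t) := by
        have := Gam_add (Gam_pow h t) (fmod t u)
        rwa [fdiv_fmod] at this
      rw [piece_eq_zero_iff.mpr h']
      exact zero_le
    · rw [ite_not, if_neg h]
      exact piece_le_gp y _ u
  have h3 : S0 ⊆ (T0 ×ˢ box σ t).image (fun p => t • p.1 + p.2) := by
    intro u hu
    rw [hS0, Finset.mem_filter, mem_tri] at hu
    rw [Finset.mem_image]
    refine ⟨(fdiv t u, fmod t u), ?_, fdiv_fmod t u⟩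
    rw [Finset.mem_product]
    refine ⟨Finset.mem_filter.mpr ⟨?_, hu.2⟩, fmod_mem_box ht u⟩
    rw [mem_tri]
    exact degree_fdiv_lt hu.1
  have hinj : Set.InjOn (fun p : (σ →₀ ℕ) × (σ →₀ ℕ) => t • p.1 + p.2)
      (T0 ×ˢ box σ t : Finset _) := by
    rintro ⟨v, r⟩ hp ⟨v', r'⟩ hp' h
    rw [Finset.mem_coe, Finset.mem_product, mem_box] at hp hp'
    have h' : ∀ i, t * v i + r i = t * v' i + r' i := by
      intro i
      have := DFunLike.congr_fun h i
      simpa using this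
    have hr : ∀ i, r i = r' i := by
      intro i
      have := congrArg (· % t) (h' i)
      simpa [Nat.mul_add_mod, Nat.mod_eq_of_lt (hp.2 i), Nat.mod_eq_of_lt (hp'.2 i)] using this
    have hv : ∀ i, v i = v' i := by
      intro i
      have h1 := h' i
      rw [hr i] at h1
      exact Nat.eq_of_mul_eq_mul_left ht (Nat.add_right_cancel h1)
    rw [Prod.mk.injEq]
    exact ⟨Finsupp.ext hv, Finsupp.ext hr⟩
  calc ell (I ^ t) ≤ ∑ u ∈ S0, gp y u := h1 ▸ h2
    _ ≤ ∑ u ∈ (T0 ×ˢ box σ t).image (fun p => t • p.1 + p.2), gp y u :=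
        Finset.sum_le_sum_of_subset_of_nonneg h3 fun _ _ _ => zero_le
    _ = ∑ p ∈ T0 ×ˢ box σ t, gp y (t • p.1 + p.2) := Finset.sum_image hinj
    _ ≤ ∑ p ∈ T0 ×ˢ box σ t, gp y p.2 :=
        Finset.sum_le_sum fun p _ => gp_antitone y le_add_self
    _ = T0.card * ∑ r ∈ box σ t, gp y r := by
        rw [Finset.sum_product]
        simp only [Finset.sum_const, nsmul_eq_mul]
    _ ≤ ell I * ∑ r ∈ box σ t, gp y r := by gcongr

/-- (P1) -/
lemma ell_pow_le_main (y : σ → A) (I : Ideal A) (D : ℕ) (hD : Ideal.span (Set.range y) ^ D ≤ I)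
    (t : ℕ) (ht : 0 < t) : ell (I ^ t) ≤
      ell I * ((t ^ Fintype.card σ : ℕ) * emin y + errB y * (t ^ (Fintype.card σ - 1) : ℕ)) := by
  refine (ell_pow_le_mul_sum y I D hD t ht).trans ?_
  gcongr
  have := sum_gp_le y t (box σ t) subset_rfl
  rwa [card_box] at this

end Vale.Agent.P202
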