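import Vale.Agent.P202.Count
import Mathlib.Analysis.SpecificLimits.Basic
import Mathlib.Order.Filter.AtTopBot.Basic

/-!
Comparison of leading coefficients.
-/

set_option linter.unusedSectionVars false

namespace Vale.Agent.P202

open Filter Topology

lemma tendsto_shift_ratio (k : ℕ) : Tendsto (fun n : ℕ => ((n + k : ℕ) : ℝ) / n) atTop (𝓝 1) := by
  have h1 : Tendsto (fun n : ℕ => 1 + (k : ℝ) / n) atTop (𝓝 (1 + 0)) :=
    tendsto_const_nhds.add (tendsto_const_div_atTop_nhds_zero_nat (k : ℝ))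
  rw [add_zero] at h1
  refine h1.congr' ?_
  filter_upwards [eventually_gt_atTop 0] with n hn
  have : (n : ℝ) ≠ 0 := by positivity
  push_cast
  field_simp

lemma tendsto_shift_pow_ratio (k d : ℕ) :
    Tendsto (fun n : ℕ => ((n + k : ℕ) : ℝ) ^ d / (n : ℝ) ^ d) atTop (𝓝 1) := by
  have := (tendsto_shift_ratio k).pow d
  rw [one_pow] at this
  refine this.congr fun n => ?_
  rw [div_pow]

lemma tendsto_lower_ratio (k d : ℕ) (hd : 0 < d) :
    Tendsto (fun n : ℕ => ((n + k : ℕ) : ℝ) ^ (d - 1) / (n : ℝ) ^ d) atTop (𝓝 0) := by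
  have h1 := (tendsto_shift_pow_ratio k (d - 1)).mul
    (tendsto_const_div_atTop_nhds_zero_nat (1 : ℝ))
  rw [mul_zero] at h1
  refine h1.congr' ?_
  filter_upwards [eventually_gt_atTop 0] with n hn
  have : (n : ℝ) ≠ 0 := by positivity
  obtain ⟨e, rfl⟩ : ∃ e, d = e + 1 := ⟨d - 1, by omega⟩
  rw [Nat.add_sub_cancel, pow_succ]
  field_simp

/-- comparison of leading coefficients, power form. -/
lemma le_of_forall_pow_le {d : ℕ} (hd : 0 < d) (α β C k : ℕ)
    (h : ∀ n, 0 < n → α * n ^ d ≤ β * (n + k) ^ d + C * (n + k) ^ (d - 1)) : α ≤ β := by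
  have h1 : Tendsto (fun n : ℕ => (β : ℝ) * (((n + k : ℕ) : ℝ) ^ d / (n : ℝ) ^ d) +
      C * (((n + k : ℕ) : ℝ) ^ (d - 1) / (n : ℝ) ^ d)) atTop (𝓝 (β * 1 + C * 0)) :=
    ((tendsto_shift_pow_ratio k d).const_mul _).add ((tendsto_lower_ratio k d hd).const_mul _)
  have h2 : (α : ℝ) ≤ β * 1 + C * 0 := by
    refine ge_of_tendsto h1 ?_
    filter_upwards [eventually_gt_atTop 0] with n hn
    have h3 : (α : ℝ) * (n : ℝ) ^ d ≤ β * ((n + k : ℕ) : ℝ) ^ d + C * ((n + k : ℕ) : ℝ) ^ (d - 1) := by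
      exact_mod_cast h n hn
    have hn' : (0 : ℝ) < (n : ℝ) ^ d := by positivity
    rw [← mul_div_assoc, ← mul_div_assoc, ← add_div, le_div_iff₀ hn']
    exact h3
  rw [mul_one, mul_zero, add_zero] at h2
  exact_mod_cast h2

/-- comparison of leading coefficients. -/
lemma le_of_forall_tri_le {σ : Type*} [Fintype σ] [LinearOrder σ] (hd : 0 < Fintype.card σ)
    (α β C k : ℕ)
    (h : ∀ n, 0 < n → α * (tri σ n).card ≤ β * (tri σ (n + k)).card +
      C * (n + k) ^ (Fintype.card σ - 1)) : α ≤ β := by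
  set d := Fintype.card σ with hdd
  refine le_of_forall_pow_le hd α β (C * d.factorial) (k + d) fun n hn => ?_
  have h1 := pow_le_factorial_mul_card_tri (σ := σ) n hn
  have h2 := factorial_mul_card_tri_le (σ := σ) (n + k)
  have h3 := h n hn
  calc α * n ^ d ≤ α * (d.factorial * (tri σ n).card) := Nat.mul_le_mul_left _ h1
    _ = d.factorial * (α * (tri σ n).card) := by ring
    _ ≤ d.factorial * (β * (tri σ (n + k)).card + C * (n + k) ^ (d - 1)) :=
        Nat.mul_le_mul_left _ h3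
    _ = β * (d.factorial * (tri σ (n + k)).card) + C * d.factorial * (n + k) ^ (d - 1) := by ring
    _ ≤ β * (n + k + d) ^ d + C * d.factorial * (n + k) ^ (d - 1) :=
        Nat.add_le_add_right (Nat.mul_le_mul_left _ h2) _
    _ ≤ β * (n + (k + d)) ^ d + C * d.factorial * (n + (k + d)) ^ (d - 1) := by
        rw [add_assoc n k d]
        refine Nat.add_le_add_left (Nat.mul_le_mul_left _ (Nat.pow_le_pow_left (by omega) _)) _

end Vale.Agent.P202
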