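import Vale.Agent.P202.Red2
import Mathlib.GroupTheory.CosetCover
import Mathlib.RingTheory.Ideal.AssociatedPrime.Localization
import Mathlib.RingTheory.Ideal.AssociatedPrime.Finiteness
import Mathlib.Algebra.Module.Torsion.Basic

/-!
Avoidance over local rings with infinite residue field, and filter-regular elements.
-/

set_option linter.unusedSectionVars false

namespace Vale.Agent.P202

open Ideal IsLocalRing Finset

lemma avoid {R M : Type*} [CommRing R] [IsLocalRing R] [Infinite (ResidueField R)]
    [AddCommGroup M] [Module R M] (s : Finset (Submodule R M)) (hs : ∀ U ∈ s, U ≠ ⊤) :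
    ∃ c : M, ∀ U ∈ s, c ∉ U := by
  by_contra hcon
  push Not at hcon
  have hcov : ⋃ U ∈ s, ((id U : Submodule R M) : Set M) = Set.univ := by
    ext c
    simp only [id, Set.mem_iUnion, SetLike.mem_coe, Set.mem_univ, iff_true]
    obtain ⟨U, hU, hc⟩ := hcon c
    exact ⟨U, hU, hc⟩
  obtain ⟨U, hU, hfi⟩ := Submodule.exists_finiteIndex_of_cover hcov
  have hfi' : U.toAddSubgroup.FiniteIndex := hfi
  have hfin : Finite (M ⧸ U) := AddSubgroup.finite_quotient_of_finiteIndex (H := U.toAddSubgroup)
  obtain ⟨v, hv⟩ : ∃ v, v ∉ U := by
    by_contra h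
    push Not at h
    exact hs U hU (eq_top_iff.mpr fun x _ => h x)
  -- the cyclic module generated by `v` in the quotient
  let f : R →ₗ[R] (M ⧸ U) := LinearMap.toSpanSingleton R (M ⧸ U) (U.mkQ v)
  have hker : LinearMap.ker f ≤ maximalIdeal R := by
    refine le_maximalIdeal ?_
    intro htop
    have : (1 : R) ∈ LinearMap.ker f := by rw [htop]; exact Submodule.mem_top
    rw [LinearMap.mem_ker, LinearMap.toSpanSingleton_apply, one_smul, Submodule.mkQ_apply,
      Submodule.Quotient.mk_eq_zero] at this
    exact hv this
  have hf1 : Finite (R ⧸ LinearMap.ker f) :=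
    Finite.of_injective _ (LinearMap.ker_eq_bot.mp (Submodule.ker_liftQ_eq_bot' _ f rfl))
  have hf2 : Finite (ResidueField R) :=
    Finite.of_surjective (Submodule.factor hker) (Submodule.factor_surjective hker)
  exact not_finite (ResidueField R)

/-- a finitely generated module killed by a power of the maximal ideal has finite length. -/
lemma length_ne_top_of_pow_smul {A X : Type*} [CommRing A] [IsLocalRing A] [IsNoetherianRing A]
    [AddCommGroup X] [Module A X] [Module.Finite A X] (s : ℕ)
    (h : ∀ a ∈ maximalIdeal A ^ s, ∀ x : X, a • x = 0) : Module.length A X ≠ ⊤ := by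
  have ht : Module.IsTorsionBySet A X (maximalIdeal A ^ s : Ideal A) := fun x a => h a a.2 x
  let _ : Module (A ⧸ maximalIdeal A ^ s) X := ht.module
  have : IsScalarTower A (A ⧸ maximalIdeal A ^ s) X := ht.isScalarTower
  have hart : IsArtinianRing (A ⧸ maximalIdeal A ^ s) := isArtinianRing_quot (s := s) le_rfl
  have hfin : Module.Finite (A ⧸ maximalIdeal A ^ s) X :=
    Module.Finite.of_restrictScalars_finite A _ _
  rw [Module.length_eq_of_surjective (R := A ⧸ maximalIdeal A ^ s)
    (by exact Ideal.Quotient.mk_surjective)]
  exact Module.length_ne_top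

section

variable {A : Type*} [CommRing A] [IsLocalRing A] [IsNoetherianRing A]

/-- an element outside all non-maximal associated primes is filter-regular. -/
lemma length_col_ne_top {z : A} (hz : ∀ P ∈ associatedPrimes A A, z ∈ P → P = maximalIdeal A)
    (i : ℕ) : Module.length A (col (⊥ : Ideal A) (z ^ i)) ≠ ⊤ := by
  set K := col (⊥ : Ideal A) (z ^ i) with hK
  have hmin : ∀ P ∈ (Module.annihilator A K).minimalPrimes, P = maximalIdeal A := by
    intro P hP
    have h1 : P ∈ associatedPrimes A K :=
      Module.associatedPrimes.minimalPrimes_annihilator_subset_associatedPrimes A K hP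
    have h2 : P ∈ associatedPrimes A A :=
      associatedPrimes.subset_of_injective (f := K.subtype) (Submodule.subtype_injective K) h1
    refine hz P h2 ?_
    have h3 : z ^ i ∈ Module.annihilator A K := by
      rw [Module.mem_annihilator]
      rintro ⟨a, ha⟩
      rw [hK, mem_col] at ha
      ext
      simp only [SetLike.mk_smul_mk, smul_eq_mul, ZeroMemClass.coe_zero]
      rw [mul_comm]
      simpa using ha
    have := hP.isPrime
    exact this.mem_of_pow_mem i (hP.1.2 h3)
  have hrad : maximalIdeal A ≤ (Module.annihilator A K).radical := by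
    rw [← Ideal.sInf_minimalPrimes]
    exact le_sInf fun P hP => (hmin P hP).ge
  obtain ⟨s, hs⟩ := Ideal.exists_pow_le_of_le_radical_of_fg hrad (IsNoetherian.noetherian _)
  refine length_ne_top_of_pow_smul s fun a ha x => ?_
  exact Module.mem_annihilator.mp (hs ha) x

end

end Vale.Agent.P202
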