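import Vale.Agent.P202.Fil

/-!
The base filtration has slope bounds.
-/

namespace Vale.Agent.P202

open IsLocalRing

/-! ### relative length and scalar multiplication -/

namespace BaseAux

section
variable {A : Type*} [CommRing A] {M M' : Type*} [AddCommGroup M] [Module A M]
  [AddCommGroup M'] [Module A M']

/-- the length of the image is computed upstairs. -/
lemma rl_map_left (f : M →ₗ[A] M') (K : Submodule A M') (N : Submodule A M) :
    rl K (N.map f) = rl (K.comap f) N := by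
  symm
  let g : N →ₗ[A] (↥(N.map f) ⧸ K.submoduleOf (N.map f)) :=
    (Submodule.mkQ _).comp (f.submoduleMap N)
  refine rl_eq_length_of_surjective g ?_ ?_
  · exact (Submodule.mkQ_surjective _).comp (f.submoduleMap_surjective N)
  · ext x
    have h1 : x ∈ LinearMap.ker g ↔ f x ∈ K := by
      rw [LinearMap.mem_ker]
      change Submodule.Quotient.mk (f.submoduleMap N x) = _ ↔ _
      rw [Submodule.Quotient.mk_eq_zero]
      exact Iff.rfl
    exact h1

/-- multiplication by an element. -/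
noncomputable def mu (M : Type*) [AddCommGroup M] [Module A M] (x : A) : M →ₗ[A] M :=
  LinearMap.lsmul A M x

@[simp] lemma mu_apply (x : A) (v : M) : mu M x v = x • v := rfl

lemma pair_smul (x1 x2 : A) (P : Submodule A M) :
    Ideal.span {x1, x2} • P = P.map (mu M x1) ⊔ P.map (mu M x2) := by
  apply le_antisymm
  · rw [Submodule.smul_le]
    intro r hr v hv
    obtain ⟨a, b, rfl⟩ := Ideal.mem_span_pair.mp hr
    rw [add_smul]
    refine Submodule.add_mem_sup ?_ ?_
    · exact ⟨a • v, P.smul_mem a hv, by rw [mu_apply, smul_smul, mul_comm]⟩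
    · exact ⟨b • v, P.smul_mem b hv, by rw [mu_apply, smul_smul, mul_comm]⟩
  · refine sup_le ?_ ?_
    · rintro _ ⟨v, hv, rfl⟩
      exact Submodule.smul_mem_smul (Ideal.subset_span (by simp)) hv
    · rintro _ ⟨v, hv, rfl⟩
      exact Submodule.smul_mem_smul (Ideal.subset_span (by simp)) hv

end

section
variable {A : Type*} [CommRing A] [IsLocalRing A] [IsNoetherianRing A]
  {M : Type*} [AddCommGroup M] [Module A M]

/-- a finite module killed by the maximal ideal has finite length. -/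
lemma length_ne_top_of_smul_eq_zero {Q : Type*} [AddCommGroup Q] [Module A Q]
    [Module.Finite A Q] (h : ∀ a ∈ maximalIdeal A, ∀ v : Q, a • v = 0) :
    Module.length A Q ≠ ⊤ := by
  have ht : Module.IsTorsionBySet A Q (maximalIdeal A : Set A) := by
    intro v a
    exact h a.1 a.2 v
  let _ : Module (A ⧸ maximalIdeal A) Q := ht.module
  have : IsScalarTower A (A ⧸ maximalIdeal A) Q := ht.isScalarTower
  have : IsArtinianRing (A ⧸ maximalIdeal A) := by
    let _ := Ideal.Quotient.field (maximalIdeal A)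
    infer_instance
  have : Module.Finite (A ⧸ maximalIdeal A) Q := Module.Finite.of_restrictScalars_finite A _ _
  have : IsArtinian (A ⧸ maximalIdeal A) Q := inferInstance
  have : IsArtinian A Q :=
    isArtinian_of_surjective_algebraMap (R := A ⧸ maximalIdeal A) (S := A)
      (Ideal.Quotient.mk_surjective)
  have : IsNoetherian A Q := inferInstance
  exact Module.length_ne_top

lemma rl_ne_top_of_smul_le [Module.Finite A M] {K N : Submodule A M}
    (h : maximalIdeal A • N ≤ K) : rl K N ≠ ⊤ := by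
  have : IsNoetherian A M := inferInstance
  refine length_ne_top_of_smul_eq_zero ?_
  intro a ha v
  obtain ⟨v, rfl⟩ := Submodule.Quotient.mk_surjective _ v
  rw [← Submodule.Quotient.mk_smul, Submodule.Quotient.mk_eq_zero]
  exact h (Submodule.smul_mem_smul ha v.2)

end

end BaseAux

/-! ### eventually linear functions -/

section EvLinSection

lemma EvLin.congrB {f g : ℕ → ℕ∞} {a x : ℤ} (hf : EvLin f a x) (j₀ : ℕ)
    (h : ∀ j, j₀ ≤ j → f j = g j) : EvLin g a x := by
  obtain ⟨j1, h1⟩ := hf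
  refine ⟨max j₀ j1, fun j hj => ?_⟩
  rw [← h j (le_trans (le_max_left _ _) hj)]
  exact h1 j (le_trans (le_max_right _ _) hj)

lemma EvLin.shiftB {f : ℕ → ℕ∞} {a x : ℤ} (hf : EvLin f a x) (s : ℕ) :
    EvLin (fun j => f (j + s)) a (x + a * s) := by
  obtain ⟨j1, h1⟩ := hf
  refine ⟨j1, fun j hj => ?_⟩
  obtain ⟨n, hn, hn'⟩ := h1 (j + s) (by omega)
  refine ⟨n, hn, ?_⟩
  rw [hn']; push_cast; ring

/-- comparison of eventually linear functions. -/
lemma EvLin.leB {f g : ℕ → ℕ∞} {a x b y : ℤ} (hf : EvLin f a x) (hg : EvLin g b y) (j₀ : ℕ)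
    (h : ∀ j, j₀ ≤ j → f j ≤ g j) : a ≤ b := by
  obtain ⟨j1, h1⟩ := hf
  obtain ⟨j2, h2⟩ := hg
  by_contra hab
  push Not at hab
  obtain ⟨j, hj⟩ : ∃ j : ℕ, j = max j₀ (max j1 j2) + (y - x).natAbs + 1 := ⟨_, rfl⟩
  obtain ⟨n, hn, hn'⟩ := h1 j (by omega)
  obtain ⟨k, hk, hk'⟩ := h2 j (by omega)
  have h3 := h j (by omega)
  rw [hn, hk] at h3
  have h4 : n ≤ k := by exact_mod_cast h3
  have h5 : (n : ℤ) ≤ k := by exact_mod_cast h4
  rw [hn', hk'] at h5
  have h6 : (j : ℤ) ≤ (a - b) * j := by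
    have : (1 : ℤ) ≤ a - b := by omega
    nlinarith [Int.natCast_nonneg j]
  have h7 : (a - b) * j ≤ y - x := by linarith
  have h8 : (j : ℤ) > y - x := by
    have : (y - x).natAbs + 1 ≤ j := by omega
    omega
  linarith

lemma EvLin.le2B {f g : ℕ → ℕ∞} {a x y : ℤ} (hf : EvLin f a x) (hg : EvLin g a y) (j₀ : ℕ)
    (h : ∀ j, j₀ ≤ j → f j ≤ g j) : x ≤ y := by
  obtain ⟨j1, h1⟩ := hf
  obtain ⟨j2, h2⟩ := hg
  obtain ⟨n, hn, hn'⟩ := h1 (max j₀ (max j1 j2)) (by omega)
  obtain ⟨k, hk, hk'⟩ := h2 (max j₀ (max j1 j2)) (by omega)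
  have h3 := h (max j₀ (max j1 j2)) (by omega)
  rw [hn, hk] at h3
  have h4 : n ≤ k := by exact_mod_cast h3
  have h5 : (n : ℤ) ≤ k := by exact_mod_cast h4
  rw [hn', hk'] at h5
  linarith

lemma EvLin.uniqueB {f : ℕ → ℕ∞} {a x b y : ℤ} (hf : EvLin f a x) (hg : EvLin f b y) :
    a = b ∧ x = y := by
  have h1 : a = b := le_antisymm (hf.leB hg 0 fun _ _ => le_rfl) (hg.leB hf 0 fun _ _ => le_rfl)
  subst h1
  exact ⟨rfl, le_antisymm (hf.le2B hg 0 fun _ _ => le_rfl) (hg.le2B hf 0 fun _ _ => le_rfl)⟩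

lemma EvLin.subB {f g h : ℕ → ℕ∞} {a x b y : ℤ} (hf : EvLin f a x) (hg : EvLin g b y)
    (j₀ : ℕ) (hfg : ∀ j, j₀ ≤ j → f j = g j + h j) : EvLin h (a - b) (x - y) := by
  obtain ⟨j1, h1⟩ := hf
  obtain ⟨j2, h2⟩ := hg
  refine ⟨max j₀ (max j1 j2), fun j hj => ?_⟩
  obtain ⟨n, hn, hn'⟩ := h1 j (by omega)
  obtain ⟨k, hk, hk'⟩ := h2 j (by omega)
  have h3 := hfg j (by omega)
  rw [hn, hk] at h3
  have h4 : h j ≠ ⊤ := by
    intro h5
    rw [h5] at h3
    simp at h3
  obtain ⟨l, hl⟩ := ENat.ne_top_iff_exists.mp h4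
  rw [← hl] at h3
  have h6 : n = k + l := by exact_mod_cast h3
  refine ⟨l, hl.symm, ?_⟩
  have h7 : (n : ℤ) = k + l := by exact_mod_cast h6
  rw [hn', hk'] at h7
  linear_combination -h7

/-- the slope of an eventually linear function is nonnegative. -/
lemma EvLin.nonnegB {f : ℕ → ℕ∞} {a x : ℤ} (hf : EvLin f a x) : 0 ≤ a := by
  have h0 : EvLin (fun _ => (0 : ℕ∞)) 0 0 := ⟨0, fun j _ => ⟨0, by simp, by simp⟩⟩
  exact h0.leB hf 0 (fun j _ => by simp)

/-- a function with eventually nonincreasing increments is eventually linear. -/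
lemma evLin_of_incrementsB {n d : ℕ → ℕ∞} (j₀ : ℕ) (h0 : n j₀ ≠ ⊤)
    (hd0 : ∀ j, j₀ ≤ j → d j ≠ ⊤)
    (h1 : ∀ j, j₀ ≤ j → n (j + 1) = n j + d j) (h2 : ∀ j, j₀ ≤ j → d (j + 1) ≤ d j) :
    ∃ b : ℕ, (∃ y : ℤ, EvLin n b y) ∧ ∀ j, j₀ ≤ j → (b : ℕ∞) ≤ d j := by
  classical
  -- choose natural valued versions
  have hd : ∀ j, ∃ k : ℕ, j₀ ≤ j → d j = k := by
    intro j
    by_cases h : j₀ ≤ j
    · obtain ⟨k, hk⟩ := ENat.ne_top_iff_exists.mp (hd0 j h)
      exact ⟨k, fun _ => hk.symm⟩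
    · exact ⟨0, fun h' => absurd h' h⟩
  choose D hD using hd
  -- the minimum of D
  have hex : ∃ b : ℕ, ∃ j, j₀ ≤ j ∧ D j = b := ⟨D j₀, j₀, le_rfl, rfl⟩
  obtain ⟨j1, hj1, hb⟩ := Nat.find_spec hex
  set b := Nat.find hex with hbdef
  have hmin : ∀ j, j₀ ≤ j → b ≤ D j := fun j hj => Nat.find_min' hex ⟨j, hj, rfl⟩
  have hconst : ∀ k, D (j1 + k) = b := by
    intro k
    induction k with
    | zero => exact hb
    | succ k ih =>
      refine le_antisymm ?_ (hmin _ (by omega))
      have := h2 (j1 + k) (by omega)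
      rw [hD _ (by omega), hD _ (by omega), ih] at this
      exact_mod_cast this
  refine ⟨b, ?_, ?_⟩
  · have hfin : ∀ k, n (j₀ + k) ≠ ⊤ := by
      intro k
      induction k with
      | zero => exact h0
      | succ k ih =>
        rw [← add_assoc, h1 _ (by omega), hD _ (by omega)]
        obtain ⟨l, hl⟩ := ENat.ne_top_iff_exists.mp ih
        rw [← hl]
        exact_mod_cast ENat.natCast_ne_top _
    obtain ⟨N, hN⟩ := ENat.ne_top_iff_exists.mp (hfin (j1 - j₀))
    rw [show j₀ + (j1 - j₀) = j1 by omega] at hN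
    have hlin : ∀ k : ℕ, n (j1 + k) = ((N + b * k : ℕ) : ℕ∞) := by
      intro k
      induction k with
      | zero => simp [hN]
      | succ k ih =>
        rw [← add_assoc, h1 _ (by omega), hD _ (by omega), ih, hconst k]
        push_cast; ring
    refine ⟨(N : ℤ) - b * j1, j1, fun j hj => ⟨N + b * (j - j1), ?_, ?_⟩⟩
    · rw [← hlin (j - j1), show j1 + (j - j1) = j by omega]
    · rw [Nat.cast_add, Nat.cast_mul, Nat.cast_sub hj]; ring
  · intro j hj
    rw [hD j hj]
    exact_mod_cast hmin j hj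

end EvLinSection

/-! ### increments -/

namespace BaseAux

section
variable {A : Type*} [CommRing A] {M : Type*} [AddCommGroup M] [Module A M]

/-- the key computation: the lengths `rl (K j) (N j)` have nonincreasing increments. -/
lemma increments (x1 x2 : A) (K N : ℕ → Submodule A M) (b0 : ℕ)
    (hKN : ∀ j, K j ≤ N j)
    (hN1 : ∀ j, (N j).map (mu M x1) ≤ N (j + 1)) (hN2 : ∀ j, (N j).map (mu M x2) ≤ N (j + 1))
    (hK2 : ∀ j, (K j).map (mu M x2) ≤ K (j + 1))
    (hK1 : ∀ j, (K j).map (mu M x1) ≤ K (j + 1))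
    (hcan : ∀ j, ∀ v : M, x1 • v ∈ K (j + 1) → v ∈ K j)
    (hgen : ∀ j, b0 ≤ j → N (j + 1) ≤ (N j).map (mu M x1) ⊔ (N j).map (mu M x2))
    (hfin : ∀ j, rl (K j) (N j) ≠ ⊤) :
    ∃ b : ℕ, (∃ y : ℤ, EvLin (fun j => rl (K j) (N j)) b y) ∧
      ∀ j, b0 ≤ j → rl (K j) (N j) + b ≤ rl (K (j + 1)) (N (j + 1)) := by
  have hstep : ∀ j, rl (K (j + 1)) (N (j + 1)) =
      rl (K j) (N j) + rl (K (j + 1) ⊔ (N j).map (mu M x1)) (N (j + 1)) := by
    intro j
    rw [rl_add (le_sup_left : K (j + 1) ≤ K (j + 1) ⊔ (N j).map (mu M x1))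
      (sup_le (hKN _) (hN1 _)), rl_sup_right, rl_map_left]
    congr 2
    apply le_antisymm
    · intro v hv
      exact hcan j v hv
    · intro v hv
      exact hK1 j ⟨v, hv, rfl⟩
  have hdec : ∀ j, b0 ≤ j → rl (K (j + 1 + 1) ⊔ (N (j + 1)).map (mu M x1)) (N (j + 1 + 1)) ≤
      rl (K (j + 1) ⊔ (N j).map (mu M x1)) (N (j + 1)) := by
    intro j hj
    set K' := K (j + 1 + 1) ⊔ (N (j + 1)).map (mu M x1) with hK'
    have e1 : rl K' (N (j + 1 + 1)) ≤ rl K' ((N (j + 1)).map (mu M x2)) := by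
      rw [← rl_sup_right K' ((N (j + 1)).map (mu M x2))]
      refine rl_mono_right ((hgen (j + 1) (by omega)).trans ?_)
      exact sup_le_sup_right (le_sup_right) _
    refine e1.trans ?_
    rw [rl_map_left]
    refine rl_anti_left (sup_le ?_ ?_)
    · intro v hv
      exact le_sup_left (a := K (j + 1 + 1)) (hK2 (j + 1) ⟨v, hv, rfl⟩)
    · rintro _ ⟨v, hv, rfl⟩
      refine le_sup_right (a := K (j + 1 + 1)) ?_
      refine ⟨x2 • v, hN2 j ⟨v, hv, rfl⟩, ?_⟩
      simp only [mu_apply]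
      rw [smul_comm]
  obtain ⟨b, ⟨y, hy⟩, hb⟩ := evLin_of_incrementsB
    (n := fun j => rl (K j) (N j))
    (d := fun j => rl (K (j + 1) ⊔ (N j).map (mu M x1)) (N (j + 1))) b0 (hfin b0)
    (fun j _ => fun h => hfin (j + 1) (by rw [hstep, h]; simp)) (fun j _ => hstep j) hdec
  refine ⟨b, ⟨y, hy⟩, fun j hj => ?_⟩
  rw [hstep]
  gcongr
  exact hb j hj

end

section
variable {A : Type*} [CommRing A] [IsNoetherianRing A]
    {M : Type*} [AddCommGroup M] [Module A M] [Module.Finite A M]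

/-- filtrations below a stable filtration are stable. -/
lemma stable_of_le (q : Ideal A) (F P : ℕ → Submodule A M)
    (F1 : ∀ j, F (j + 1) ≤ F j) (F2 : ∀ j, q • F j ≤ F (j + 1))
    (F3 : ∃ b, ∀ j, b ≤ j → F (j + 1) ≤ q • F j)
    (P1 : ∀ j, P (j + 1) ≤ P j) (P2 : ∀ j, q • P j ≤ P (j + 1))
    (hPF : ∀ j, P j ≤ F j) :
    ∃ b, ∀ j, b ≤ j → P (j + 1) ≤ q • P j := by
  let FF : q.Filtration M := ⟨F, F1, F2⟩
  let PP : q.Filtration M := ⟨P, P1, P2⟩
  have hF : FF.Stable := by
    obtain ⟨b, hb⟩ := F3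
    exact ⟨b, fun j hj => le_antisymm (F2 j) (hb j hj)⟩
  have hP : PP.Stable := hF.of_le (fun j => hPF j)
  obtain ⟨b, hb⟩ := hP
  exact ⟨b, fun j hj => (hb j hj).ge⟩

end

/-! ### saturation -/

section
variable {A : Type*} [CommRing A] {M : Type*} [AddCommGroup M] [Module A M]

/-- the saturation of `P` in `F` with respect to `x`. -/
def satur (x : A) (F P : ℕ → Submodule A M) (hP : ∀ j, ∀ v ∈ P j, x • v ∈ P (j + 1)) (j : ℕ) :
    Submodule A M where
  carrier := {v | v ∈ F j ∧ ∃ s : ℕ, x ^ s • v ∈ P (j + s)}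
  zero_mem' := ⟨(F j).zero_mem, 0, by simp⟩
  add_mem' := by
    have key : ∀ (k s : ℕ) (v : M), x ^ s • v ∈ P (j + s) → x ^ (s + k) • v ∈ P (j + (s + k)) := by
      intro k s v hv
      induction k with
      | zero => exact hv
      | succ k ih =>
        have := hP _ _ ih
        rw [smul_smul, ← pow_succ'] at this
        exact this
    rintro v w ⟨hv, s, hs⟩ ⟨hw, t, ht⟩
    refine ⟨(F j).add_mem hv hw, s + t, ?_⟩
    rw [smul_add]
    refine (P _).add_mem (key t s v hs) ?_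
    have := key s t w ht
    rwa [add_comm t s] at this
  smul_mem' := by
    rintro c v ⟨hv, s, hs⟩
    refine ⟨(F j).smul_mem c hv, s, ?_⟩
    rw [smul_comm]
    exact (P _).smul_mem c hs

lemma mem_satur {x : A} {F P : ℕ → Submodule A M} {hP : ∀ j, ∀ v ∈ P j, x • v ∈ P (j + 1)}
    {j : ℕ} {v : M} : v ∈ satur x F P hP j ↔ v ∈ F j ∧ ∃ s : ℕ, x ^ s • v ∈ P (j + s) := Iff.rfl

end

/-! ### chains -/

section
variable {A : Type*} [CommRing A] {M : Type*} [AddCommGroup M] [Module A M]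

/-- a strictly increasing chain of length `k` forces length at least `k`. -/
lemma le_rl_of_chain (C : ℕ → Submodule A M) (k : ℕ)
    (h : ∀ i, i < k → C i < C (i + 1)) : (k : ℕ∞) ≤ rl (C 0) (C k) := by
  induction k with
  | zero => simp
  | succ k ih =>
    have h1 := ih (fun i hi => h i (by omega))
    have hmono : ∀ i, i ≤ k → C 0 ≤ C i := by
      intro i
      induction i with
      | zero => intro _; exact le_rfl
      | succ i ih2 => intro hi; exact (ih2 (by omega)).trans (h i (by omega)).le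
    rw [rl_add (hmono k le_rfl) (h k (by omega)).le]
    push_cast
    refine add_le_add h1 ?_
    rw [Order.one_le_iff_ne_zero]
    intro h0
    exact absurd (rl_eq_zero_iff.mp h0) (not_le_of_gt (h k (by omega)))

/-- purity: a submodule with constant lengths vanishes. -/
lemma purity (x1 x2 : A) (F P : ℕ → Submodule A M)
    (P1 : ∀ j, ∀ v ∈ P j, x1 • v ∈ P (j + 1)) (P2 : ∀ j, ∀ v ∈ P j, x2 • v ∈ P (j + 1))
    (hle : ∀ j, P j ≤ F j) (hge : ∀ j, F (j + 1) ≤ P j)
    (B1 : ∀ (j : ℕ) (v : M), x1 • v ∈ F (j + 1) → v ∈ F j)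
    (B3 : ∀ (t : ℕ) (c : ℕ → A) (j : ℕ) (v : M), v ∈ F j →
      (x2 ^ t + ∑ i ∈ Finset.range t, c i * x1 ^ (t - i) * x2 ^ i) • v ∈ F (j + t + 1) →
      v ∈ F (j + 1))
    (t j : ℕ) (ht : rl (F (j + t + 1)) (P (j + t)) ≤ (t : ℕ∞)) : P j ≤ F (j + 1) := by
  intro v hv
  -- powers
  have hp1 : ∀ (k : ℕ) (i : ℕ) (w : M), w ∈ P i → x1 ^ k • w ∈ P (i + k) := by
    intro k
    induction k with
    | zero => intro i w hw; simpa using hw
    | succ k ih =>
      intro i w hw
      have := P1 _ _ (ih i w hw)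
      rwa [smul_smul, ← pow_succ'] at this
  have hp2 : ∀ (k : ℕ) (i : ℕ) (w : M), w ∈ P i → x2 ^ k • w ∈ P (i + k) := by
    intro k
    induction k with
    | zero => intro i w hw; simpa using hw
    | succ k ih =>
      intro i w hw
      have := P2 _ _ (ih i w hw)
      rwa [smul_smul, ← pow_succ'] at this
  have hc1 : ∀ (k : ℕ) (i : ℕ) (w : M), x1 ^ k • w ∈ F (i + k) → w ∈ F i := by
    intro k
    induction k with
    | zero => intro i w hw; simpa using hw
    | succ k ih =>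
      intro i w hw
      rw [pow_succ', ← smul_smul] at hw
      exact ih i w (B1 _ _ hw)
  -- the elements
  let w : ℕ → M := fun i => (x1 ^ (t - i) * x2 ^ i) • v
  have hw : ∀ i, i ≤ t → w i ∈ P (j + t) := by
    intro i hi
    have h1 := hp1 (t - i) _ _ (hp2 i j v hv)
    rw [smul_smul, show j + i + (t - i) = j + t by omega] at h1
    exact h1
  let C : ℕ → Submodule A M := fun i =>
    F (j + t + 1) ⊔ Submodule.span A (w '' (Set.Iio i))
  have hC0 : C 0 = F (j + t + 1) := by simp [C]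
  have hCt : C (t + 1) ≤ P (j + t) := by
    refine sup_le (hge _) ?_
    rw [Submodule.span_le]
    rintro _ ⟨i, hi, rfl⟩
    exact hw i (by simpa [Nat.lt_succ_iff] using hi)
  have hCmono : ∀ i, C i ≤ C (i + 1) := by
    intro i
    refine sup_le_sup_left (Submodule.span_mono (Set.image_mono ?_)) _
    intro l hl
    simp only [Set.mem_Iio] at hl ⊢
    omega
  obtain ⟨i, hi, hCi⟩ : ∃ i, i < t + 1 ∧ C (i + 1) ≤ C i := by
    by_contra hcon
    push Not at hcon
    have h1 := le_rl_of_chain C (t + 1) (fun i hi => lt_of_le_not_ge (hCmono i) (hcon i hi))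
    rw [hC0] at h1
    have h2 := (h1.trans (rl_mono_right hCt)).trans ht
    have h3 : t + 1 ≤ t := by exact_mod_cast h2
    omega
  have hwi : w i ∈ C i := by
    apply hCi
    refine le_sup_right (a := F (j + t + 1)) (Submodule.subset_span ⟨i, by simp, rfl⟩)
  obtain ⟨f, hf, g, hg, hfg⟩ := Submodule.mem_sup.mp hwi
  -- write g as a combination
  have hcomb : ∀ k : ℕ, ∀ g ∈ Submodule.span A (w '' (Set.Iio k)),
      ∃ c : ℕ → A, g = ∑ l ∈ Finset.range k, c l • w l := by
    intro k g hg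
    rw [← Finset.coe_range] at hg
    · obtain ⟨c, hc⟩ := Submodule.mem_span_image_finset_iff_exists_fun A |>.mp hg
      refine ⟨fun l => if h : l ∈ Finset.range k then c ⟨l, h⟩ else 0, ?_⟩
      rw [← hc, ← Finset.sum_coe_sort (Finset.range k)]
      refine Finset.sum_congr rfl fun l _ => ?_
      beta_reduce
      rw [dif_pos l.2]
  obtain ⟨c, hc⟩ := hcomb i g hg
  have hkey : x1 ^ (t - i) •
      ((x2 ^ i + ∑ l ∈ Finset.range i, (- c l) * x1 ^ (i - l) * x2 ^ l) • v) = f := by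
    have h1 : f = w i - g := by rw [← hfg]; abel
    rw [h1, hc, add_smul, smul_add, smul_smul, sub_eq_add_neg]
    congr 1
    rw [Finset.sum_smul, Finset.smul_sum, ← Finset.sum_neg_distrib]
    refine Finset.sum_congr rfl fun l hl => ?_
    simp only [w]
    rw [Finset.mem_range] at hl
    rw [smul_smul, smul_smul, ← neg_smul]
    congr 1
    rw [show t - l = (t - i) + (i - l) by omega, pow_add]
    ring
  refine B3 i (fun l => - c l) j v (hle j hv) ?_
  refine hc1 (t - i) _ _ ?_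
  rw [hkey, show j + i + 1 + (t - i) = j + t + 1 by omega]
  exact hf

end

/-! ### the theorem -/

section
variable {A : Type*} [CommRing A] [IsLocalRing A] [IsNoetherianRing A]
    {M : Type*} [AddCommGroup M] [Module A M] [Module.Finite A M]

/-- lengths of sub-filtrations of a cancellative stable filtration are eventually linear. -/
lemma evLin_sub (F : ℕ → Submodule A M) (x1 x2 : A) (hx1 : x1 ∈ maximalIdeal A)
    (hx2 : x2 ∈ maximalIdeal A)
    (anti : ∀ j, F (j + 1) ≤ F j) (smul : ∀ j, maximalIdeal A • F j ≤ F (j + 1))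
    (B1 : ∀ (j : ℕ) (v : M), x1 • v ∈ F (j + 1) → v ∈ F j)
    (B2 : ∃ b : ℕ, ∀ j, b ≤ j → F (j + 1) ≤ Ideal.span {x1, x2} • F j)
    (P : ℕ → Submodule A M) (hP : SubFil (maximalIdeal A) F P) :
    ∃ (b : ℕ) (y : ℤ), EvLin (fun j => rl (F (j + 1)) (P j)) b y := by
  have hq : Ideal.span {x1, x2} ≤ maximalIdeal A := by
    rw [Ideal.span_le]
    rintro x (rfl | hx)
    · exact hx1
    · rw [Set.mem_singleton_iff] at hx; rw [hx]; exact hx2
  have hPm : ∀ x ∈ maximalIdeal A, ∀ j, (P j).map (mu M x) ≤ P (j + 1) := by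
    rintro x hx j _ ⟨v, hv, rfl⟩
    exact hP.smul j (Submodule.smul_mem_smul hx hv)
  have hFm : ∀ x ∈ maximalIdeal A, ∀ j, (F j).map (mu M x) ≤ F (j + 1) := by
    rintro x hx j _ ⟨v, hv, rfl⟩
    exact smul j (Submodule.smul_mem_smul hx hv)
  obtain ⟨b0, hb0⟩ := stable_of_le (Ideal.span {x1, x2}) F P anti
    (fun j => (Submodule.smul_mono_left hq).trans (smul j)) B2
    (fun j => (hP.le (j + 1)).trans (hP.ge j))
    (fun j => (Submodule.smul_mono_left hq).trans (hP.smul j)) hP.le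
  obtain ⟨b, ⟨y, hy⟩, -⟩ := increments x1 x2 (fun j => F (j + 1)) P b0 hP.ge
    (hPm x1 hx1) (hPm x2 hx2) (fun j => hFm x2 hx2 (j + 1)) (fun j => hFm x1 hx1 (j + 1))
    (fun j v hv => B1 (j + 1) v hv)
    (fun j hj => by rw [← pair_smul]; exact hb0 j hj)
    (fun j => rl_ne_top_of_smul_le ((smul_mono_right _ (hP.le j)).trans (smul j)))
  exact ⟨b, y, hy⟩

end

end BaseAux

open BaseAux

theorem base_pr {A : Type*} [CommRing A] [IsLocalRing A] [IsNoetherianRing A]
    {M : Type*} [AddCommGroup M] [Module A M] [Module.Finite A M]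
    (F : ℕ → Submodule A M) (x1 x2 : A) (hx1 : x1 ∈ maximalIdeal A) (hx2 : x2 ∈ maximalIdeal A)
    (anti : ∀ j, F (j + 1) ≤ F j) (smul : ∀ j, maximalIdeal A • F j ≤ F (j + 1))
    (B1 : ∀ (j : ℕ) (v : M), x1 • v ∈ F (j + 1) → v ∈ F j)
    (B2 : ∃ b : ℕ, ∀ j, b ≤ j → F (j + 1) ≤ Ideal.span {x1, x2} • F j)
    (B3 : ∀ (t : ℕ) (c : ℕ → A) (j : ℕ) (v : M), v ∈ F j →
      (x2 ^ t + ∑ i ∈ Finset.range t, c i * x1 ^ (t - i) * x2 ^ i) • v ∈ F (j + t + 1) →
      v ∈ F (j + 1)) :
    Fil (maximalIdeal A) F ∧ (∃ lo hi : ℤ, Pr (maximalIdeal A) F lo hi) ∧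
      ∃ e c : ℤ, EvLin (fun j => rl (F (j + 1)) (F j)) e c := by
  have hFil : Fil (maximalIdeal A) F :=
    ⟨anti, smul, fun j => rl_ne_top_of_smul_le (smul j)⟩
  have hFF : SubFil (maximalIdeal A) F F := ⟨fun _ => le_rfl, anti, smul⟩
  obtain ⟨e, c, he⟩ := evLin_sub F x1 x2 hx1 hx2 anti smul B1 B2 F hFF
  refine ⟨hFil, ?_, e, c, he⟩
  obtain ⟨b0, hb0⟩ := B2
  refine ⟨-b0, max 0 (c + b0 * e), ?_⟩
  intro P hP
  obtain ⟨b, y, hb⟩ := evLin_sub F x1 x2 hx1 hx2 anti smul B1 ⟨b0, hb0⟩ P hP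
  have hsplit : ∀ Q : ℕ → Submodule A M, SubFil (maximalIdeal A) F Q → ∀ j,
      rl (F (j + 1)) (F j) = rl (F (j + 1)) (Q j) + rl (Q j) (F j) :=
    fun Q hQ j => rl_add (hQ.ge j) (hQ.le j)
  have ha : EvLin (fun j => rl (P j) (F j)) (e - b) (c - y) :=
    he.subB hb 0 (fun j _ => hsplit P hP j)
  have hP1 : ∀ x ∈ maximalIdeal A, ∀ j, ∀ v ∈ P j, x • v ∈ P (j + 1) :=
    fun x hx j v hv => hP.smul j (Submodule.smul_mem_smul hx hv)
  -- the lower bound for the quotient
  have hlow : -(b0 : ℤ) * (e - b) ≤ c - y := by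
    let S : ℕ → Submodule A M := satur x1 F P (hP1 x1 hx1)
    have hPS : ∀ j, P j ≤ S j := fun j v hv => ⟨hP.le j hv, 0, by simpa using hv⟩
    have hS : SubFil (maximalIdeal A) F S := by
      refine ⟨fun j v hv => hv.1, fun j => (hP.ge j).trans (hPS j), fun j => ?_⟩
      rw [Submodule.smul_le]
      rintro a ha v ⟨hv, s, hs⟩
      refine ⟨smul j (Submodule.smul_mem_smul ha hv), s, ?_⟩
      rw [smul_comm, show j + 1 + s = j + s + 1 by omega]
      exact hP1 a ha _ _ hs
    obtain ⟨b', y', hb'⟩ := evLin_sub F x1 x2 hx1 hx2 anti smul B1 ⟨b0, hb0⟩ S hS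
    have ha' : EvLin (fun j => rl (S j) (F j)) (e - b') (c - y') :=
      he.subB hb' 0 (fun j _ => hsplit S hS j)
    -- uniform s
    have hq : Ideal.span {x1, x2} ≤ maximalIdeal A := by
      rw [Ideal.span_le]
      rintro x (rfl | hx)
      · exact hx1
      · rw [Set.mem_singleton_iff] at hx; rw [hx]; exact hx2
    obtain ⟨j1, hj1⟩ := stable_of_le (Ideal.span {x1, x2}) F S anti
      (fun j => (Submodule.smul_mono_left hq).trans (smul j)) ⟨b0, hb0⟩
      (fun j => (hS.le (j + 1)).trans (hS.ge j))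
      (fun j => (Submodule.smul_mono_left hq).trans (hS.smul j)) hS.le
    obtain ⟨s, hs⟩ : ∃ s : ℕ, ∀ v ∈ S j1, x1 ^ s • v ∈ P (j1 + s) := by
      have hfg : (S j1).FG := IsNoetherian.noetherian _
      have hup : ∀ (k s : ℕ) (v : M), x1 ^ s • v ∈ P (j1 + s) →
          x1 ^ (s + k) • v ∈ P (j1 + (s + k)) := by
        intro k s v hv
        induction k with
        | zero => exact hv
        | succ k ih =>
          have := hP1 x1 hx1 _ _ ih
          rw [smul_smul, ← pow_succ'] at this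
          exact this
      obtain ⟨T, hT⟩ := hfg
      have hTS : ∀ v ∈ T, ∃ s : ℕ, x1 ^ s • v ∈ P (j1 + s) := by
        intro v hv
        have : v ∈ S j1 := by rw [← hT]; exact Submodule.subset_span hv
        exact this.2
      choose! σ hσ using hTS
      refine ⟨T.sup σ, fun v hv => ?_⟩
      rw [← hT] at hv
      induction hv using Submodule.span_induction with
      | mem v hv =>
        have h1 := hup (T.sup σ - σ v) (σ v) v (hσ v hv)
        rwa [Nat.add_sub_cancel' (Finset.le_sup (f := σ) hv)] at h1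
      | zero => simp
      | add v w _ _ h1 h2 => rw [smul_add]; exact (P _).add_mem h1 h2
      | smul a v _ h1 => rw [smul_comm]; exact (P _).smul_mem a h1
    have hs2 : ∀ k : ℕ, ∀ v ∈ S (j1 + k), x1 ^ s • v ∈ P (j1 + k + s) := by
      intro k
      induction k with
      | zero => exact hs
      | succ k ih =>
        intro v hv
        have h1 := hj1 (j1 + k) (by omega) hv
        rw [pair_smul, Submodule.mem_sup] at h1
        obtain ⟨_, ⟨a, ha1, rfl⟩, _, ⟨d, hd1, rfl⟩, rfl⟩ := h1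
        simp only [mu_apply]
        rw [smul_add, smul_comm _ x1, smul_comm _ x2,
          show j1 + (k + 1) + s = j1 + k + s + 1 by omega]
        exact (P _).add_mem (hP1 x1 hx1 _ _ (ih a ha1)) (hP1 x2 hx2 _ _ (ih d hd1))
    have hcan : ∀ (k : ℕ) (j : ℕ) (v : M), v ∈ F j → x1 ^ k • v ∈ F (j + k) := by
      intro k
      induction k with
      | zero => intro j v hv; simpa using hv
      | succ k ih =>
        intro j v hv
        have := smul _ (Submodule.smul_mem_smul hx1 (ih j v hv))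
        rwa [smul_smul, ← pow_succ'] at this
    have hbb : (b' : ℤ) = b := by
      apply le_antisymm
      · refine hb'.leB (hb.shiftB s) j1 ?_
        intro j hj
        obtain ⟨k, rfl⟩ := Nat.exists_eq_add_of_le hj
        -- compare via the power of x1
        have h1 : (S (j1 + k)).map (mu M (x1 ^ s)) ≤ P (j1 + k + s) := by
          rintro _ ⟨v, hv, rfl⟩
          exact hs2 k v hv
        refine le_trans ?_ (rl_mono_right h1)
        rw [rl_map_left]
        refine rl_anti_left ?_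
        intro v hv
        have h2 : x1 ^ s • v ∈ F (j1 + k + s + 1) := hv
        have hc1 : ∀ (m : ℕ) (i : ℕ) (w : M), x1 ^ m • w ∈ F (i + m) → w ∈ F i := by
          intro m
          induction m with
          | zero => intro i w hw; simpa using hw
          | succ m ih =>
            intro i w hw
            rw [pow_succ', ← smul_smul] at hw
            exact ih i w (B1 _ _ hw)
        refine hc1 s _ _ ?_
        rwa [show j1 + k + 1 + s = j1 + k + s + 1 by omega]
      · exact hb.leB hb' 0 (fun j _ => rl_mono_right (hPS j))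
    -- increments of the quotient by the saturation
    obtain ⟨a, ⟨x, hax⟩, hinc⟩ := increments x1 x2 S F b0 hS.le
      (fun j => by
        rintro _ ⟨v, hv, rfl⟩
        exact smul j (Submodule.smul_mem_smul hx1 hv))
      (fun j => by
        rintro _ ⟨v, hv, rfl⟩
        exact smul j (Submodule.smul_mem_smul hx2 hv))
      (fun j => by
        rintro _ ⟨v, hv, rfl⟩
        exact hS.smul j (Submodule.smul_mem_smul hx2 hv))
      (fun j => by
        rintro _ ⟨v, hv, rfl⟩
        exact hS.smul j (Submodule.smul_mem_smul hx1 hv))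
      (fun j v hv => by
        obtain ⟨h1, t, ht⟩ := hv
        refine ⟨B1 j v h1, t + 1, ?_⟩
        rw [pow_succ, ← smul_smul, show j + (t + 1) = j + 1 + t by omega]
        exact ht)
      (fun j hj => by rw [← pair_smul]; exact hb0 j hj)
      (fun j => rl_ne_top_of_smul_le ((smul j).trans (hS.ge j)))
    have hae : (a : ℤ) = e - b := by
      rw [← hbb]; exact (hax.uniqueB ha').1
    have hgrow : ∀ k : ℕ, ((a * k : ℕ) : ℕ∞) ≤ rl (S (b0 + k)) (F (b0 + k)) := by
      intro k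
      induction k with
      | zero => simp
      | succ k ih =>
        refine le_trans ?_ (hinc (b0 + k) (by omega))
        rw [Nat.mul_succ, Nat.cast_add]
        gcongr
    obtain ⟨j2, hj2⟩ := ha
    obtain ⟨n, hn, hn'⟩ := hj2 (b0 + j2) (by omega)
    have h1 := (hgrow j2).trans (rl_anti_left (hPS (b0 + j2)))
    have h2 : ((a * j2 : ℕ) : ℕ∞) ≤ (n : ℕ∞) := by rw [← hn]; exact h1
    have h3 : a * j2 ≤ n := by exact_mod_cast h2
    have h4 : (a : ℤ) * j2 ≤ n := by exact_mod_cast h3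
    rw [hn', ← hae] at h4
    push_cast at h4
    rw [← hae]
    linarith
  refine ⟨e - b, c - y, b, y, ha, hb, hlow, ?_⟩
  -- the upper bound
  have hanonneg : (0 : ℤ) ≤ e - b := ha.nonnegB
  rcases Nat.eq_zero_or_pos b with hb00 | hbpos
  · subst hb00
    simp only [Nat.cast_zero, mul_zero]
    obtain ⟨j2, hj2⟩ := hb
    obtain ⟨n, hn, hn'⟩ := hj2 j2 le_rfl
    simp only [Nat.cast_zero, zero_mul, zero_add] at hn'
    have hn0 : n = 0 := by
      obtain ⟨n1, hn1, hn1'⟩ := hj2 (j2 + n) (by omega)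
      simp only [Nat.cast_zero, zero_mul, zero_add] at hn1'
      have e1 : n1 = n := by
        have : (n1 : ℤ) = n := by rw [hn', hn1']
        exact_mod_cast this
      have h1 := purity x1 x2 F P (hP1 x1 hx1) (hP1 x2 hx2) hP.le hP.ge B1 B3 n j2
        (by rw [← e1]; rw [← e1] at hn1; exact hn1.le)
      have h2 : rl (F (j2 + 1)) (P j2) = 0 := rl_eq_zero_iff.mpr h1
      have h3 : (n : ℕ∞) = 0 := by rw [← hn]; exact h2
      exact_mod_cast h3
    rw [← hn', hn0]
    simp
  · have h1 : (1 : ℤ) ≤ b := by exact_mod_cast hbpos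
    have h2 : y ≤ c + b0 * e := by
      have h3 : (0 : ℤ) ≤ b0 := Int.natCast_nonneg _
      nlinarith
    calc y ≤ max 0 (c + b0 * e) := le_max_of_le_right h2
      _ = max 0 (c + b0 * e) * 1 := by ring
      _ ≤ max 0 (c + b0 * e) * b := by
          apply mul_le_mul_of_nonneg_left h1 (le_max_left _ _)

end Vale.Agent.P202
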