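import Mathlib

/-!
Enlarging the residue field: the local ring `R(X)`, the localization of `R[X]` at the extension of
the maximal ideal.
-/

namespace Vale.Agent.P202

open IsLocalRing Polynomial TensorProduct

universe u

section One

variable (R : Type u) [CommRing R] [IsLocalRing R]

/-- The extension of the maximal ideal to the polynomial ring. -/
noncomputable abbrev mX : Ideal R[X] := (maximalIdeal R).map C

/-- The localization of `R[X]` at the extension of the maximal ideal. -/
abbrev Nag : Type u := Localization.AtPrime (mX R)

theorem map_maximalIdeal_nag :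
    (maximalIdeal R).map (algebraMap R (Nag R)) = maximalIdeal (Nag R) := by
  rw [← Localization.AtPrime.map_eq_maximalIdeal, IsScalarTower.algebraMap_eq R R[X] (Nag R),
    ← Ideal.map_map]
  rfl

instance isLocalHom_nag : IsLocalHom (algebraMap R (Nag R)) :=
  ((local_hom_TFAE (algebraMap R (Nag R))).out 0 2).2 (map_maximalIdeal_nag R).le

instance flat_nag : Module.Flat R (Nag R) := Module.Flat.trans R R[X] (Nag R)

theorem length_nag_one : Module.length (Nag R) (Nag R ⧸ maximalIdeal (Nag R)) = 1 := by
  rw [Module.length_eq_one_iff]
  exact isSimpleModule_iff_isCoatom.2 (maximalIdeal.isMaximal _).out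

/-- Base change to `R(X)` preserves lengths. -/
theorem length_nag (I : Ideal R) :
    Module.length (Nag R) (Nag R ⧸ I.map (algebraMap R (Nag R))) = Module.length R (R ⧸ I) := by
  rw [(Algebra.TensorProduct.quotIdealMapEquivTensorQuot (Nag R) I).toLinearEquiv.length_eq,
    IsLocalRing.length_baseChange R (Nag R) (R ⧸ I), map_maximalIdeal_nag, length_nag_one, mul_one]

theorem length_nag_pow (j : ℕ) :
    Module.length (Nag R) (Nag R ⧸ maximalIdeal (Nag R) ^ j) =
      Module.length R (R ⧸ maximalIdeal R ^ j) := by
  rw [← map_maximalIdeal_nag, ← Ideal.map_pow, length_nag]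

theorem ringKrullDim_nag [IsNoetherianRing R] : ringKrullDim (Nag R) = ringKrullDim R := by
  rw [IsLocalization.AtPrime.ringKrullDim_eq_height (mX R) (Nag R), height_map_C,
    maximalIdeal_height_eq_ringKrullDim]

theorem infinite_nag : Infinite (ResidueField (Nag R)) := by
  refine Infinite.of_injective (fun n : ℕ => residue (Nag R) (algebraMap R[X] (Nag R) (X ^ n))) ?_
  intro a b hab
  by_contra hne
  dsimp only at hab
  rw [← sub_eq_zero, ← map_sub, ← map_sub, residue_eq_zero_iff,
    IsLocalization.AtPrime.to_map_mem_maximal_iff (Nag R) (mX R), Ideal.mem_map_C_iff] at hab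
  have := hab a
  rw [coeff_sub, coeff_X_pow, coeff_X_pow, if_pos rfl, if_neg hne, sub_zero] at this
  exact (Ideal.ne_top_iff_one _).1 (maximalIdeal.isMaximal R).ne_top this

end One

section Two

attribute [local instance] Polynomial.algebra

variable (R S : Type u) [CommRing R] [IsLocalRing R] [CommRing S] [IsLocalRing S] [Algebra R S]
  [IsLocalHom (algebraMap R S)]

instance liesOver_mX : (mX S).LiesOver (mX R) := by
  constructor
  ext f
  rw [Ideal.under, Ideal.mem_comap, Ideal.mem_map_C_iff, Ideal.mem_map_C_iff]
  refine forall_congr' fun n => ?_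
  rw [Polynomial.algebraMap_def, Polynomial.coe_mapRingHom, Polynomial.coeff_map]
  exact (map_mem_nonunits_iff (algebraMap R S) _).symm

omit [IsLocalRing R] [IsLocalRing S] [IsLocalHom (algebraMap R S)] in
theorem flat_polynomial [Module.Flat R S] : Module.Flat R[X] S[X] := by
  have h : Algebra.IsPushout R R[X] S S[X] := inferInstance
  exact Module.Flat.isBaseChange R R[X] S S[X] h.out

omit [IsLocalHom (algebraMap R S)] [Algebra R S] [IsLocalRing S] [CommRing S] in
/-- The polynomial ring over the residue field maps to the residue field of `R(X)`. -/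
theorem exists_fraction : ∃ φ : (ResidueField R)[X] →+* ResidueField (Nag R),
    (∀ f : R[X], φ (f.map (residue R)) = algebraMap R[X] (ResidueField (Nag R)) f) ∧
    (letI := φ.toAlgebra; IsFractionRing (ResidueField R)[X] (ResidueField (Nag R))) := by
  let e : (ResidueField R)[X] ≃+* (R[X] ⧸ mX R) :=
    Ideal.polynomialQuotientEquivQuotientPolynomial (maximalIdeal R)
  have hfr : IsFractionRing (R[X] ⧸ mX R) (mX R).ResidueField := inferInstance
  refine ⟨(algebraMap (R[X] ⧸ mX R) (mX R).ResidueField).comp e.toRingHom, ?_, ?_⟩
  · intro f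
    have h := Ideal.polynomialQuotientEquivQuotientPolynomial_map_mk (maximalIdeal R) f
    have h2 : e (f.map (residue R)) = Ideal.Quotient.mk (mX R) f := h
    change algebraMap (R[X] ⧸ mX R) (mX R).ResidueField (e (f.map (residue R))) = _
    rw [h2]
    rfl
  · let _ := ((algebraMap (R[X] ⧸ mX R) (mX R).ResidueField).comp e.toRingHom).toAlgebra
    exact IsFractionRing.of_ringEquiv_left e (fun x => rfl)

/-- The degree of the residue field extension does not change. -/
theorem length_residue_nag [Algebra (Nag R) (Nag S)] [IsLocalHom (algebraMap (Nag R) (Nag S))]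
    (hcomp : ∀ f : R[X], algebraMap (Nag R) (Nag S) (algebraMap R[X] (Nag R) f) =
      algebraMap S[X] (Nag S) (f.map (algebraMap R S)))
    (hfin : Module.length (ResidueField R) (ResidueField S) ≠ ⊤) :
    Module.length (ResidueField (Nag R)) (ResidueField (Nag S)) =
      Module.length (ResidueField R) (ResidueField S) := by
  obtain ⟨φ, hφ, hφ'⟩ := exists_fraction R
  obtain ⟨ψ, hψ, hψ'⟩ := exists_fraction S
  let a1 : Algebra (ResidueField R)[X] (ResidueField (Nag R)) := φ.toAlgebra
  let a2 : Algebra (ResidueField S)[X] (ResidueField (Nag S)) := ψ.toAlgebra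
  let a3 : Algebra (ResidueField R)[X] (ResidueField (Nag S)) :=
    (ψ.comp (mapRingHom (algebraMap (ResidueField R) (ResidueField S)))).toAlgebra
  have : Module.Finite (ResidueField R) (ResidueField S) := by
    rw [Module.length_eq_rank, Ne, Cardinal.toENat_eq_top, not_le] at hfin
    exact Module.rank_lt_aleph0_iff.1 hfin
  have : IsScalarTower (ResidueField R)[X] (ResidueField S)[X] (ResidueField (Nag S)) :=
    IsScalarTower.of_algebraMap_eq (fun x => rfl)
  have : IsScalarTower (ResidueField R)[X] (ResidueField (Nag R)) (ResidueField (Nag S)) := by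
    refine IsScalarTower.of_algebraMap_eq (fun x => ?_)
    obtain ⟨f, rfl⟩ := Polynomial.map_surjective _ residue_surjective x
    change ψ ((f.map (residue R)).map (algebraMap (ResidueField R) (ResidueField S))) =
      algebraMap (ResidueField (Nag R)) (ResidueField (Nag S)) (φ (f.map (residue R)))
    rw [hφ]
    have h1 : (f.map (residue R)).map (algebraMap (ResidueField R) (ResidueField S)) =
        (f.map (algebraMap R S)).map (residue S) := by
      rw [Polynomial.map_map, Polynomial.map_map]
      rfl
    rw [h1, hψ]
    change residue (Nag S) (algebraMap S[X] (Nag S) (f.map (algebraMap R S))) =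
      residue (Nag S) (algebraMap (Nag R) (Nag S) (algebraMap R[X] (Nag R) f))
    rw [hcomp]
  rw [Module.length_eq_rank, Module.length_eq_rank,
    Algebra.IsAlgebraic.rank_of_isFractionRing (ResidueField R)[X] (ResidueField (Nag R))
      (ResidueField S)[X] (ResidueField (Nag S)), rank_polynomial_polynomial]

end Two

/-- Enlarging the residue field. -/
theorem exists_infinite_residue {R S : Type u} [CommRing R] [IsLocalRing R] [IsNoetherianRing R]
    [CommRing S] [IsLocalRing S] [IsNoetherianRing S] [Algebra R S]
    [IsLocalHom (algebraMap R S)] [Module.Flat R S] :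
    ∃ (R' S' : Type u) (_ : CommRing R') (_ : IsLocalRing R') (_ : IsNoetherianRing R')
      (_ : CommRing S') (_ : IsLocalRing S') (_ : IsNoetherianRing S') (_ : Algebra R' S')
      (_ : IsLocalHom (algebraMap R' S')) (_ : Module.Flat R' S')
      (_ : Infinite (ResidueField R')),
      (∀ j, Module.length R' (R' ⧸ maximalIdeal R' ^ j) =
        Module.length R (R ⧸ maximalIdeal R ^ j)) ∧
      (∀ j, Module.length S' (S' ⧸ maximalIdeal S' ^ j) =
        Module.length S (S ⧸ maximalIdeal S ^ j)) ∧
      ringKrullDim R' = ringKrullDim R ∧ ringKrullDim S' = ringKrullDim S ∧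
      Module.length S' (S' ⧸ (maximalIdeal R').map (algebraMap R' S')) =
        Module.length S (S ⧸ (maximalIdeal R).map (algebraMap R S)) ∧
      (Module.length (ResidueField R) (ResidueField S) ≠ ⊤ →
        Module.length (ResidueField R') (ResidueField S') =
        Module.length (ResidueField R) (ResidueField S)) := by
  let a0 : Algebra R[X] S[X] := Polynomial.algebra R S
  have : (mX S).LiesOver (mX R) := liesOver_mX R S
  have : Module.Flat R[X] S[X] := flat_polynomial R S
  let a1 : Algebra (Nag R) (Nag S) := Localization.AtPrime.algebraOfLiesOver (mX R) (mX S)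
  have h1 : Localization.AtPrime.IsLiesOverAlgebra (mX R) (mX S) := ⟨rfl⟩
  have hcomp : ∀ f : R[X], algebraMap (Nag R) (Nag S) (algebraMap R[X] (Nag R) f) =
      algebraMap S[X] (Nag S) (f.map (algebraMap R S)) := by
    intro f
    rw [h1.algebraMap_eq, Localization.localRingHom_to_map]
    rfl
  have hcomp' : (algebraMap (Nag R) (Nag S)).comp (algebraMap R (Nag R)) =
      (algebraMap S (Nag S)).comp (algebraMap R S) := by
    ext x
    have := hcomp (C x)
    rw [Polynomial.map_C] at this
    exact this
  refine ⟨Nag R, Nag S, inferInstance, inferInstance, inferInstance, inferInstance, inferInstance,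
    inferInstance, a1, inferInstance, inferInstance, infinite_nag R, length_nag_pow R,
    length_nag_pow S, ringKrullDim_nag R, ringKrullDim_nag S, ?_, ?_⟩
  · rw [← map_maximalIdeal_nag, Ideal.map_map, hcomp', ← Ideal.map_map, length_nag]
  · exact length_residue_nag R S hcomp

end Vale.Agent.P202
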