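import Vale.Agent.P202.Flat

/-!
Chains of submodules and the two layer lemmas.
-/

namespace Vale.Agent.P202

open Submodule

section chain
variable {A : Type*} [CommRing A] {V : Type*} [AddCommGroup V] [Module A V]
variable {M₁ M₂ E : Type*} [AddCommGroup M₁] [Module A M₁] [AddCommGroup M₂] [Module A M₂]
  [AddCommGroup E] [Module A E]

/-- comparison of relative lengths through a correspondence. -/
lemma rl_eq_of_corr (f : E →ₗ[A] M₁) (g : E →ₗ[A] M₂) {K₁ N₁ : Submodule A M₁}
    {K₂ N₂ : Submodule A M₂} (h : K₁.comap f = K₂.comap g)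
    (h1 : K₁ ⊔ N₁ = K₁ ⊔ LinearMap.range f) (h2 : K₂ ⊔ N₂ = K₂ ⊔ LinearMap.range g) :
    rl K₁ N₁ = rl K₂ N₂ := by
  have e1 := rl_comap f K₁ ⊤
  have e2 := rl_comap g K₂ ⊤
  rw [Submodule.comap_top, top_inf_eq] at e1 e2
  rw [← rl_sup_right K₁ N₁, h1, rl_sup_right, ← rl_sup_right K₂ N₂, h2, rl_sup_right, ← e1, ← e2,
    h]

/-- a simple step. -/
lemma rl_sup_span_eq_one (m : Ideal A) [m.IsMaximal] {W : Submodule A V} {u : V} (hu : u ∉ W)
    (hm : ∀ r ∈ m, r • u ∈ W) : rl W (W ⊔ span A {u}) = 1 := by
  have hcomap : W.comap (LinearMap.toSpanSingleton A V u) = m := by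
    refine (Ideal.IsMaximal.eq_of_le (inferInstance : m.IsMaximal) ?_ ?_).symm
    · intro h
      apply hu
      have : (1 : A) ∈ W.comap (LinearMap.toSpanSingleton A V u) := by rw [h]; trivial
      simpa using this
    · intro r hr
      simpa using hm r hr
  have h1 := rl_eq_of_corr (E := A) (LinearMap.toSpanSingleton A V u) LinearMap.id
    (K₁ := W) (N₁ := W ⊔ span A {u}) (K₂ := m) (N₂ := ⊤) (by rw [hcomap, Submodule.comap_id])
    (by rw [← sup_assoc, sup_idem, LinearMap.range_toSpanSingleton])
    (by rw [LinearMap.range_id])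
  rw [h1, rl_top]
  have : IsSimpleModule A (A ⧸ m) := by
    rw [isSimpleModule_iff_isCoatom]
    exact Ideal.isMaximal_def.mp inferInstance
  exact Module.length_eq_one A _

/-- induction along chains of submodules between `W` and `V'` where `m V ≤ W`. -/
theorem chain_induction (m : Ideal A) [m.IsMaximal] {W : Submodule A V}
    (hW : m • (⊤ : Submodule A V) ≤ W) {P : ℕ → Submodule A V → Prop} (h0 : P 0 W)
    (hs : ∀ (n : ℕ) (V'' : Submodule A V) (u : V), W ≤ V'' → u ∉ V'' → P n V'' →
      P (n + 1) (V'' ⊔ span A {u})) :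
    ∀ (n : ℕ) (V' : Submodule A V), W ≤ V' → rl W V' = (n : ℕ∞) → P n V' := by
  intro n
  induction n with
  | zero =>
    intro V' hV' hn
    have : V' ≤ W := rl_eq_zero_iff.mp (by simpa using hn)
    rw [le_antisymm this hV']
    exact h0
  | succ n ih =>
    intro V' hV' hn
    -- choose a proper submodule with maximal relative length
    have hfinite : ∀ (k : ℕ) (V'' : Submodule A V), W ≤ V'' → V'' ≤ V' → rl W V'' = (k : ℕ∞) →
        V'' ≠ V' → k ≤ n := by
      intro k V'' h1 h2 h3 h4
      have h5 := rl_add h1 h2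
      rw [hn, h3] at h5
      have h6 : rl V'' V' ≠ 0 := fun h => h4 (le_antisymm h2 (rl_eq_zero_iff.mp h))
      have h7 : 1 ≤ rl V'' V' := Order.one_le_iff_ne_zero.mpr h6
      have h8 : (k : ℕ∞) + 1 ≤ ((n + 1 : ℕ) : ℕ∞) := by
        rw [h5]; gcongr
      have h9 : k + 1 ≤ n + 1 := by exact_mod_cast h8
      omega
    have hne : W ≠ V' := by
      rintro rfl
      rw [rl_self] at hn
      have : (0 : ℕ) = n + 1 := by exact_mod_cast hn
      omega
    classical
    have hex : ∃ k, ∃ V'' : Submodule A V, W ≤ V'' ∧ V'' ≤ V' ∧ rl W V'' = (k : ℕ∞) ∧ V'' ≠ V' :=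
      ⟨0, W, le_rfl, hV', by simp, hne⟩
    obtain ⟨V'', h1, h2, h3, h4⟩ := Nat.findGreatest_spec (P := fun k => ∃ V'' : Submodule A V,
      W ≤ V'' ∧ V'' ≤ V' ∧ rl W V'' = (k : ℕ∞) ∧ V'' ≠ V') (m := 0) (n := n) (Nat.zero_le _)
      ⟨W, le_rfl, hV', by simp, hne⟩
    set k := Nat.findGreatest (fun k => ∃ V'' : Submodule A V,
      W ≤ V'' ∧ V'' ≤ V' ∧ rl W V'' = (k : ℕ∞) ∧ V'' ≠ V') n with hk
    obtain ⟨u, hu1, hu2⟩ : ∃ u ∈ V', u ∉ V'' := by
      by_contra hcon
      push Not at hcon
      exact h4 (le_antisymm h2 hcon)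
    have hstep : rl W (V'' ⊔ span A {u}) = ((k + 1 : ℕ) : ℕ∞) := by
      rw [rl_add h1 le_sup_left, h3, rl_sup_span_eq_one m hu2]
      · push_cast; rfl
      · intro r hr
        exact h1 (hW (Submodule.smul_mem_smul hr Submodule.mem_top))
    have hle : V'' ⊔ span A {u} ≤ V' := sup_le h2 (by rwa [span_singleton_le_iff_mem])
    have heq : V'' ⊔ span A {u} = V' := by
      by_contra hcon
      have h5 := hfinite _ _ (h1.trans le_sup_left) hle hstep hcon
      have h6 := Nat.le_findGreatest (P := fun k => ∃ V'' : Submodule A V,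
        W ≤ V'' ∧ V'' ≤ V' ∧ rl W V'' = (k : ℕ∞) ∧ V'' ≠ V') h5
        ⟨_, h1.trans le_sup_left, hle, hstep, hcon⟩
      omega
    have hkn : k = n := by
      rw [heq, hn] at hstep
      have : n + 1 = k + 1 := by exact_mod_cast hstep
      omega
    rw [← heq]
    apply hs n V'' u h1 hu2
    exact ih V'' h1 (by rw [h3, hkn])

end chain

section layers
variable {A : Type*} [CommRing A] {V : Type*} [AddCommGroup V] [Module A V]
variable (m : Ideal A) [m.IsMaximal]

/-- quotient layer lemma. -/
theorem quot_layer {G : ℕ → Ideal A} (hG : Fil m G) {l hi : ℤ} (hPr : Pr m G l hi)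
    {W : Submodule A V} (hW : m • (⊤ : Submodule A V) ≤ W) (K : ℕ → Submodule A V)
    (hK : ∀ j, m • K j ≤ K (j + 1))
    (hGW : ∀ j, G j • W ≤ G (j + 1) • (⊤ : Submodule A V) ⊔ K j) :
    ∀ (n : ℕ) (V' : Submodule A V), W ≤ V' → rl W V' = (n : ℕ∞) →
      ∃ a x : ℤ, EvLin (fun j => rl (G (j + 1) • (⊤ : Submodule A V) ⊔ K j)
        (G j • V' ⊔ (G (j + 1) • (⊤ : Submodule A V) ⊔ K j))) a x ∧ l * a ≤ x := by
  refine chain_induction m hW (P := fun _ V' => ∃ a x : ℤ,
    EvLin (fun j => rl (G (j + 1) • (⊤ : Submodule A V) ⊔ K j)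
        (G j • V' ⊔ (G (j + 1) • (⊤ : Submodule A V) ⊔ K j))) a x ∧ l * a ≤ x) ?_ ?_
  · refine ⟨0, 0, evLin_zero.congr (Filter.Eventually.of_forall fun j => ?_), by simp⟩
    rw [eq_comm, rl_eq_zero_iff]
    exact sup_le (hGW j) le_rfl
  · intro n V'' u hWV'' hu ⟨a, x, hax, hlax⟩
    set R : ℕ → Submodule A V := fun j => G j • V'' ⊔ (G (j + 1) • (⊤ : Submodule A V) ⊔ K j)
      with hR
    -- the subfiltration
    let P : ℕ → Ideal A := fun j => G j ⊓ (R j).comap (LinearMap.toSpanSingleton A V u)
    have hP : SubFil m G P := by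
      refine ⟨fun j => inf_le_left, fun j => ?_, fun j => ?_⟩
      · intro w hw
        refine ⟨hG.anti j hw, ?_⟩
        rw [SetLike.mem_coe, Submodule.mem_comap, LinearMap.toSpanSingleton_apply]
        exact Submodule.mem_sup_right (Submodule.mem_sup_left
          (Submodule.smul_mem_smul hw Submodule.mem_top))
      · rw [Submodule.smul_le]
        intro r hr w hw
        refine ⟨hG.smul j (Submodule.smul_mem_smul hr hw.1), ?_⟩
        have h2 := hw.2
        rw [SetLike.mem_coe, Submodule.mem_comap, LinearMap.toSpanSingleton_apply] at h2 ⊢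
        rw [smul_eq_mul, mul_smul]
        have h3 : r • (w • u) ∈ m • R j := Submodule.smul_mem_smul hr h2
        refine (?_ : m • R j ≤ R (j + 1)) h3
        simp only [hR, Submodule.smul_sup]
        refine sup_le_sup ?_ (sup_le_sup ?_ (hK j))
        · rw [← Submodule.mul_smul]
          exact Submodule.smul_mono_left (hG.smul j)
        · rw [← Submodule.mul_smul]
          exact Submodule.smul_mono_left (hG.smul (j + 1))
    obtain ⟨a', x', -, -, h1, -, h2, -⟩ := hPr P hP
    have key : ∀ j, rl (G (j + 1) • (⊤ : Submodule A V) ⊔ K j)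
        (G j • (V'' ⊔ span A {u}) ⊔ (G (j + 1) • (⊤ : Submodule A V) ⊔ K j)) =
        rl (G (j + 1) • (⊤ : Submodule A V) ⊔ K j) (R j) + rl (P j) (G j) := by
      intro j
      have hle1 : G (j + 1) • (⊤ : Submodule A V) ⊔ K j ≤ R j := le_sup_right
      have hle2 : R j ≤ G j • (V'' ⊔ span A {u}) ⊔ (G (j + 1) • (⊤ : Submodule A V) ⊔ K j) :=
        sup_le_sup_right (Submodule.smul_mono le_rfl le_sup_left) _
      rw [rl_add hle1 hle2]
      congr 1
      have e := rl_eq_of_corr (E := ↥(G j))
        ((LinearMap.toSpanSingleton A V u).comp (G j).subtype) (G j).subtype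
        (K₁ := R j) (N₁ := G j • (V'' ⊔ span A {u}) ⊔ (G (j + 1) • (⊤ : Submodule A V) ⊔ K j))
        (K₂ := P j) (N₂ := G j) ?_ ?_ ?_
      · exact e
      · ext z
        simp only [Submodule.mem_comap, LinearMap.comp_apply, Submodule.subtype_apply]
        constructor
        · intro h; exact ⟨z.2, h⟩
        · intro h; exact h.2
      · rw [Submodule.smul_sup, LinearMap.range_comp, Submodule.range_subtype]
        have : G j • span A {u} = Submodule.map (LinearMap.toSpanSingleton A V u) (G j) := by
          rw [← LinearMap.range_toSpanSingleton, LinearMap.range_eq_map, ← Submodule.map_smul'']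
          congr 1
          simp
        rw [← this]
        apply le_antisymm
        · refine sup_le le_sup_left (sup_le (sup_le ?_ le_sup_right) (le_sup_of_le_left hle1))
          exact le_sup_of_le_left le_sup_left
        · refine sup_le le_sup_left ?_
          exact le_sup_of_le_right (le_sup_of_le_left le_sup_right)
      · rw [Submodule.range_subtype]
    refine ⟨a + a', x + x', (hax.add h1).congr (Filter.Eventually.of_forall fun j => ?_), ?_⟩
    · exact (key j).symm
    · rw [mul_add]; exact add_le_add hlax h2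

/-- sub layer lemma. -/
theorem sub_layer [Module.Flat A V] {G : ℕ → Ideal A} (hG : Fil m G) {lo h : ℤ}
    (hPr : Pr m G lo h) (Y : ℕ → Submodule A V)
    (hY : ∀ j, m • Y j ≤ Y (j + 1)) (hGY : ∀ j, G (j + 1) • (⊤ : Submodule A V) ≤ Y j) :
    ∀ (n : ℕ) (V' : Submodule A V), m • (⊤ : Submodule A V) ≤ V' →
      rl (m • (⊤ : Submodule A V)) V' = (n : ℕ∞) →
      ∃ b y : ℤ, EvLin (fun j => rl (G (j + 1) • (⊤ : Submodule A V))
        (Y j ⊓ (G j • V' ⊔ G (j + 1) • (⊤ : Submodule A V)))) b y ∧ y ≤ h * b := by
  refine chain_induction m le_rfl (P := fun _ V' => ∃ b y : ℤ,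
    EvLin (fun j => rl (G (j + 1) • (⊤ : Submodule A V))
        (Y j ⊓ (G j • V' ⊔ G (j + 1) • (⊤ : Submodule A V)))) b y ∧ y ≤ h * b) ?_ ?_
  · refine ⟨0, 0, evLin_zero.congr (Filter.Eventually.of_forall fun j => ?_), by simp⟩
    rw [eq_comm, rl_eq_zero_iff]
    refine inf_le_right.trans (sup_le ?_ le_rfl)
    rw [← Submodule.mul_smul, mul_comm]
    exact Submodule.smul_mono_left (hG.smul j)
  · intro n V'' u hWV'' hu ⟨b, y, hby, hlby⟩
    set IV : ℕ → Submodule A V := fun j => G (j + 1) • (⊤ : Submodule A V) with hIV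
    -- the subfiltration
    let N : ℕ → Ideal A := fun j =>
      G j ⊓ (Y j ⊔ (G j • V'' ⊔ IV j)).comap (LinearMap.toSpanSingleton A V u)
    have hN : SubFil m G N := by
      refine ⟨fun j => inf_le_left, fun j => ?_, fun j => ?_⟩
      · intro w hw
        refine ⟨hG.anti j hw, ?_⟩
        rw [SetLike.mem_coe, Submodule.mem_comap, LinearMap.toSpanSingleton_apply]
        exact Submodule.mem_sup_left (hGY j (Submodule.smul_mem_smul hw Submodule.mem_top))
      · rw [Submodule.smul_le]
        intro r hr w hw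
        refine ⟨hG.smul j (Submodule.smul_mem_smul hr hw.1), ?_⟩
        have h2 := hw.2
        rw [SetLike.mem_coe, Submodule.mem_comap, LinearMap.toSpanSingleton_apply] at h2 ⊢
        rw [smul_eq_mul, mul_smul]
        have h3 : r • (w • u) ∈ m • (Y j ⊔ (G j • V'' ⊔ IV j)) := Submodule.smul_mem_smul hr h2
        refine (?_ : m • (Y j ⊔ (G j • V'' ⊔ IV j)) ≤ _) h3
        simp only [Submodule.smul_sup]
        refine sup_le_sup (hY j) (sup_le_sup ?_ ?_)
        · rw [← Submodule.mul_smul]
          exact Submodule.smul_mono_left (hG.smul j)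
        · rw [hIV]
          simp only
          rw [← Submodule.mul_smul]
          exact Submodule.smul_mono_left (hG.smul (j + 1))
    obtain ⟨-, -, b', y', -, h1, -, h2⟩ := hPr N hN
    have key : ∀ j, rl (IV j) (Y j ⊓ (G j • (V'' ⊔ span A {u}) ⊔ IV j)) =
        rl (IV j) (Y j ⊓ (G j • V'' ⊔ IV j)) + rl (G (j + 1)) (N j) := by
      intro j
      have hle1 : IV j ≤ Y j ⊓ (G j • V'' ⊔ IV j) := le_inf (hGY j) le_sup_right
      have hle2 : Y j ⊓ (G j • V'' ⊔ IV j) ≤ Y j ⊓ (G j • (V'' ⊔ span A {u}) ⊔ IV j) :=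
        inf_le_inf_left _ (sup_le_sup_right (Submodule.smul_mono le_rfl le_sup_left) _)
      rw [rl_add hle1 hle2]
      congr 1
      -- correspondence module
      let T : Submodule A (A × V) :=
        (Submodule.prod (G j) (G j • V'' ⊔ IV j)) ⊓
          (Y j).comap ((LinearMap.toSpanSingleton A V u).coprod LinearMap.id)
      have hT : ∀ z : A × V, z ∈ T ↔ (z.1 ∈ G j ∧ z.2 ∈ G j • V'' ⊔ IV j) ∧
          z.1 • u + z.2 ∈ Y j := by
        intro z
        simp only [T, Submodule.mem_inf, Submodule.mem_prod, Submodule.mem_comap,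
          LinearMap.coprod_apply, LinearMap.toSpanSingleton_apply, LinearMap.id_apply]
      have e := rl_eq_of_corr (E := ↥T)
        (((LinearMap.toSpanSingleton A V u).coprod LinearMap.id).comp T.subtype)
        ((LinearMap.fst A A V).comp T.subtype)
        (K₁ := Y j ⊓ (G j • V'' ⊔ IV j))
        (N₁ := Y j ⊓ (G j • (V'' ⊔ span A {u}) ⊔ IV j))
        (K₂ := G (j + 1)) (N₂ := N j) ?_ ?_ ?_
      · exact e
      · ext z
        obtain ⟨⟨hz1, hz2⟩, hz3⟩ := (hT z.1).mp z.2
        simp only [Submodule.mem_comap, LinearMap.comp_apply, Submodule.subtype_apply,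
          LinearMap.coprod_apply, LinearMap.toSpanSingleton_apply, LinearMap.id_apply,
          LinearMap.fst_apply, Submodule.mem_inf]
        constructor
        · rintro ⟨-, h4⟩
          have h5 : z.1.1 • u ∈ G j • V'' ⊔ IV j := by
            have := Submodule.sub_mem _ h4 hz2
            simpa using this
          exact mem_of_smul_mem m (hG.anti j) (hG.smul j) V'' hWV'' hu hz1 h5
        · intro h4
          refine ⟨hz3, Submodule.add_mem _ ?_ hz2⟩
          exact Submodule.mem_sup_right (Submodule.smul_mem_smul h4 Submodule.mem_top)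
      · have hrange : LinearMap.range
            (((LinearMap.toSpanSingleton A V u).coprod LinearMap.id).comp T.subtype) =
            Y j ⊓ (G j • (V'' ⊔ span A {u}) ⊔ IV j) := by
          ext v
          rw [LinearMap.mem_range]
          constructor
          · rintro ⟨z, rfl⟩
            obtain ⟨⟨hz1, hz2⟩, hz3⟩ := (hT z.1).mp z.2
            simp only [LinearMap.comp_apply, Submodule.subtype_apply, LinearMap.coprod_apply,
              LinearMap.toSpanSingleton_apply, LinearMap.id_apply]
            refine ⟨hz3, ?_⟩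
            refine Submodule.add_mem _ (Submodule.mem_sup_left ?_) ?_
            · exact Submodule.smul_mem_smul hz1 (Submodule.mem_sup_right (mem_span_singleton_self u))
            · have h8 : G j • V'' ⊔ IV j ≤ G j • (V'' ⊔ span A {u}) ⊔ IV j :=
                sup_le_sup_right (Submodule.smul_mono le_rfl le_sup_left) _
              exact h8 hz2
          · rintro ⟨hv1, hv2⟩
            rw [SetLike.mem_coe, Submodule.smul_sup] at hv2
            have h6 : G j • span A {u} = Submodule.map (LinearMap.toSpanSingleton A V u) (G j) := by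
              rw [← LinearMap.range_toSpanSingleton, LinearMap.range_eq_map,
                ← Submodule.map_smul'']
              congr 1
              simp
            rw [h6, sup_right_comm] at hv2
            obtain ⟨p, hp, q, hq, hpq⟩ := Submodule.mem_sup.mp hv2
            obtain ⟨w, hw, hwq⟩ := hq
            rw [LinearMap.toSpanSingleton_apply] at hwq
            have hzT : (w, p) ∈ T := by
              rw [hT]
              refine ⟨⟨hw, hp⟩, ?_⟩
              simp only
              rw [hwq, add_comm, hpq]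
              exact hv1
            refine ⟨⟨(w, p), hzT⟩, ?_⟩
            simp only [LinearMap.comp_apply, Submodule.subtype_apply, LinearMap.coprod_apply,
              LinearMap.toSpanSingleton_apply, LinearMap.id_apply]
            rw [hwq, add_comm, hpq]
        rw [hrange]
      · have hrange : LinearMap.range ((LinearMap.fst A A V).comp T.subtype) = N j := by
          ext w
          rw [LinearMap.mem_range]
          constructor
          · rintro ⟨z, rfl⟩
            obtain ⟨⟨hz1, hz2⟩, hz3⟩ := (hT z.1).mp z.2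
            refine ⟨hz1, ?_⟩
            rw [SetLike.mem_coe, Submodule.mem_comap, LinearMap.toSpanSingleton_apply]
            have h7 : ((LinearMap.fst A A V).comp T.subtype) z • u =
                (z.1.1 • u + z.1.2) - z.1.2 := by simp
            rw [h7]
            exact Submodule.sub_mem _ (Submodule.mem_sup_left hz3) (Submodule.mem_sup_right hz2)
          · rintro ⟨hw1, hw2⟩
            rw [SetLike.mem_coe, Submodule.mem_comap, LinearMap.toSpanSingleton_apply] at hw2
            obtain ⟨p, hp, q, hq, hpq⟩ := Submodule.mem_sup.mp hw2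
            have hzT : (w, -q) ∈ T := by
              rw [hT]
              refine ⟨⟨hw1, Submodule.neg_mem _ hq⟩, ?_⟩
              simp only
              rw [← hpq, add_neg_cancel_right]
              exact hp
            exact ⟨⟨(w, -q), hzT⟩, rfl⟩
        rw [hrange]
    refine ⟨b + b', y + y', (hby.add h1).congr (Filter.Eventually.of_forall fun j => ?_), ?_⟩
    · exact (key j).symm
    · rw [mul_add]; exact add_le_add hlby h2

end layers

end Vale.Agent.P202
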