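import Vale.Agent.P202.Core

/-!
Chains of submodules and the two layer lemmas, with lengths over the larger ring.
-/

namespace Vale.Agent.P202

open Submodule IsLocalRing

section chain
variable {B : Type*} [CommRing B] [IsLocalRing B] {V : Type*} [AddCommGroup V] [Module B V]

/-- induction along chains of submodules with simple steps. -/
theorem chain_inductionB {W : Submodule B V} {P : ℕ → Submodule B V → Prop} (h0 : P 0 W)
    (hs : ∀ (n : ℕ) (V'' : Submodule B V) (u : V), W ≤ V'' → u ∉ V'' →
      (∀ r ∈ maximalIdeal B, r • u ∈ V'') → P n V'' → P (n + 1) (V'' ⊔ span B {u})) :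
    ∀ (n : ℕ) (V' : Submodule B V), W ≤ V' → rl W V' = (n : ℕ∞) → P n V' := by
  intro n
  induction n with
  | zero =>
    intro V' hV' hn
    have : V' ≤ W := rl_eq_zero_iff.mp (by simpa using hn)
    rw [le_antisymm this hV']
    exact h0
  | succ n ih =>
    intro V' hV' hn
    have hfinite : ∀ (k : ℕ) (V'' : Submodule B V), W ≤ V'' → V'' ≤ V' → rl W V'' = (k : ℕ∞) →
        V'' ≠ V' → k ≤ n := by
      intro k V'' h1 h2 h3 h4
      have h5 := rl_add h1 h2
      rw [hn, h3] at h5
      have h6 : rl V'' V' ≠ 0 := fun h => h4 (le_antisymm h2 (rl_eq_zero_iff.mp h))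
      have h7 : 1 ≤ rl V'' V' := Order.one_le_iff_ne_zero.mpr h6
      have h8 : (k : ℕ∞) + 1 ≤ ((n + 1 : ℕ) : ℕ∞) := by
        rw [h5]; gcongr
      have h9 : k + 1 ≤ n + 1 := by exact_mod_cast h8
      omega
    have hne : W ≠ V' := by
      rintro rfl
      rw [rl_self] at hn
      have : (0 : ℕ) = n + 1 := by exact_mod_cast hn
      omega
    classical
    obtain ⟨V'', h1, h2, h3, h4⟩ := Nat.findGreatest_spec (P := fun k => ∃ V'' : Submodule B V,
      W ≤ V'' ∧ V'' ≤ V' ∧ rl W V'' = (k : ℕ∞) ∧ V'' ≠ V') (m := 0) (n := n) (Nat.zero_le _)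
      ⟨W, le_rfl, hV', by simp, hne⟩
    set k := Nat.findGreatest (fun k => ∃ V'' : Submodule B V,
      W ≤ V'' ∧ V'' ≤ V' ∧ rl W V'' = (k : ℕ∞) ∧ V'' ≠ V') n with hk
    -- maximality
    have hmax : ∀ u ∈ V', u ∉ V'' → V'' ⊔ span B {u} = V' := by
      intro u hu1 hu2
      by_contra hcon
      have hle : V'' ⊔ span B {u} ≤ V' := sup_le h2 (by rwa [span_singleton_le_iff_mem])
      have hle2 : rl W (V'' ⊔ span B {u}) ≤ ((n + 1 : ℕ) : ℕ∞) := by
        rw [← hn]; exact rl_mono_right hle
      obtain ⟨k', hk'⟩ := ENat.ne_top_iff_exists.mp (ne_top_of_le_ne_top (ENat.natCast_ne_top _) hle2)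
      have h5 := hfinite k' _ (h1.trans le_sup_left) hle hk'.symm hcon
      have h6 := Nat.le_findGreatest (P := fun k => ∃ V'' : Submodule B V,
        W ≤ V'' ∧ V'' ≤ V' ∧ rl W V'' = (k : ℕ∞) ∧ V'' ≠ V') h5
        ⟨_, h1.trans le_sup_left, hle, hk'.symm, hcon⟩
      have h7 := rl_add h1 (le_sup_left : V'' ≤ V'' ⊔ span B {u})
      rw [h3, ← hk'] at h7
      have h8 : rl V'' (V'' ⊔ span B {u}) ≠ 0 := by
        intro h
        exact hu2 (rl_eq_zero_iff.mp h (Submodule.mem_sup_right (mem_span_singleton_self u)))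
      have h9 : 1 ≤ rl V'' (V'' ⊔ span B {u}) := Order.one_le_iff_ne_zero.mpr h8
      have h10 : ((k + 1 : ℕ) : ℕ∞) ≤ (k' : ℕ∞) := by
        rw [h7]; push_cast; gcongr
      have h11 : k + 1 ≤ k' := by exact_mod_cast h10
      omega
    obtain ⟨u, hu1, hu2⟩ : ∃ u ∈ V', u ∉ V'' := by
      by_contra hcon
      push Not at hcon
      exact h4 (le_antisymm h2 hcon)
    have hnu : ∀ r ∈ maximalIdeal B, r • u ∈ V'' := by
      intro r hr
      by_contra hcon
      have h5 := hmax (r • u) (V'.smul_mem r hu1) hcon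
      have h6 : u ∈ V'' ⊔ span B {r • u} := by rw [h5]; exact hu1
      obtain ⟨v, hv, z, hz, hvz⟩ := Submodule.mem_sup.mp h6
      obtain ⟨b, rfl⟩ := Submodule.mem_span_singleton.mp hz
      have h7 : (1 - b * r) • u ∈ V'' := by
        have : (1 - b * r) • u = v := by
          rw [sub_smul, one_smul, mul_smul]
          nth_rewrite 1 [← hvz]
          abel
        rw [this]; exact hv
      have h8 : IsUnit (1 - b * r) := by
        by_contra h9
        have h10 : (1 - b * r) ∈ maximalIdeal B := h9
        have h11 : (1 : B) ∈ maximalIdeal B := by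
          have h12 := Ideal.add_mem _ h10 (Ideal.mul_mem_left _ b hr)
          rwa [sub_add_cancel] at h12
        exact (Ideal.ne_top_iff_one _).mp (IsLocalRing.maximalIdeal.isMaximal B).ne_top h11
      obtain ⟨c, hc⟩ := h8
      apply hu2
      have h9 : u = (↑c⁻¹ : B) • ((1 - b * r) • u) := by
        rw [← hc, smul_smul, Units.inv_mul, one_smul]
      rw [h9]
      exact V''.smul_mem _ h7
    have heq := hmax u hu1 hu2
    have hkn : k = n := by
      have h5 := rl_add h1 h2
      have h6 : rl V'' V' = 1 := by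
        rw [← heq]
        exact rl_sup_span_eq_one (maximalIdeal B) hu2 hnu
      rw [hn, h3, h6] at h5
      have : n + 1 = k + 1 := by exact_mod_cast h5
      omega
    rw [← heq]
    apply hs n V'' u h1 hu2 hnu
    exact ih V'' h1 (by rw [h3, hkn])

end chain

section defs
variable {B : Type*} [CommRing B] {V : Type*} [AddCommGroup V] [Module B V]

/-- consequence of flatness used for the pair `I ≤ I'`. -/
def FlatLike (m n : Ideal B) (V : Type*) [AddCommGroup V] [Module B V] (I I' : Ideal B) : Prop :=
  ∀ (W : Submodule B V) (u : V), m • (⊤ : Submodule B V) ≤ W → u ∉ W →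
    (∀ r ∈ n, r • u ∈ W) → ∀ w ∈ I', w • u ∈ I' • W ⊔ I • (⊤ : Submodule B V) →
      w ∈ I ⊔ n * I'

/-- subfiltrations. -/
structure SubFilB (m n : Ideal B) (H P : ℕ → Ideal B) : Prop where
  le : ∀ j, P j ≤ H j
  ge : ∀ j, H (j + 1) ⊔ n * H j ≤ P j
  smul : ∀ j, m * P j ≤ P (j + 1)

/-- slope bounds. -/
def PrB (m n : Ideal B) (H : ℕ → Ideal B) (lo hi : ℤ) : Prop :=
  ∀ P : ℕ → Ideal B, SubFilB m n H P → ∃ a x b y : ℤ,
    EvLin (fun j => rl (P j) (H j)) a x ∧ EvLin (fun j => rl (H (j + 1) ⊔ n * H j) (P j)) b y ∧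
    lo * a ≤ x ∧ y ≤ hi * b

end defs

section layers
variable {B : Type*} [CommRing B] [IsLocalRing B] {V : Type*} [AddCommGroup V] [Module B V]

/-- quotient layer lemma. -/
theorem quot_layerB (m : Ideal B) {H : ℕ → Ideal B} (hanti : ∀ j, H (j + 1) ≤ H j)
    (hmH : ∀ j, m * H j ≤ H (j + 1)) {l hi : ℤ} (hPr : PrB m (maximalIdeal B) H l hi)
    {W : Submodule B V} (K : ℕ → Submodule B V)
    (hK : ∀ j, m • K j ≤ K (j + 1))
    (hGW : ∀ j, H j • W ≤ H (j + 1) • (⊤ : Submodule B V) ⊔ K j) :
    ∀ (n : ℕ) (V' : Submodule B V), W ≤ V' → rl W V' = (n : ℕ∞) →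
      ∃ a x : ℤ, EvLin (fun j => rl (H (j + 1) • (⊤ : Submodule B V) ⊔ K j)
        (H j • V' ⊔ (H (j + 1) • (⊤ : Submodule B V) ⊔ K j))) a x ∧ l * a ≤ x := by
  refine chain_inductionB (P := fun _ V' => ∃ a x : ℤ,
    EvLin (fun j => rl (H (j + 1) • (⊤ : Submodule B V) ⊔ K j)
        (H j • V' ⊔ (H (j + 1) • (⊤ : Submodule B V) ⊔ K j))) a x ∧ l * a ≤ x) ?_ ?_
  · refine ⟨0, 0, evLin_zero.congr (Filter.Eventually.of_forall fun j => ?_), by simp⟩
    rw [eq_comm, rl_eq_zero_iff]
    exact sup_le (hGW j) le_rfl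
  · intro n V'' u hWV'' hu hnu ⟨a, x, hax, hlax⟩
    set R : ℕ → Submodule B V := fun j => H j • V'' ⊔ (H (j + 1) • (⊤ : Submodule B V) ⊔ K j)
      with hR
    -- the subfiltration
    let P : ℕ → Ideal B := fun j => H j ⊓ (R j).comap (LinearMap.toSpanSingleton B V u)
    have hP : SubFilB m (maximalIdeal B) H P := by
      refine ⟨fun j => inf_le_left, fun j => ?_, fun j => ?_⟩
      · refine sup_le ?_ ?_
        · intro w hw
          refine ⟨hanti j hw, ?_⟩
          rw [SetLike.mem_coe, Submodule.mem_comap, LinearMap.toSpanSingleton_apply]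
          exact Submodule.mem_sup_right (Submodule.mem_sup_left
            (Submodule.smul_mem_smul hw Submodule.mem_top))
        · refine le_inf Ideal.mul_le_right ?_
          rw [Ideal.mul_le]
          intro r hr s hs
          rw [Submodule.mem_comap, LinearMap.toSpanSingleton_apply, mul_comm, mul_smul]
          exact Submodule.mem_sup_left (Submodule.smul_mem_smul hs (hnu r hr))
      · rw [Ideal.mul_le]
        intro r hr w hw
        refine ⟨hmH j (Ideal.mul_mem_mul hr hw.1), ?_⟩
        have h2 := hw.2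
        rw [SetLike.mem_coe, Submodule.mem_comap, LinearMap.toSpanSingleton_apply] at h2 ⊢
        rw [mul_smul]
        have h3 : r • (w • u) ∈ m • R j := Submodule.smul_mem_smul hr h2
        refine (?_ : m • R j ≤ R (j + 1)) h3
        simp only [hR, Submodule.smul_sup]
        refine sup_le_sup ?_ (sup_le_sup ?_ (hK j))
        · rw [← Submodule.mul_smul]
          exact Submodule.smul_mono_left (hmH j)
        · rw [← Submodule.mul_smul]
          exact Submodule.smul_mono_left (hmH (j + 1))
    obtain ⟨a', x', -, -, h1, -, h2, -⟩ := hPr P hP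
    have key : ∀ j, rl (H (j + 1) • (⊤ : Submodule B V) ⊔ K j)
        (H j • (V'' ⊔ span B {u}) ⊔ (H (j + 1) • (⊤ : Submodule B V) ⊔ K j)) =
        rl (H (j + 1) • (⊤ : Submodule B V) ⊔ K j) (R j) + rl (P j) (H j) := by
      intro j
      have hle1 : H (j + 1) • (⊤ : Submodule B V) ⊔ K j ≤ R j := le_sup_right
      have hle2 : R j ≤ H j • (V'' ⊔ span B {u}) ⊔ (H (j + 1) • (⊤ : Submodule B V) ⊔ K j) :=
        sup_le_sup_right (Submodule.smul_mono le_rfl le_sup_left) _
      rw [rl_add hle1 hle2]
      congr 1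
      have e := rl_eq_of_corr (E := ↥(H j))
        ((LinearMap.toSpanSingleton B V u).comp (H j).subtype) (H j).subtype
        (K₁ := R j) (N₁ := H j • (V'' ⊔ span B {u}) ⊔ (H (j + 1) • (⊤ : Submodule B V) ⊔ K j))
        (K₂ := P j) (N₂ := H j) ?_ ?_ ?_
      · exact e
      · ext z
        simp only [Submodule.mem_comap, LinearMap.comp_apply, Submodule.subtype_apply]
        constructor
        · intro h; exact ⟨z.2, h⟩
        · intro h; exact h.2
      · rw [Submodule.smul_sup, LinearMap.range_comp, Submodule.range_subtype,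
          ← smul_span_singleton_eq]
        apply le_antisymm
        · refine sup_le le_sup_left (sup_le (sup_le ?_ le_sup_right) (le_sup_of_le_left hle1))
          exact le_sup_of_le_left le_sup_left
        · refine sup_le le_sup_left ?_
          exact le_sup_of_le_right (le_sup_of_le_left le_sup_right)
      · rw [Submodule.range_subtype]
    refine ⟨a + a', x + x', (hax.add h1).congr (Filter.Eventually.of_forall fun j => ?_), ?_⟩
    · exact (key j).symm
    · rw [mul_add]; exact add_le_add hlax h2

/-- sub layer lemma. -/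
theorem sub_layerB (m : Ideal B) {H : ℕ → Ideal B} (hanti : ∀ j, H (j + 1) ≤ H j)
    (hmH : ∀ j, m * H j ≤ H (j + 1)) (hfl : ∀ j, FlatLike m (maximalIdeal B) V (H (j + 1)) (H j))
    {lo h : ℤ} (hPr : PrB m (maximalIdeal B) H lo h) (Y : ℕ → Submodule B V)
    (hY : ∀ j, m • Y j ≤ Y (j + 1)) (hGY : ∀ j, H (j + 1) • (⊤ : Submodule B V) ≤ Y j) :
    ∀ (n : ℕ) (V' : Submodule B V), m • (⊤ : Submodule B V) ≤ V' →
      rl (m • (⊤ : Submodule B V)) V' = (n : ℕ∞) →
      ∃ b y : ℤ, EvLin (fun j => rl (H (j + 1) • (⊤ : Submodule B V))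
        (Y j ⊓ (H j • V' ⊔ H (j + 1) • (⊤ : Submodule B V)))) b y ∧ y ≤ h * b := by
  refine chain_inductionB (P := fun _ V' => ∃ b y : ℤ,
    EvLin (fun j => rl (H (j + 1) • (⊤ : Submodule B V))
        (Y j ⊓ (H j • V' ⊔ H (j + 1) • (⊤ : Submodule B V)))) b y ∧ y ≤ h * b) ?_ ?_
  · refine ⟨0, 0, evLin_zero.congr (Filter.Eventually.of_forall fun j => ?_), by simp⟩
    rw [eq_comm, rl_eq_zero_iff]
    refine inf_le_right.trans (sup_le ?_ le_rfl)
    rw [← Submodule.mul_smul, mul_comm]
    exact Submodule.smul_mono_left (hmH j)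
  · intro n V'' u hWV'' hu hnu ⟨b, y, hby, hlby⟩
    set IV : ℕ → Submodule B V := fun j => H (j + 1) • (⊤ : Submodule B V) with hIV
    -- the subfiltration
    let N : ℕ → Ideal B := fun j =>
      H j ⊓ (Y j ⊔ (H j • V'' ⊔ IV j)).comap (LinearMap.toSpanSingleton B V u)
    have hN : SubFilB m (maximalIdeal B) H N := by
      refine ⟨fun j => inf_le_left, fun j => ?_, fun j => ?_⟩
      · refine sup_le ?_ ?_
        · intro w hw
          refine ⟨hanti j hw, ?_⟩
          rw [SetLike.mem_coe, Submodule.mem_comap, LinearMap.toSpanSingleton_apply]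
          exact Submodule.mem_sup_left (hGY j (Submodule.smul_mem_smul hw Submodule.mem_top))
        · refine le_inf Ideal.mul_le_right ?_
          rw [Ideal.mul_le]
          intro r hr s hs
          rw [Submodule.mem_comap, LinearMap.toSpanSingleton_apply, mul_comm, mul_smul]
          exact Submodule.mem_sup_right (Submodule.mem_sup_left
            (Submodule.smul_mem_smul hs (hnu r hr)))
      · rw [Ideal.mul_le]
        intro r hr w hw
        refine ⟨hmH j (Ideal.mul_mem_mul hr hw.1), ?_⟩
        have h2 := hw.2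
        rw [SetLike.mem_coe, Submodule.mem_comap, LinearMap.toSpanSingleton_apply] at h2 ⊢
        rw [mul_smul]
        have h3 : r • (w • u) ∈ m • (Y j ⊔ (H j • V'' ⊔ IV j)) := Submodule.smul_mem_smul hr h2
        refine (?_ : m • (Y j ⊔ (H j • V'' ⊔ IV j)) ≤ _) h3
        simp only [Submodule.smul_sup]
        refine sup_le_sup (hY j) (sup_le_sup ?_ ?_)
        · rw [← Submodule.mul_smul]
          exact Submodule.smul_mono_left (hmH j)
        · rw [hIV]
          simp only
          rw [← Submodule.mul_smul]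
          exact Submodule.smul_mono_left (hmH (j + 1))
    obtain ⟨-, -, b', y', -, h1, -, h2⟩ := hPr N hN
    have key : ∀ j, rl (IV j) (Y j ⊓ (H j • (V'' ⊔ span B {u}) ⊔ IV j)) =
        rl (IV j) (Y j ⊓ (H j • V'' ⊔ IV j)) + rl (H (j + 1) ⊔ maximalIdeal B * H j) (N j) := by
      intro j
      have hle1 : IV j ≤ Y j ⊓ (H j • V'' ⊔ IV j) := le_inf (hGY j) le_sup_right
      have hle2 : Y j ⊓ (H j • V'' ⊔ IV j) ≤ Y j ⊓ (H j • (V'' ⊔ span B {u}) ⊔ IV j) :=
        inf_le_inf_left _ (sup_le_sup_right (Submodule.smul_mono le_rfl le_sup_left) _)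
      rw [rl_add hle1 hle2]
      congr 1
      -- correspondence module
      let T : Submodule B (B × V) :=
        (Submodule.prod (H j) (H j • V'' ⊔ IV j)) ⊓
          (Y j).comap ((LinearMap.toSpanSingleton B V u).coprod LinearMap.id)
      have hT : ∀ z : B × V, z ∈ T ↔ (z.1 ∈ H j ∧ z.2 ∈ H j • V'' ⊔ IV j) ∧
          z.1 • u + z.2 ∈ Y j := by
        intro z
        simp only [T, Submodule.mem_inf, Submodule.mem_prod, Submodule.mem_comap,
          LinearMap.coprod_apply, LinearMap.toSpanSingleton_apply, LinearMap.id_apply]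
      have e := rl_eq_of_corr (E := ↥T)
        (((LinearMap.toSpanSingleton B V u).coprod LinearMap.id).comp T.subtype)
        ((LinearMap.fst B B V).comp T.subtype)
        (K₁ := Y j ⊓ (H j • V'' ⊔ IV j))
        (N₁ := Y j ⊓ (H j • (V'' ⊔ span B {u}) ⊔ IV j))
        (K₂ := H (j + 1) ⊔ maximalIdeal B * H j) (N₂ := N j) ?_ ?_ ?_
      · exact e
      · ext z
        obtain ⟨⟨hz1, hz2⟩, hz3⟩ := (hT z.1).mp z.2
        simp only [Submodule.mem_comap, LinearMap.comp_apply, Submodule.subtype_apply,
          LinearMap.coprod_apply, LinearMap.toSpanSingleton_apply, LinearMap.id_apply,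
          LinearMap.fst_apply, Submodule.mem_inf]
        constructor
        · rintro ⟨-, h4⟩
          have h5 : z.1.1 • u ∈ H j • V'' ⊔ IV j := by
            have := Submodule.sub_mem _ h4 hz2
            simpa using this
          exact hfl j V'' u hWV'' hu hnu _ hz1 h5
        · intro h4
          refine ⟨hz3, Submodule.add_mem _ ?_ hz2⟩
          have h5 : H (j + 1) ⊔ maximalIdeal B * H j ≤
              (H j • V'' ⊔ IV j).comap (LinearMap.toSpanSingleton B V u) := by
            refine sup_le ?_ ?_
            · intro w hw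
              rw [Submodule.mem_comap, LinearMap.toSpanSingleton_apply]
              exact Submodule.mem_sup_right (Submodule.smul_mem_smul hw Submodule.mem_top)
            · rw [Ideal.mul_le]
              intro r hr s hs
              rw [Submodule.mem_comap, LinearMap.toSpanSingleton_apply, mul_comm, mul_smul]
              exact Submodule.mem_sup_left (Submodule.smul_mem_smul hs (hnu r hr))
          exact h5 h4
      · have hrange : LinearMap.range
            (((LinearMap.toSpanSingleton B V u).coprod LinearMap.id).comp T.subtype) =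
            Y j ⊓ (H j • (V'' ⊔ span B {u}) ⊔ IV j) := by
          ext v
          rw [LinearMap.mem_range]
          constructor
          · rintro ⟨z, rfl⟩
            obtain ⟨⟨hz1, hz2⟩, hz3⟩ := (hT z.1).mp z.2
            simp only [LinearMap.comp_apply, Submodule.subtype_apply, LinearMap.coprod_apply,
              LinearMap.toSpanSingleton_apply, LinearMap.id_apply]
            refine ⟨hz3, ?_⟩
            refine Submodule.add_mem _ (Submodule.mem_sup_left ?_) ?_
            · exact Submodule.smul_mem_smul hz1 (Submodule.mem_sup_right (mem_span_singleton_self u))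
            · have h8 : H j • V'' ⊔ IV j ≤ H j • (V'' ⊔ span B {u}) ⊔ IV j :=
                sup_le_sup_right (Submodule.smul_mono le_rfl le_sup_left) _
              exact h8 hz2
          · rintro ⟨hv1, hv2⟩
            rw [SetLike.mem_coe, Submodule.smul_sup, smul_span_singleton_eq, sup_right_comm] at hv2
            obtain ⟨p, hp, q, hq, hpq⟩ := Submodule.mem_sup.mp hv2
            obtain ⟨w, hw, hwq⟩ := hq
            rw [LinearMap.toSpanSingleton_apply] at hwq
            have hzT : (w, p) ∈ T := by
              rw [hT]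
              refine ⟨⟨hw, hp⟩, ?_⟩
              simp only
              rw [hwq, add_comm, hpq]
              exact hv1
            refine ⟨⟨(w, p), hzT⟩, ?_⟩
            simp only [LinearMap.comp_apply, Submodule.subtype_apply, LinearMap.coprod_apply,
              LinearMap.toSpanSingleton_apply, LinearMap.id_apply]
            rw [hwq, add_comm, hpq]
        rw [hrange]
      · have hrange : LinearMap.range ((LinearMap.fst B B V).comp T.subtype) = N j := by
          ext w
          rw [LinearMap.mem_range]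
          constructor
          · rintro ⟨z, rfl⟩
            obtain ⟨⟨hz1, hz2⟩, hz3⟩ := (hT z.1).mp z.2
            refine ⟨hz1, ?_⟩
            rw [SetLike.mem_coe, Submodule.mem_comap, LinearMap.toSpanSingleton_apply]
            have h7 : ((LinearMap.fst B B V).comp T.subtype) z • u =
                (z.1.1 • u + z.1.2) - z.1.2 := by simp
            rw [h7]
            exact Submodule.sub_mem _ (Submodule.mem_sup_left hz3) (Submodule.mem_sup_right hz2)
          · rintro ⟨hw1, hw2⟩
            rw [SetLike.mem_coe, Submodule.mem_comap, LinearMap.toSpanSingleton_apply] at hw2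
            obtain ⟨p, hp, q, hq, hpq⟩ := Submodule.mem_sup.mp hw2
            have hzT : (w, -q) ∈ T := by
              rw [hT]
              refine ⟨⟨hw1, Submodule.neg_mem _ hq⟩, ?_⟩
              simp only
              rw [← hpq, add_neg_cancel_right]
              exact hp
            exact ⟨⟨(w, -q), hzT⟩, rfl⟩
        rw [hrange]
    refine ⟨b + b', y + y', (hby.add h1).congr (Filter.Eventually.of_forall fun j => ?_), ?_⟩
    · exact (key j).symm
    · rw [mul_add]; exact add_le_add hlby h2

/-- exact count. -/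
theorem rl_smul_chainB (m : Ideal B) {I I' : Ideal B}
    (hfl : FlatLike m (maximalIdeal B) V I I') {W : Submodule B V}
    (hW : m • (⊤ : Submodule B V) ≤ W) :
    ∀ (n : ℕ) (V' : Submodule B V), W ≤ V' → rl W V' = (n : ℕ∞) →
      rl (I' • W ⊔ I • (⊤ : Submodule B V)) (I' • V' ⊔ I • (⊤ : Submodule B V)) =
        (n : ℕ∞) * rl (I ⊔ maximalIdeal B * I') I' := by
  refine chain_inductionB (P := fun n V' =>
    rl (I' • W ⊔ I • (⊤ : Submodule B V)) (I' • V' ⊔ I • (⊤ : Submodule B V)) =
        (n : ℕ∞) * rl (I ⊔ maximalIdeal B * I') I') ?_ ?_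
  · simp
  · intro n V'' u hWV'' hu hnu ih
    have hle1 : I' • W ⊔ I • (⊤ : Submodule B V) ≤ I' • V'' ⊔ I • (⊤ : Submodule B V) :=
      sup_le_sup_right (Submodule.smul_mono le_rfl hWV'') _
    have hle2 : I' • V'' ⊔ I • (⊤ : Submodule B V) ≤
        I' • (V'' ⊔ span B {u}) ⊔ I • (⊤ : Submodule B V) :=
      sup_le_sup_right (Submodule.smul_mono le_rfl le_sup_left) _
    rw [rl_add hle1 hle2, ih]
    push_cast
    rw [add_mul, one_mul]
    congr 1
    have e := rl_eq_of_corr (E := ↥I')
      ((LinearMap.toSpanSingleton B V u).comp I'.subtype) I'.subtype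
      (K₁ := I' • V'' ⊔ I • (⊤ : Submodule B V))
      (N₁ := I' • (V'' ⊔ span B {u}) ⊔ I • (⊤ : Submodule B V))
      (K₂ := I ⊔ maximalIdeal B * I') (N₂ := I') ?_ ?_ ?_
    · exact e
    · ext z
      simp only [Submodule.mem_comap, LinearMap.comp_apply, Submodule.subtype_apply,
        LinearMap.toSpanSingleton_apply]
      constructor
      · intro h
        exact hfl V'' u (hW.trans hWV'') hu hnu _ z.2 h
      · intro h
        have h5 : I ⊔ maximalIdeal B * I' ≤
            (I' • V'' ⊔ I • (⊤ : Submodule B V)).comap (LinearMap.toSpanSingleton B V u) := by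
          refine sup_le ?_ ?_
          · intro w hw
            rw [Submodule.mem_comap, LinearMap.toSpanSingleton_apply]
            exact Submodule.mem_sup_right (Submodule.smul_mem_smul hw Submodule.mem_top)
          · rw [Ideal.mul_le]
            intro r hr s hs
            rw [Submodule.mem_comap, LinearMap.toSpanSingleton_apply, mul_comm, mul_smul]
            exact Submodule.mem_sup_left (Submodule.smul_mem_smul hs (hnu r hr))
        exact h5 h
    · rw [LinearMap.range_comp, Submodule.range_subtype, ← smul_span_singleton_eq,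
        Submodule.smul_sup]
      apply le_antisymm
      · refine sup_le le_sup_left (sup_le (sup_le ?_ le_sup_right) ?_)
        · exact le_sup_of_le_left le_sup_left
        · exact le_sup_of_le_left le_sup_right
      · refine sup_le le_sup_left ?_
        exact le_sup_of_le_right (le_sup_of_le_left le_sup_right)
    · rw [Submodule.range_subtype]

/-- kernels of `y1, y2` on `I' V / I V`. -/
theorem ker_layerB (m : Ideal B) {I I' : Ideal B}
    (hfl : FlatLike m (maximalIdeal B) (V × V) I I') (y1 y2 : V →ₗ[B] V)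
    (hfin : rl (annPart m y1 y2) ⊤ ≠ ⊤) {v : V} (hv : v ∈ I' • (⊤ : Submodule B V))
    (h1 : y1 v ∈ I • (⊤ : Submodule B V)) (h2 : y2 v ∈ I • (⊤ : Submodule B V)) :
    v ∈ I' • annPart m y1 y2 ⊔ I • (⊤ : Submodule B V) := by
  obtain ⟨n, hn⟩ := ENat.ne_top_iff_exists.mp hfin
  have key := chain_inductionB (W := annPart m y1 y2) (P := fun _ V' =>
    ∀ v ∈ I' • V' ⊔ I • (⊤ : Submodule B V), y1 v ∈ I • (⊤ : Submodule B V) →
      y2 v ∈ I • (⊤ : Submodule B V) → v ∈ I' • annPart m y1 y2 ⊔ I • (⊤ : Submodule B V))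
    (fun v hv _ _ => hv) ?_ n ⊤ le_top hn.symm
  · exact key v (Submodule.mem_sup_left hv) h1 h2
  · intro n V'' u hWV'' hu hnu ih v hv h1 h2
    rw [Submodule.smul_sup, sup_right_comm] at hv
    obtain ⟨v'', hv'', q, hq, hpq⟩ := Submodule.mem_sup.mp hv
    rw [smul_span_singleton_eq] at hq
    obtain ⟨w, hw, rfl⟩ := hq
    rw [LinearMap.toSpanSingleton_apply] at hpq
    let Y : V →ₗ[B] V × V := y1.prod y2
    have hYv : Y v ∈ I • (⊤ : Submodule B (V × V)) := mem_smul_top_prod h1 h2
    have hYv'' : Y v'' ∈ I' • Submodule.map Y V'' ⊔ I • (⊤ : Submodule B (V × V)) := by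
      obtain ⟨p, hp, r, hr, rfl⟩ := Submodule.mem_sup.mp hv''
      rw [map_add]
      refine Submodule.add_mem _ (Submodule.mem_sup_left ?_) (Submodule.mem_sup_right ?_)
      · rw [← Submodule.map_smul'']
        exact Submodule.mem_map_of_mem hp
      · have : Y r ∈ Submodule.map Y (I • ⊤) := Submodule.mem_map_of_mem hr
        rw [Submodule.map_smul''] at this
        exact Submodule.smul_mono le_rfl le_top this
    have hYu : Y u ∉ Submodule.map Y V'' ⊔ m • (⊤ : Submodule B (V × V)) := by
      intro hmem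
      obtain ⟨p, hp, r, hr, hpr⟩ := Submodule.mem_sup.mp hmem
      obtain ⟨v₀, hv₀, rfl⟩ := hp
      have h3 : Y (u - v₀) = r := by rw [map_sub, ← hpr]; abel
      have h4 : u - v₀ ∈ annPart m y1 y2 := by
        refine ⟨?_, ?_⟩
        · have := fst_mem_smul_top hr
          rw [← h3] at this
          exact this
        · have := snd_mem_smul_top hr
          rw [← h3] at this
          exact this
      apply hu
      have h5 := Submodule.add_mem _ (hWV'' h4) hv₀
      simpa using h5
    have hw' : w ∈ I ⊔ maximalIdeal B * I' := by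
      refine hfl (Submodule.map Y V'' ⊔ m • (⊤ : Submodule B (V × V))) (Y u) le_sup_right hYu
        ?_ w hw ?_
      · intro r hr
        rw [← map_smul]
        exact Submodule.mem_sup_left (Submodule.mem_map_of_mem (hnu r hr))
      have h6 : w • Y u = Y v - Y v'' := by
        rw [← hpq, map_add, map_smul]; abel
      rw [h6]
      refine Submodule.sub_mem _ (Submodule.mem_sup_right hYv) ?_
      have h7 : I' • Submodule.map Y V'' ⊔ I • (⊤ : Submodule B (V × V)) ≤
          I' • (Submodule.map Y V'' ⊔ m • (⊤ : Submodule B (V × V))) ⊔ I • ⊤ :=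
        sup_le_sup_right (Submodule.smul_mono le_rfl le_sup_left) _
      exact h7 hYv''
    apply ih v _ h1 h2
    rw [← hpq]
    refine Submodule.add_mem _ hv'' ?_
    have h5 : I ⊔ maximalIdeal B * I' ≤
        (I' • V'' ⊔ I • (⊤ : Submodule B V)).comap (LinearMap.toSpanSingleton B V u) := by
      refine sup_le ?_ ?_
      · intro w hw
        rw [Submodule.mem_comap, LinearMap.toSpanSingleton_apply]
        exact Submodule.mem_sup_right (Submodule.smul_mem_smul hw Submodule.mem_top)
      · rw [Ideal.mul_le]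
        intro r hr s hs
        rw [Submodule.mem_comap, LinearMap.toSpanSingleton_apply, mul_comm, mul_smul]
        exact Submodule.mem_sup_left (Submodule.smul_mem_smul hs (hnu r hr))
    exact h5 hw'

end layers

end Vale.Agent.P202
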