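import Vale.Agent.P202.Avoid

/-!
Cutting a Noetherian local ring by generic elements of a primary ideal.
-/

set_option linter.unusedSectionVars false

namespace Vale.Agent.P202

open Ideal IsLocalRing Finset

universe v

lemma emin_ne_top {A σ : Type*} [CommRing A] [Fintype σ] [LinearOrder σ] {y : σ → A}
    (h : ell (Ideal.span (Set.range y)) ≠ ⊤) : emin y ≠ ⊤ := by
  rw [← gp_zero_eq] at h
  exact ne_top_of_le_ne_top h (emin_le y 0)

lemma errB_ne_top {A σ : Type*} [CommRing A] [Fintype σ] [LinearOrder σ] {y : σ → A}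
    (h : ell (Ideal.span (Set.range y)) ≠ ⊤) : errB y ≠ ⊤ := by
  rw [← gp_zero_eq] at h
  obtain ⟨G, hG⟩ := ENat.ne_top_iff_exists.mp h
  rw [errB, ← hG]
  exact_mod_cast ENat.natCast_ne_top _

lemma emin_le_of_span_eq {A σ : Type*} [CommRing A] [Fintype σ] [LinearOrder σ]
    (hσ : 0 < Fintype.card σ) (y y' : σ → A)
    (h : Ideal.span (Set.range y) = Ideal.span (Set.range y'))
    (hfin : ell (Ideal.span (Set.range y)) ≠ ⊤) : emin y ≤ emin y' := by
  have hfin' : ell (Ideal.span (Set.range y')) ≠ ⊤ := by rwa [← h]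
  obtain ⟨e, he⟩ := ENat.ne_top_iff_exists.mp (emin_ne_top hfin)
  obtain ⟨e', he'⟩ := ENat.ne_top_iff_exists.mp (emin_ne_top hfin')
  obtain ⟨B, hB⟩ := ENat.ne_top_iff_exists.mp (errB_ne_top hfin')
  have := le_of_forall_tri_le hσ e e' B 0 fun n _ => by
    have h1 := emin_mul_card_le y n
    have h2 := ell_pow_le y' n
    rw [← h] at h2
    have h3 := h1.trans h2
    rw [← he, ← he', ← hB] at h3
    rw [add_zero, mul_comm e']
    exact_mod_cast h3
  rw [← he, ← he']
  exact_mod_cast this

section

variable {A : Type*} [CommRing A] [IsLocalRing A] [IsNoetherianRing A] [Infinite (ResidueField A)]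

/-- choice of a filter-regular element in a primary ideal. -/
theorem exists_filter_regular {δ : ℕ} (y : Fin (δ + 1) → A) (hyn : ∀ i, y i ∈ maximalIdeal A)
    (hy : ell (Ideal.span (Set.range y)) ≠ ⊤) :
    ∃ (z : A) (y' : Fin δ → A), z ∈ maximalIdeal A ∧ (∀ i, y' i ∈ maximalIdeal A) ∧
      Ideal.span (Set.range (Fin.cons z y' : Fin (δ + 1) → A)) = Ideal.span (Set.range y) ∧
      ∀ i, Module.length A (col (⊥ : Ideal A) (z ^ i)) ≠ ⊤ := by
  classical
  obtain ⟨s, hs⟩ := exists_pow_le_of_ell_ne_top hy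
  let φ : (Fin (δ + 1) → A) →ₗ[A] A := Fintype.linearCombination A y
  have hφ : ∀ c, φ c = ∑ i, c i * y i := by
    intro c
    simp [φ, Fintype.linearCombination_apply]
  have hass : (associatedPrimes A A).Finite := associatedPrimes.finite A A
  let S0 : Finset (Submodule A (Fin (δ + 1) → A)) :=
    insert (Submodule.comap (LinearMap.proj 0) (maximalIdeal A))
      ((hass.toFinset.erase (maximalIdeal A)).image fun P => Submodule.comap φ P)
  have hS0 : ∀ U ∈ S0, U ≠ ⊤ := by
    intro U hU
    rw [Finset.mem_insert, Finset.mem_image] at hU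
    rcases hU with rfl | ⟨P, hP, rfl⟩
    · intro htop
      have h1 : (fun _ => 1 : Fin (δ + 1) → A) ∈
          Submodule.comap (LinearMap.proj 0) (maximalIdeal A) := by rw [htop]; trivial
      have h2 : (1 : A) ∈ maximalIdeal A := h1
      exact (IsLocalRing.maximalIdeal.isMaximal A).ne_top ((Ideal.eq_top_iff_one _).mpr h2)
    · rw [Finset.mem_erase, Set.Finite.mem_toFinset] at hP
      intro htop
      have hPp : Ideal.IsPrime (P : Ideal A) := IsAssociatedPrime.isPrime hP.2
      have h1 : Ideal.span (Set.range y) ≤ P := by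
        rw [Ideal.span_le]
        rintro _ ⟨i, rfl⟩
        have : Pi.single i 1 ∈ Submodule.comap φ P := by rw [htop]; trivial
        rw [Submodule.mem_comap, hφ] at this
        simpa [Pi.single_apply] using this
      have h2 : maximalIdeal A ≤ P := hPp.le_of_pow_le (hs.trans h1)
      exact hP.1 (((IsLocalRing.maximalIdeal.isMaximal A).eq_of_le hPp.ne_top h2).symm)
  obtain ⟨c, hc⟩ := avoid S0 hS0
  have hc0 : IsUnit (c 0) := by
    have := hc _ (Finset.mem_insert_self _ _)
    rw [Submodule.mem_comap, LinearMap.proj_apply] at this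
    by_contra h
    exact this h
  have hcP : ∀ P ∈ associatedPrimes A A, φ c ∈ P → P = maximalIdeal A := by
    intro P hP hmem
    by_contra hne
    refine hc (Submodule.comap φ P) ?_ hmem
    refine Finset.mem_insert_of_mem (Finset.mem_image.mpr ⟨P, ?_, rfl⟩)
    rw [Finset.mem_erase, Set.Finite.mem_toFinset]
    exact ⟨hne, hP⟩
  have hzmem : φ c ∈ Ideal.span (Set.range y) := by
    rw [hφ]
    exact Ideal.sum_mem _ fun i _ => Ideal.mul_mem_left _ _ (Ideal.subset_span ⟨i, rfl⟩)
  have hspan_n : Ideal.span (Set.range y) ≤ maximalIdeal A := by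
    rw [Ideal.span_le]
    rintro _ ⟨i, rfl⟩
    exact hyn i
  refine ⟨φ c, fun i => y i.succ, hspan_n hzmem, fun i => hyn _, ?_, length_col_ne_top hcP⟩
  refine le_antisymm ?_ ?_
  · rw [Ideal.span_le]
    rintro _ ⟨i, rfl⟩
    refine Fin.cases ?_ (fun i => ?_) i
    · simpa using hzmem
    · simpa using (Ideal.subset_span ⟨i.succ, rfl⟩ : y i.succ ∈ Ideal.span (Set.range y))
  · have hsucc : ∀ i : Fin δ, y i.succ ∈
        Ideal.span (Set.range (Fin.cons (φ c) (fun i => y i.succ) : Fin (δ + 1) → A)) := by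
      intro i
      exact Ideal.subset_span ⟨i.succ, by simp⟩
    rw [Ideal.span_le]
    rintro _ ⟨i, rfl⟩
    refine Fin.cases ?_ (fun i => ?_) i
    · have h1 : c 0 * y 0 = φ c - ∑ i : Fin δ, c i.succ * y i.succ := by
        rw [hφ, Fin.sum_univ_succ]; ring
      have h2 : c 0 * y 0 ∈
          Ideal.span (Set.range (Fin.cons (φ c) (fun i => y i.succ) : Fin (δ + 1) → A)) := by
        rw [h1]
        refine Ideal.sub_mem _ (Ideal.subset_span ⟨0, by simp⟩) ?_
        exact Ideal.sum_mem _ fun i _ => Ideal.mul_mem_left _ _ (hsucc i)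
      exact (Ideal.unit_mul_mem_iff_mem _ hc0).mp h2
    · exact hsucc i

end

/-- The bound on lengths after cutting by `j` generic elements. -/
theorem exists_cut (j : ℕ) : ∀ (A : Type v) [CommRing A] [IsLocalRing A] [IsNoetherianRing A]
    [Infinite (ResidueField A)] (δ : ℕ) (_ : 0 < δ) (y : Fin (δ + j) → A)
    (_ : ∀ i, y i ∈ maximalIdeal A) (_ : ell (Ideal.span (Set.range y)) ≠ ⊤),
    ∃ (l : Fin j → A) (B : ℕ), (∀ i, l i ∈ maximalIdeal A) ∧
      ∀ (I : Ideal A) (D : ℕ), Ideal.span (Set.range y) ^ D ≤ I → ∀ t : ℕ, 0 < t →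
        ell (Ideal.span (Set.range l) ⊔ I ^ t) ≤
          ell (Ideal.span (Set.range l) ⊔ I) * (t ^ δ * emin y + B * t ^ (δ - 1)) := by
  induction j with
  | zero =>
    intro A _ _ _ _ δ hδ y hyn hy
    obtain ⟨B, hB⟩ := ENat.ne_top_iff_exists.mp (errB_ne_top hy)
    refine ⟨Fin.elim0, B, fun i => i.elim0, fun I D hD t ht => ?_⟩
    have h1 : Ideal.span (Set.range (Fin.elim0 : Fin 0 → A)) = ⊥ := by
      rw [Ideal.span_eq_bot]
      rintro _ ⟨i, rfl⟩
      exact i.elim0
    rw [h1, bot_sup_eq, bot_sup_eq]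
    have := ell_pow_le_main y I D hD t ht
    rw [← hB, Fintype.card_fin] at this
    push_cast at this
    exact this
  | succ j ih =>
    intro A _ _ _ _ δ hδ y hyn hy
    obtain ⟨z, y', hz, hy'n, hspan, hfr⟩ := exists_filter_regular (δ := δ + j) y hyn hy
    set π := Ideal.Quotient.mk (Ideal.span {z}) with hπ
    have hπs : Function.Surjective π := Ideal.Quotient.mk_surjective
    have hznt : Ideal.span {z} ≠ ⊤ := by
      intro h
      rw [Ideal.span_singleton_eq_top] at h
      exact hz h
    have : Nontrivial (A ⧸ Ideal.span {z}) := Ideal.Quotient.nontrivial_iff.mpr hznt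
    have : IsLocalRing (A ⧸ Ideal.span {z}) := IsLocalRing.of_surjective' π hπs
    have : IsLocalHom π := IsLocalHom.of_surjective π hπs
    have : Infinite (ResidueField (A ⧸ Ideal.span {z})) :=
      Infinite.of_injective (ResidueField.map π) (RingHom.injective _)
    have hfinY : ell (Ideal.span (Set.range (Fin.cons z y' : Fin (δ + j + 1) → A))) ≠ ⊤ := by
      rw [hspan]; exact hy
    have hmap : ∀ a ∈ maximalIdeal A, π a ∈ maximalIdeal (A ⧸ Ideal.span {z}) := fun a ha =>
      (mem_maximalIdeal _).mpr fun h => (mem_maximalIdeal _).mp ha (isUnit_of_map_unit π a h)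
    have hJmap : Ideal.span (Set.range fun i => π (y' i)) = (Ideal.span (Set.range y')).map π := by
      rw [Ideal.map_span]
      congr 1
      ext w
      simp
    have hfin1 : ell (Ideal.span (Set.range fun i => π (y' i))) ≠ ⊤ := by
      rw [hJmap, ell_map_mk]
      have : Ideal.span (Set.range y') ⊔ Ideal.span {z} =
          Ideal.span (Set.range (Fin.cons z y' : Fin (δ + j + 1) → A)) := by
        rw [Fin.range_cons, Ideal.span_insert, sup_comm]
      rw [this]
      exact hfinY
    obtain ⟨l', B, hl', hB⟩ := ih (A ⧸ Ideal.span {z}) δ hδ (fun i => π (y' i))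
      (fun i => hmap _ (hy'n i)) hfin1
    have hle : emin (fun i => π (y' i)) ≤ emin y := by
      refine (emin_quot_le (by omega) z y' hfinY hfr).trans ?_
      exact emin_le_of_span_eq (by simp) _ _ hspan hfinY
    have hlift : ∀ i, ∃ a, π a = l' i := fun i => hπs (l' i)
    choose l0 hl0 using hlift
    have hl0n : ∀ i, l0 i ∈ maximalIdeal A := by
      intro i
      by_contra h
      have h1 : IsUnit (l0 i) := by
        by_contra h2
        exact h h2
      have h2 : IsUnit (l' i) := by
        rw [← hl0]; exact h1.map π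
      exact hl' i h2
    refine ⟨Fin.cons z l0, B, fun i => ?_, fun I D hD t ht => ?_⟩
    · refine Fin.cases ?_ (fun i => ?_) i
      · simpa using hz
      · simpa using hl0n i
    · have hspl : Ideal.span (Set.range (Fin.cons z l0 : Fin (j + 1) → A)) =
          Ideal.span (Set.range l0) ⊔ Ideal.span {z} := by
        rw [Fin.range_cons, Ideal.span_insert, sup_comm]
      have hmapl : Ideal.span (Set.range l') = (Ideal.span (Set.range l0)).map π := by
        rw [Ideal.map_span]
        congr 1
        ext w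
        constructor
        · rintro ⟨i, rfl⟩; exact ⟨l0 i, ⟨i, rfl⟩, hl0 i⟩
        · rintro ⟨_, ⟨i, rfl⟩, rfl⟩; exact ⟨i, (hl0 i).symm⟩
      have hlen : ∀ K : Ideal A, ell (Ideal.span (Set.range (Fin.cons z l0 : Fin (j + 1) → A)) ⊔ K)
          = ell (Ideal.span (Set.range l') ⊔ K.map π) := by
        intro K
        rw [hspl, hmapl, ← Ideal.map_sup, ell_map_mk]
        congr 1
        rw [sup_right_comm]
      have hD' : Ideal.span (Set.range fun i => π (y' i)) ^ D ≤ I.map π := by
        rw [hJmap, ← Ideal.map_pow]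
        refine Ideal.map_mono (le_trans (Ideal.pow_right_mono ?_ D) hD)
        rw [← hspan, Fin.range_cons, Ideal.span_insert]
        exact le_sup_right
      have h1 := hB (I.map π) D hD' t ht
      rw [hlen, hlen, Ideal.map_pow]
      refine h1.trans ?_
      gcongr

end Vale.Agent.P202
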