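import Vale.Agent.P202.ChiLemmas
import Vale.Agent.P202.Cut

/-!
Comparison of the Euler characteristic `chi2` with the invariant `emin`.
-/

set_option linter.unusedSectionVars false

namespace Vale.Agent.P202

open IsLocalRing LinearMap Function Finset

universe u v

section

variable {S : Type u} [CommRing S]

lemma pow_smul_inj {E : Type v} [AddCommGroup E] [Module S E] {x : S}
    (hx : ∀ v : E, x • v = 0 → v = 0) (k : ℕ) : ∀ v : E, x ^ k • v = 0 → v = 0 := by
  induction k with
  | zero => intro v h; simpa using h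
  | succ k ihk =>
    intro v h
    rw [pow_succ, mul_smul] at h
    exact hx v (ihk _ h)

/-- additive functions on the quotients `E / x^i E`. -/
lemma addOn_quot_pow {φ : ∀ (M : Type v) [AddCommGroup M] [Module S M], ℤ} (x : S) (N : ℕ)
    (h : AddOn (Ideal.span {x ^ N}) φ) (E : Type v) [AddCommGroup E] [Module S E]
    [Module.Finite S E] (hx : ∀ v : E, x • v = 0 → v = 0) (i : ℕ) (hi : i ≤ N) :
    φ (E ⧸ range (lsmul S E (x ^ i))) = i * φ (E ⧸ range (lsmul S E x)) := by
  induction i with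
  | zero =>
    have : Subsingleton (E ⧸ range (lsmul S E (x ^ 0))) := by
      rw [Submodule.Quotient.subsingleton_iff, eq_top_iff]
      intro v _
      exact ⟨v, by simp⟩
    rw [h.zero]
    simp
  | succ i ih =>
    have hf0 : range (lsmul S E x) ≤
        (range (lsmul S E (x ^ (i + 1)))).comap (lsmul S E (x ^ i)) := by
      rintro _ ⟨w, rfl⟩
      exact ⟨w, by rw [lsmul_apply, lsmul_apply, lsmul_apply, ← mul_smul, ← pow_succ]⟩
    have hg0 : range (lsmul S E (x ^ (i + 1))) ≤
        (range (lsmul S E (x ^ i))).comap LinearMap.id := by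
      rintro _ ⟨w, rfl⟩
      exact ⟨x • w, by rw [lsmul_apply, id_apply, lsmul_apply, ← mul_smul, ← pow_succ]⟩
    let f : (E ⧸ range (lsmul S E x)) →ₗ[S] (E ⧸ range (lsmul S E (x ^ (i + 1)))) :=
      Submodule.mapQ _ _ (lsmul S E (x ^ i)) hf0
    let g : (E ⧸ range (lsmul S E (x ^ (i + 1)))) →ₗ[S] (E ⧸ range (lsmul S E (x ^ i))) :=
      Submodule.mapQ _ _ LinearMap.id hg0
    have hf : Injective f := by
      rw [injective_iff_map_eq_zero]
      intro v hv
      obtain ⟨v, rfl⟩ := Submodule.Quotient.mk_surjective _ v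
      have hv' : x ^ i • v ∈ range (lsmul S E (x ^ (i + 1))) :=
        (Submodule.Quotient.mk_eq_zero _).mp hv
      obtain ⟨w, hw⟩ := hv'
      rw [lsmul_apply, pow_succ, mul_smul] at hw
      have h1 : x ^ i • (v - x • w) = 0 := by rw [smul_sub, hw, sub_self]
      have h2 := pow_smul_inj hx i _ h1
      rw [Submodule.Quotient.mk_eq_zero]
      exact ⟨w, by rw [lsmul_apply]; exact (sub_eq_zero.mp h2).symm⟩
    have hg : Surjective g := by
      intro z
      obtain ⟨z, rfl⟩ := Submodule.Quotient.mk_surjective _ z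
      exact ⟨Submodule.Quotient.mk z, rfl⟩
    have hfg : Exact f g := by
      intro z
      obtain ⟨z, rfl⟩ := Submodule.Quotient.mk_surjective _ z
      constructor
      · intro hz
        have hz' : z ∈ range (lsmul S E (x ^ i)) := (Submodule.Quotient.mk_eq_zero _).mp hz
        obtain ⟨w, rfl⟩ := hz'
        exact ⟨Submodule.Quotient.mk w, rfl⟩
      · rintro ⟨w, hw⟩
        obtain ⟨w, rfl⟩ := Submodule.Quotient.mk_surjective _ w
        rw [← hw]
        exact (Submodule.Quotient.mk_eq_zero _).mpr ⟨w, rfl⟩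
    have key := h _ _ _ f g hf hg hfg (by
      intro r hr m
      obtain ⟨m, rfl⟩ := Submodule.Quotient.mk_surjective _ m
      obtain ⟨c, rfl⟩ := Ideal.mem_span_singleton'.mp hr
      rw [← Submodule.Quotient.mk_smul, Submodule.Quotient.mk_eq_zero]
      obtain ⟨n, rfl⟩ := Nat.exists_eq_add_of_le hi
      refine ⟨(c * x ^ n) • m, ?_⟩
      rw [lsmul_apply, ← mul_smul, pow_add]
      congr 1
      ring)
    rw [key, ih (by omega)]
    push_cast
    ring

lemma length_quot_ne_top_of_pow [IsNoetherianRing S] {a b : S}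
    (h : Module.length S (S ⧸ Ideal.span {a, b}) ≠ ⊤) (n m : ℕ) :
    Module.length S (S ⧸ Ideal.span {a ^ n, b ^ m}) ≠ ⊤ := by
  have h0 : Module.length S (S ⧸ ((⊥ : Ideal S) ⊔ Ideal.span {a} ⊔ Ideal.span {b})) ≠ ⊤ := by
    rw [bot_sup_eq, ← Ideal.span_insert]; exact h
  -- `S / (a, b ^ m)`
  have h1 : Module.length S (S ⧸ (Ideal.span {b ^ m} ⊔ Ideal.span {a})) ≠ ⊤ := by
    refine length_ne_top_of_killed_pow (I := ⊥ ⊔ Ideal.span {a}) b h0 m _ ?_ ?_
    · intro r hr v
      obtain ⟨v, rfl⟩ := Submodule.Quotient.mk_surjective _ v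
      rw [← Submodule.Quotient.mk_smul, Submodule.Quotient.mk_eq_zero]
      rw [bot_sup_eq] at hr
      exact Ideal.mul_mem_right _ _ (Ideal.mem_sup_right hr)
    · intro v
      obtain ⟨v, rfl⟩ := Submodule.Quotient.mk_surjective _ v
      rw [← Submodule.Quotient.mk_smul, Submodule.Quotient.mk_eq_zero]
      exact Ideal.mul_mem_right _ _ (Ideal.mem_sup_left (Ideal.mem_span_singleton_self _))
  refine length_ne_top_of_killed_pow (I := Ideal.span {b ^ m}) a h1 n _ ?_ ?_
  · intro r hr v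
    obtain ⟨v, rfl⟩ := Submodule.Quotient.mk_surjective _ v
    rw [← Submodule.Quotient.mk_smul, Submodule.Quotient.mk_eq_zero, Ideal.span_insert]
    exact Ideal.mul_mem_right _ _ (Ideal.mem_sup_right hr)
  · intro v
    obtain ⟨v, rfl⟩ := Submodule.Quotient.mk_surjective _ v
    rw [← Submodule.Quotient.mk_smul, Submodule.Quotient.mk_eq_zero, Ideal.span_insert]
    exact Ideal.mul_mem_right _ _ (Ideal.mem_sup_left (Ideal.mem_span_singleton_self _))

/-- `n m χ(y1, y2; S)` is at most the length of `S / (y1^n, y2^m)`. -/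
theorem mul_mul_chi2_le [IsNoetherianRing S] (y1 y2 : S)
    (hfin : Module.length S (S ⧸ Ideal.span {y1, y2}) ≠ ⊤) (n m : ℕ) :
    (n * m : ℤ) * chi2 y1 y2 S ≤
      ((Module.length S (S ⧸ Ideal.span {y1 ^ n, y2 ^ m})).toNat : ℤ) := by
  obtain ⟨k, K, hK1, hK2⟩ := exists_torsion y1 S
  have e1 : chi2 y1 y2 S = chi2 y1 y2 K + chi2 y1 y2 (S ⧸ K) :=
    chi2_add' y1 y2 hfin K.subtype K.mkQ (Submodule.injective_subtype _)
      (Submodule.mkQ_surjective _) (LinearMap.exact_subtype_mkQ _)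
  have e2 : chi2 y1 y2 K = 0 :=
    chi2_of_killed_pow y1 y2 hfin k K (fun m => Subtype.ext (hK1 m m.2))
  have hinj : ∀ v : S ⧸ K, y1 • v = 0 → v = 0 := by
    intro v hv
    obtain ⟨v, rfl⟩ := Submodule.Quotient.mk_surjective _ v
    rw [← Submodule.Quotient.mk_smul, Submodule.Quotient.mk_eq_zero] at hv
    rw [Submodule.Quotient.mk_eq_zero]
    exact hK2 v hv
  have h3 : ker (lsmul S (S ⧸ K) y1) = ⊥ := ker_eq_bot_of_injective y1 hinj
  have hs : Subsingleton (ker (lsmul S (S ⧸ K) y1)) := by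
    rw [h3]
    infer_instance
  have e3 : chi2 y1 y2 (S ⧸ K) = chi1 y2 ((S ⧸ K) ⧸ range (lsmul S (S ⧸ K) y1)) := by
    unfold chi2
    rw [chi1_of_subsingleton (M := ker (lsmul S (S ⧸ K) y1)), sub_zero]
  have hfin1 : Module.length S (S ⧸ (Ideal.span {y1 ^ n} ⊔ Ideal.span {y2})) ≠ ⊤ := by
    have := length_quot_ne_top_of_pow hfin n 1
    rw [pow_one, Ideal.span_insert] at this
    exact this
  have e4 : chi1 y2 ((S ⧸ K) ⧸ range (lsmul S (S ⧸ K) (y1 ^ n))) =
      n * chi1 y2 ((S ⧸ K) ⧸ range (lsmul S (S ⧸ K) y1)) :=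
    addOn_quot_pow (φ := fun M _ _ => chi1 y2 M) y1 n (addOn_chi1 y2 hfin1) (S ⧸ K) hinj n le_rfl
  set D := (S ⧸ K) ⧸ range (lsmul S (S ⧸ K) (y1 ^ n)) with hD
  have hkD : ∀ r ∈ Ideal.span {y1 ^ n}, ∀ v : D, r • v = 0 := by
    intro r hr v
    obtain ⟨v, rfl⟩ := Submodule.Quotient.mk_surjective _ v
    obtain ⟨c, rfl⟩ := Ideal.mem_span_singleton'.mp hr
    rw [← Submodule.Quotient.mk_smul, Submodule.Quotient.mk_eq_zero]
    exact ⟨c • v, by rw [lsmul_apply, ← mul_smul, mul_comm]⟩
  have h5 := mul_chi1_le y2 hfin1 D hkD m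
  have h7 := length_quot_ne_top_of_pow hfin n m
  have h8 : Module.length S (D ⧸ range (lsmul S D (y2 ^ m))) ≤
      Module.length S (S ⧸ Ideal.span {y1 ^ n, y2 ^ m}) := by
    let G : S →ₗ[S] (D ⧸ range (lsmul S D (y2 ^ m))) :=
      (Submodule.mkQ _).comp ((Submodule.mkQ _).comp (Submodule.mkQ K))
    have hG : Surjective G := (Submodule.mkQ_surjective _).comp
      ((Submodule.mkQ_surjective _).comp (Submodule.mkQ_surjective _))
    have hker : Ideal.span {y1 ^ n, y2 ^ m} ≤ ker G := by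
      have hD2 := cok_killed (y2 ^ m) hkD
      have hone : ∀ r : S, G r = r • G 1 := by
        intro r
        rw [← map_smul, smul_eq_mul, mul_one]
      rw [Ideal.span_le]
      rintro r (rfl | hr)
      · change G _ = 0
        rw [hone]
        exact hD2 _ (Ideal.mem_sup_left (Ideal.mem_span_singleton_self _)) _
      · have hr' : r = y2 ^ m := hr
        subst hr'
        change G (y2 ^ m) = 0
        rw [hone]
        exact hD2 _ (Ideal.mem_sup_right (Ideal.mem_span_singleton_self _)) _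
    refine Module.length_le_of_surjective (Submodule.liftQ _ G hker) ?_
    intro z
    obtain ⟨r, rfl⟩ := hG z
    exact ⟨Submodule.Quotient.mk r, rfl⟩
  have h9 : ((Module.length S (D ⧸ range (lsmul S D (y2 ^ m)))).toNat : ℤ) ≤
      ((Module.length S (S ⧸ Ideal.span {y1 ^ n, y2 ^ m})).toNat : ℤ) := by
    exact_mod_cast ENat.toNat_le_toNat h8 h7
  refine le_trans (le_of_eq ?_) (h5.trans h9)
  rw [e1, e2, e3, zero_add, e4]
  ring

end

section

variable {A : Type*} [CommRing A] {σ : Type*} [Fintype σ] [LinearOrder σ]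

/-- colength of the ideal generated by the `n`-th powers. -/
theorem ell_span_pow_le (y : σ → A) (n : ℕ) :
    ell (Ideal.span (Set.range fun i => y i ^ n)) ≤
      (n ^ Fintype.card σ : ℕ) * emin y + errB y * (n ^ (Fintype.card σ - 1) : ℕ) := by
  classical
  set I := Ideal.span (Set.range fun i => y i ^ n) with hI
  have hmem : ∀ u : σ →₀ ℕ, u ∉ box σ n → mon y u ∈ I := by
    intro u hu
    rw [mem_box] at hu
    push Not at hu
    obtain ⟨i, hi⟩ := hu
    rw [mon, ← Finset.mul_prod_erase _ _ (Finset.mem_univ i)]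
    refine Ideal.mul_mem_right _ _ ?_
    obtain ⟨c, hc⟩ := Nat.exists_eq_add_of_le hi
    rw [hc, pow_add]
    exact Ideal.mul_mem_right _ _ (Ideal.subset_span ⟨i, rfl⟩)
  set M := Fintype.card σ * n + 1 with hM
  have hbox : ∀ u : σ →₀ ℕ, u ∉ tri σ M → u ∉ box σ n := by
    intro u hu hu'
    rw [mem_tri] at hu
    rw [mem_box] at hu'
    apply hu
    rw [Finsupp.degree_eq_sum]
    have : ∑ i, u i ≤ ∑ _i : σ, n := Finset.sum_le_sum fun i _ => (hu' i).le
    rw [Finset.sum_const, Finset.card_univ, smul_eq_mul] at this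
    omega
  have h0 : FS y {w | w ∉ tri σ M} ⊔ I = I := by
    rw [sup_eq_right, FS, Ideal.span_le]
    rintro _ ⟨u, hu, rfl⟩
    exact hmem u (hbox u hu)
  have h1 : ell I = ∑ u ∈ tri σ M, piece y I u := by
    rw [← ell_eq_sum y I _ (tri_initial _), h0]
  have h2 : ∑ u ∈ tri σ M, piece y I u ≤ ∑ u ∈ (tri σ M).filter (fun u => u ∈ box σ n), gp y u := by
    rw [Finset.sum_filter]
    refine Finset.sum_le_sum fun u _ => ?_
    split_ifs with h
    · exact piece_le_gp y I u
    · rw [nonpos_iff_eq_zero, piece_eq_zero_iff]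
      exact Ideal.mem_sup_right (hmem u h)
  rw [h1]
  refine h2.trans ((sum_gp_le y n _ ?_).trans ?_)
  · intro u hu
    exact (Finset.mem_filter.mp hu).2
  · refine add_le_add ?_ le_rfl
    have h3 : ((tri σ M).filter (fun u => u ∈ box σ n)).card ≤ n ^ Fintype.card σ := by
      rw [← card_box]
      refine Finset.card_le_card fun u hu => (Finset.mem_filter.mp hu).2
    gcongr

/-- The Euler characteristic is bounded by `emin`. -/
theorem chi2_le_emin [IsNoetherianRing A] (y1 y2 : A)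
    (hfin : Module.length A (A ⧸ Ideal.span {y1, y2}) ≠ ⊤) :
    ((chi2 y1 y2 A).toNat : ℕ∞) ≤ emin (![y1, y2] : Fin 2 → A) := by
  have hr : ∀ n : ℕ, Set.range (fun i => (![y1, y2] : Fin 2 → A) i ^ n) = {y1 ^ n, y2 ^ n} := by
    intro n
    ext a
    simp only [Set.mem_range, Fin.exists_fin_two, Matrix.cons_val_zero, Matrix.cons_val_one,
      Set.mem_insert_iff, Set.mem_singleton_iff]
    constructor
    · rintro (h | h)
      · exact Or.inl h.symm
      · exact Or.inr h.symm
    · rintro (h | h)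
      · exact Or.inl h.symm
      · exact Or.inr h.symm
  have hr1 : Set.range (![y1, y2] : Fin 2 → A) = {y1, y2} := by
    have := hr 1
    simpa only [pow_one] using this
  have hfin' : ell (Ideal.span (Set.range (![y1, y2] : Fin 2 → A))) ≠ ⊤ := by
    rw [hr1]; exact hfin
  obtain ⟨E, hE⟩ := ENat.ne_top_iff_exists.mp (emin_ne_top hfin')
  obtain ⟨B, hB⟩ := ENat.ne_top_iff_exists.mp (errB_ne_top hfin')
  have key := le_of_forall_pow_le (d := 2) (by omega) (chi2 y1 y2 A).toNat E B 0 fun n hn => by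
    rcases le_or_gt (chi2 y1 y2 A) 0 with hneg | hpos
    · rw [Int.toNat_of_nonpos hneg, zero_mul]
      exact Nat.zero_le _
    have h1 := mul_mul_chi2_le y1 y2 hfin n n
    have h2 := ell_span_pow_le (![y1, y2] : Fin 2 → A) n
    rw [hr, ← hE, ← hB, Fintype.card_fin] at h2
    have h3 := length_quot_ne_top_of_pow hfin n n
    obtain ⟨L, hL⟩ := ENat.ne_top_iff_exists.mp h3
    have h4 : ell (Ideal.span {y1 ^ n, y2 ^ n}) = (L : ℕ∞) := hL.symm
    rw [h4] at h2
    rw [← hL, ENat.toNat_natCast] at h1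
    have h5 : L ≤ n ^ 2 * E + B * n ^ (2 - 1) := by exact_mod_cast h2
    have h6 : (chi2 y1 y2 A).toNat * n ^ 2 ≤ L := by
      have h7 : ((chi2 y1 y2 A).toNat : ℤ) = chi2 y1 y2 A := Int.toNat_of_nonneg hpos.le
      have h8 : (((chi2 y1 y2 A).toNat * n ^ 2 : ℕ) : ℤ) ≤ (L : ℤ) := by
        push_cast
        rw [h7]
        calc chi2 y1 y2 A * (n : ℤ) ^ 2 = (n * n : ℤ) * chi2 y1 y2 A := by ring
          _ ≤ _ := h1
      exact_mod_cast h8
    calc (chi2 y1 y2 A).toNat * n ^ 2 ≤ L := h6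
      _ ≤ n ^ 2 * E + B * n ^ (2 - 1) := h5
      _ = E * (n + 0) ^ 2 + B * (n + 0) ^ (2 - 1) := by rw [add_zero]; ring
  rw [← hE]
  exact_mod_cast key

end

end Vale.Agent.P202
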