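import Vale.Agent.P202.Cut

/-!
Comparison of the invariant `emin` of a system of elements with that of its image modulo the
first element (the general direction), and iterated summation.
-/

set_option linter.unusedSectionVars false

namespace Vale.Agent.P202

open Ideal IsLocalRing Finset

lemma tri_zero_card (σ : Type*) [Fintype σ] [LinearOrder σ] : (tri σ 0).card = 0 := by
  rw [Finset.card_eq_zero]
  ext u
  simp [mem_tri]

lemma sum_tri (δ N : ℕ) :
    ∑ i ∈ Finset.range N, (tri (Fin δ) (i + 1)).card = (tri (Fin (δ + 1)) N).card := by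
  induction N with
  | zero => rw [Finset.sum_range_zero, tri_zero_card]
  | succ N ih =>
    rw [Finset.sum_range_succ, ih, card_tri_succ, card_tri_succ, Fintype.card_fin,
      Fintype.card_fin]
    rcases N with _ | N
    · rw [tri_zero_card, Nat.multichoose_zero_right, Nat.multichoose_zero_right]
    · rw [card_tri_succ, Fintype.card_fin, Nat.multichoose_succ_succ (δ + 1) N, add_comm]

lemma sum_pow_le (δ N : ℕ) (hδ : 0 < δ) :
    ∑ i ∈ Finset.range N, (i + 1) ^ (δ - 1) ≤ N ^ δ := by
  have h1 : ∀ i ∈ Finset.range N, (i + 1) ^ (δ - 1) ≤ N ^ (δ - 1) := by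
    intro i hi
    rw [Finset.mem_range] at hi
    exact Nat.pow_le_pow_left hi _
  refine (Finset.sum_le_card_nsmul _ _ _ h1).trans (le_of_eq ?_)
  rw [Finset.card_range, smul_eq_mul, ← pow_succ']
  congr 1
  omega

/-- the length of the quotient by a power of `J`, where `z ∈ J`. -/
lemma ell_pow_le_sum {A : Type*} [CommRing A] (J : Ideal A) {z : A} (hz : z ∈ J) (N : ℕ) :
    ell (J ^ N) ≤ ∑ i ∈ Finset.range N,
      ell ((J.map (Ideal.Quotient.mk (Ideal.span {z}))) ^ (i + 1)) := by
  induction N with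
  | zero =>
    rw [pow_zero, Finset.sum_range_zero, nonpos_iff_eq_zero, ell_eq_zero_iff, Ideal.one_eq_top]
  | succ N ih =>
    rw [Finset.sum_range_succ, ell_eq_add (J ^ (N + 1)) z, ← ell_map_mk, Ideal.map_pow]
    refine add_le_add ((ell_mono ?_).trans ih) le_rfl
    intro a ha
    rw [mem_col, pow_succ]
    exact Ideal.mul_mem_mul ha hz

theorem emin_le_quot {A : Type*} [CommRing A] {δ : ℕ} (hδ : 0 < δ) (z : A) (y : Fin δ → A)
    (hfin : ell (Ideal.span (Set.range (Fin.cons z y : Fin (δ + 1) → A))) ≠ ⊤) :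
    emin (Fin.cons z y : Fin (δ + 1) → A) ≤
      emin (fun i => Ideal.Quotient.mk (Ideal.span {z}) (y i)) := by
  set Y : Fin (δ + 1) → A := Fin.cons z y with hY
  set π := Ideal.Quotient.mk (Ideal.span {z}) with hπ
  set J := Ideal.span (Set.range Y) with hJ
  have hzJ : z ∈ J := Ideal.subset_span ⟨0, by simp [hY]⟩
  have hmap : J.map π = Ideal.span (Set.range fun i => π (y i)) := by
    rw [hJ, hY, Fin.range_cons, Ideal.map_span, Set.image_insert_eq, Ideal.span_insert,
      Ideal.Quotient.eq_zero_iff_mem.mpr (Ideal.mem_span_singleton_self z)]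
    simp only [Ideal.span_singleton_zero, bot_sup_eq]
    congr 1
    ext w
    simp
  have hfin' : ell (Ideal.span (Set.range fun i => π (y i))) ≠ ⊤ := by
    rw [← hmap, ell_map_mk]
    exact ne_top_of_le_ne_top hfin (ell_mono le_sup_left)
  obtain ⟨E, hE⟩ := ENat.ne_top_iff_exists.mp (emin_ne_top hfin)
  obtain ⟨e, he⟩ := ENat.ne_top_iff_exists.mp (emin_ne_top hfin')
  obtain ⟨B, hB⟩ := ENat.ne_top_iff_exists.mp (errB_ne_top hfin')
  have key := le_of_forall_tri_le (σ := Fin (δ + 1)) (by simp) E e B 0 fun N _ => by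
    have h1 := (emin_mul_card_le Y N).trans (ell_pow_le_sum J hzJ N)
    rw [hmap, ← hE] at h1
    have h2 : ∑ i ∈ Finset.range N, ell (Ideal.span (Set.range fun i => π (y i)) ^ (i + 1)) ≤
        ∑ i ∈ Finset.range N, ((((tri (Fin δ) (i + 1)).card * e +
          B * (i + 1) ^ (δ - 1) : ℕ)) : ℕ∞) := by
      refine Finset.sum_le_sum fun i _ => ?_
      have h3 := ell_pow_le (fun i => π (y i)) (i + 1)
      rw [← he, ← hB, Fintype.card_fin] at h3
      push_cast at h3 ⊢
      exact h3
    have h4 := h1.trans h2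
    rw [← Nat.cast_sum, ← Nat.cast_mul, Nat.cast_le, Finset.sum_add_distrib,
      ← Finset.sum_mul, ← Finset.mul_sum, sum_tri] at h4
    rw [add_zero, Fintype.card_fin, Nat.add_sub_cancel]
    calc E * (tri (Fin (δ + 1)) N).card ≤ _ := h4
      _ ≤ e * (tri (Fin (δ + 1)) N).card + B * N ^ δ := by
          rw [mul_comm e]
          gcongr
          exact sum_pow_le δ N hδ
  rw [← hE, ← he]
  exact_mod_cast key

end Vale.Agent.P202
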