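import Vale.Agent.P202.Growth
import Vale.Agent.P202.BaseChange

/-!
The inequality `e(R) ≤ (d-1)! e(S)`.
-/

set_option linter.unusedSectionVars false

namespace Vale.Agent.P202

open Ideal IsLocalRing Finset Filter Topology

universe u

lemma pow_succ_add_le (d n : ℕ) : (d + 1) * n ^ d + n ^ (d + 1) ≤ (n + 1) ^ (d + 1) := by
  induction d with
  | zero => simp; omega
  | succ d ih =>
    calc (d + 1 + 1) * n ^ (d + 1) + n ^ (d + 1 + 1)
        = ((d + 1) * n ^ d + n ^ (d + 1)) * n + n ^ (d + 1) := by ring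
      _ ≤ (n + 1) ^ (d + 1) * n + (n + 1) ^ (d + 1) := by
          gcongr
          omega
      _ = (n + 1) ^ (d + 1 + 1) := by ring

lemma sum_bound (δ E B : ℕ) (hδ : 0 < δ) (a : ℕ → ℕ) (ha0 : a 0 = 0)
    (ha : ∀ t, a (t + 1) ≤ a t + ((t + 1) ^ δ * E + B * (t + 1) ^ (δ - 1))) (T : ℕ) :
    (δ + 1) * a T ≤ E * (T + 1) ^ (δ + 1) + (δ + 1) * B * (T + 1) ^ δ := by
  induction T with
  | zero => rw [ha0]; simp
  | succ T ih =>
    have h1 := pow_succ_add_le δ (T + 1)
    obtain ⟨ε, rfl⟩ : ∃ ε, δ = ε + 1 := ⟨δ - 1, by omega⟩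
    have h2 := pow_succ_add_le ε (T + 1)
    have h2' : (T + 1) ^ ε + (T + 1) ^ (ε + 1) ≤ (T + 1 + 1) ^ (ε + 1) := by
      refine le_trans ?_ h2
      gcongr
      exact Nat.le_mul_of_pos_left _ (Nat.succ_pos _)
    have h3 := ha T
    rw [Nat.add_sub_cancel] at h3
    calc (ε + 1 + 1) * a (T + 1) ≤ (ε + 1 + 1) * (a T + ((T + 1) ^ (ε + 1) * E +
          B * (T + 1) ^ ε)) := by gcongr
      _ = (ε + 1 + 1) * a T + (ε + 1 + 1) * (T + 1) ^ (ε + 1) * E +
          (ε + 1 + 1) * B * (T + 1) ^ ε := by ring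
      _ ≤ (E * (T + 1) ^ (ε + 1 + 1) + (ε + 1 + 1) * B * (T + 1) ^ (ε + 1)) +
          (ε + 1 + 1) * (T + 1) ^ (ε + 1) * E +
          (ε + 1 + 1) * B * (T + 1) ^ ε := by gcongr
      _ = E * ((ε + 1 + 1) * (T + 1) ^ (ε + 1) + (T + 1) ^ (ε + 1 + 1)) +
          (ε + 1 + 1) * B * ((T + 1) ^ ε + (T + 1) ^ (ε + 1)) := by ring
      _ ≤ E * (T + 1 + 1) ^ (ε + 1 + 1) + (ε + 1 + 1) * B * (T + 1 + 1) ^ (ε + 1) := by gcongr

/-- upper bound for a limit. -/
lemma limit_upper {d E B : ℕ} (hd : 0 < d) (a : ℕ → ℕ)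
    (ha : ∀ T, d * a T ≤ E * (T + 1) ^ d + d * B * (T + 1) ^ (d - 1)) (e : ℝ)
    (he : Tendsto (fun N : ℕ => (d.factorial : ℝ) * (a N : ℝ) / (N : ℝ) ^ d) atTop (𝓝 e)) :
    e ≤ ((d - 1).factorial : ℝ) * E := by
  have hfac : (d.factorial : ℝ) = d * ((d - 1).factorial : ℝ) := by
    obtain ⟨k, rfl⟩ : ∃ k, d = k + 1 := ⟨d - 1, by omega⟩
    rw [Nat.factorial_succ]
    push_cast
    simp
  have h1 : Tendsto (fun n : ℕ => ((d - 1).factorial * E : ℝ) *
      (((n + 1 : ℕ) : ℝ) ^ d / (n : ℝ) ^ d) + ((d - 1).factorial * (d * B) : ℝ) *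
      (((n + 1 : ℕ) : ℝ) ^ (d - 1) / (n : ℝ) ^ d)) atTop
      (𝓝 (((d - 1).factorial * E : ℝ) * 1 + ((d - 1).factorial * (d * B) : ℝ) * 0)) :=
    ((tendsto_shift_pow_ratio 1 d).const_mul _).add ((tendsto_lower_ratio 1 d hd).const_mul _)
  rw [mul_one, mul_zero, add_zero] at h1
  refine le_of_tendsto_of_tendsto he h1 ?_
  filter_upwards [eventually_gt_atTop 0] with n hn
  have hnd : (0 : ℝ) < (n : ℝ) ^ d := by positivity
  rw [mul_div_assoc', mul_div_assoc', ← add_div]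
  refine (div_le_div_iff_of_pos_right hnd).mpr ?_
  have h2 : (d : ℝ) * (a n : ℝ) ≤ E * ((n + 1 : ℕ) : ℝ) ^ d + d * B * ((n + 1 : ℕ) : ℝ) ^ (d - 1) := by
    exact_mod_cast ha n
  calc (d.factorial : ℝ) * (a n : ℝ) = ((d - 1).factorial : ℝ) * (d * a n) := by rw [hfac]; ring
    _ ≤ ((d - 1).factorial : ℝ) * (E * ((n + 1 : ℕ) : ℝ) ^ d +
          d * B * ((n + 1 : ℕ) : ℝ) ^ (d - 1)) := by gcongr
    _ = _ := by ring

/-- lower bound for a limit. -/
lemma limit_lower {d E c : ℕ} (b : ℕ → ℕ)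
    (hb : ∀ N, E * (tri (Fin d) N).card ≤ b (N + c)) (e : ℝ)
    (he : Tendsto (fun N : ℕ => (d.factorial : ℝ) * (b N : ℝ) / (N : ℝ) ^ d) atTop (𝓝 e)) :
    (E : ℝ) ≤ e := by
  have h0 : Tendsto (fun N : ℕ => (d.factorial : ℝ) * (b (N + c) : ℝ) / ((N + c : ℕ) : ℝ) ^ d)
      atTop (𝓝 e) := he.comp (tendsto_add_atTop_nat c)
  have h1 := h0.mul (tendsto_shift_pow_ratio c d)
  rw [mul_one] at h1
  refine ge_of_tendsto h1 ?_
  filter_upwards [eventually_gt_atTop 0] with n hn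
  have hnd : (0 : ℝ) < (n : ℝ) ^ d := by positivity
  have hnd' : (0 : ℝ) < ((n + c : ℕ) : ℝ) ^ d := by positivity
  rw [div_mul_div_comm, mul_comm (((n + c : ℕ) : ℝ) ^ d), mul_div_mul_right _ _ hnd'.ne',
    le_div_iff₀ hnd]
  have h2 := pow_le_factorial_mul_card_tri (σ := Fin d) n hn
  rw [Fintype.card_fin] at h2
  have h3 : E * n ^ d ≤ d.factorial * b (n + c) := by
    calc E * n ^ d ≤ E * (d.factorial * (tri (Fin d) n).card) := Nat.mul_le_mul_left _ h2
      _ = d.factorial * (E * (tri (Fin d) n).card) := by ring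
      _ ≤ _ := Nat.mul_le_mul_left _ (hb n)
  exact_mod_cast h3

/-- The closed fibre has finite length when the dimensions agree. -/
theorem ell_fibre_ne_top {R S : Type*} [CommRing R] [IsLocalRing R] [IsNoetherianRing R]
    [CommRing S] [IsLocalRing S] [IsNoetherianRing S] [Algebra R S]
    [IsLocalHom (algebraMap R S)] [Module.Flat R S] (h : ringKrullDim S = ringKrullDim R) :
    ell ((maximalIdeal R).map (algebraMap R S)) ≠ ⊤ := by
  set I := (maximalIdeal R).map (algebraMap R S) with hI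
  have hIn : I ≤ maximalIdeal S := by
    rw [hI, Ideal.map_le_iff_le_comap]
    intro a ha
    exact (IsLocalRing.mem_maximalIdeal _).mpr fun h =>
      (IsLocalRing.mem_maximalIdeal _).mp ha (isUnit_of_map_unit (algebraMap R S) a h)
  have h1 := Ideal.height_eq_height_add_of_liesOver_of_hasGoingDown (maximalIdeal R)
    (maximalIdeal S)
  have h2 : (maximalIdeal S).height = (maximalIdeal R).height := by
    rw [← IsLocalRing.maximalIdeal_height_eq_ringKrullDim,
      ← IsLocalRing.maximalIdeal_height_eq_ringKrullDim] at h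
    exact_mod_cast h
  rw [h2, ← hI] at h1
  have h4 : (maximalIdeal R).height ≠ ⊤ := Ideal.height_ne_top_of_isPrime
  have h3 : ((maximalIdeal S).map (Ideal.Quotient.mk I)).height = 0 := by
    have h5 : (maximalIdeal R).height + 0 =
        (maximalIdeal R).height + ((maximalIdeal S).map (Ideal.Quotient.mk I)).height := by
      rw [add_zero]; exact h1
    exact le_antisymm ((ENat.add_le_add_iff_left h4).mp h5.ge) ((ENat.add_le_add_iff_left h4).mp h5.le)
  have hcomap : ((maximalIdeal S).map (Ideal.Quotient.mk I)).comap (Ideal.Quotient.mk I) =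
      maximalIdeal S := by
    rw [Ideal.comap_map_of_surjective _ Ideal.Quotient.mk_surjective, ← RingHom.ker_eq_comap_bot,
      Ideal.mk_ker]
    exact sup_eq_left.mpr hIn
  have hprime : ((maximalIdeal S).map (Ideal.Quotient.mk I)).IsPrime := by
    refine Ideal.map_isPrime_of_surjective Ideal.Quotient.mk_surjective ?_
    rw [Ideal.mk_ker]
    exact hIn
  rw [Ideal.height_eq_zero_iff] at h3
  have h6 : maximalIdeal S ∈ I.minimalPrimes := by
    rw [Ideal.minimalPrimes_eq_comap]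
    exact ⟨_, h3, hcomap⟩
  have h7 : IsArtinianRing (S ⧸ I) :=
    IsLocalRing.quotient_artinian_of_mem_minimalPrimes_of_isLocalRing I h6
  rw [ell_eq_length_self]
  exact Module.length_ne_top

/-- The inequality for an infinite residue field. -/
theorem lech_one_aux {R S : Type*} [CommRing R] [IsLocalRing R] [IsNoetherianRing R]
    [CommRing S] [IsLocalRing S] [IsNoetherianRing S] [Infinite (ResidueField S)]
    [Algebra R S] [IsLocalHom (algebraMap R S)] [Module.Flat R S] {d : ℕ} (hd : 2 ≤ d)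
    (hR : ringKrullDim R = d) (hS : ringKrullDim S = d) (eR eS : ℝ)
    (heR : Tendsto (fun N : ℕ => (d.factorial : ℝ) *
      ((Module.length R (R ⧸ maximalIdeal R ^ N)).toNat : ℝ) / (N : ℝ) ^ d) atTop (𝓝 eR))
    (heS : Tendsto (fun N : ℕ => (d.factorial : ℝ) *
      ((Module.length S (S ⧸ maximalIdeal S ^ N)).toNat : ℝ) / (N : ℝ) ^ d) atTop (𝓝 eS)) :
    eR ≤ ((d - 1).factorial : ℝ) * eS := by
  obtain ⟨δ, rfl⟩ : ∃ δ, d = δ + 1 := ⟨d - 1, by omega⟩
  have hfib := ell_fibre_ne_top (R := R) (S := S) (by rw [hR, hS])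
  obtain ⟨E, B, c, h1, h2⟩ := growth_bound (R := R) (S := S) (δ := δ) (by omega) hS hfib
  have hRt : ∀ s, ell (maximalIdeal R ^ s) ≠ ⊤ := fun s => ell_ne_top_of_pow_le le_rfl
  have hSt : ∀ s, ell (maximalIdeal S ^ s) ≠ ⊤ := fun s => ell_ne_top_of_pow_le le_rfl
  have ha : ∀ T, (δ + 1) * (ell (maximalIdeal R ^ T)).toNat ≤
      E * (T + 1) ^ (δ + 1) + (δ + 1) * B * (T + 1) ^ (δ + 1 - 1) := by
    intro T
    refine sum_bound δ E B (by omega) (fun t => (ell (maximalIdeal R ^ t)).toNat) ?_ ?_ T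
    · have : ell (maximalIdeal R ^ 0) = 0 := by
        rw [pow_zero, ell_eq_zero_iff, Ideal.one_eq_top]
      simp only [this]
      rfl
    · intro t
      have h3 := h2 t
      obtain ⟨a, ha⟩ := ENat.ne_top_iff_exists.mp (hRt t)
      obtain ⟨b, hb⟩ := ENat.ne_top_iff_exists.mp (hRt (t + 1))
      simp only [← ha, ← hb] at h3 ⊢
      simp only [ENat.toNat_natCast]
      exact_mod_cast h3
  have hb : ∀ N, E * (tri (Fin (δ + 1)) N).card ≤ (ell (maximalIdeal S ^ (N + c))).toNat := by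
    intro N
    have h3 := h1 N
    obtain ⟨b, hb⟩ := ENat.ne_top_iff_exists.mp (hSt (N + c))
    rw [← hb] at h3 ⊢
    rw [ENat.toNat_natCast]
    exact_mod_cast h3
  have h5 := limit_upper (Nat.succ_pos δ) (fun T => (ell (maximalIdeal R ^ T)).toNat) ha eR heR
  have h6 := limit_lower (fun T => (ell (maximalIdeal S ^ T)).toNat) hb eS heS
  exact h5.trans (mul_le_mul_of_nonneg_left h6 (by positivity))

theorem lech_one {R S : Type u} [CommRing R] [IsLocalRing R] [IsNoetherianRing R]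
    [CommRing S] [IsLocalRing S] [IsNoetherianRing S]
    [Algebra R S] [IsLocalHom (algebraMap R S)] [Module.Flat R S] {d : ℕ} (hd : 2 ≤ d)
    (hR : ringKrullDim R = d) (hS : ringKrullDim S = d) (eR eS : ℝ)
    (heR : Tendsto (fun N : ℕ => (d.factorial : ℝ) *
      ((Module.length R (R ⧸ maximalIdeal R ^ N)).toNat : ℝ) / (N : ℝ) ^ d) atTop (𝓝 eR))
    (heS : Tendsto (fun N : ℕ => (d.factorial : ℝ) *
      ((Module.length S (S ⧸ maximalIdeal S ^ N)).toNat : ℝ) / (N : ℝ) ^ d) atTop (𝓝 eS)) :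
    eR ≤ ((d - 1).factorial : ℝ) * eS := by
  obtain ⟨R', S', _, _, _, _, _, _, _, _, _, _, hlR, hlS, hdR, hdS, -⟩ :=
    exists_infinite_residue (R := R) (S := S)
  have : Infinite (ResidueField S') :=
    Infinite.of_injective (algebraMap (ResidueField R') (ResidueField S')) (RingHom.injective _)
  refine lech_one_aux (R := R') (S := S') hd (hdR.trans hR) (hdS.trans hS) eR eS ?_ ?_
  · simpa only [hlR] using heR
  · simpa only [hlS] using heS

end Vale.Agent.P202
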