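import Vale.Agent.P202.QuotFlat
import Vale.Agent.P202.ChiEmin
import Vale.Agent.P202.EminTools
import Vale.Agent.P202.LechOne
import Vale.Agent.P202.Completion
import Mathlib.RingTheory.AdicCompletion.Noetherian
import Mathlib.RingTheory.AdicCompletion.Completeness
import Mathlib.RingTheory.AdicCompletion.Exactness
import Mathlib.RingTheory.LocalRing.Length

/-!
Induction on the dimension: from the two-dimensional inequality to all dimensions.
-/

set_option linter.unusedSectionVars false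

namespace Vale.Agent.P202

open Ideal IsLocalRing Finset

universe u

/-- The two-dimensional inequality, as a hypothesis (with a condition on the residue field
extension when `b` holds). -/
def TwoDimBound (b : Prop) : Prop :=
  ∀ (A S : Type u) [CommRing A] [IsLocalRing A] [IsNoetherianRing A]
    [IsAdicComplete (maximalIdeal A) A]
    [CommRing S] [IsLocalRing S] [IsNoetherianRing S] [Algebra A S]
    [IsLocalHom (algebraMap A S)] [Module.Flat A S],
    (b → Module.length (ResidueField A) (ResidueField S) ≠ ⊤) →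
    Module.length S (S ⧸ (maximalIdeal A).map (algebraMap A S)) ≠ ⊤ →
    ∀ x1 x2 : A, x1 ∈ maximalIdeal A → x2 ∈ maximalIdeal A →
    ∀ r : ℕ, maximalIdeal A ^ (r + 1) ≤ Ideal.span {x1, x2} * maximalIdeal A ^ r →
    ∀ y1 y2 : S, y1 ∈ maximalIdeal S → y2 ∈ maximalIdeal S →
    Module.length S (S ⧸ Ideal.span {y1, y2}) ≠ ⊤ → ∀ c : ℕ,
    Module.length S (S ⧸ ((maximalIdeal A).map (algebraMap A S) ⊔ Ideal.span {y1, y2}))
      = (c : ℕ∞) →
    ∃ K : ℕ, ∀ j : ℕ, (c : ℕ∞) * (2 * ell (maximalIdeal A ^ j)) ≤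
      ((chi2 y1 y2 S).toNat : ℕ∞) * (j : ℕ∞) ^ 2 + (K : ℕ∞) * ((j : ℕ∞) + 1)

section quotient

variable {R : Type*} [CommRing R] (I : Ideal R)

lemma cd_isPrecomplete_of_surjective {M N : Type*} [AddCommGroup M] [Module R M]
    [AddCommGroup N] [Module R N] [IsPrecomplete I M] (f : M →ₗ[R] N)
    (hf : Function.Surjective f) : IsPrecomplete I N := by
  rw [← AdicCompletion.of_surjective_iff]
  intro y
  obtain ⟨x, rfl⟩ := AdicCompletion.map_surjective I hf y
  obtain ⟨z, rfl⟩ := AdicCompletion.of_surjective I M x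
  exact ⟨f z, (AdicCompletion.map_of ..).symm⟩

lemma cd_isPrecomplete_quotient [IsPrecomplete I R] (P : Ideal R) :
    IsPrecomplete (I.map (Ideal.Quotient.mk P)) (R ⧸ P) := by
  have h1 : IsPrecomplete I (R ⧸ P) :=
    cd_isPrecomplete_of_surjective I P.mkQ P.mkQ_surjective
  exact IsPrecomplete.map_algebraMap_iff.mpr h1

end quotient

lemma map_max_quot {S : Type*} [CommRing S] [IsLocalRing S] {Q : Ideal S}
    (hQ : Q ≤ maximalIdeal S) [IsLocalRing (S ⧸ Q)] :
    (maximalIdeal S).map (Ideal.Quotient.mk Q) = maximalIdeal (S ⧸ Q) := by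
  apply eq_maximalIdeal
  refine Ideal.IsMaximal.map_of_surjective_of_ker_le Ideal.Quotient.mk_surjective ?_
  rw [Ideal.mk_ker]
  exact hQ

/-- A nonzero quotient of a complete local ring is complete. -/
lemma cd_isAdicComplete_quotient {S : Type*} [CommRing S] [IsLocalRing S] [IsNoetherianRing S]
    [IsAdicComplete (maximalIdeal S) S] {Q : Ideal S} (hQ : Q ≤ maximalIdeal S)
    [IsLocalRing (S ⧸ Q)] :
    IsAdicComplete (maximalIdeal (S ⧸ Q)) (S ⧸ Q) := by
  have h1 : IsPrecomplete (maximalIdeal (S ⧸ Q)) (S ⧸ Q) := by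
    have h1 := cd_isPrecomplete_quotient (maximalIdeal S) Q
    rwa [map_max_quot hQ] at h1
  have h3 : IsHausdorff (maximalIdeal (S ⧸ Q)) (S ⧸ Q) :=
    IsHausdorff.of_le_jacobson _ _ (by rw [IsLocalRing.jacobson_eq_maximalIdeal ⊥ bot_ne_top])
  exact { h1, h3 with }

lemma isLocalRing_quot {S : Type*} [CommRing S] [IsLocalRing S] {Q : Ideal S}
    (hQ : Q ≤ maximalIdeal S) : IsLocalRing (S ⧸ Q) := by
  have hQ' : Q ≠ ⊤ := fun h => (IsLocalRing.maximalIdeal.isMaximal S).ne_top (top_le_iff.mp (h ▸ hQ))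
  have : Nontrivial (S ⧸ Q) := Ideal.Quotient.nontrivial_iff.mpr hQ'
  exact IsLocalRing.of_surjective' (Ideal.Quotient.mk Q) Ideal.Quotient.mk_surjective

section

variable {R S : Type*} [CommRing R] [IsLocalRing R] [CommRing S] [IsLocalRing S] [Algebra R S]
  [IsLocalHom (algebraMap R S)]

lemma map_max_le : (maximalIdeal R).map (algebraMap R S) ≤ maximalIdeal S := by
  rw [Ideal.map_le_iff_le_comap]
  intro a ha
  exact (IsLocalRing.mem_maximalIdeal _).mpr fun h =>
    (IsLocalRing.mem_maximalIdeal _).mp ha (isUnit_of_map_unit (algebraMap R S) a h)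

lemma isLocalHom_quot {I : Ideal R} (hI : I ≤ maximalIdeal R) [IsLocalRing (R ⧸ I)]
    [IsLocalRing (S ⧸ I.map (algebraMap R S))] :
    IsLocalHom (algebraMap (R ⧸ I) (S ⧸ I.map (algebraMap R S))) := by
  have hIS : I.map (algebraMap R S) ≤ maximalIdeal S := (Ideal.map_mono hI).trans map_max_le
  refine ⟨fun a ha => ?_⟩
  obtain ⟨a, rfl⟩ := Ideal.Quotient.mk_surjective a
  by_contra hna
  have h1 : a ∈ maximalIdeal R := by
    by_contra h2
    have h3 : IsUnit a := by
      by_contra h4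
      exact h2 h4
    exact hna (h3.map _)
  have h2 : algebraMap R S a ∈ maximalIdeal S := map_max_le (Ideal.mem_map_of_mem _ h1)
  have h3 : algebraMap (R ⧸ I) (S ⧸ I.map (algebraMap R S)) (Ideal.Quotient.mk I a) =
      Ideal.Quotient.mk _ (algebraMap R S a) := rfl
  rw [h3] at ha
  have h4 : Ideal.Quotient.mk (I.map (algebraMap R S)) (algebraMap R S a) ∈
      maximalIdeal (S ⧸ I.map (algebraMap R S)) := by
    rw [← map_max_quot hIS]
    exact Ideal.mem_map_of_mem _ h2
  exact (IsLocalRing.mem_maximalIdeal _).mp h4 ha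

lemma residue_map_bijective {A : Type*} [CommRing A] [IsLocalRing A] {J : Ideal A}
    [IsLocalRing (A ⧸ J)] [IsLocalHom (algebraMap A (A ⧸ J))] :
    Function.Bijective (ResidueField.map (algebraMap A (A ⧸ J))) := by
  refine ⟨RingHom.injective _, fun z => ?_⟩
  obtain ⟨z, rfl⟩ := residue_surjective z
  obtain ⟨z, rfl⟩ := Ideal.Quotient.mk_surjective z
  exact ⟨residue A z, rfl⟩

lemma residue_length_quot {I : Ideal R} [IsLocalRing (R ⧸ I)]
    [IsLocalRing (S ⧸ I.map (algebraMap R S))]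
    [IsLocalHom (algebraMap (R ⧸ I) (S ⧸ I.map (algebraMap R S)))] :
    Module.length (ResidueField (R ⧸ I)) (ResidueField (S ⧸ I.map (algebraMap R S))) =
      Module.length (ResidueField R) (ResidueField S) := by
  have h1 : IsLocalHom (algebraMap R (R ⧸ I)) :=
    IsLocalHom.of_surjective _ Ideal.Quotient.mk_surjective
  have h2 : IsLocalHom (algebraMap S (S ⧸ I.map (algebraMap R S))) :=
    IsLocalHom.of_surjective _ Ideal.Quotient.mk_surjective
  exact length_residue_of_bij (R := R) (S := S) (R' := R ⧸ I)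
    (S' := S ⧸ I.map (algebraMap R S)) residue_map_bijective.2 residue_map_bijective

/-- colength of an extended ideal. -/
lemma ell_map_eq [Module.Flat R S] (I : Ideal R) :
    ell (I.map (algebraMap R S)) = ell I * ell ((maximalIdeal R).map (algebraMap R S)) := by
  have h := IsLocalRing.length_baseChange R S (R ⧸ I)
  rw [ell, ell, ell, ← h]
  exact (Algebra.TensorProduct.quotIdealMapEquivTensorQuot S I).toLinearEquiv.length_eq

end

lemma pow_add_one_sub (d N : ℕ) : (N + 1) ^ (d + 1) ≤ N ^ (d + 1) + (d + 1) * (N + 1) ^ d := by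
  induction d with
  | zero => simp
  | succ d ih =>
    calc (N + 1) ^ (d + 1 + 1) = (N + 1) ^ (d + 1) * N + (N + 1) ^ (d + 1) := by ring
      _ ≤ (N ^ (d + 1) + (d + 1) * (N + 1) ^ d) * N + (N + 1) ^ (d + 1) := by gcongr
      _ = N ^ (d + 1 + 1) + (d + 1) * ((N + 1) ^ d * N) + (N + 1) ^ (d + 1) := by ring
      _ ≤ N ^ (d + 1 + 1) + (d + 1) * ((N + 1) ^ d * (N + 1)) + (N + 1) ^ (d + 1) := by
          gcongr
          omega
      _ = _ := by ring

lemma sum_step (δ e K : ℕ) (hδ : 0 < δ) (N : ℕ) :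
    (δ + 1) * ∑ i ∈ Finset.range N, (e * (i + 1) ^ δ + K * (i + 1 + 1) ^ (δ - 1)) ≤
      e * N ^ (δ + 1) + (e * (δ + 1) + (δ + 1) * K) * (N + 1) ^ δ := by
  have h1 : (δ + 1) * ∑ i ∈ Finset.range N, (i + 1) ^ δ ≤ (N + 1) ^ (δ + 1) := by
    induction N with
    | zero => simp
    | succ N ih =>
      rw [Finset.sum_range_succ, mul_add]
      have := pow_succ_add_le δ (N + 1)
      omega
  have h2 : ∑ i ∈ Finset.range N, (i + 1 + 1) ^ (δ - 1) ≤ (N + 1) ^ δ := by
    have h3 : ∀ i ∈ Finset.range N, (i + 1 + 1) ^ (δ - 1) ≤ (N + 1) ^ (δ - 1) := by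
      intro i hi
      rw [Finset.mem_range] at hi
      exact Nat.pow_le_pow_left (by omega) _
    refine (Finset.sum_le_card_nsmul _ _ _ h3).trans ?_
    rw [Finset.card_range, smul_eq_mul]
    obtain ⟨ε, rfl⟩ : ∃ ε, δ = ε + 1 := ⟨δ - 1, by omega⟩
    rw [Nat.add_sub_cancel, pow_succ, mul_comm]
    exact Nat.mul_le_mul_left _ (Nat.le_succ N)
  rw [Finset.sum_add_distrib, ← Finset.mul_sum, ← Finset.mul_sum]
  have h4 := pow_add_one_sub δ N
  calc (δ + 1) * (e * ∑ i ∈ Finset.range N, (i + 1) ^ δ +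
        K * ∑ i ∈ Finset.range N, (i + 1 + 1) ^ (δ - 1))
      = e * ((δ + 1) * ∑ i ∈ Finset.range N, (i + 1) ^ δ) +
        (δ + 1) * K * ∑ i ∈ Finset.range N, (i + 1 + 1) ^ (δ - 1) := by ring
    _ ≤ e * (N ^ (δ + 1) + (δ + 1) * (N + 1) ^ δ) + (δ + 1) * K * (N + 1) ^ δ := by
        gcongr
        exact h1.trans h4
    _ = _ := by ring

/-- A base case: dimension two. -/
theorem two_dim_base {b : Prop} (H : TwoDimBound.{u} b) {R S : Type u} [CommRing R] [IsLocalRing R]
    [IsNoetherianRing R] [IsAdicComplete (maximalIdeal R) R] [Infinite (ResidueField R)]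
    [CommRing S] [IsLocalRing S] [IsNoetherianRing S] [Algebra R S]
    [IsLocalHom (algebraMap R S)] [Module.Flat R S]
    (hres : b → Module.length (ResidueField R) (ResidueField S) ≠ ⊤)
    (hfib : ell ((maximalIdeal R).map (algebraMap R S)) ≠ ⊤)
    (l1 l2 : S) (hl1 : l1 ∈ maximalIdeal S) (hl2 : l2 ∈ maximalIdeal S)
    (hl : ell (Ideal.span {l1, l2}) ≠ ⊤) (ρ : ℕ)
    (hρ : ell ((maximalIdeal R).map (algebraMap R S) ⊔ Ideal.span {l1, l2}) = ρ)
    (y : Fin 2 → S) (hy : Ideal.span (Set.range y) = Ideal.span {l1, l2}) (e : ℕ)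
    (he : emin y = e) :
    ∃ K : ℕ, ∀ N : ℕ, ρ * (2 * (ell (maximalIdeal R ^ N)).toNat) ≤ e * N ^ 2 + K * (N + 1) := by
  classical
  -- growth
  have hr1 : Set.range (![l1, l2] : Fin 2 → S) = {l1, l2} := by
    ext a
    simp only [Set.mem_range, Fin.exists_fin_two, Matrix.cons_val_zero, Matrix.cons_val_one,
      Set.mem_insert_iff, Set.mem_singleton_iff]
    constructor
    · rintro (h | h)
      · exact Or.inl h.symm
      · exact Or.inr h.symm
    · rintro (h | h)
      · exact Or.inl h.symm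
      · exact Or.inr h.symm
  have hle : Ideal.span {l1, l2} ≤ maximalIdeal S := by
    rw [Ideal.span_le]
    rintro a (rfl | ha)
    · exact hl1
    · rw [Set.mem_singleton_iff] at ha
      rw [ha]; exact hl2
  obtain ⟨D, hD⟩ := exists_pow_le_of_ell_ne_top hfib
  obtain ⟨B, hB⟩ := exists_growth (![l1, l2] : Fin 2 → S)
    (by rw [hr1]; exact exists_pow_le_of_ell_ne_top hl)
    ((maximalIdeal R).map (algebraMap R S)) D
    (by rw [hr1]; exact (Ideal.pow_right_mono hle D).trans hD) hfib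
  have hfib0 : ell ((maximalIdeal R).map (algebraMap R S)) ≠ 0 := by
    rw [Ne, ell_eq_zero_iff]
    intro h
    have := map_max_le (R := R) (S := S)
    rw [h, top_le_iff] at this
    exact (IsLocalRing.maximalIdeal.isMaximal S).ne_top this
  have hgrowth : ∀ n, 0 < n → ell (maximalIdeal R ^ n) ≤ (B * n ^ 2 : ℕ) := by
    intro n hn
    refine le_trans ?_ (hB n hn)
    rw [← Ideal.map_pow, ell_map_eq]
    conv_lhs => rw [← mul_one (ell (maximalIdeal R ^ n))]
    gcongr
    exact Order.one_le_iff_ne_zero.mpr hfib0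
  -- a two-generated reduction of `m`
  obtain ⟨s, hs⟩ := (IsNoetherian.noetherian (maximalIdeal R) : (maximalIdeal R).FG)
  have hrange : Set.range (fun i : Fin s.card => ((s.equivFin.symm i : s) : R)) = (s : Set R) := by
    ext x
    constructor
    · rintro ⟨i, rfl⟩; exact (s.equivFin.symm i).2
    · intro hx; exact ⟨s.equivFin ⟨x, hx⟩, by simp⟩
  have hspan : Ideal.span (Set.range (fun i : Fin s.card => ((s.equivFin.symm i : s) : R))) =
      maximalIdeal R := by rw [hrange]; exact hs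
  have hmem : ∀ i : Fin s.card, ((s.equivFin.symm i : s) : R) ∈ maximalIdeal R := by
    intro i
    rw [← hspan]
    exact Ideal.subset_span ⟨i, rfl⟩
  obtain ⟨x, hx, hxle, r, hr⟩ := exists_reduction (R := R)
    (fun i : Fin s.card => ((s.equivFin.symm i : s) : R)) hmem 2 B
    (fun n hn => by rw [hspan]; exact hgrowth n hn)
  rw [hspan] at hxle hr
  have hrx : Set.range x = {x 0, x 1} := by
    ext a
    simp only [Set.mem_range, Fin.exists_fin_two, Set.mem_insert_iff, Set.mem_singleton_iff]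
    constructor
    · rintro (h | h)
      · exact Or.inl h.symm
      · exact Or.inr h.symm
    · rintro (h | h)
      · exact Or.inl h.symm
      · exact Or.inr h.symm
  rw [hrx] at hr
  obtain ⟨K, hK⟩ := H R S hres hfib (x 0) (x 1) (hxle (Ideal.subset_span ⟨0, rfl⟩))
    (hxle (Ideal.subset_span ⟨1, rfl⟩)) r hr l1 l2 hl1 hl2 hl ρ hρ
  refine ⟨K, fun N => ?_⟩
  have h1 := hK N
  have h2 : ((chi2 l1 l2 S).toNat : ℕ∞) ≤ e := by
    rw [← he]
    refine (chi2_le_emin l1 l2 hl).trans ?_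
    refine emin_le_of_span_eq (by simp) _ _ ?_ ?_
    · rw [hr1, hy]
    · rw [hr1]; exact hl
  have h3 : (chi2 l1 l2 S).toNat ≤ e := by exact_mod_cast h2
  obtain ⟨a, ha⟩ := ENat.ne_top_iff_exists.mp
    (ell_ne_top_of_pow_le (I := maximalIdeal R ^ N) le_rfl)
  rw [← ha] at h1 ⊢
  rw [ENat.toNat_natCast]
  have h4 : ρ * (2 * a) ≤ (chi2 l1 l2 S).toNat * N ^ 2 + K * (N + 1) := by exact_mod_cast h1
  refine h4.trans ?_
  gcongr

lemma emin_quot_le_of_eq {A : Type*} [CommRing A] [IsNoetherianRing A] {δ : ℕ} (hδ : 0 < δ)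
    {J : Ideal A} {z : A} (hJ : J = Ideal.span {z}) (y : Fin δ → A)
    (hfin : ell (Ideal.span (Set.range (Fin.cons z y : Fin (δ + 1) → A))) ≠ ⊤)
    (hfr : ∀ i, Module.length A (col (⊥ : Ideal A) (z ^ i)) ≠ ⊤) :
    emin (fun i => Ideal.Quotient.mk J (y i)) ≤ emin (Fin.cons z y : Fin (δ + 1) → A) := by
  subst hJ
  exact emin_quot_le hδ z y hfin hfr

lemma range_two {A : Type*} (a b : A) : Set.range (![a, b] : Fin 2 → A) = {a, b} := by
  ext c
  simp only [Set.mem_range, Fin.exists_fin_two, Matrix.cons_val_zero, Matrix.cons_val_one,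
    Set.mem_insert_iff, Set.mem_singleton_iff]
  constructor
  · rintro (h | h)
    · exact Or.inl h.symm
    · exact Or.inr h.symm
  · rintro (h | h)
    · exact Or.inl h.symm
    · exact Or.inr h.symm

lemma range_append' {A : Type*} {δ : ℕ} (f : Fin δ → A) (a b : A) :
    Set.range (Fin.append f ![a, b] : Fin (δ + 2) → A) = Set.range f ∪ {a, b} := by
  rw [← range_two a b]
  ext c
  constructor
  · rintro ⟨i, rfl⟩
    refine Fin.addCases (fun i => ?_) (fun i => ?_) i
    · exact Or.inl ⟨i, by rw [Fin.append_left]⟩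
    · exact Or.inr ⟨i, by rw [Fin.append_right]⟩
  · rintro (⟨i, rfl⟩ | ⟨i, rfl⟩)
    · exact ⟨Fin.castAdd 2 i, by rw [Fin.append_left]⟩
    · exact ⟨Fin.natAdd δ i, by rw [Fin.append_right]⟩

/-- The induction. -/
theorem chainD {b : Prop} (H : TwoDimBound.{u} b) (δ : ℕ) : ∀ (R S : Type u) [CommRing R] [IsLocalRing R]
    [IsNoetherianRing R] [IsAdicComplete (maximalIdeal R) R] [Infinite (ResidueField R)]
    [CommRing S] [IsLocalRing S] [IsNoetherianRing S] [Algebra R S]
    [IsLocalHom (algebraMap R S)] [Module.Flat R S]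
    (_ : b → Module.length (ResidueField R) (ResidueField S) ≠ ⊤)
    (_ : ell ((maximalIdeal R).map (algebraMap R S)) ≠ ⊤)
    (l1 l2 : S) (_ : l1 ∈ maximalIdeal S) (_ : l2 ∈ maximalIdeal S) (ρ : ℕ)
    (_ : ell ((maximalIdeal R).map (algebraMap R S) ⊔ Ideal.span {l1, l2}) = ρ)
    (x : Fin δ → R) (_ : ∀ i, x i ∈ maximalIdeal R)
    (_ : ∀ x' : Fin δ → R, (∀ i, x' i - x i ∈ maximalIdeal R ^ 2) →
      ell (Ideal.span {l1, l2} ⊔ (Ideal.span (Set.range x')).map (algebraMap R S)) ≠ ⊤),
    ∃ x' : Fin δ → R, (∀ i, x' i - x i ∈ maximalIdeal R ^ 2) ∧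
      ∀ y : Fin (δ + 2) → S, Ideal.span (Set.range y) =
        Ideal.span {l1, l2} ⊔ (Ideal.span (Set.range x')).map (algebraMap R S) →
      ∀ e : ℕ, emin y = e → ∃ K : ℕ, ∀ N : ℕ,
        ρ * ((δ + 2).factorial * (ell (maximalIdeal R ^ N)).toNat) ≤
          e * N ^ (δ + 2) + K * (N + 1) ^ (δ + 1) := by
  induction δ with
  | zero =>
    intro R S _ _ _ _ _ _ _ _ _ _ _ hres hfib l1 l2 hl1 hl2 ρ hρ x hx hfin
    refine ⟨x, fun i => i.elim0, fun y hy e he => ?_⟩
    have h0 : Ideal.span {l1, l2} ⊔ (Ideal.span (Set.range x)).map (algebraMap R S) =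
        Ideal.span {l1, l2} := by
      have : Set.range x = ∅ := Set.range_eq_empty x
      rw [this, Ideal.span_empty, Ideal.map_bot, sup_bot_eq]
    rw [h0] at hy
    have hl := hfin x (fun i => i.elim0)
    rw [h0] at hl
    obtain ⟨K, hK⟩ := two_dim_base H hres hfib l1 l2 hl1 hl2 hl ρ hρ y hy e he
    exact ⟨K, fun N => by simpa using hK N⟩
  | succ δ ih =>
    intro R S _ _ _ _ _ _ _ _ _ _ _ hres hfib l1 l2 hl1 hl2 ρ hρ x hx hfin
    obtain ⟨w, hw, hfr⟩ := exists_perturb (x 0)
    set z := x 0 + w with hz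
    have hzm : z ∈ maximalIdeal R :=
      Ideal.add_mem _ (hx 0) (Ideal.pow_le_self two_ne_zero hw)
    have hI : Ideal.span {z} ≤ maximalIdeal R := (Ideal.span_singleton_le_iff_mem _).mpr hzm
    have hIS : (Ideal.span {z}).map (algebraMap R S) ≤ maximalIdeal S :=
      (Ideal.map_mono hI).trans map_max_le
    have i1 : IsLocalRing (R ⧸ Ideal.span {z}) := isLocalRing_quot hI
    have i2 : IsLocalRing (S ⧸ (Ideal.span {z}).map (algebraMap R S)) := isLocalRing_quot hIS
    have i3 : IsAdicComplete (maximalIdeal (R ⧸ Ideal.span {z})) (R ⧸ Ideal.span {z}) :=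
      cd_isAdicComplete_quotient hI
    have i4 : IsLocalHom (algebraMap (R ⧸ Ideal.span {z})
        (S ⧸ (Ideal.span {z}).map (algebraMap R S))) := isLocalHom_quot hI
    have i5 : Module.Flat (R ⧸ Ideal.span {z}) (S ⧸ (Ideal.span {z}).map (algebraMap R S)) :=
      flat_quot _
    have i6 : IsLocalHom (Ideal.Quotient.mk (Ideal.span {z})) :=
      IsLocalHom.of_surjective _ Ideal.Quotient.mk_surjective
    have i7 : Infinite (ResidueField (R ⧸ Ideal.span {z})) :=
      Infinite.of_injective (ResidueField.map (Ideal.Quotient.mk (Ideal.span {z})))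
        (RingHom.injective _)
    set πR := Ideal.Quotient.mk (Ideal.span {z}) with hπR
    set πS := Ideal.Quotient.mk ((Ideal.span {z}).map (algebraMap R S)) with hπS
    have hmR : (maximalIdeal R).map πR = maximalIdeal (R ⧸ Ideal.span {z}) := map_max_quot hI
    have hcomp : (algebraMap (R ⧸ Ideal.span {z})
        (S ⧸ (Ideal.span {z}).map (algebraMap R S))).comp πR = πS.comp (algebraMap R S) := rfl
    have hmm : ∀ J : Ideal R, (J.map πR).map (algebraMap (R ⧸ Ideal.span {z})
        (S ⧸ (Ideal.span {z}).map (algebraMap R S))) = (J.map (algebraMap R S)).map πS := by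
      intro J
      rw [Ideal.map_map, hcomp, Ideal.map_map]
    have hpair : Ideal.span {πS l1, πS l2} = (Ideal.span {l1, l2}).map πS := by
      rw [Ideal.map_span πS, Set.image_pair]
    have hzS : (Ideal.span {z}).map (algebraMap R S) ≤
        (maximalIdeal R).map (algebraMap R S) := Ideal.map_mono hI
    have hfib1 : ell ((maximalIdeal (R ⧸ Ideal.span {z})).map (algebraMap (R ⧸ Ideal.span {z})
        (S ⧸ (Ideal.span {z}).map (algebraMap R S)))) ≠ ⊤ := by
      rw [← hmR, hmm, hπS, ell_map_mk, sup_eq_left.mpr hzS]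
      exact hfib
    have hρ1 : ell ((maximalIdeal (R ⧸ Ideal.span {z})).map (algebraMap (R ⧸ Ideal.span {z})
        (S ⧸ (Ideal.span {z}).map (algebraMap R S))) ⊔ Ideal.span {πS l1, πS l2}) = ρ := by
      rw [← hmR, hmm, hpair, ← Ideal.map_sup, hπS, ell_map_mk,
        sup_eq_left.mpr (hzS.trans le_sup_left)]
      exact hρ
    -- lifting perturbations
    have hlift : ∀ v : Fin δ → R ⧸ Ideal.span {z},
        (∀ i, v i - πR (x i.succ) ∈ maximalIdeal (R ⧸ Ideal.span {z}) ^ 2) →
        ∃ v' : Fin δ → R, (∀ i, v' i - x i.succ ∈ maximalIdeal R ^ 2) ∧ ∀ i, πR (v' i) = v i := by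
      intro v hv
      have h1 : ∀ i, ∃ a ∈ maximalIdeal R ^ 2, πR a = v i - πR (x i.succ) := by
        intro i
        have h2 := hv i
        rw [← hmR, ← Ideal.map_pow] at h2
        exact (Ideal.mem_map_iff_of_surjective πR Ideal.Quotient.mk_surjective).mp h2
      choose a ha1 ha2 using h1
      refine ⟨fun i => x i.succ + a i, fun i => ?_, fun i => ?_⟩
      · rw [add_sub_cancel_left]; exact ha1 i
      · rw [map_add, ha2]; ring
    have hcons : ∀ v' : Fin δ → R, (∀ i, v' i - x i.succ ∈ maximalIdeal R ^ 2) →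
        ∀ i, (Fin.cons z v' : Fin (δ + 1) → R) i - x i ∈ maximalIdeal R ^ 2 := by
      intro v' hv' i
      refine Fin.cases ?_ (fun i => ?_) i
      · rw [Fin.cons_zero, hz, add_sub_cancel_left]; exact hw
      · rw [Fin.cons_succ]; exact hv' i
    have hspanc : ∀ v' : Fin δ → R, Ideal.span (Set.range (Fin.cons z v' : Fin (δ + 1) → R)) =
        Ideal.span (Set.range v') ⊔ Ideal.span {z} := by
      intro v'
      rw [Fin.range_cons, Ideal.span_insert, sup_comm]
    have hrangeπ : ∀ v' : Fin δ → R, (Ideal.span (Set.range v')).map πR =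
        Ideal.span (Set.range fun i => πR (v' i)) := by
      intro v'
      rw [Ideal.map_span]
      congr 1
      ext a
      simp
    obtain ⟨v, hv, hv2⟩ := ih (R ⧸ Ideal.span {z}) (S ⧸ (Ideal.span {z}).map (algebraMap R S))
      (fun hb => by rw [residue_length_quot]; exact hres hb) hfib1 (πS l1) (πS l2) (by rw [← map_max_quot hIS]; exact Ideal.mem_map_of_mem _ hl1)
      (by rw [← map_max_quot hIS]; exact Ideal.mem_map_of_mem _ hl2) ρ hρ1
      (fun i => πR (x i.succ)) (fun i => by rw [← hmR]; exact Ideal.mem_map_of_mem _ (hx _))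
      (by
        intro v hv
        obtain ⟨v', hv', hvv⟩ := hlift v hv
        have h1 := hfin (Fin.cons z v') (hcons v' hv')
        have h2 : (fun i => πR (v' i)) = v := funext hvv
        rw [← h2, ← hrangeπ, hmm, hpair, ← Ideal.map_sup, hπS, ell_map_mk]
        rw [hspanc, Ideal.map_sup, ← sup_assoc] at h1
        exact h1)
    obtain ⟨v', hv', hvv⟩ := hlift v hv
    refine ⟨Fin.cons z v', hcons v' hv', fun y hy e he => ?_⟩
    have hvv' : (fun i => πR (v' i)) = v := funext hvv
    have hYfin := hfin (Fin.cons z v') (hcons v' hv')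
    let y2 : Fin (δ + 2) → S := Fin.append (fun i => algebraMap R S (v' i)) ![l1, l2]
    have hy2 : Ideal.span (Set.range y2) =
        Ideal.span {l1, l2} ⊔ (Ideal.span (Set.range v')).map (algebraMap R S) := by
      rw [range_append', Ideal.span_union, sup_comm, Ideal.map_span]
      congr 2
      ext a
      simp
    let Y : Fin (δ + 2 + 1) → S := Fin.cons (algebraMap R S z) y2
    have hY : Ideal.span (Set.range Y) = Ideal.span {l1, l2} ⊔
        (Ideal.span (Set.range (Fin.cons z v' : Fin (δ + 1) → R))).map (algebraMap R S) := by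
      rw [Fin.range_cons, Ideal.span_insert, hy2, hspanc, Ideal.map_sup, sup_comm, sup_assoc]
      congr 2
      rw [Ideal.map_span, Set.image_singleton]
    have hle1 : emin (fun i => πS (y2 i)) ≤ emin Y := by
      refine emin_quot_le_of_eq (by omega) ?_ y2 ?_ (filter_regular_map hfib z hfr)
      · rw [Ideal.map_span, Set.image_singleton]
      · rw [hY]; exact hYfin
    have hle2 : emin Y ≤ emin y := by
      refine emin_le_of_span_eq (by simp) Y y ?_ ?_
      · rw [hY, hy]
      · rw [hY]; exact hYfin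
    have hle3 := hle1.trans hle2
    rw [he] at hle3
    obtain ⟨e1, he1⟩ := ENat.ne_top_iff_exists.mp
      (ne_top_of_le_ne_top (ENat.natCast_ne_top e) hle3)
    have he1e : e1 ≤ e := by
      rw [← he1] at hle3
      exact_mod_cast hle3
    obtain ⟨K, hK⟩ := hv2 (fun i => πS (y2 i)) (by
      rw [← hvv', ← hrangeπ, hmm, hpair, ← Ideal.map_sup, ← hy2, Ideal.map_span πS]
      congr 1
      ext a
      simp) e1 he1.symm
    refine ⟨e1 * (δ + 2 + 1) + (δ + 2 + 1) * K, fun N => ?_⟩
    have hRt : ∀ s, ell (maximalIdeal R ^ s) ≠ ⊤ := fun s => ell_ne_top_of_pow_le le_rfl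
    have hR1t : ∀ s, ell (maximalIdeal (R ⧸ Ideal.span {z}) ^ s) ≠ ⊤ :=
      fun s => ell_ne_top_of_pow_le le_rfl
    have hsum : (ell (maximalIdeal R ^ N)).toNat ≤
        ∑ i ∈ Finset.range N, (ell (maximalIdeal (R ⧸ Ideal.span {z}) ^ (i + 1))).toNat := by
      have h1 := ell_pow_le_sum (maximalIdeal R) hzm N
      rw [hmR] at h1
      have h2 : ∀ i ∈ Finset.range N, ell (maximalIdeal (R ⧸ Ideal.span {z}) ^ (i + 1)) =
          (((ell (maximalIdeal (R ⧸ Ideal.span {z}) ^ (i + 1))).toNat : ℕ) : ℕ∞) :=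
        fun i _ => (ENat.natCast_toNat (hR1t _)).symm
      rw [Finset.sum_congr rfl h2, ← Nat.cast_sum, ← ENat.natCast_toNat (hRt N)] at h1
      exact_mod_cast h1
    have hstep := sum_step (δ + 2) e1 K (by omega) N
    calc ρ * ((δ + 1 + 2).factorial * (ell (maximalIdeal R ^ N)).toNat)
        ≤ ρ * ((δ + 1 + 2).factorial * ∑ i ∈ Finset.range N,
            (ell (maximalIdeal (R ⧸ Ideal.span {z}) ^ (i + 1))).toNat) := by gcongr
      _ = (δ + 2 + 1) * ∑ i ∈ Finset.range N, (ρ * ((δ + 2).factorial *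
            (ell (maximalIdeal (R ⧸ Ideal.span {z}) ^ (i + 1))).toNat)) := by
          rw [show δ + 1 + 2 = (δ + 2) + 1 by ring, Nat.factorial_succ, ← Finset.mul_sum,
            ← Finset.mul_sum]
          ring
      _ ≤ (δ + 2 + 1) * ∑ i ∈ Finset.range N,
            (e1 * (i + 1) ^ (δ + 2) + K * (i + 1 + 1) ^ (δ + 2 - 1)) := by
          refine Nat.mul_le_mul_left _ (Finset.sum_le_sum fun i _ => ?_)
          exact hK (i + 1)
      _ ≤ e1 * N ^ (δ + 2 + 1) + (e1 * (δ + 2 + 1) + (δ + 2 + 1) * K) * (N + 1) ^ (δ + 2) := hstep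
      _ ≤ e * N ^ (δ + 1 + 2) + (e1 * (δ + 2 + 1) + (δ + 2 + 1) * K) * (N + 1) ^ (δ + 1 + 1) := by
          rw [show δ + 1 + 2 = δ + 2 + 1 by ring, show δ + 1 + 1 = δ + 2 by ring]
          gcongr

end Vale.Agent.P202
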