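import Vale.Agent.P202.QuotLen
import Vale.Agent.P202.Asym
import Mathlib.RingTheory.Ideal.KrullsHeightTheorem
import Mathlib.RingTheory.LocalRing.Quotient

/-!
Finiteness of colengths in Noetherian local rings.
-/

set_option linter.unusedSectionVars false

namespace Vale.Agent.P202

open Ideal IsLocalRing

variable {A : Type*} [CommRing A]

lemma ell_eq_length_self (I : Ideal A) : ell I = Module.length (A ⧸ I) (A ⧸ I) := by
  refine Module.length_eq_of_surjective ?_
  exact Ideal.Quotient.mk_surjective

section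

variable [IsLocalRing A] [IsNoetherianRing A]

lemma isArtinianRing_quot {I : Ideal A} {s : ℕ} (h : maximalIdeal A ^ s ≤ I) :
    IsArtinianRing (A ⧸ I) := by
  by_cases hI : I = ⊤
  · subst hI
    have : Subsingleton (A ⧸ (⊤ : Ideal A)) := Ideal.Quotient.subsingleton_iff.mpr rfl
    infer_instance
  · refine IsLocalRing.quotient_artinian_of_mem_minimalPrimes_of_isLocalRing I ?_
    refine ⟨⟨inferInstance, le_maximalIdeal hI⟩, ?_⟩
    rintro P ⟨hP, hIP⟩ _
    exact hP.le_of_pow_le (h.trans hIP)

lemma ell_ne_top_of_pow_le {I : Ideal A} {s : ℕ} (h : maximalIdeal A ^ s ≤ I) : ell I ≠ ⊤ := by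
  have := isArtinianRing_quot h
  rw [ell_eq_length_self]
  exact Module.length_ne_top

lemma exists_pow_le_of_ell_ne_top {I : Ideal A} (h : ell I ≠ ⊤) :
    ∃ s, maximalIdeal A ^ s ≤ I := by
  rw [ell_eq_length_self] at h
  have h1 := (Module.length_ne_top_iff.mp h)
  have h2 : IsArtinianRing (A ⧸ I) := (isFiniteLength_iff_isNoetherian_isArtinian.mp h1).2
  exact exists_maximalIdeal_pow_le_of_isArtinianRing_quotient I

lemma ell_maximalIdeal : ell (maximalIdeal A) = 1 := by
  rw [ell, Module.length_eq_one_iff]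
  exact isSimpleModule_iff_isCoatom.mpr (Ideal.isMaximal_def.mp inferInstance)

/-- A Noetherian local ring of dimension `d` has a `d`-generated primary ideal. -/
lemma exists_parameters {d : ℕ} (hd : ringKrullDim A = d) :
    ∃ w : Fin d → A, (∀ i, w i ∈ maximalIdeal A) ∧
      ∃ s, maximalIdeal A ^ s ≤ Ideal.span (Set.range w) := by
  obtain ⟨s, hs, hcard⟩ := (maximalIdeal A).exists_finset_card_eq_height_of_isNoetherianRing
  rw [← IsLocalRing.maximalIdeal_height_eq_ringKrullDim] at hd
  have hcard' : s.card = d := by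
    have : ((maximalIdeal A).height : WithBot ℕ∞) = ((d : ℕ∞) : WithBot ℕ∞) := hd
    rw [WithBot.coe_inj] at this
    rw [this] at hcard
    exact_mod_cast hcard
  let e := s.equivFinOfCardEq hcard'
  have hrange : Set.range (fun i => ((e.symm i : s) : A)) = (s : Set A) := by
    ext x
    constructor
    · rintro ⟨i, rfl⟩; exact (e.symm i).2
    · intro hx; exact ⟨e ⟨x, hx⟩, by simp⟩
  refine ⟨fun i => (e.symm i : s), fun i => hs.1.2 (Ideal.subset_span (e.symm i).2), ?_⟩
  rw [hrange]
  have := IsLocalRing.quotient_artinian_of_mem_minimalPrimes_of_isLocalRing _ hs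
  exact exists_maximalIdeal_pow_le_of_isArtinianRing_quotient _

end

end Vale.Agent.P202
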