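import Mathlib

/-!
Relative lengths of submodules.
-/

namespace Vale.Agent.P202

open Submodule

section
variable {A : Type*} [CommRing A] {M M' : Type*} [AddCommGroup M] [Module A M]
  [AddCommGroup M'] [Module A M']

/-- relative length: the length of `N / (K ∩ N)`. -/
noncomputable def rl (K N : Submodule A M) : ℕ∞ := Module.length A (↥N ⧸ K.submoduleOf N)

lemma rl_eq_zero_iff {K N : Submodule A M} : rl K N = 0 ↔ N ≤ K := by
  rw [rl, Module.length_eq_zero_iff, Submodule.Quotient.subsingleton_iff,
    Submodule.submoduleOf_eq_top]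

@[simp] lemma rl_self (K : Submodule A M) : rl K K = 0 := rl_eq_zero_iff.mpr le_rfl

lemma rl_top (K : Submodule A M) : rl K ⊤ = Module.length A (M ⧸ K) := by
  refine LinearEquiv.length_eq (Submodule.Quotient.equiv _ _ Submodule.topEquiv ?_)
  ext x
  simp [Submodule.submoduleOf]

lemma rl_bot (N : Submodule A M) : rl ⊥ N = Module.length A N := by
  refine LinearEquiv.length_eq (Submodule.quotEquivOfEqBot _ ?_)
  simp [Submodule.submoduleOf]

/-- the length of a quotient computed by a linear map out of `N`. -/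
lemma rl_eq_length_of_surjective {Q : Type*} [AddCommGroup Q] [Module A Q]
    {K N : Submodule A M} (f : N →ₗ[A] Q)
    (hf : Function.Surjective f) (hk : LinearMap.ker f = K.submoduleOf N) :
    rl K N = Module.length A Q := by
  rw [rl, ← hk]
  exact LinearEquiv.length_eq (f.quotKerEquivOfSurjective hf)

lemma rl_inf_left (K N : Submodule A M) : rl (K ⊓ N) N = rl K N := by
  have : (K ⊓ N).submoduleOf N = K.submoduleOf N := by
    ext x; simp [Submodule.submoduleOf]
  rw [rl, rl, this]

lemma rl_sup_right (K N : Submodule A M) : rl K (K ⊔ N) = rl K N := by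
  have h := LinearMap.quotientInfEquivSupQuotient N K
  have e1 : (Submodule.comap N.subtype N ⊓ Submodule.comap N.subtype K) = K.submoduleOf N := by
    ext x; simp [Submodule.submoduleOf]
  rw [sup_comm, rl, rl]
  have := LinearEquiv.length_eq h
  rw [e1] at this
  exact this.symm

lemma rl_add {K L N : Submodule A M} (h1 : K ≤ L) (h2 : L ≤ N) :
    rl K N = rl K L + rl L N := by
  let f : (↥L ⧸ K.submoduleOf L) →ₗ[A] (↥N ⧸ K.submoduleOf N) :=
    Submodule.mapQ _ _ (Submodule.inclusion h2) (by intro x hx; exact hx)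
  let g : (↥N ⧸ K.submoduleOf N) →ₗ[A] (↥N ⧸ L.submoduleOf N) :=
    Submodule.factor (by intro x hx; exact h1 hx)
  refine Module.length_eq_add_of_exact f g ?_ (Submodule.factor_surjective _) ?_
  · rw [injective_iff_map_eq_zero]
    intro z
    obtain ⟨z, rfl⟩ := Submodule.Quotient.mk_surjective _ z
    intro hz
    have hz' : (Submodule.Quotient.mk (Submodule.inclusion h2 z) : ↥N ⧸ K.submoduleOf N) = 0 := hz
    rw [Submodule.Quotient.mk_eq_zero] at hz' ⊢
    exact hz'
  · rw [LinearMap.exact_iff]
    ext z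
    obtain ⟨z, rfl⟩ := Submodule.Quotient.mk_surjective _ z
    constructor
    · intro hz
      have hz' : z ∈ L.submoduleOf N := by
        have : (Submodule.Quotient.mk z : ↥N ⧸ L.submoduleOf N) = 0 := hz
        exact (Submodule.Quotient.mk_eq_zero _).mp this
      exact ⟨Submodule.Quotient.mk ⟨z.1, hz'⟩, rfl⟩
    · rintro ⟨c, hc⟩
      obtain ⟨c, rfl⟩ := Submodule.Quotient.mk_surjective _ c
      rw [← hc]
      change (Submodule.Quotient.mk (Submodule.inclusion h2 c) : ↥N ⧸ L.submoduleOf N) = 0
      rw [Submodule.Quotient.mk_eq_zero]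
      exact c.2

/-- modularity. -/
lemma rl_sup_inf (K N : Submodule A M) : rl (K ⊓ N) N = rl K (K ⊔ N) := by
  rw [rl_inf_left, rl_sup_right]

lemma rl_mono_right {K N N' : Submodule A M} (h : N ≤ N') : rl K N ≤ rl K N' := by
  rw [← rl_sup_right K N, ← rl_sup_right K N', rl_add (le_sup_left) (sup_le_sup_left h K)]
  exact le_self_add

lemma rl_anti_left {K K' N : Submodule A M} (h : K ≤ K') : rl K' N ≤ rl K N := by
  rw [← rl_inf_left K N, ← rl_inf_left K' N,
    rl_add (inf_le_inf_right N h) (inf_le_right : K' ⊓ N ≤ N)]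
  exact le_add_self

lemma rl_le_add (K L N : Submodule A M) : rl K N ≤ rl K L + rl L N := by
  calc rl K N ≤ rl (K ⊓ L) N := rl_anti_left inf_le_left
    _ ≤ rl (K ⊓ L) (L ⊔ N) := rl_mono_right le_sup_right
    _ = rl (K ⊓ L) L + rl L (L ⊔ N) := rl_add inf_le_right le_sup_left
    _ = rl K L + rl L N := by rw [rl_inf_left, rl_sup_right]

/-- behaviour under a linear map. -/
lemma rl_map (f : M →ₗ[A] M') (K N : Submodule A M) :
    rl (K.map f) (N.map f) = rl (K ⊔ LinearMap.ker f) N := by
  symm
  let g : N →ₗ[A] (↥(N.map f) ⧸ (K.map f).submoduleOf (N.map f)) :=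
    (Submodule.mkQ _).comp (f.submoduleMap N)
  refine rl_eq_length_of_surjective g ?_ ?_
  · exact (Submodule.mkQ_surjective _).comp (f.submoduleMap_surjective N)
  · ext x
    have h1 : x ∈ LinearMap.ker g ↔ f x ∈ K.map f := by
      rw [LinearMap.mem_ker]
      change Submodule.Quotient.mk (f.submoduleMap N x) = _ ↔ _
      rw [Submodule.Quotient.mk_eq_zero]
      exact Iff.rfl
    have h2 : x ∈ (K ⊔ LinearMap.ker f).submoduleOf N ↔ x.1 ∈ K ⊔ LinearMap.ker f := Iff.rfl
    rw [h1, h2, ← Submodule.comap_map_eq, Submodule.mem_comap]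

lemma rl_map_le (f : M →ₗ[A] M') (K N : Submodule A M) : rl (K.map f) (N.map f) ≤ rl K N := by
  rw [rl_map]; exact rl_anti_left le_sup_left

lemma rl_map_of_injective (f : M →ₗ[A] M') (hf : Function.Injective f) (K N : Submodule A M) :
    rl (K.map f) (N.map f) = rl K N := by
  rw [rl_map, LinearMap.ker_eq_bot.mpr hf, sup_bot_eq]

lemma rl_comap (f : M →ₗ[A] M') (K N : Submodule A M') :
    rl (K.comap f) (N.comap f) = rl K (N ⊓ LinearMap.range f) := by
  have hk : LinearMap.ker f ≤ K.comap f := fun x hx => by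
    rw [Submodule.mem_comap, LinearMap.mem_ker.mp hx]; exact K.zero_mem
  have h := rl_map f (K.comap f) (N.comap f)
  rw [Submodule.map_comap_eq, Submodule.map_comap_eq, inf_comm _ K, inf_comm _ N,
    sup_of_le_left hk] at h
  rw [← h, ← rl_inf_left (K ⊓ _), ← rl_inf_left K]
  congr 1
  ext x
  simp only [Submodule.mem_inf]
  tauto

end

end Vale.Agent.P202
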