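import Vale.Agent.P202.Chi
import Vale.Agent.P202.RL
import Mathlib.Algebra.Module.SnakeLemma

/-!
Calculus of the Euler characteristics `chi1` and `chi2`.
-/

set_option linter.unusedSectionVars false
set_option linter.unusedVariables false

namespace Vale.Agent.P202

open IsLocalRing LinearMap Function

universe u v

section additive

variable {S : Type u} [CommRing S]

/-- additivity of an integer valued function on the finite modules killed by `I`. -/
def AddOn (I : Ideal S) (φ : ∀ (M : Type v) [AddCommGroup M] [Module S M], ℤ) : Prop :=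
  ∀ (M' M M'' : Type v) [AddCommGroup M'] [Module S M'] [AddCommGroup M] [Module S M]
    [AddCommGroup M''] [Module S M''] [Module.Finite S M] (f : M' →ₗ[S] M) (g : M →ₗ[S] M''),
    Injective f → Surjective g → Exact f g →
    (∀ r ∈ I, ∀ m : M, r • m = 0) → φ M = φ M' + φ M''

/-- difference of the values at the cokernel and the kernel of multiplication by `y`. -/
def Del (y : S) (φ : ∀ (M : Type v) [AddCommGroup M] [Module S M], ℤ) :
    ∀ (M : Type v) [AddCommGroup M] [Module S M], ℤ := fun M _ _ =>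
  φ (M ⧸ range (lsmul S M y)) - φ (ker (lsmul S M y))

variable {I : Ideal S} {φ : ∀ (M : Type v) [AddCommGroup M] [Module S M], ℤ}

lemma AddOn.zero (h : AddOn I φ) (M : Type v) [AddCommGroup M] [Module S M] [Subsingleton M] :
    φ M = 0 := by
  have h1 := h M M M LinearMap.id LinearMap.id injective_id surjective_id
    (fun y => ⟨fun _ => ⟨0, Subsingleton.elim _ _⟩, fun _ => Subsingleton.elim _ _⟩)
    (fun r _ m => Subsingleton.elim _ _)
  omega

lemma AddOn.congr (h : AddOn I φ) {M M' : Type v} [AddCommGroup M] [Module S M]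
    [AddCommGroup M'] [Module S M'] [Module.Finite S M] (hI : ∀ r ∈ I, ∀ m : M, r • m = 0)
    (e : M ≃ₗ[S] M') : φ M = φ M' := by
  have h1 := h PUnit.{v+1} M M' 0 e.toLinearMap
    (fun a b _ => Subsingleton.elim _ _) e.surjective
    (fun y => ⟨fun hy => ⟨0, by
      have : e y = 0 := hy
      rw [LinearEquiv.map_eq_zero_iff] at this
      rw [this, map_zero]⟩, by rintro ⟨x, rfl⟩; simp⟩) hI
  rw [h.zero PUnit.{v+1}] at h1
  omega

lemma AddOn.rank [IsNoetherianRing S] (h : AddOn I φ) {M M' : Type v} [AddCommGroup M] [Module S M]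
    [AddCommGroup M'] [Module S M'] [Module.Finite S M] (hI : ∀ r ∈ I, ∀ m : M, r • m = 0)
    (f : M →ₗ[S] M') : φ M = φ (ker f) + φ (range f) :=
  h (ker f) M (range f) (ker f).subtype f.rangeRestrict (Submodule.injective_subtype _)
    f.surjective_rangeRestrict
    (fun y => ⟨fun hy => ⟨⟨y, by
      rw [LinearMap.mem_ker]
      exact congrArg Subtype.val hy⟩, rfl⟩, by
      rintro ⟨x, rfl⟩
      exact Subtype.ext (LinearMap.mem_ker.mp x.2)⟩) hI

lemma AddOn.six [IsNoetherianRing S] (h : AddOn I φ) {A1 A2 A3 A4 A5 A6 : Type v}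
    [AddCommGroup A1] [Module S A1] [AddCommGroup A2] [Module S A2]
    [AddCommGroup A3] [Module S A3] [AddCommGroup A4] [Module S A4]
    [AddCommGroup A5] [Module S A5] [AddCommGroup A6] [Module S A6]
    [Module.Finite S A1] [Module.Finite S A2] [Module.Finite S A3] [Module.Finite S A4]
    [Module.Finite S A5]
    (k1 : ∀ r ∈ I, ∀ m : A1, r • m = 0) (k2 : ∀ r ∈ I, ∀ m : A2, r • m = 0)
    (k3 : ∀ r ∈ I, ∀ m : A3, r • m = 0) (k4 : ∀ r ∈ I, ∀ m : A4, r • m = 0)
    (k5 : ∀ r ∈ I, ∀ m : A5, r • m = 0)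
    (f1 : A1 →ₗ[S] A2) (f2 : A2 →ₗ[S] A3) (f3 : A3 →ₗ[S] A4) (f4 : A4 →ₗ[S] A5)
    (f5 : A5 →ₗ[S] A6) (i1 : Injective f1) (e2 : Exact f1 f2) (e3 : Exact f2 f3)
    (e4 : Exact f3 f4) (e5 : Exact f4 f5) (s5 : Surjective f5) :
    φ A5 - φ A2 = (φ A4 - φ A1) + (φ A6 - φ A3) := by
  have E1 : φ A1 = φ (range f1) := h.congr k1 (LinearEquiv.ofInjective f1 i1)
  have E2 := h.rank k2 f2
  have E3 := h.rank k3 f3
  have E4 := h.rank k4 f4
  have E5 : φ A5 = φ (ker f5) + φ A6 := by
    refine h (ker f5) A5 A6 (ker f5).subtype f5 (Submodule.injective_subtype _) s5 ?_ k5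
    intro y
    exact ⟨fun hy => ⟨⟨y, hy⟩, rfl⟩, by rintro ⟨x, rfl⟩; exact x.2⟩
  rw [(LinearMap.exact_iff.mp e2 : ker f2 = range f1)] at E2
  rw [(LinearMap.exact_iff.mp e3 : ker f3 = range f2)] at E3
  rw [(LinearMap.exact_iff.mp e4 : ker f4 = range f3)] at E4
  rw [(LinearMap.exact_iff.mp e5 : ker f5 = range f4)] at E5
  omega

/-- the map induced on the kernels of multiplication by `y`. -/
def kerMap (y : S) {M N : Type*} [AddCommGroup M] [Module S M] [AddCommGroup N] [Module S N]
    (f : M →ₗ[S] N) : ker (lsmul S M y) →ₗ[S] ker (lsmul S N y) :=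
  f.restrict (fun x hx => by
    rw [LinearMap.mem_ker, lsmul_apply] at hx ⊢
    rw [← map_smul, hx, map_zero])

/-- the map induced on the cokernels of multiplication by `y`. -/
def cokMap (y : S) {M N : Type*} [AddCommGroup M] [Module S M] [AddCommGroup N] [Module S N]
    (f : M →ₗ[S] N) : (M ⧸ range (lsmul S M y)) →ₗ[S] (N ⧸ range (lsmul S N y)) :=
  Submodule.mapQ _ _ f (by
    rintro _ ⟨m, rfl⟩
    exact ⟨f m, by rw [lsmul_apply, lsmul_apply, map_smul]⟩)

lemma cok_killed (y : S) {M : Type*} [AddCommGroup M] [Module S M]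
    (hI : ∀ r ∈ I, ∀ m : M, r • m = 0) :
    ∀ r ∈ I ⊔ Ideal.span {y}, ∀ m : M ⧸ range (lsmul S M y), r • m = 0 := by
  intro r hr m
  obtain ⟨m, rfl⟩ := Submodule.Quotient.mk_surjective _ m
  obtain ⟨a, ha, b, hb, rfl⟩ := Submodule.mem_sup.mp hr
  obtain ⟨c, rfl⟩ := Ideal.mem_span_singleton'.mp hb
  rw [← Submodule.Quotient.mk_smul, Submodule.Quotient.mk_eq_zero, add_smul, hI a ha, zero_add]
  exact ⟨c • m, by rw [lsmul_apply, ← mul_smul, mul_comm]⟩

lemma ker_killed (y : S) {M : Type*} [AddCommGroup M] [Module S M]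
    (hI : ∀ r ∈ I, ∀ m : M, r • m = 0) :
    ∀ r ∈ I ⊔ Ideal.span {y}, ∀ m : ker (lsmul S M y), r • m = 0 := by
  intro r hr m
  obtain ⟨a, ha, b, hb, rfl⟩ := Submodule.mem_sup.mp hr
  obtain ⟨c, rfl⟩ := Ideal.mem_span_singleton'.mp hb
  apply Subtype.ext
  have h1 : y • (m : M) = 0 := m.2
  rw [Submodule.coe_smul, add_smul, hI a ha, zero_add, mul_smul, h1, smul_zero]
  rfl

/-- the snake lemma step. -/
lemma AddOn.del [IsNoetherianRing S] (y : S) (h : AddOn (I ⊔ Ideal.span {y}) φ) :
    AddOn I (Del y φ) := by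
  intro M' M M'' _ _ _ _ _ _ _ f g hf hg hfg hI
  have hI' : ∀ r ∈ I, ∀ m : M', r • m = 0 := by
    intro r hr m
    apply hf
    rw [map_smul, hI r hr, map_zero]
  have hI'' : ∀ r ∈ I, ∀ m : M'', r • m = 0 := by
    intro r hr m
    obtain ⟨m, rfl⟩ := hg m
    rw [← map_smul, hI r hr, map_zero]
  have hfin' : Module.Finite S M' := Module.Finite.of_injective f hf
  have hfin'' : Module.Finite S M'' := Module.Finite.of_surjective g hg
  have h₁ : f.comp (lsmul S M' y) = (lsmul S M y).comp f := by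
    ext m; simp
  have h₂ : g.comp (lsmul S M y) = (lsmul S M'' y).comp g := by
    ext m; simp
  have hι₂ : Exact (ker (lsmul S M y)).subtype (lsmul S M y) := LinearMap.exact_subtype_ker_map _
  have hι₃ : Exact (ker (lsmul S M'' y)).subtype (lsmul S M'' y) :=
    LinearMap.exact_subtype_ker_map _
  have hπ₁ : Exact (lsmul S M' y) (range (lsmul S M' y)).mkQ := LinearMap.exact_map_mkQ_range _
  have hπ₂ : Exact (lsmul S M y) (range (lsmul S M y)).mkQ := LinearMap.exact_map_mkQ_range _
  have ex3 := SnakeLemma.exact_δ'_right (lsmul S M' y) (lsmul S M y) (lsmul S M'' y) f g hfg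
    f g hfg h₁ h₂ (ker (lsmul S M y)).subtype hι₂ (ker (lsmul S M'' y)).subtype hι₃
    (range (lsmul S M' y)).mkQ hπ₁ hg hf (kerMap y g) rfl (Submodule.injective_subtype _)
  have ex4 := SnakeLemma.exact_δ'_left (lsmul S M' y) (lsmul S M y) (lsmul S M'' y) f g hfg
    f g hfg h₁ h₂ (ker (lsmul S M'' y)).subtype hι₃
    (range (lsmul S M' y)).mkQ hπ₁ (range (lsmul S M y)).mkQ hπ₂ hg hf (cokMap y f) rfl
    (Submodule.mkQ_surjective _)
  refine h.six (ker_killed y hI') (ker_killed y hI) (ker_killed y hI'') (cok_killed y hI')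
    (cok_killed y hI) (kerMap y f) (kerMap y g) _ (cokMap y f) (cokMap y g) ?_ ?_ ex3 ex4 ?_ ?_
  · intro a b hab
    exact Subtype.ext (hf (congrArg Subtype.val hab))
  · intro a
    constructor
    · intro ha
      have ha' : g a = 0 := congrArg Subtype.val ha
      obtain ⟨b, hb⟩ := (hfg a).mp ha'
      refine ⟨⟨b, ?_⟩, Subtype.ext hb⟩
      rw [LinearMap.mem_ker, lsmul_apply]
      apply hf
      rw [map_smul, hb, map_zero]
      exact a.2
    · rintro ⟨b, rfl⟩
      exact Subtype.ext ((hfg _).mpr ⟨b, rfl⟩)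
  · intro a
    obtain ⟨a, rfl⟩ := Submodule.Quotient.mk_surjective _ a
    constructor
    · intro ha
      have ha' : (Submodule.Quotient.mk (g a) : M'' ⧸ range (lsmul S M'' y)) = 0 := ha
      rw [Submodule.Quotient.mk_eq_zero] at ha'
      obtain ⟨c, hc⟩ := ha'
      obtain ⟨c, rfl⟩ := hg c
      rw [lsmul_apply, ← map_smul, eq_comm, ← sub_eq_zero, ← map_sub] at hc
      obtain ⟨b, hb⟩ := (hfg _).mp hc
      refine ⟨Submodule.Quotient.mk b, ?_⟩
      change Submodule.Quotient.mk (f b) = _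
      rw [hb, Submodule.Quotient.eq]
      refine ⟨-c, ?_⟩
      rw [lsmul_apply, smul_neg]
      abel
    · rintro ⟨b, hb⟩
      obtain ⟨b, rfl⟩ := Submodule.Quotient.mk_surjective _ b
      rw [← hb]
      change (Submodule.Quotient.mk (g (f b)) : M'' ⧸ range (lsmul S M'' y)) = 0
      rw [(hfg _).mpr ⟨b, rfl⟩]
      rfl
  · intro a
    obtain ⟨a, rfl⟩ := Submodule.Quotient.mk_surjective _ a
    obtain ⟨a, rfl⟩ := hg a
    exact ⟨Submodule.Quotient.mk a, rfl⟩

end additive

section finiteness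

variable {S : Type*} [CommRing S]

/-- a finite module killed by an ideal of finite colength has finite length. -/
lemma length_ne_top_of_killed {I : Ideal S} (hfin : Module.length S (S ⧸ I) ≠ ⊤)
    (M : Type*) [AddCommGroup M] [Module S M] [Module.Finite S M]
    (hI : ∀ r ∈ I, ∀ m : M, r • m = 0) : Module.length S M ≠ ⊤ := by
  obtain ⟨n, π, hπ⟩ := Module.Finite.exists_fin' S M
  let g : Fin n → ((S ⧸ I) →ₗ[S] M) := fun i =>
    Submodule.liftQ I (LinearMap.toSpanSingleton S M (π (Pi.single i 1))) (by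
      intro r hr
      rw [LinearMap.mem_ker, LinearMap.toSpanSingleton_apply]
      exact hI r hr _)
  let G : (Fin n → (S ⧸ I)) →ₗ[S] M := LinearMap.lsum S (fun _ => S ⧸ I) S g
  have hG : Surjective G := by
    intro m
    obtain ⟨v, rfl⟩ := hπ m
    refine ⟨fun i => Submodule.Quotient.mk (v i), ?_⟩
    have h0 : G (fun i => Submodule.Quotient.mk (v i)) =
        ∑ i, g i (Submodule.Quotient.mk (v i)) := by
      simp [G, LinearMap.lsum_apply]
    have h1 : ∀ i, g i (Submodule.Quotient.mk (v i)) = v i • π (Pi.single i 1) := fun i => rfl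
    rw [h0]
    simp only [h1, ← map_smul, ← map_sum]
    congr 1
    ext j
    simp [Finset.sum_apply, Pi.single_apply]
  have h2 : Module.length S (Fin n → (S ⧸ I)) ≠ ⊤ := by
    rw [Module.length_pi]
    refine WithTop.mul_ne_top ?_ hfin
    rw [ENat.card_eq_coe_fintype_card]
    exact ENat.natCast_ne_top _
  exact ne_top_of_le_ne_top h2 (Module.length_le_of_surjective G hG)

lemma addOn_length [IsNoetherianRing S] {I : Ideal S}
    (hfin : Module.length S (S ⧸ I) ≠ ⊤) :
    AddOn.{_, v} I (fun M _ _ => ((Module.length S M).toNat : ℤ)) := by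
  intro M' M M'' _ _ _ _ _ _ _ f g hf hg hfg hI
  have h1 := Module.length_eq_add_of_exact f g hf hg hfg
  have h2 := length_ne_top_of_killed hfin M hI
  have h3 : Module.length S M' ≠ ⊤ := ne_top_of_le_ne_top h2 (Module.length_le_of_injective f hf)
  have h4 : Module.length S M'' ≠ ⊤ := ne_top_of_le_ne_top h2 (Module.length_le_of_surjective g hg)
  simp only [h1, ENat.toNat_add h3 h4]
  push_cast
  ring

lemma addOn_chi1 [IsNoetherianRing S] {I : Ideal S} (y : S)
    (hfin : Module.length S (S ⧸ (I ⊔ Ideal.span {y})) ≠ ⊤) :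
    AddOn.{_, v} I (fun M _ _ => chi1 y M) :=
  AddOn.del y (addOn_length hfin)

lemma addOn_chi2 [IsNoetherianRing S] (y1 y2 : S)
    (hfin : Module.length S (S ⧸ Ideal.span {y1, y2}) ≠ ⊤) :
    AddOn.{_, v} (⊥ : Ideal S) (fun M _ _ => chi2 y1 y2 M) := by
  refine AddOn.del y1 (addOn_chi1 y2 ?_)
  rw [bot_sup_eq, ← Ideal.span_insert]
  exact hfin

end finiteness

section congr

variable {S : Type*} [CommRing S] {M M' : Type*} [AddCommGroup M] [Module S M]
  [AddCommGroup M'] [Module S M']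

/-- equivalence of cokernels. -/
def cokEquiv (y : S) (e : M ≃ₗ[S] M') :
    (M ⧸ range (lsmul S M y)) ≃ₗ[S] (M' ⧸ range (lsmul S M' y)) :=
  Submodule.Quotient.equiv _ _ e (by
    ext x
    constructor
    · rintro ⟨_, ⟨z, rfl⟩, rfl⟩
      exact ⟨e z, by simp⟩
    · rintro ⟨z, rfl⟩
      exact ⟨y • e.symm z, ⟨e.symm z, rfl⟩, by simp⟩)

/-- equivalence of kernels. -/
def kerEquiv (y : S) (e : M ≃ₗ[S] M') :
    ker (lsmul S M y) ≃ₗ[S] ker (lsmul S M' y) :=
  LinearEquiv.ofSubmodules e _ _ (by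
    ext x
    constructor
    · rintro ⟨z, hz, rfl⟩
      have hz' : y • z = 0 := hz
      change y • e z = 0
      rw [← map_smul, hz', map_zero]
    · intro hx
      have hx' : y • x = 0 := hx
      refine ⟨e.symm x, ?_, by simp⟩
      change y • e.symm x = 0
      rw [← map_smul, hx', map_zero])

lemma chi1_congr (y : S) (e : M ≃ₗ[S] M') : chi1 y M = chi1 y M' := by
  unfold chi1
  rw [(cokEquiv y e).length_eq, (kerEquiv y e).length_eq]

lemma chi2_congr (y1 y2 : S) (e : M ≃ₗ[S] M') : chi2 y1 y2 M = chi2 y1 y2 M' := by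
  unfold chi2
  rw [chi1_congr y2 (cokEquiv y1 e), chi1_congr y2 (kerEquiv y1 e)]

end congr

section killed

variable {S : Type*} [CommRing S] {M : Type*} [AddCommGroup M] [Module S M]

lemma chi1_of_subsingleton [Subsingleton M] (y : S) : chi1 y M = 0 := by
  unfold chi1
  have : Subsingleton (M ⧸ range (lsmul S M y)) := by
    rw [Submodule.Quotient.subsingleton_iff]
    exact Subsingleton.elim _ _
  rw [Module.length_eq_zero, Module.length_eq_zero]
  simp

lemma chi2_of_subsingleton [Subsingleton M] (y1 y2 : S) : chi2 y1 y2 M = 0 := by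
  unfold chi2
  have : Subsingleton (M ⧸ range (lsmul S M y1)) := by
    rw [Submodule.Quotient.subsingleton_iff]
    exact Subsingleton.elim _ _
  rw [chi1_of_subsingleton, chi1_of_subsingleton, sub_self]

/-- `chi1` vanishes on modules of finite length. -/
lemma chi1_of_finite_length (y : S) (h : Module.length S M ≠ ⊤) : chi1 y M = 0 := by
  have h1 := Module.length_eq_add_of_exact (ker (lsmul S M y)).subtype (lsmul S M y).rangeRestrict
    (Submodule.injective_subtype _) (lsmul S M y).surjective_rangeRestrict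
    (fun z => ⟨fun hz => ⟨⟨z, by
      rw [LinearMap.mem_ker]
      exact congrArg Subtype.val hz⟩, rfl⟩, by
      rintro ⟨x, rfl⟩
      exact Subtype.ext (LinearMap.mem_ker.mp x.2)⟩)
  have h2 := Module.length_eq_add_of_exact (range (lsmul S M y)).subtype
    (range (lsmul S M y)).mkQ (Submodule.injective_subtype _) (Submodule.mkQ_surjective _)
    (LinearMap.exact_subtype_mkQ _)
  unfold chi1
  have h3 : Module.length S (ker (lsmul S M y)) ≠ ⊤ :=
    ne_top_of_le_ne_top h (Module.length_le_of_injective _ (Submodule.injective_subtype _))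
  have h4 : Module.length S (range (lsmul S M y)) ≠ ⊤ :=
    ne_top_of_le_ne_top h (Module.length_le_of_injective _ (Submodule.injective_subtype _))
  have h5 : Module.length S (M ⧸ range (lsmul S M y)) ≠ ⊤ :=
    ne_top_of_le_ne_top h (Module.length_le_of_surjective _ (Submodule.mkQ_surjective _))
  rw [h1] at h2
  have h6 := congrArg ENat.toNat h2
  rw [ENat.toNat_add h3 h4, ENat.toNat_add h4 h5] at h6
  omega

/-- `chi2` vanishes on modules of finite length. -/
theorem chi2_of_finite_length' (y1 y2 : S) (h : Module.length S M ≠ ⊤) :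
    chi2 y1 y2 M = 0 := by
  unfold chi2
  rw [chi1_of_finite_length, chi1_of_finite_length, sub_self]
  · exact ne_top_of_le_ne_top h (Module.length_le_of_injective _ (Submodule.injective_subtype _))
  · exact ne_top_of_le_ne_top h (Module.length_le_of_surjective _ (Submodule.mkQ_surjective _))

lemma ker_eq_bot_of_injective (y : S) (r : ∀ v : M, y • v = 0 → v = 0) :
    ker (lsmul S M y) = ⊥ := by
  rw [eq_bot_iff]
  intro v hv
  exact (Submodule.mem_bot S).mpr (r v hv)

/-- `chi2` of a regular pair. -/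
theorem chi2_of_regular' (y1 y2 : S) (r1 : ∀ v : M, y1 • v = 0 → v = 0)
    (r2 : ∀ v w : M, y2 • v = y1 • w → ∃ u : M, v = y1 • u) :
    chi2 y1 y2 M =
      ((Module.length S (M ⧸ (Ideal.span {y1, y2} • (⊤ : Submodule S M)))).toNat : ℤ) := by
  unfold chi2
  have hs : Subsingleton (ker (lsmul S M y1)) := by
    rw [ker_eq_bot_of_injective y1 r1]
    infer_instance
  rw [chi1_of_subsingleton (M := ker (lsmul S M y1)), sub_zero]
  unfold chi1
  have hk : ker (lsmul S (M ⧸ range (lsmul S M y1)) y2) = ⊥ := by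
    apply ker_eq_bot_of_injective
    intro v hv
    obtain ⟨v, rfl⟩ := Submodule.Quotient.mk_surjective _ v
    rw [← Submodule.Quotient.mk_smul, Submodule.Quotient.mk_eq_zero] at hv
    rw [Submodule.Quotient.mk_eq_zero]
    obtain ⟨w, hw⟩ := hv
    obtain ⟨u, hu⟩ := r2 v w hw.symm
    exact ⟨u, hu.symm⟩
  rw [hk, Module.length_bot]
  let G : M →ₗ[S] ((M ⧸ range (lsmul S M y1)) ⧸ range (lsmul S (M ⧸ range (lsmul S M y1)) y2)) :=
    (Submodule.mkQ _).comp (Submodule.mkQ _)
  have hG : Surjective G := (Submodule.mkQ_surjective _).comp (Submodule.mkQ_surjective _)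
  have hker : ker G = Ideal.span {y1, y2} • (⊤ : Submodule S M) := by
    ext v
    have h1 : v ∈ ker G ↔ (Submodule.Quotient.mk v : M ⧸ range (lsmul S M y1)) ∈
        range (lsmul S (M ⧸ range (lsmul S M y1)) y2) := by
      rw [LinearMap.mem_ker]
      exact Submodule.Quotient.mk_eq_zero _
    rw [h1, Ideal.span_insert, Submodule.sup_smul, Submodule.ideal_span_singleton_smul,
      Submodule.ideal_span_singleton_smul, Submodule.mem_sup]
    constructor
    · rintro ⟨w, hw⟩
      obtain ⟨w, rfl⟩ := Submodule.Quotient.mk_surjective _ w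
      rw [lsmul_apply, ← Submodule.Quotient.mk_smul, Submodule.Quotient.eq] at hw
      obtain ⟨u, hu⟩ := hw
      rw [lsmul_apply] at hu
      refine ⟨y1 • (-u), Submodule.smul_mem_pointwise_smul _ _ _ trivial, y2 • w,
        Submodule.smul_mem_pointwise_smul _ _ _ trivial, ?_⟩
      rw [smul_neg, hu]
      abel
    · rintro ⟨a, ha, b, hb, rfl⟩
      rw [Submodule.mem_smul_pointwise_iff_exists] at ha hb
      obtain ⟨a, -, rfl⟩ := ha
      obtain ⟨b, -, rfl⟩ := hb
      refine ⟨Submodule.Quotient.mk b, ?_⟩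
      rw [lsmul_apply, ← Submodule.Quotient.mk_smul, Submodule.Quotient.eq]
      refine ⟨-a, ?_⟩
      rw [lsmul_apply, smul_neg]
      abel
  have e := (Submodule.quotEquivOfEq _ _ hker.symm).trans (G.quotKerEquivOfSurjective hG)
  rw [e.length_eq]
  simp

end killed

section nonneg

variable {S : Type*} [CommRing S] [IsNoetherianRing S]

/-- additivity of `chi2`. -/
theorem chi2_add' (y1 y2 : S)
    (hfin : Module.length S (S ⧸ Ideal.span {y1, y2}) ≠ ⊤)
    {N' N N'' : Type*} [AddCommGroup N'] [Module S N'] [AddCommGroup N] [Module S N]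
    [AddCommGroup N''] [Module S N''] [Module.Finite S N] (f : N' →ₗ[S] N) (g : N →ₗ[S] N'')
    (hf : Function.Injective f) (hg : Function.Surjective g) (hfg : Function.Exact f g) :
    chi2 y1 y2 N = chi2 y1 y2 N' + chi2 y1 y2 N'' := by
  have h1 : chi2 y1 y2 N' = chi2 y1 y2 (range f) := chi2_congr y1 y2 (LinearEquiv.ofInjective f hf)
  have hk : ker g = range f := LinearMap.exact_iff.mp hfg
  have h2 : chi2 y1 y2 (N ⧸ range f) = chi2 y1 y2 N'' :=
    chi2_congr y1 y2 ((Submodule.quotEquivOfEq _ _ hk.symm).trans (g.quotKerEquivOfSurjective hg))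
  rw [h1, ← h2]
  exact addOn_chi2 y1 y2 hfin (range f) N (N ⧸ range f) (range f).subtype (range f).mkQ
    (Submodule.injective_subtype _) (Submodule.mkQ_surjective _) (LinearMap.exact_subtype_mkQ _)
    (by intro r hr m; rw [(Submodule.mem_bot S).mp hr, zero_smul])

lemma exists_torsion (y : S) (M : Type*) [AddCommGroup M] [Module S M] [Module.Finite S M] :
    ∃ (k : ℕ) (K : Submodule S M), (∀ v ∈ K, y ^ k • v = 0) ∧ (∀ v, y • v ∈ K → v ∈ K) := by
  let f : ℕ →o Submodule S M :=
    ⟨fun k => ker (lsmul S M (y ^ k)), fun a b hab => by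
      intro v hv
      have hv' : y ^ a • v = 0 := hv
      change y ^ b • v = 0
      obtain ⟨c, rfl⟩ := Nat.exists_eq_add_of_le hab
      rw [add_comm, pow_add, mul_smul, hv', smul_zero]⟩
  obtain ⟨n, hn⟩ := monotone_stabilizes_iff_noetherian.mpr inferInstance f
  refine ⟨n, f n, fun v hv => hv, fun v hv => ?_⟩
  rw [hn (n + 1) (Nat.le_succ n)]
  change y ^ (n + 1) • v = 0
  rw [pow_succ, mul_smul]
  exact hv

omit [IsNoetherianRing S] in
lemma length_eq_add_quot (M : Type*) [AddCommGroup M] [Module S M] (K : Submodule S M) :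
    Module.length S M = Module.length S K + Module.length S (M ⧸ K) :=
  Module.length_eq_add_of_exact K.subtype K.mkQ (Submodule.injective_subtype _)
    (Submodule.mkQ_surjective _) (LinearMap.exact_subtype_mkQ _)

lemma length_ne_top_of_killed_pow {I : Ideal S} (y : S)
    (hfin : Module.length S (S ⧸ (I ⊔ Ideal.span {y})) ≠ ⊤) (k : ℕ) :
    ∀ (M : Type v) [AddCommGroup M] [Module S M] [Module.Finite S M]
    (_ : ∀ r ∈ I, ∀ m : M, r • m = 0) (_ : ∀ m : M, y ^ k • m = 0), Module.length S M ≠ ⊤ := by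
  induction k with
  | zero =>
    intro M _ _ _ _ hy
    have : Subsingleton M := ⟨fun a b => by
      rw [← one_smul S a, ← one_smul S b, ← pow_zero y, hy, hy]⟩
    rw [Module.length_eq_zero]
    exact ENat.zero_ne_top
  | succ k ih =>
    intro M _ _ _ hI hy
    rw [length_eq_add_quot M (range (lsmul S M y))]
    refine WithTop.add_ne_top.mpr ⟨ih _ ?_ ?_, length_ne_top_of_killed hfin _ (cok_killed y hI)⟩
    · intro r hr m
      exact Subtype.ext (hI r hr m)
    · rintro ⟨_, m, rfl⟩
      apply Subtype.ext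
      change y ^ k • y • m = 0
      rw [← mul_smul, ← pow_succ]
      exact hy m

lemma chi1_nonneg {I : Ideal S} (y : S)
    (hfin : Module.length S (S ⧸ (I ⊔ Ideal.span {y})) ≠ ⊤)
    (M : Type*) [AddCommGroup M] [Module S M] [Module.Finite S M]
    (hI : ∀ r ∈ I, ∀ m : M, r • m = 0) : 0 ≤ chi1 y M := by
  obtain ⟨k, K, hK1, hK2⟩ := exists_torsion y M
  have h1 : chi1 y M = chi1 y K + chi1 y (M ⧸ K) :=
    addOn_chi1 y hfin K M (M ⧸ K) K.subtype K.mkQ (Submodule.injective_subtype _)
      (Submodule.mkQ_surjective _) (LinearMap.exact_subtype_mkQ _) hI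
  have h2 : chi1 y K = 0 := chi1_of_finite_length y
    (length_ne_top_of_killed_pow y hfin k K (fun r hr m => Subtype.ext (hI r hr m))
      (fun m => Subtype.ext (hK1 m m.2)))
  have h3 : ker (lsmul S (M ⧸ K) y) = ⊥ := by
    apply ker_eq_bot_of_injective
    intro v hv
    obtain ⟨v, rfl⟩ := Submodule.Quotient.mk_surjective _ v
    rw [← Submodule.Quotient.mk_smul, Submodule.Quotient.mk_eq_zero] at hv
    rw [Submodule.Quotient.mk_eq_zero]
    exact hK2 v hv
  rw [h1, h2, zero_add]
  unfold chi1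
  rw [h3, Module.length_bot]
  simp

omit [IsNoetherianRing S] in
lemma chi2_of_killed (y1 y2 : S) (M : Type*) [AddCommGroup M] [Module S M]
    (hy : ∀ m : M, y1 • m = 0) : chi2 y1 y2 M = 0 := by
  have h1 : range (lsmul S M y1) = ⊥ := by
    rw [eq_bot_iff]
    rintro _ ⟨m, rfl⟩
    exact (Submodule.mem_bot S).mpr (hy m)
  have h2 : ker (lsmul S M y1) = ⊤ := by
    rw [eq_top_iff]
    intro m _
    exact hy m
  unfold chi2
  rw [chi1_congr y2 (Submodule.quotEquivOfEqBot _ h1), chi1_congr y2 (LinearEquiv.ofTop _ h2),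
    sub_self]

lemma chi2_of_killed_pow (y1 y2 : S)
    (hfin : Module.length S (S ⧸ Ideal.span {y1, y2}) ≠ ⊤) (k : ℕ) :
    ∀ (M : Type v) [AddCommGroup M] [Module S M] [Module.Finite S M]
    (_ : ∀ m : M, y1 ^ k • m = 0), chi2 y1 y2 M = 0 := by
  induction k with
  | zero =>
    intro M _ _ _ hy
    have : Subsingleton M := ⟨fun a b => by
      rw [← one_smul S a, ← one_smul S b, ← pow_zero y1, hy, hy]⟩
    exact chi2_of_subsingleton y1 y2
  | succ k ih =>
    intro M _ _ _ hy
    rw [chi2_add' y1 y2 hfin (range (lsmul S M y1)).subtype (range (lsmul S M y1)).mkQ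
      (Submodule.injective_subtype _) (Submodule.mkQ_surjective _)
      (LinearMap.exact_subtype_mkQ _), ih, chi2_of_killed, add_zero]
    · intro m
      obtain ⟨m, rfl⟩ := Submodule.Quotient.mk_surjective _ m
      rw [← Submodule.Quotient.mk_smul, Submodule.Quotient.mk_eq_zero]
      exact ⟨m, rfl⟩
    · rintro ⟨_, m, rfl⟩
      apply Subtype.ext
      change y1 ^ k • y1 • m = 0
      rw [← mul_smul, ← pow_succ]
      exact hy m

/-- nonnegativity of `chi2`. -/
theorem chi2_nonneg' (y1 y2 : S)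
    (hfin : Module.length S (S ⧸ Ideal.span {y1, y2}) ≠ ⊤)
    (M : Type*) [AddCommGroup M] [Module S M] [Module.Finite S M] : 0 ≤ chi2 y1 y2 M := by
  obtain ⟨k, K, hK1, hK2⟩ := exists_torsion y1 M
  rw [chi2_add' y1 y2 hfin K.subtype K.mkQ (Submodule.injective_subtype _)
    (Submodule.mkQ_surjective _) (LinearMap.exact_subtype_mkQ _),
    chi2_of_killed_pow y1 y2 hfin k K (fun m => Subtype.ext (hK1 m m.2)), zero_add]
  have h3 : ker (lsmul S (M ⧸ K) y1) = ⊥ := by
    apply ker_eq_bot_of_injective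
    intro v hv
    obtain ⟨v, rfl⟩ := Submodule.Quotient.mk_surjective _ v
    rw [← Submodule.Quotient.mk_smul, Submodule.Quotient.mk_eq_zero] at hv
    rw [Submodule.Quotient.mk_eq_zero]
    exact hK2 v hv
  have hs : Subsingleton (ker (lsmul S (M ⧸ K) y1)) := by
    rw [h3]
    infer_instance
  unfold chi2
  rw [chi1_of_subsingleton (M := ker (lsmul S (M ⧸ K) y1)), sub_zero]
  refine chi1_nonneg (I := ⊥ ⊔ Ideal.span {y1}) y2 ?_ _ (cok_killed y1 ?_)
  · rw [bot_sup_eq, ← Ideal.span_insert]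
    exact hfin
  · intro r hr m
    rw [(Submodule.mem_bot S).mp hr, zero_smul]

end nonneg

section swap

variable {S : Type u} [CommRing S]

/-- cycles of the Koszul complex of `a, b`. -/
def kosZ (a b : S) (M : Type v) [AddCommGroup M] [Module S M] : Submodule S (M × M) where
  carrier := {p | a • p.1 = b • p.2}
  add_mem' := by
    intro p q hp hq
    change a • (p.1 + q.1) = b • (p.2 + q.2)
    rw [smul_add, smul_add, (hp : a • p.1 = b • p.2), (hq : a • q.1 = b • q.2)]
  zero_mem' := by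
    change a • (0 : M) = b • (0 : M)
    rw [smul_zero, smul_zero]
  smul_mem' := by
    intro c p hp
    change a • (c • p.1) = b • (c • p.2)
    rw [smul_comm, (hp : a • p.1 = b • p.2), smul_comm]

/-- boundaries of the Koszul complex of `a, b`. -/
def kosD (a b : S) (M : Type v) [AddCommGroup M] [Module S M] : M →ₗ[S] kosZ a b M :=
  LinearMap.codRestrict (kosZ a b M) ((lsmul S M b).prod (lsmul S M a)) (fun m => by
    change a • (b • m) = b • (a • m)
    exact smul_comm _ _ _)

lemma kosH_killed {I : Ideal S} (a b : S) (M : Type v) [AddCommGroup M] [Module S M]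
    (hI : ∀ r ∈ I, ∀ m : M, r • m = 0) :
    ∀ r ∈ I ⊔ Ideal.span {a} ⊔ Ideal.span {b}, ∀ z : kosZ a b M ⧸ range (kosD a b M),
      r • z = 0 := by
  suffices h : I ⊔ Ideal.span {a} ⊔ Ideal.span {b} ≤
      Module.annihilator S (kosZ a b M ⧸ range (kosD a b M)) by
    intro r hr z
    exact Module.mem_annihilator.mp (h hr) z
  refine sup_le (sup_le ?_ ?_) ?_
  · intro r hr
    rw [Module.mem_annihilator]
    intro z
    obtain ⟨z, rfl⟩ := Submodule.Quotient.mk_surjective _ z
    rw [← Submodule.Quotient.mk_smul, Submodule.Quotient.mk_eq_zero]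
    have : r • z = 0 := Subtype.ext (Prod.ext (hI r hr _) (hI r hr _))
    rw [this]
    exact Submodule.zero_mem _
  · rw [Ideal.span_singleton_le_iff_mem, Module.mem_annihilator]
    intro z
    obtain ⟨z, rfl⟩ := Submodule.Quotient.mk_surjective _ z
    rw [← Submodule.Quotient.mk_smul, Submodule.Quotient.mk_eq_zero]
    exact ⟨z.1.2, Subtype.ext (Prod.ext (z.2 : a • z.1.1 = b • z.1.2).symm rfl)⟩
  · rw [Ideal.span_singleton_le_iff_mem, Module.mem_annihilator]
    intro z
    obtain ⟨z, rfl⟩ := Submodule.Quotient.mk_surjective _ z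
    rw [← Submodule.Quotient.mk_smul, Submodule.Quotient.mk_eq_zero]
    exact ⟨z.1.1, Subtype.ext (Prod.ext rfl (z.2 : a • z.1.1 = b • z.1.2))⟩

/-- `u ↦ (u, 0)`. -/
def kosA0 (a b : S) (M : Type v) [AddCommGroup M] [Module S M] :
    ker (lsmul S M a) →ₗ[S] kosZ a b M :=
  LinearMap.codRestrict (kosZ a b M) ((LinearMap.inl S M M).comp (ker (lsmul S M a)).subtype)
    (fun u => by
      change a • (u : M) = b • (0 : M)
      rw [smul_zero]
      exact u.2)

/-- `u ↦ (u, 0)` on homology. -/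
def kosA (a b : S) (M : Type v) [AddCommGroup M] [Module S M] :
    (ker (lsmul S M a) ⧸ range (lsmul S (ker (lsmul S M a)) b)) →ₗ[S]
      (kosZ a b M ⧸ range (kosD a b M)) :=
  Submodule.mapQ _ _ (kosA0 a b M) (by
    rintro _ ⟨u, rfl⟩
    refine ⟨u, Subtype.ext (Prod.ext rfl ?_)⟩
    change a • (u : M) = 0
    exact u.2)

/-- `(u, v) ↦ v`. -/
def kosB0 (a b : S) (M : Type v) [AddCommGroup M] [Module S M] :
    kosZ a b M →ₗ[S] ker (lsmul S (M ⧸ range (lsmul S M a)) b) :=
  LinearMap.codRestrict _ ((range (lsmul S M a)).mkQ.comp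
    ((LinearMap.snd S M M).comp (kosZ a b M).subtype)) (fun p => by
      change b • (Submodule.Quotient.mk p.1.2 : M ⧸ range (lsmul S M a)) = 0
      rw [← Submodule.Quotient.mk_smul, Submodule.Quotient.mk_eq_zero]
      exact ⟨p.1.1, p.2⟩)

/-- `(u, v) ↦ v` on homology. -/
def kosB (a b : S) (M : Type v) [AddCommGroup M] [Module S M] :
    (kosZ a b M ⧸ range (kosD a b M)) →ₗ[S] ker (lsmul S (M ⧸ range (lsmul S M a)) b) :=
  Submodule.liftQ _ (kosB0 a b M) (by
    rintro _ ⟨w, rfl⟩
    rw [LinearMap.mem_ker]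
    apply Subtype.ext
    change (Submodule.Quotient.mk (a • w) : M ⧸ range (lsmul S M a)) = 0
    rw [Submodule.Quotient.mk_eq_zero]
    exact ⟨w, rfl⟩)

lemma kosA_injective (a b : S) (M : Type v) [AddCommGroup M] [Module S M] :
    Injective (kosA a b M) := by
  rw [injective_iff_map_eq_zero]
  intro u hu
  obtain ⟨u, rfl⟩ := Submodule.Quotient.mk_surjective _ u
  have hu' : (Submodule.Quotient.mk (kosA0 a b M u) : kosZ a b M ⧸ range (kosD a b M)) = 0 := hu
  rw [Submodule.Quotient.mk_eq_zero] at hu' ⊢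
  obtain ⟨w, hw⟩ := hu'
  have h1 : b • w = (u : M) := congrArg (fun z => z.1.1) hw
  have h2 : a • w = 0 := congrArg (fun z => z.1.2) hw
  exact ⟨⟨w, h2⟩, Subtype.ext h1⟩

lemma kosB_surjective (a b : S) (M : Type v) [AddCommGroup M] [Module S M] :
    Surjective (kosB a b M) := by
  rintro ⟨v, hv⟩
  obtain ⟨v, rfl⟩ := Submodule.Quotient.mk_surjective _ v
  have hv' : b • (Submodule.Quotient.mk v : M ⧸ range (lsmul S M a)) = 0 := hv
  rw [← Submodule.Quotient.mk_smul, Submodule.Quotient.mk_eq_zero] at hv'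
  obtain ⟨u, hu⟩ := hv'
  exact ⟨Submodule.Quotient.mk ⟨(u, v), hu⟩, rfl⟩

lemma kosAB_exact (a b : S) (M : Type v) [AddCommGroup M] [Module S M] :
    Exact (kosA a b M) (kosB a b M) := by
  intro z
  obtain ⟨⟨⟨u, v⟩, huv⟩, rfl⟩ := Submodule.Quotient.mk_surjective _ z
  constructor
  · intro hz
    have hz' : (Submodule.Quotient.mk v : M ⧸ range (lsmul S M a)) = 0 :=
      congrArg Subtype.val hz
    rw [Submodule.Quotient.mk_eq_zero] at hz'
    obtain ⟨w, hw⟩ := hz'
    have huv' : a • u = b • v := huv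
    have hw' : a • w = v := hw
    have h0 : a • (u - b • w) = 0 := by
      rw [smul_sub, huv', ← hw', smul_comm, sub_self]
    refine ⟨Submodule.Quotient.mk ⟨u - b • w, h0⟩, ?_⟩
    change Submodule.Quotient.mk (kosA0 a b M ⟨u - b • w, h0⟩) = _
    rw [Submodule.Quotient.eq]
    have e1 : b • (-w) = (u - b • w) - u := by
      rw [smul_neg]
      abel
    have e2 : a • (-w) = 0 - v := by
      rw [smul_neg, hw', zero_sub]
    exact ⟨-w, Subtype.ext (Prod.ext e1 e2)⟩
  · rintro ⟨t, ht⟩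
    obtain ⟨t, rfl⟩ := Submodule.Quotient.mk_surjective _ t
    rw [← ht]
    apply Subtype.ext
    change (Submodule.Quotient.mk (0 : M) : M ⧸ range (lsmul S M a)) = 0
    rfl

lemma kos_exact [IsNoetherianRing S] {I : Ideal S}
    {φ : ∀ (M : Type v) [AddCommGroup M] [Module S M], ℤ} (a b : S)
    (h : AddOn (I ⊔ Ideal.span {a} ⊔ Ideal.span {b}) φ)
    (M : Type v) [AddCommGroup M] [Module S M] [Module.Finite S M]
    (hI : ∀ r ∈ I, ∀ m : M, r • m = 0) :
    φ (kosZ a b M ⧸ range (kosD a b M)) =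
      φ (ker (lsmul S M a) ⧸ range (lsmul S (ker (lsmul S M a)) b)) +
      φ (ker (lsmul S (M ⧸ range (lsmul S M a)) b)) :=
  h _ _ _ (kosA a b M) (kosB a b M) (kosA_injective a b M) (kosB_surjective a b M)
    (kosAB_exact a b M) (kosH_killed a b M hI)

/-- symmetry of the Koszul homology. -/
def kosEquiv (a b : S) (M : Type v) [AddCommGroup M] [Module S M] :
    (kosZ a b M ⧸ range (kosD a b M)) ≃ₗ[S] (kosZ b a M ⧸ range (kosD b a M)) :=
  Submodule.Quotient.equiv _ _
    (LinearEquiv.ofSubmodules (LinearEquiv.prodComm S M M) _ _ (by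
      ext ⟨x, y⟩
      constructor
      · rintro ⟨⟨u, v⟩, huv, h⟩
        have huv' : a • u = b • v := huv
        have h1 : v = x := congrArg Prod.fst h
        have h2 : u = y := congrArg Prod.snd h
        subst h1 h2
        exact huv'.symm
      · intro h
        have h' : b • x = a • y := h
        exact ⟨(y, x), h'.symm, rfl⟩)) (by
    ext z
    constructor
    · rintro ⟨_, ⟨w, rfl⟩, rfl⟩
      exact ⟨w, rfl⟩
    · rintro ⟨w, rfl⟩
      exact ⟨kosD a b M w, ⟨w, rfl⟩, rfl⟩)

lemma kerker_congr [IsNoetherianRing S] {I : Ideal S}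
    {φ : ∀ (M : Type v) [AddCommGroup M] [Module S M], ℤ} (a b : S)
    (h : AddOn (I ⊔ Ideal.span {a} ⊔ Ideal.span {b}) φ)
    (M : Type v) [AddCommGroup M] [Module S M] [Module.Finite S M]
    (hI : ∀ r ∈ I, ∀ m : M, r • m = 0) :
    φ (ker (lsmul S (ker (lsmul S M a)) b)) = φ (ker (lsmul S (ker (lsmul S M b)) a)) := by
  refine h.congr (ker_killed b (ker_killed a hI)) ?_
  exact
    { toFun := fun v => ⟨⟨v.1.1, congrArg Subtype.val v.2⟩, Subtype.ext v.1.2⟩
      invFun := fun v => ⟨⟨v.1.1, congrArg Subtype.val v.2⟩, Subtype.ext v.1.2⟩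
      map_add' := fun _ _ => rfl
      map_smul' := fun _ _ => rfl
      left_inv := fun _ => rfl
      right_inv := fun _ => rfl }

lemma quotquot_ker (a b : S) (M : Type v) [AddCommGroup M] [Module S M] :
    ker ((range (lsmul S (M ⧸ range (lsmul S M a)) b)).mkQ.comp (range (lsmul S M a)).mkQ) =
      range (lsmul S M a) ⊔ range (lsmul S M b) := by
  ext v
  have h1 : v ∈ ker ((range (lsmul S (M ⧸ range (lsmul S M a)) b)).mkQ.comp
      (range (lsmul S M a)).mkQ) ↔ (Submodule.Quotient.mk v : M ⧸ range (lsmul S M a)) ∈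
      range (lsmul S (M ⧸ range (lsmul S M a)) b) := by
    rw [LinearMap.mem_ker]
    exact Submodule.Quotient.mk_eq_zero _
  rw [h1, Submodule.mem_sup]
  constructor
  · rintro ⟨w, hw⟩
    obtain ⟨w, rfl⟩ := Submodule.Quotient.mk_surjective _ w
    rw [lsmul_apply, ← Submodule.Quotient.mk_smul, Submodule.Quotient.eq] at hw
    obtain ⟨u, hu⟩ := hw
    rw [lsmul_apply] at hu
    refine ⟨a • (-u), ⟨-u, rfl⟩, b • w, ⟨w, rfl⟩, ?_⟩
    rw [smul_neg, hu]
    abel
  · rintro ⟨_, ⟨x, rfl⟩, _, ⟨y, rfl⟩, rfl⟩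
    refine ⟨Submodule.Quotient.mk y, ?_⟩
    rw [lsmul_apply, ← Submodule.Quotient.mk_smul, Submodule.Quotient.eq]
    refine ⟨-x, ?_⟩
    rw [lsmul_apply, lsmul_apply, lsmul_apply, smul_neg]
    abel

lemma cokcok_congr [IsNoetherianRing S] {I : Ideal S}
    {φ : ∀ (M : Type v) [AddCommGroup M] [Module S M], ℤ} (a b : S)
    (h : AddOn (I ⊔ Ideal.span {a} ⊔ Ideal.span {b}) φ)
    (M : Type v) [AddCommGroup M] [Module S M] [Module.Finite S M]
    (hI : ∀ r ∈ I, ∀ m : M, r • m = 0) :
    φ ((M ⧸ range (lsmul S M a)) ⧸ range (lsmul S (M ⧸ range (lsmul S M a)) b)) =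
      φ ((M ⧸ range (lsmul S M b)) ⧸ range (lsmul S (M ⧸ range (lsmul S M b)) a)) := by
  refine h.congr (cok_killed b (cok_killed a hI)) ?_
  have e1 := LinearMap.quotKerEquivOfSurjective ((range (lsmul S (M ⧸ range (lsmul S M a)) b)).mkQ.comp
    (range (lsmul S M a)).mkQ) ((Submodule.mkQ_surjective _).comp
      (Submodule.mkQ_surjective _))
  have e2 := LinearMap.quotKerEquivOfSurjective
    ((range (lsmul S (M ⧸ range (lsmul S M b)) a)).mkQ.comp (range (lsmul S M b)).mkQ)
      ((Submodule.mkQ_surjective _).comp (Submodule.mkQ_surjective _))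
  rw [quotquot_ker] at e1 e2
  exact e1.symm.trans ((Submodule.quotEquivOfEq _ _ (sup_comm _ _)).trans e2)

/-- the operators `Del a` and `Del b` commute. -/
lemma del_comm [IsNoetherianRing S] {I : Ideal S}
    {φ : ∀ (M : Type v) [AddCommGroup M] [Module S M], ℤ} (a b : S)
    (h : AddOn (I ⊔ Ideal.span {a} ⊔ Ideal.span {b}) φ)
    (M : Type v) [AddCommGroup M] [Module S M] [Module.Finite S M]
    (hI : ∀ r ∈ I, ∀ m : M, r • m = 0) :
    Del a (Del b φ) M = Del b (Del a φ) M := by
  have h' : AddOn (I ⊔ Ideal.span {b} ⊔ Ideal.span {a}) φ := by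
    rwa [sup_assoc, sup_comm (Ideal.span {b}), ← sup_assoc]
  have e1 := kos_exact a b h M hI
  have e2 := kos_exact b a h' M hI
  have e3 := kerker_congr a b h M hI
  have e4 := cokcok_congr a b h M hI
  have e5 : φ (kosZ a b M ⧸ range (kosD a b M)) = φ (kosZ b a M ⧸ range (kosD b a M)) := by
    exact h.congr (kosH_killed a b M hI) (kosEquiv a b M)
  unfold Del
  omega

end swap

section compare

variable {S : Type u} [CommRing S]

/-- length of `E / x^i E` for `x` injective on `E`. -/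
lemma length_quot_pow {E : Type v} [AddCommGroup E] [Module S E] (x : S)
    (hx : ∀ v : E, x • v = 0 → v = 0) (i : ℕ) :
    Module.length S (E ⧸ range (lsmul S E (x ^ i))) =
      i * Module.length S (E ⧸ range (lsmul S E x)) := by
  induction i with
  | zero =>
    have : Subsingleton (E ⧸ range (lsmul S E (x ^ 0))) := by
      rw [Submodule.Quotient.subsingleton_iff, eq_top_iff]
      intro v _
      exact ⟨v, by simp⟩
    rw [Module.length_eq_zero]
    simp
  | succ i ih =>
    have hinj : Injective (lsmul S E (x ^ i)) := by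
      rw [injective_iff_map_eq_zero]
      have key : ∀ (k : ℕ) (v : E), x ^ k • v = 0 → v = 0 := by
        intro k
        induction k with
        | zero => intro v h; simpa using h
        | succ k ihk =>
          intro v h
          rw [pow_succ, mul_smul] at h
          exact hx v (ihk _ h)
      exact key i
    have h1 : range (lsmul S E (x ^ (i + 1))) = (range (lsmul S E x)).map (lsmul S E (x ^ i)) := by
      ext v
      constructor
      · rintro ⟨w, rfl⟩
        refine ⟨x • w, ⟨w, rfl⟩, ?_⟩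
        rw [lsmul_apply, lsmul_apply, ← mul_smul, ← pow_succ]
      · rintro ⟨_, ⟨w, rfl⟩, rfl⟩
        refine ⟨w, ?_⟩
        rw [lsmul_apply, lsmul_apply, lsmul_apply, ← mul_smul, ← pow_succ]
    have h2 : range (lsmul S E (x ^ i)) = (⊤ : Submodule S E).map (lsmul S E (x ^ i)) :=
      LinearMap.range_eq_map _
    rw [← rl_top, ← rl_top] at ih
    rw [← rl_top, ← rl_top, rl_add (L := range (lsmul S E (x ^ i))) ?_ le_top, ih]
    · have h3 : rl (range (lsmul S E (x ^ (i + 1)))) (range (lsmul S E (x ^ i))) =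
          rl (range (lsmul S E x)) ⊤ := by
        rw [h1]
        nth_rewrite 1 [h2]
        exact rl_map_of_injective _ hinj _ _
      rw [h3]
      push_cast
      ring
    · rintro _ ⟨w, rfl⟩
      exact ⟨x • w, by rw [lsmul_apply, lsmul_apply, ← mul_smul, ← pow_succ]⟩

lemma mul_chi1_le [IsNoetherianRing S] {I : Ideal S} (x : S)
    (hfin : Module.length S (S ⧸ (I ⊔ Ideal.span {x})) ≠ ⊤)
    (D : Type v) [AddCommGroup D] [Module S D] [Module.Finite S D]
    (hI : ∀ r ∈ I, ∀ m : D, r • m = 0) (i : ℕ) :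
    (i : ℤ) * chi1 x D ≤
      ((Module.length S (D ⧸ range (lsmul S D (x ^ i)))).toNat : ℤ) := by
  obtain ⟨k, K, hK1, hK2⟩ := exists_torsion x D
  have h1 : chi1 x D = chi1 x K + chi1 x (D ⧸ K) :=
    addOn_chi1 x hfin K D (D ⧸ K) K.subtype K.mkQ (Submodule.injective_subtype _)
      (Submodule.mkQ_surjective _) (LinearMap.exact_subtype_mkQ _) hI
  have h2 : chi1 x K = 0 := chi1_of_finite_length x
    (length_ne_top_of_killed_pow x hfin k K (fun r hr m => Subtype.ext (hI r hr m))
      (fun m => Subtype.ext (hK1 m m.2)))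
  have hinj : ∀ v : D ⧸ K, x • v = 0 → v = 0 := by
    intro v hv
    obtain ⟨v, rfl⟩ := Submodule.Quotient.mk_surjective _ v
    rw [← Submodule.Quotient.mk_smul, Submodule.Quotient.mk_eq_zero] at hv
    rw [Submodule.Quotient.mk_eq_zero]
    exact hK2 v hv
  have h3 : ker (lsmul S (D ⧸ K) x) = ⊥ := ker_eq_bot_of_injective x hinj
  have h4 : chi1 x (D ⧸ K) =
      ((Module.length S ((D ⧸ K) ⧸ range (lsmul S (D ⧸ K) x))).toNat : ℤ) := by
    unfold chi1
    rw [h3, Module.length_bot]
    simp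
  have h5 := length_quot_pow (E := D ⧸ K) x hinj i
  have h6 : Module.length S ((D ⧸ K) ⧸ range (lsmul S (D ⧸ K) (x ^ i))) ≤
      Module.length S (D ⧸ range (lsmul S D (x ^ i))) := by
    refine Module.length_le_of_surjective (Submodule.mapQ _ _ K.mkQ ?_) ?_
    · rintro _ ⟨w, rfl⟩
      exact ⟨K.mkQ w, by rw [lsmul_apply, lsmul_apply, map_smul]⟩
    · intro z
      obtain ⟨z, rfl⟩ := Submodule.Quotient.mk_surjective _ z
      obtain ⟨z, rfl⟩ := Submodule.Quotient.mk_surjective _ z
      exact ⟨Submodule.Quotient.mk z, rfl⟩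
  have h7 : Module.length S (D ⧸ range (lsmul S D (x ^ i))) ≠ ⊤ := by
    refine length_ne_top_of_killed_pow x hfin i _ ?_ ?_
    · intro r hr m
      obtain ⟨m, rfl⟩ := Submodule.Quotient.mk_surjective _ m
      rw [← Submodule.Quotient.mk_smul, hI r hr m]
      rfl
    · intro m
      obtain ⟨m, rfl⟩ := Submodule.Quotient.mk_surjective _ m
      rw [← Submodule.Quotient.mk_smul, Submodule.Quotient.mk_eq_zero]
      exact ⟨m, rfl⟩
  rw [h1, h2, zero_add, h4]
  rw [h5] at h6
  have h8 := ENat.toNat_le_toNat h6 h7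
  rw [ENat.toNat_mul, ENat.toNat_natCast] at h8
  exact_mod_cast h8

/-- comparison of the two orders of killing `x` and `l1, l2`. -/
theorem mul_chi2_le' [IsNoetherianRing S] (x l1 l2 : S)
    (hfin : Module.length S (S ⧸ Ideal.span {x, l1, l2}) ≠ ⊤)
    (h1 : Module.length S (LinearMap.ker (LinearMap.lsmul S S l1)) ≠ ⊤)
    (h2 : Module.length S (LinearMap.ker (LinearMap.lsmul S (S ⧸ Ideal.span {l1}) l2)) ≠ ⊤)
    (h3 : Module.length S (LinearMap.ker (LinearMap.lsmul S S x)) ≠ ⊤) (i : ℕ) :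
    (i : ℤ) * chi2 l1 l2 (S ⧸ Ideal.span {x}) ≤
      ((Module.length S (S ⧸ Ideal.span {l1, l2, x ^ i})).toNat : ℤ) := by
  have hr : ∀ y : S, Ideal.span {y} = range (lsmul S S y) := by
    intro y
    ext r
    rw [Ideal.mem_span_singleton']
    constructor
    · rintro ⟨c, rfl⟩
      exact ⟨c, by rw [lsmul_apply, smul_eq_mul, mul_comm]⟩
    · rintro ⟨c, rfl⟩
      exact ⟨c, by rw [lsmul_apply, smul_eq_mul, mul_comm]⟩
  have hfin1 : Module.length S (S ⧸ (⊥ ⊔ Ideal.span {x} ⊔ Ideal.span {l1} ⊔ Ideal.span {l2})) ≠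
      ⊤ := by
    rw [bot_sup_eq, sup_assoc, ← Ideal.span_insert, ← Ideal.span_insert]
    exact hfin
  have hfin2 : Module.length S (S ⧸ (Ideal.span {l1} ⊔ Ideal.span {x} ⊔ Ideal.span {l2})) ≠
      ⊤ := by
    rw [sup_comm (Ideal.span {l1}), sup_assoc, ← Ideal.span_insert, ← Ideal.span_insert]
    exact hfin
  -- first swap
  have s1 : Del x (fun M _ _ => chi2 l1 l2 M) S = Del l1 (fun M _ _ => chi2 x l2 M) S :=
    del_comm (I := ⊥) (φ := fun M _ _ => chi1 l2 M) x l1 (addOn_chi1 l2 hfin1) S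
      (by intro r hr m; rw [(Submodule.mem_bot S).mp hr, zero_smul])
  have s2 : Del x (fun M _ _ => chi2 l1 l2 M) S = chi2 l1 l2 (S ⧸ Ideal.span {x}) := by
    unfold Del
    beta_reduce
    rw [chi2_of_finite_length' l1 l2 h3, sub_zero]
    exact chi2_congr l1 l2 (Submodule.quotEquivOfEq _ _ (hr x).symm)
  have s3 : Del l1 (fun M _ _ => chi2 x l2 M) S = chi2 x l2 (S ⧸ Ideal.span {l1}) := by
    unfold Del
    beta_reduce
    rw [chi2_of_finite_length' x l2 h1, sub_zero]
    exact chi2_congr x l2 (Submodule.quotEquivOfEq _ _ (hr l1).symm)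
  -- second swap
  have hk1 : ∀ r ∈ Ideal.span {l1}, ∀ m : S ⧸ Ideal.span {l1}, r • m = 0 := by
    intro r hr m
    obtain ⟨m, rfl⟩ := Submodule.Quotient.mk_surjective _ m
    rw [← Submodule.Quotient.mk_smul, Submodule.Quotient.mk_eq_zero]
    exact Ideal.mul_mem_right _ _ hr
  have s4 : chi2 x l2 (S ⧸ Ideal.span {l1}) =
      Del l2 (fun M _ _ => chi1 x M) (S ⧸ Ideal.span {l1}) :=
    del_comm (I := Ideal.span {l1}) (φ := fun M _ _ => ((Module.length S M).toNat : ℤ)) x l2
      (addOn_length hfin2) (S ⧸ Ideal.span {l1}) hk1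
  have s5 : Del l2 (fun M _ _ => chi1 x M) (S ⧸ Ideal.span {l1}) =
      chi1 x ((S ⧸ Ideal.span {l1}) ⧸ range (lsmul S (S ⧸ Ideal.span {l1}) l2)) := by
    unfold Del
    beta_reduce
    rw [chi1_of_finite_length x h2, sub_zero]
  rw [← s2, s1, s3, s4, s5]
  have hk2 := cok_killed l2 hk1
  have hfin3 : Module.length S (S ⧸ (Ideal.span {l1} ⊔ Ideal.span {l2} ⊔ Ideal.span {x})) ≠
      ⊤ := by
    rw [sup_comm, ← Ideal.span_insert, ← Ideal.span_insert]
    exact hfin
  refine (mul_chi1_le x hfin3 _ hk2 i).trans ?_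
  set D := (S ⧸ Ideal.span {l1}) ⧸ range (lsmul S (S ⧸ Ideal.span {l1}) l2)
  have h7 : Module.length S (S ⧸ Ideal.span {l1, l2, x ^ i}) ≠ ⊤ := by
    refine length_ne_top_of_killed_pow (I := Ideal.span {l1} ⊔ Ideal.span {l2}) x hfin3 i _ ?_ ?_
    · intro r hr m
      obtain ⟨m, rfl⟩ := Submodule.Quotient.mk_surjective _ m
      rw [← Submodule.Quotient.mk_smul, Submodule.Quotient.mk_eq_zero]
      refine Ideal.mul_mem_right _ _ ?_
      refine (sup_le ?_ ?_ : Ideal.span {l1} ⊔ Ideal.span {l2} ≤ _) hr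
      · rw [Ideal.span_singleton_le_iff_mem]
        exact Ideal.subset_span (by simp)
      · rw [Ideal.span_singleton_le_iff_mem]
        exact Ideal.subset_span (by simp)
    · intro m
      obtain ⟨m, rfl⟩ := Submodule.Quotient.mk_surjective _ m
      rw [← Submodule.Quotient.mk_smul, Submodule.Quotient.mk_eq_zero]
      exact Ideal.mul_mem_right _ _ (Ideal.subset_span (by simp))
  have h8 : Module.length S (D ⧸ range (lsmul S D (x ^ i))) ≤
      Module.length S (S ⧸ Ideal.span {l1, l2, x ^ i}) := by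
    let G : S →ₗ[S] (D ⧸ range (lsmul S D (x ^ i))) :=
      (Submodule.mkQ _).comp ((Submodule.mkQ _).comp (Submodule.mkQ (Ideal.span {l1})))
    have hG : Surjective G := (Submodule.mkQ_surjective _).comp
      ((Submodule.mkQ_surjective _).comp (Submodule.mkQ_surjective _))
    have hker : Ideal.span {l1, l2, x ^ i} ≤ ker G := by
      have hD := cok_killed (x ^ i) hk2
      have hone : ∀ r : S, G r = r • G 1 := by
        intro r
        rw [← map_smul, smul_eq_mul, mul_one]
      rw [Ideal.span_le]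
      rintro r (rfl | rfl | hr)
      · change G r = 0
        rw [hone]
        exact hD r (Ideal.mem_sup_left (Ideal.mem_sup_left (Ideal.mem_span_singleton_self _))) _
      · change G r = 0
        rw [hone]
        exact hD r (Ideal.mem_sup_left (Ideal.mem_sup_right (Ideal.mem_span_singleton_self _))) _
      · have hr' : r = x ^ i := hr
        subst hr'
        change G (x ^ i) = 0
        rw [hone]
        exact hD _ (Ideal.mem_sup_right (Ideal.mem_span_singleton_self _)) _
    refine Module.length_le_of_surjective (Submodule.liftQ _ G hker) ?_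
    intro z
    obtain ⟨r, rfl⟩ := hG z
    exact ⟨Submodule.Quotient.mk r, rfl⟩
  exact_mod_cast ENat.toNat_le_toNat h8 h7

end compare

section final

/-- TASK X1: additivity of `chi2`. -/
theorem chi2_add {B : Type*} [CommRing B] [IsLocalRing B] [IsNoetherianRing B] (y1 y2 : B)
    (hy1 : y1 ∈ maximalIdeal B) (hy2 : y2 ∈ maximalIdeal B)
    (hfin : Module.length B (B ⧸ Ideal.span {y1, y2}) ≠ ⊤)
    {N' N N'' : Type*} [AddCommGroup N'] [Module B N'] [AddCommGroup N] [Module B N]
    [AddCommGroup N''] [Module B N''] [Module.Finite B N] (f : N' →ₗ[B] N) (g : N →ₗ[B] N'')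
    (hf : Function.Injective f) (hg : Function.Surjective g) (hfg : Function.Exact f g) :
    chi2 y1 y2 N = chi2 y1 y2 N' + chi2 y1 y2 N'' :=
  chi2_add' y1 y2 hfin f g hf hg hfg

/-- TASK X2. -/
theorem chi2_nonneg {B : Type*} [CommRing B] [IsLocalRing B] [IsNoetherianRing B] (y1 y2 : B)
    (hy1 : y1 ∈ maximalIdeal B) (hy2 : y2 ∈ maximalIdeal B)
    (hfin : Module.length B (B ⧸ Ideal.span {y1, y2}) ≠ ⊤)
    (N : Type*) [AddCommGroup N] [Module B N] [Module.Finite B N] : 0 ≤ chi2 y1 y2 N :=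
  chi2_nonneg' y1 y2 hfin N

/-- TASK X3. -/
theorem chi2_of_regular {B : Type*} [CommRing B] (y1 y2 : B)
    (N : Type*) [AddCommGroup N] [Module B N]
    (r1 : ∀ v : N, y1 • v = 0 → v = 0)
    (r2 : ∀ v w : N, y2 • v = y1 • w → ∃ u : N, v = y1 • u) :
    chi2 y1 y2 N =
      ((Module.length B (N ⧸ (Ideal.span {y1, y2} • (⊤ : Submodule B N)))).toNat : ℤ) :=
  chi2_of_regular' y1 y2 r1 r2

/-- TASK X4. -/
theorem chi2_of_finite_length {B : Type*} [CommRing B] (y1 y2 : B)
    (N : Type*) [AddCommGroup N] [Module B N] (h : Module.length B N ≠ ⊤) :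
    chi2 y1 y2 N = 0 :=
  chi2_of_finite_length' y1 y2 h

/-- TASK X5: comparison of the two orders of killing `x` and `l1, l2`. -/
theorem mul_chi2_le {S : Type*} [CommRing S] [IsLocalRing S] [IsNoetherianRing S] (x l1 l2 : S)
    (hx : x ∈ maximalIdeal S) (hl1 : l1 ∈ maximalIdeal S) (hl2 : l2 ∈ maximalIdeal S)
    (hfin : Module.length S (S ⧸ Ideal.span {x, l1, l2}) ≠ ⊤)
    (h1 : Module.length S (LinearMap.ker (LinearMap.lsmul S S l1)) ≠ ⊤)
    (h2 : Module.length S (LinearMap.ker (LinearMap.lsmul S (S ⧸ Ideal.span {l1}) l2)) ≠ ⊤)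
    (h3 : Module.length S (LinearMap.ker (LinearMap.lsmul S S x)) ≠ ⊤) (i : ℕ) :
    (i : ℤ) * chi2 l1 l2 (S ⧸ Ideal.span {x}) ≤
      ((Module.length S (S ⧸ Ideal.span {l1, l2, x ^ i})).toNat : ℤ) :=
  mul_chi2_le' x l1 l2 hfin h1 h2 h3 i

end final

end Vale.Agent.P202
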