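import Vale.Agent.P202.Step
import Vale.Agent.P202.AsymNat
import Mathlib.RingTheory.Filtration

/-!
Multiplicity inequality for the quotient by a filter-regular element.
-/

set_option linter.unusedSectionVars false

namespace Vale.Agent.P202

open Ideal Finset

variable {A : Type*} [CommRing A]

lemma artin_rees_col [IsNoetherianRing A] (J : Ideal A) (x : A) :
    ∃ k : ℕ, ∀ n ≥ k, col (J ^ n) x ≤ J ^ (n - k) ⊔ col ⊥ x := by
  obtain ⟨k, hk⟩ := Ideal.exists_pow_inf_eq_pow_smul (M := A) J (Ideal.span {x})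
  refine ⟨k, fun n hn a ha => ?_⟩
  rw [mem_col] at ha
  have h1 : a * x ∈ J ^ (n - k) • (J ^ k • (⊤ : Ideal A) ⊓ Ideal.span {x}) := by
    rw [← hk n hn]
    refine ⟨?_, Ideal.mul_mem_left _ _ (Ideal.mem_span_singleton_self x)⟩
    simpa using ha
  have h2 : a * x ∈ J ^ (n - k) * Ideal.span {x} := by
    refine Submodule.smul_mono le_rfl inf_le_right h1
  rw [Ideal.mem_mul_span_singleton] at h2
  obtain ⟨b, hb, hbx⟩ := h2
  have h3 : a - b ∈ col (⊥ : Ideal A) x := by
    rw [mem_col, sub_mul, hbx, sub_self]; exact Submodule.zero_mem _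
  have : a = b + (a - b) := by ring
  rw [this]
  exact Ideal.add_mem _ (Ideal.mem_sup_left hb) (Ideal.mem_sup_right h3)

lemma col_sup_span_pow_le (J' : Ideal A) (z : A) (i : ℕ) :
    col (Ideal.span {z ^ (i + 1)} ⊔ J') (z ^ i) ≤ Ideal.span {z} ⊔ col J' (z ^ i) := by
  intro f hf
  rw [mem_col] at hf
  obtain ⟨a, ha, b, hb, hab⟩ := Submodule.mem_sup.mp hf
  obtain ⟨g, rfl⟩ := Ideal.mem_span_singleton'.mp ha
  have h1 : f - g * z ∈ col J' (z ^ i) := by
    rw [mem_col]
    have : (f - g * z) * z ^ i = b := by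
      rw [sub_mul, ← hab]; ring
    rwa [this]
  have : f = g * z + (f - g * z) := by ring
  rw [this]
  exact Ideal.add_mem _ (Ideal.mem_sup_left (Ideal.mul_mem_left _ _
    (Ideal.mem_span_singleton_self z))) (Ideal.mem_sup_right h1)

/-- (P3), Artin-Rees part. -/
lemma mul_ell_le [IsNoetherianRing A] (J : Ideal A) (z : A)
    (hfr : ∀ i, Module.length A (col (⊥ : Ideal A) (z ^ i)) ≠ ⊤) (a : ℕ) :
    ∃ c C : ℕ, ∀ n, a * ell (Ideal.span {z} ⊔ J ^ n) ≤
      ell (Ideal.span {z ^ a} ⊔ J ^ (n + c)) + C := by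
  induction a with
  | zero => exact ⟨0, 0, fun n => by simp⟩
  | succ a ih =>
    obtain ⟨c, C, hc⟩ := ih
    obtain ⟨k, hk⟩ := artin_rees_col J (z ^ a)
    obtain ⟨L, hL⟩ := ENat.ne_top_iff_exists.mp (hfr a)
    refine ⟨c + k, C + L, fun n => ?_⟩
    have h1 := ell_eq_add (Ideal.span {z ^ (a + 1)} ⊔ J ^ (n + (c + k))) (z ^ a)
    have h2 : Ideal.span {z ^ (a + 1)} ⊔ J ^ (n + (c + k)) ⊔ Ideal.span {z ^ a} =
        Ideal.span {z ^ a} ⊔ J ^ (n + (c + k)) := by
      rw [sup_right_comm]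
      congr 1
      rw [sup_eq_right, Ideal.span_singleton_le_span_singleton]
      exact pow_dvd_pow z (Nat.le_succ a)
    rw [h2] at h1
    have h3 : ell (Ideal.span {z} ⊔ J ^ n) ≤
        ell (col (Ideal.span {z ^ (a + 1)} ⊔ J ^ (n + (c + k))) (z ^ a)) + L := by
      have h4 : col (Ideal.span {z ^ (a + 1)} ⊔ J ^ (n + (c + k))) (z ^ a) ≤
          Ideal.span {z} ⊔ J ^ n ⊔ col ⊥ (z ^ a) := by
        refine (col_sup_span_pow_le _ z a).trans ?_
        refine sup_le (le_sup_left.trans le_sup_left) ?_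
        refine (hk (n + (c + k)) (by omega)).trans (sup_le ?_ le_sup_right)
        refine (Ideal.pow_le_pow_right (by omega)).trans (le_sup_right.trans le_sup_left)
      calc ell (Ideal.span {z} ⊔ J ^ n)
          ≤ ell (Ideal.span {z} ⊔ J ^ n ⊔ col ⊥ (z ^ a)) +
            Module.length A (col (⊥ : Ideal A) (z ^ a)) := ell_le_ell_sup_add _ _
        _ ≤ _ := by rw [← hL]; exact add_le_add (ell_mono h4) le_rfl
    have h5 : a * ell (Ideal.span {z} ⊔ J ^ n) ≤
        ell (Ideal.span {z ^ a} ⊔ J ^ (n + (c + k))) + C := by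
      refine (hc n).trans (add_le_add (ell_mono ?_) le_rfl)
      exact sup_le_sup_left (Ideal.pow_le_pow_right (by omega)) _
    rw [h1]
    push_cast
    calc ((a : ℕ∞) + 1) * ell (Ideal.span {z} ⊔ J ^ n)
        = a * ell (Ideal.span {z} ⊔ J ^ n) + ell (Ideal.span {z} ⊔ J ^ n) := by ring
      _ ≤ (ell (Ideal.span {z ^ a} ⊔ J ^ (n + (c + k))) + C) +
          (ell (col (Ideal.span {z ^ (a + 1)} ⊔ J ^ (n + (c + k))) (z ^ a)) + L) := by gcongr
      _ = _ := by ring

lemma gp_zero_eq {σ : Type*} [Fintype σ] [LinearOrder σ] (y : σ → A) :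
    gp y 0 = ell (Ideal.span (Set.range y)) := by
  have h1 := ell_pow_eq y 1
  have h2 : tri σ 1 = {0} := by
    ext u
    rw [mem_tri, Finset.mem_singleton, Nat.lt_one_iff, Finsupp.degree_eq_zero_iff]
  rw [h2, Finset.sum_singleton, pow_one] at h1
  exact h1.symm

/-- the multiplicity symbol does not grow when killing a filter-regular element. -/
lemma emin_quot_le [IsNoetherianRing A] {δ : ℕ} (hδ : 0 < δ) (z : A) (y : Fin δ → A)
    (hfin : ell (Ideal.span (Set.range (Fin.cons z y : Fin (δ + 1) → A))) ≠ ⊤)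
    (hfr : ∀ i, Module.length A (col (⊥ : Ideal A) (z ^ i)) ≠ ⊤) :
    emin (fun i => Ideal.Quotient.mk (Ideal.span {z}) (y i)) ≤
      emin (Fin.cons z y : Fin (δ + 1) → A) := by
  set Y : Fin (δ + 1) → A := Fin.cons z y with hY
  set π := Ideal.Quotient.mk (Ideal.span {z})
  set J := Ideal.span (Set.range y) with hJ
  rw [← gp_zero_eq] at hfin
  obtain ⟨G, hG⟩ := ENat.ne_top_iff_exists.mp hfin
  have hem : emin Y ≤ gp Y 0 := emin_le Y 0
  obtain ⟨e, he⟩ := ENat.ne_top_iff_exists.mp (ne_top_of_le_ne_top hfin hem)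
  have hJmap : Ideal.span (Set.range fun i => π (y i)) = J.map π := by
    rw [hJ, Ideal.map_span]
    congr 1
    ext w
    simp
  have hlen : ∀ n, ell (Ideal.span (Set.range fun i => π (y i)) ^ n) =
      ell (Ideal.span {z} ⊔ J ^ n) := by
    intro n
    rw [hJmap, ← Ideal.map_pow, ell_map_mk, sup_comm]
  set e1 := emin (fun i => π (y i)) with he1def
  -- `e1` is finite
  have he1fin : e1 ≠ ⊤ := by
    have h1 : e1 ≤ gp (fun i => π (y i)) 0 := emin_le _ 0
    refine ne_top_of_le_ne_top ?_ h1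
    have h2 := hlen 1
    rw [pow_one, pow_one] at h2
    rw [gp_zero_eq, h2]
    have : Ideal.span {z} ⊔ J = Ideal.span (Set.range Y) := by
      rw [hY, Fin.range_cons, Ideal.span_insert]
    rw [this, ← gp_zero_eq]
    exact hfin
  obtain ⟨f, hf⟩ := ENat.ne_top_iff_exists.mp he1fin
  rw [← hf, ← he]
  -- key inequality for each `a`
  have key : ∀ a : ℕ, a * f ≤ a * e + umin Y 0 * G := by
    intro a
    obtain ⟨c, C, hc⟩ := mul_ell_le J z hfr a
    obtain ⟨B, hB⟩ : ∃ B : ℕ, errB Y = B := by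
      refine ⟨G * (∑ i, umin Y i), ?_⟩
      rw [errB, ← hG]
      push_cast
      ring
    have hcard : Fintype.card (Fin δ) = δ := Fintype.card_fin δ
    refine le_of_forall_tri_le (σ := Fin δ) (by rw [hcard]; exact hδ) (a * f)
      (a * e + umin Y 0 * G) (a * B + C) c fun n hn => ?_
    rw [hcard]
    have h1 : (f : ℕ∞) * (tri (Fin δ) n).card ≤ ell (Ideal.span {z} ⊔ J ^ n) := by
      have := emin_mul_card_le (fun i => π (y i)) n
      rw [hlen n] at this
      rw [hf]
      exact this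
    have h2 : (a : ℕ∞) * ((f : ℕ∞) * (tri (Fin δ) n).card) ≤
        ((tri (Fin δ) (n + c)).card * (a * e + umin Y 0 * G) +
          a * (B * ((n + c) ^ (δ - 1) : ℕ))) + C := by
      calc (a : ℕ∞) * ((f : ℕ∞) * (tri (Fin δ) n).card)
          ≤ a * ell (Ideal.span {z} ⊔ J ^ n) := by gcongr
        _ ≤ ell (Ideal.span {z ^ a} ⊔ J ^ (n + c)) + C := hc n
        _ ≤ _ := by
          have := ell_span_pow_sup_le' z y a (n + c)
          rw [← hY, ← he, ← hG, hB] at this
          gcongr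
    have h3 : a * (f * (tri (Fin δ) n).card) ≤
        ((tri (Fin δ) (n + c)).card * (a * e + umin Y 0 * G) +
          a * (B * (n + c) ^ (δ - 1))) + C := by exact_mod_cast h2
    have h4 : C ≤ C * (n + c) ^ (δ - 1) := Nat.le_mul_of_pos_right _ (pow_pos (by omega) _)
    calc a * f * (tri (Fin δ) n).card = a * (f * (tri (Fin δ) n).card) := by ring
      _ ≤ _ := h3
      _ ≤ ((tri (Fin δ) (n + c)).card * (a * e + umin Y 0 * G) +
          a * (B * (n + c) ^ (δ - 1))) + C * (n + c) ^ (δ - 1) := Nat.add_le_add_left h4 _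
      _ = _ := by ring
  -- conclude
  have hfe : f ≤ e := by
    by_contra hlt
    push Not at hlt
    have h1 := key (umin Y 0 * G + 1)
    have h2 : (umin Y 0 * G + 1) * (e + 1) ≤ (umin Y 0 * G + 1) * f :=
      Nat.mul_le_mul_left _ hlt
    have h3 : (umin Y 0 * G + 1) * (e + 1) = (umin Y 0 * G + 1) * e + (umin Y 0 * G + 1) := by ring
    omega
  exact_mod_cast hfe

end Vale.Agent.P202
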