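import Vale.Agent.P202.Red2

/-!
Reductions of the maximal ideal generated by `dim` elements.
-/

namespace Vale.Agent.P202

open IsLocalRing

/-- Over a Noetherian local ring of dimension `d` with infinite residue field, the maximal ideal
has a reduction generated by `d` elements. -/
theorem exists_reduction_max {A : Type*} [CommRing A] [IsLocalRing A] [IsNoetherianRing A]
    [Infinite (ResidueField A)] (d : ℕ) (hd : ringKrullDim A = d) :
    ∃ z : Fin d → A, (∀ i, z i ∈ maximalIdeal A) ∧ ∃ r : ℕ,
      maximalIdeal A ^ (r + 1) ≤ Ideal.span (Set.range z) * maximalIdeal A ^ r := by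
  classical
  obtain ⟨w, hw, hws⟩ := exists_parameters hd
  obtain ⟨s, hs⟩ := (IsNoetherian.noetherian (maximalIdeal A) : (maximalIdeal A).FG)
  have hrange : Set.range (fun i : Fin s.card => ((s.equivFin.symm i : s) : A)) = (s : Set A) := by
    ext x
    constructor
    · rintro ⟨i, rfl⟩; exact (s.equivFin.symm i).2
    · intro hx; exact ⟨s.equivFin ⟨x, hx⟩, by simp⟩
  have hspan : Ideal.span (Set.range (fun i : Fin s.card => ((s.equivFin.symm i : s) : A))) =
      maximalIdeal A := by rw [hrange]; exact hs
  have hmem : ∀ i : Fin s.card, ((s.equivFin.symm i : s) : A) ∈ maximalIdeal A := by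
    intro i
    rw [← hspan]
    exact Ideal.subset_span ⟨i, rfl⟩
  obtain ⟨B, hB⟩ := exists_growth w hws (maximalIdeal A) 1
    (by rw [pow_one, Ideal.span_le]; rintro _ ⟨i, rfl⟩; exact hw i)
    (by rw [ell_maximalIdeal]; exact ENat.one_ne_top)
  obtain ⟨x, hx, hle, r, hr⟩ := exists_reduction (R := A)
    (fun i : Fin s.card => ((s.equivFin.symm i : s) : A)) hmem d B
    (fun n hn => by rw [hspan]; exact hB n hn)
  rw [hspan] at hle hr
  exact ⟨x, fun i => hle (Ideal.subset_span ⟨i, rfl⟩), r, hr⟩

end Vale.Agent.P202
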