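import Vale.Agent.P202.Kernel
import Vale.Agent.P202.Cut
import Vale.Agent.P202.RedMax

/-!
Comparison of the growth of the colengths of the powers of the maximal ideals.
-/

set_option linter.unusedSectionVars false

namespace Vale.Agent.P202

open Ideal IsLocalRing Finset

universe v

/-- Reductions of the maximal ideal and the bounds attached to them. -/
theorem exists_max_reduction {S : Type v} [CommRing S] [IsLocalRing S] [IsNoetherianRing S]
    [Infinite (ResidueField S)] {d : ℕ} (hdim : ringKrullDim S = d) :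
    ∃ (x : Fin d → S) (c : ℕ), (∀ i, x i ∈ maximalIdeal S) ∧
      ell (Ideal.span (Set.range x)) ≠ ⊤ ∧
      ∀ N, emin x * (tri (Fin d) N).card ≤ ell (maximalIdeal S ^ (N + c)) := by
  obtain ⟨x, hx, r, hr⟩ := exists_reduction_max (A := S) d hdim
  have hle : Ideal.span (Set.range x) ≤ maximalIdeal S := by
    rw [Ideal.span_le]
    rintro _ ⟨i, rfl⟩
    exact hx i
  have hred : IsRed (Ideal.span (Set.range x)) (maximalIdeal S) := ⟨hle, r, hr⟩
  obtain ⟨c, hc⟩ := hred.exists_pow_le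
  refine ⟨x, c, hx, ?_, fun N => ?_⟩
  · have h1 := hc 1
    rw [pow_one] at h1
    exact ell_ne_top_of_pow_le h1
  · exact (emin_mul_card_le x N).trans (ell_mono (hc N))

/-- The growth of the colengths of the powers of the maximal ideal of the base. -/
theorem growth_bound {R : Type*} {S : Type v} [CommRing R] [IsLocalRing R] [IsNoetherianRing R]
    [CommRing S] [IsLocalRing S] [IsNoetherianRing S] [Infinite (ResidueField S)]
    [Algebra R S] [IsLocalHom (algebraMap R S)] [Module.Flat R S] {δ : ℕ} (hδ : 0 < δ)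
    (hdim : ringKrullDim S = (δ + 1 : ℕ))
    (hfib : ell ((maximalIdeal R).map (algebraMap R S)) ≠ ⊤) :
    ∃ E B c : ℕ, (∀ N, ((E * (tri (Fin (δ + 1)) N).card : ℕ) : ℕ∞) ≤
        ell (maximalIdeal S ^ (N + c))) ∧
      ∀ t, ell (maximalIdeal R ^ (t + 1)) ≤ ell (maximalIdeal R ^ t) +
        ((t + 1) ^ δ * E + B * (t + 1) ^ (δ - 1) : ℕ) := by
  obtain ⟨x, c, hx, hfin, hlow⟩ := exists_max_reduction (S := S) hdim
  obtain ⟨E, hE⟩ := ENat.ne_top_iff_exists.mp (emin_ne_top hfin)
  obtain ⟨l, B, hl, hB⟩ := exists_cut 1 S δ hδ x hx hfin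
  refine ⟨E, B, c, fun N => ?_, fun t => ?_⟩
  · have := hlow N
    rw [← hE] at this
    push_cast
    exact this
  set I := (maximalIdeal R).map (algebraMap R S) with hI
  obtain ⟨D, hD⟩ := exists_pow_le_of_ell_ne_top hfib
  have hxm : Ideal.span (Set.range x) ≤ maximalIdeal S := by
    rw [Ideal.span_le]
    rintro _ ⟨i, rfl⟩
    exact hx i
  have hmain := hB I D ((Ideal.pow_right_mono hxm D).trans hD) (t + 1) (Nat.succ_pos t)
  -- the number `ρ`
  have hrange : Ideal.span (Set.range l) = Ideal.span {l 0} := by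
    congr 1
    ext a
    simp [Fin.exists_fin_one, eq_comm]
  rw [hrange] at hmain
  have hIn : I ≤ maximalIdeal S := by
    rw [hI, Ideal.map_le_iff_le_comap]
    intro a ha
    exact (IsLocalRing.mem_maximalIdeal _).mpr fun h =>
      (IsLocalRing.mem_maximalIdeal _).mp ha (isUnit_of_map_unit (algebraMap R S) a h)
  have hρ0 : ell (Ideal.span {l 0} ⊔ I) ≠ 0 := by
    rw [Ne, ell_eq_zero_iff]
    intro h
    have h1 : Ideal.span {l 0} ⊔ I ≤ maximalIdeal S :=
      sup_le ((Ideal.span_singleton_le_iff_mem _).mpr (hl 0)) hIn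
    rw [h, top_le_iff] at h1
    exact (IsLocalRing.maximalIdeal.isMaximal S).ne_top h1
  have hρt : ell (Ideal.span {l 0} ⊔ I) ≠ ⊤ := ne_top_of_le_ne_top hfib (ell_mono le_sup_right)
  obtain ⟨ρ, hρ⟩ := ENat.ne_top_iff_exists.mp hρt
  -- lengths in `R`
  have hRt : ∀ s, ell (maximalIdeal R ^ s) ≠ ⊤ := fun s => ell_ne_top_of_pow_le le_rfl
  obtain ⟨L, hL⟩ := ENat.ne_top_iff_exists.mp (hRt t)
  obtain ⟨L', hL'⟩ := ENat.ne_top_iff_exists.mp (hRt (t + 1))
  have hLL : L ≤ L' := by
    have : ell (maximalIdeal R ^ t) ≤ ell (maximalIdeal R ^ (t + 1)) :=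
      ell_mono (Ideal.pow_le_pow_right (Nat.le_succ t))
    rw [← hL, ← hL'] at this
    exact_mod_cast this
  have hk := kernel_ineq (S := S) (l 0) (maximalIdeal R ^ (t + 1)) (maximalIdeal R ^ t)
    (Ideal.pow_le_pow_right (Nat.le_succ t)) (le_of_eq (pow_succ' _ _).symm) (hRt t)
    (by
      rw [Ideal.map_pow]
      refine ell_ne_top_of_pow_le (s := D * t) ?_
      rw [pow_mul]
      exact Ideal.pow_right_mono hD t) (L' - L) (by
      rw [← hL, ← hL']
      norm_cast
      omega)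
  rw [Ideal.map_pow, sup_comm, ← hI, sup_comm (I ^ (t + 1)), ← hρ] at hk
  rw [← hρ, ← hE] at hmain
  have h1 := hk.trans hmain
  rw [← hρ] at hρ0
  have h2 : (L' - L) * ρ ≤ ρ * ((t + 1) ^ δ * E + B * (t + 1) ^ (δ - 1)) := by
    exact_mod_cast h1
  rw [mul_comm] at h2
  have hρ0' : 0 < ρ := by
    rcases Nat.eq_zero_or_pos ρ with h | h
    · rw [h] at hρ0
      exact absurd rfl hρ0
    · exact h
  have h3 := Nat.le_of_mul_le_mul_left h2 hρ0'
  rw [← hL, ← hL']
  norm_cast
  omega

end Vale.Agent.P202
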