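import Vale.Agent.P202.LechOne

/-!
Existence of the Hilbert-Samuel multiplicity.
-/

set_option linter.unusedSectionVars false

namespace Vale.Agent.P202

open Ideal IsLocalRing Finset Filter Topology

universe u

lemma tendsto_shift_down (c d : ℕ) :
    Tendsto (fun n : ℕ => ((n - c : ℕ) : ℝ) ^ d / (n : ℝ) ^ d) atTop (𝓝 1) := by
  have h1 : Tendsto (fun n : ℕ => 1 - (c : ℝ) / n) atTop (𝓝 (1 - 0)) :=
    tendsto_const_nhds.sub (tendsto_const_div_atTop_nhds_zero_nat (c : ℝ))
  rw [sub_zero] at h1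
  have h2 := h1.pow d
  rw [one_pow] at h2
  refine h2.congr' ?_
  filter_upwards [eventually_gt_atTop 0, eventually_ge_atTop c] with n hn hc
  have : (n : ℝ) ≠ 0 := by positivity
  rw [← div_pow, Nat.cast_sub hc]
  congr 1
  field_simp

lemma tendsto_of_bounds {d E B c : ℕ} (hd : 0 < d) (b : ℕ → ℕ)
    (hlow : ∀ N, E * (tri (Fin d) N).card ≤ b (N + c))
    (hup : ∀ N, b N ≤ (tri (Fin d) N).card * E + B * N ^ (d - 1)) :
    Tendsto (fun N : ℕ => (d.factorial : ℝ) * (b N : ℝ) / (N : ℝ) ^ d) atTop (𝓝 (E : ℝ)) := by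
  have h1 : Tendsto (fun n : ℕ => (E : ℝ) * (((n - c : ℕ) : ℝ) ^ d / (n : ℝ) ^ d)) atTop
      (𝓝 ((E : ℝ) * 1)) := (tendsto_shift_down c d).const_mul _
  have h2 : Tendsto (fun n : ℕ => (E : ℝ) * (((n + d : ℕ) : ℝ) ^ d / (n : ℝ) ^ d) +
      (d.factorial * B : ℝ) * (((n + 0 : ℕ) : ℝ) ^ (d - 1) / (n : ℝ) ^ d)) atTop
      (𝓝 ((E : ℝ) * 1 + (d.factorial * B : ℝ) * 0)) :=
    ((tendsto_shift_pow_ratio d d).const_mul _).add ((tendsto_lower_ratio 0 d hd).const_mul _)
  rw [mul_one] at h1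
  rw [mul_one, mul_zero, add_zero] at h2
  refine tendsto_of_tendsto_of_tendsto_of_le_of_le' h1 h2 ?_ ?_
  · filter_upwards [eventually_gt_atTop c] with n hn
    have hnd : (0 : ℝ) < (n : ℝ) ^ d := by
      have : 0 < n := by omega
      positivity
    rw [mul_div_assoc']
    refine (div_le_div_iff_of_pos_right hnd).mpr ?_
    have h3 := pow_le_factorial_mul_card_tri (σ := Fin d) (n - c) (by omega)
    rw [Fintype.card_fin] at h3
    have h4 := hlow (n - c)
    rw [Nat.sub_add_cancel hn.le] at h4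
    have h5 : E * (n - c) ^ d ≤ d.factorial * b n := by
      calc E * (n - c) ^ d ≤ E * (d.factorial * (tri (Fin d) (n - c)).card) :=
            Nat.mul_le_mul_left _ h3
        _ = d.factorial * (E * (tri (Fin d) (n - c)).card) := by ring
        _ ≤ _ := Nat.mul_le_mul_left _ h4
    exact_mod_cast h5
  · filter_upwards [eventually_gt_atTop 0] with n hn
    have hnd : (0 : ℝ) < (n : ℝ) ^ d := by positivity
    rw [mul_div_assoc', mul_div_assoc', ← add_div]
    refine (div_le_div_iff_of_pos_right hnd).mpr ?_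
    have h3 := factorial_mul_card_tri_le (σ := Fin d) n
    rw [Fintype.card_fin] at h3
    have h4 := hup n
    have h5 : d.factorial * b n ≤ E * (n + d) ^ d + d.factorial * B * (n + 0) ^ (d - 1) := by
      calc d.factorial * b n ≤ d.factorial * ((tri (Fin d) n).card * E + B * n ^ (d - 1)) :=
            Nat.mul_le_mul_left _ h4
        _ = E * (d.factorial * (tri (Fin d) n).card) + d.factorial * B * (n + 0) ^ (d - 1) := by
            rw [add_zero]; ring
        _ ≤ _ := by gcongr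
    exact_mod_cast h5

/-- The multiplicity exists and is a natural number. -/
theorem exists_mult {A : Type u} [CommRing A] [IsLocalRing A] [IsNoetherianRing A] {d : ℕ}
    (hd : 0 < d) (hdim : ringKrullDim A = d) :
    ∃ e : ℕ, Tendsto (fun N : ℕ => (d.factorial : ℝ) *
      ((Module.length A (A ⧸ maximalIdeal A ^ N)).toNat : ℝ) / (N : ℝ) ^ d) atTop
      (𝓝 (e : ℝ)) := by
  obtain ⟨A', -, _, _, _, -, -, -, -, -, -, hinf, hlA, -, hdA, -⟩ :=
    exists_infinite_residue (R := A) (S := A)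
  obtain ⟨x, c, hx, hfin, hlow⟩ := exists_max_reduction (S := A') (hdA.trans hdim)
  obtain ⟨E, hE⟩ := ENat.ne_top_iff_exists.mp (emin_ne_top hfin)
  obtain ⟨B, hB⟩ := ENat.ne_top_iff_exists.mp (errB_ne_top hfin)
  have hSt : ∀ s, ell (maximalIdeal A' ^ s) ≠ ⊤ := fun s => ell_ne_top_of_pow_le le_rfl
  refine ⟨E, ?_⟩
  have key := tendsto_of_bounds (d := d) (E := E) (B := B) (c := c) hd
    (fun N => (ell (maximalIdeal A' ^ N)).toNat) ?_ ?_
  · simp only [ell, hlA] at key
    exact key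
  · intro N
    have h3 := hlow N
    obtain ⟨b, hb⟩ := ENat.ne_top_iff_exists.mp (hSt (N + c))
    simp only [← hb, ← hE] at h3 ⊢
    rw [ENat.toNat_natCast]
    exact_mod_cast h3
  · intro N
    have hle : Ideal.span (Set.range x) ≤ maximalIdeal A' := by
      rw [Ideal.span_le]
      rintro _ ⟨i, rfl⟩
      exact hx i
    have h3 := (ell_mono (Ideal.pow_right_mono hle N)).trans (ell_pow_le x N)
    rw [Fintype.card_fin] at h3
    obtain ⟨b, hb⟩ := ENat.ne_top_iff_exists.mp (hSt N)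
    simp only [← hb, ← hE, ← hB] at h3 ⊢
    rw [ENat.toNat_natCast]
    exact_mod_cast h3

end Vale.Agent.P202
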