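import Vale.Agent.P202.ClsAssembly

/-!
Assembly relative to a class of base rings; here both rings are complete in the complete case.
-/

set_option linter.unusedSectionVars false

namespace Vale.Agent.P202

open Ideal IsLocalRing Finset Filter Topology Polynomial

universe u

/-- The inequality for equal dimensions. -/
def EqDimCls (C : RCls.{u}) (d κ : ℕ) : Prop :=
  ∀ (R S : Type u) [CommRing R] [IsLocalRing R] [IsNoetherianRing R]
    [CommRing S] [IsLocalRing S] [IsNoetherianRing S] [Algebra R S]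
    [IsLocalHom (algebraMap R S)] [Module.Flat R S],
    C R → ringKrullDim R = d → ringKrullDim S = d → ∀ eR eS : ℕ,
    Tendsto (hsSeq R d) atTop (𝓝 (eR : ℝ)) → Tendsto (hsSeq S d) atTop (𝓝 (eS : ℝ)) →
    eR ≤ κ * eS

/-- The statement for complete rings (both complete) of the class and equal dimensions. -/
def CompleteCaseCls2 (C : RCls.{u}) (d κ : ℕ) : Prop :=
  ∀ (R S : Type u) [CommRing R] [IsLocalRing R] [IsNoetherianRing R]
    [IsAdicComplete (maximalIdeal R) R] [Infinite (ResidueField R)]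
    [CommRing S] [IsLocalRing S] [IsNoetherianRing S] [IsAdicComplete (maximalIdeal S) S]
    [Algebra R S] [IsLocalHom (algebraMap R S)] [Module.Flat R S],
    C R → ringKrullDim R = d → ringKrullDim S = d →
    ∃ c K : ℕ, ∀ N : ℕ, (d.factorial : ℕ∞) * ell (maximalIdeal R ^ N) ≤
      (κ : ℕ∞) * ((d.factorial : ℕ∞) * ell (maximalIdeal S ^ (N + c))) +
        (K : ℕ∞) * ((N : ℕ∞) + 1) ^ (d - 1)

/-- Equal dimensions. -/
theorem eqDim_of_completeCase2 {C : RCls.{u}} (hC : RStable C) {d κ : ℕ} (hd : 0 < d)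
    (H : CompleteCaseCls2.{u} C d κ) : EqDimCls.{u} C d κ := by
  intro R S _ _ _ _ _ _ _ _ _ hCR hR hS eR eS heR heS
  obtain ⟨R1, S1, _, _, _, _, _, _, _, _, _, hinf, hlR, hlS, hdR, hdS, hC1⟩ :=
    exists_infinite_residue_cls (R := R) (S := S) hC hCR
  obtain ⟨R2, S2, _, _, _, _, _, _, _, _, _, _, _, hlR2, hlS2, hdR2, hdS2, hinf2, hC2⟩ :=
    exists_completion_cls (R := R1) (S := S1) hC hC1
  have := hinf2 hinf
  obtain ⟨c, K, hN⟩ := H R2 S2 hC2 (hdR2.trans (hdR.trans hR)) (hdS2.trans (hdS.trans hS))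
  have key : (eR : ℝ) ≤ κ * eS := by
    refine le_of_growth hd κ c K (fun N => (Module.length R2 (R2 ⧸ maximalIdeal R2 ^ N)).toNat)
      (fun N => (Module.length S2 (S2 ⧸ maximalIdeal S2 ^ N)).toNat)
      (fun N => growth_toNat d κ c K N (hN N)) eR eS ?_ ?_
    · simp only [hlR2, hlR]
      exact heR
    · simp only [hlS2, hlS]
      exact heS
  exact_mod_cast key

/-- All flat local homomorphisms. -/
theorem lech_all_of_eqDim {C : RCls.{u}} (hC : RStable C) {d κ : ℕ} (hd : 0 < d)
    (E : EqDimCls.{u} C d κ) (n : ℕ) : ∀ {R S : Type u}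
    [CommRing R] [IsLocalRing R] [IsNoetherianRing R]
    [CommRing S] [IsLocalRing S] [IsNoetherianRing S] [Algebra R S]
    [IsLocalHom (algebraMap R S)] [Module.Flat R S] (_ : C R)
    (_ : ringKrullDim R = d) (_ : ringKrullDim S = (d + n : ℕ)) (eR eS : ℕ)
    (_ : Tendsto (hsSeq R d) atTop (𝓝 (eR : ℝ)))
    (_ : Tendsto (hsSeq S (d + n)) atTop (𝓝 (eS : ℝ))),
    eR ≤ κ * eS := by
  induction n with
  | zero =>
    intro R S _ _ _ _ _ _ _ _ _ hCR hR hS eR eS heR heS
    exact E R S hCR hR (by simpa using hS) eR eS heR (by simpa using heS)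
  | succ n ih =>
    intro R S _ _ _ _ _ _ _ _ _ hCR hR hS eR eS heR heS
    obtain ⟨R2, S2, _, _, _, _, _, _, _, _, _, _, _, hlR2, hlS2, hdR2, hdS2, -, hC2⟩ :=
      exists_completion_cls (R := R) (S := S) hC hCR
    have hR2 : ringKrullDim R2 = d := hdR2.trans hR
    have hS2 : ringKrullDim S2 = (d + n : ℕ) + 1 := by
      rw [hdS2, hS]
      push_cast
      rw [add_assoc]
    obtain ⟨Q, _, hmQ, hQ1, hQs⟩ := exists_prime_dim_one (R := R2) (S := S2) (d + n) hS2 (by
      rw [hR2, hS2]
      have : (d : WithBot ℕ∞) < ((d + n + 1 : ℕ) : WithBot ℕ∞) := by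
        exact_mod_cast (by omega : d < d + n + 1)
      refine this.trans_le (le_of_eq ?_)
      push_cast
      rfl)
    have heR2 : Tendsto (hsSeq R2 d) atTop (𝓝 (eR : ℝ)) := by
      have : hsSeq R2 d = hsSeq R d := by
        funext N
        simp only [hsSeq, hlR2]
      rw [this]; exact heR
    have heS2 : Tendsto (hsSeq S2 (d + n + 1)) atTop (𝓝 (eS : ℝ)) := by
      have : hsSeq S2 (d + n + 1) = hsSeq S (d + (n + 1)) := by
        funext N
        simp only [hsSeq, hlS2, add_assoc]
      rw [this]; exact heS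
    have hflat : Module.Flat R2 (Localization.AtPrime Q) := Module.Flat.trans R2 S2 _
    have hloc : IsLocalHom (algebraMap R2 (Localization.AtPrime Q)) := by
      refine ⟨fun a ha => ?_⟩
      by_contra hna
      have h1 : algebraMap R2 S2 a ∈ Q :=
        hmQ (Ideal.mem_map_of_mem _ ((IsLocalRing.mem_maximalIdeal _).mpr hna))
      rw [IsScalarTower.algebraMap_apply R2 S2 (Localization.AtPrime Q),
        IsLocalization.AtPrime.isUnit_to_map_iff (Localization.AtPrime Q) Q] at ha
      exact ha h1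
    obtain ⟨eQ, heQ⟩ := exists_mult (A := Localization.AtPrime Q) (d := d + n) (by omega) hQs
    have h1 : eR ≤ κ * eQ :=
      ih (R := R2) (S := Localization.AtPrime Q) hC2 hR2 hQs eR eQ heR2 heQ
    have h2 : eQ ≤ eS := mult_localization Q hQ1 heQ heS2
    exact h1.trans (Nat.mul_le_mul_left _ h2)

/-- All flat local homomorphisms, with the multiplicities given. -/
theorem lech_of_eqDim {C : RCls.{u}} (hC : RStable C) {d κ : ℕ} (hd : 0 < d)
    (E : EqDimCls.{u} C d κ) {R S : Type u}
    [CommRing R] [IsLocalRing R] [IsNoetherianRing R]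
    [CommRing S] [IsLocalRing S] [IsNoetherianRing S] [Algebra R S]
    [IsLocalHom (algebraMap R S)] [Module.Flat R S] (hCR : C R) (hR : ringKrullDim R = d)
    {s : ℕ} (hS : ringKrullDim S = s) (eR eS : ℕ)
    (heR : Tendsto (hsSeq R d) atTop (𝓝 (eR : ℝ)))
    (heS : Tendsto (hsSeq S s) atTop (𝓝 (eS : ℝ))) : eR ≤ κ * eS := by
  have hle : d ≤ s := by
    have h1 := Ideal.height_eq_height_add_of_liesOver_of_hasGoingDown (maximalIdeal R)
      (maximalIdeal S)
    have h2 : (maximalIdeal R).height ≤ (maximalIdeal S).height := by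
      rw [h1]; exact le_self_add
    have hR' := hR
    have hS' := hS
    rw [← IsLocalRing.maximalIdeal_height_eq_ringKrullDim] at hR' hS'
    have h3 : (maximalIdeal R).height = d := by exact_mod_cast hR'
    have h4 : (maximalIdeal S).height = s := by exact_mod_cast hS'
    rw [h3, h4] at h2
    exact_mod_cast h2
  obtain ⟨n, rfl⟩ := Nat.exists_eq_add_of_le hle
  exact lech_all_of_eqDim hC hd E n hCR hR hS eR eS heR heS

end Vale.Agent.P202
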