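import Vale.Agent.P202.EvLin

/-!
Flatness lemmas.
-/

namespace Vale.Agent.P202

open Submodule TensorProduct

section functional
variable {A : Type*} [CommRing A] {V : Type*} [AddCommGroup V] [Module A V]

lemma exists_functional (m : Ideal A) [m.IsMaximal] (W : Submodule A V)
    (hmW : m • (⊤ : Submodule A V) ≤ W) {u : V} (hu : u ∉ W) :
    ∃ ψ : V →ₗ[A] A ⧸ m, (∀ w ∈ W, ψ w = 0) ∧ ψ u = 1 := by
  letI : Field (A ⧸ m) := Ideal.Quotient.field m
  have htor : Module.IsTorsionBySet A (V ⧸ W) m := by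
    intro x r
    obtain ⟨x, rfl⟩ := Submodule.Quotient.mk_surjective _ x
    change Submodule.Quotient.mk (r.1 • x) = _
    rw [Submodule.Quotient.mk_eq_zero]
    exact hmW (Submodule.smul_mem_smul r.2 Submodule.mem_top)
  letI : Module (A ⧸ m) (V ⧸ W) := htor.module
  haveI : IsScalarTower A (A ⧸ m) (V ⧸ W) := htor.isScalarTower
  have hne : (Submodule.Quotient.mk u : V ⧸ W) ≠ 0 := by
    rwa [Ne, Submodule.Quotient.mk_eq_zero]
  have hex : ∃ φ : Module.Dual (A ⧸ m) (V ⧸ W), φ (Submodule.Quotient.mk u) ≠ 0 := by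
    by_contra hcon
    push Not at hcon
    exact hne ((Module.forall_dual_apply_eq_zero_iff (A ⧸ m) _).mp hcon)
  obtain ⟨φ, hφ⟩ := hex
  set a := φ (Submodule.Quotient.mk u) with ha
  refine ⟨((a⁻¹ • φ).restrictScalars A).comp W.mkQ, ?_, ?_⟩
  · intro w hw
    have : (Submodule.Quotient.mk w : V ⧸ W) = 0 := (Submodule.Quotient.mk_eq_zero _).mpr hw
    simp [this]
  · simp only [LinearMap.comp_apply, Submodule.mkQ_apply, LinearMap.restrictScalars_apply,
      LinearMap.smul_apply, ← ha, smul_eq_mul]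
    exact inv_mul_cancel₀ hφ

/-- key flatness statement. -/
lemma mem_of_smul_mem [Module.Flat A V] (m : Ideal A) [m.IsMaximal] {I I' : Ideal A}
    (hII : I ≤ I') (hm : m * I' ≤ I) (W : Submodule A V)
    (hmW : m • (⊤ : Submodule A V) ≤ W) {u : V} (hu : u ∉ W) {w : A} (hw : w ∈ I')
    (h : w • u ∈ I' • W ⊔ I • (⊤ : Submodule A V)) : w ∈ I := by
  obtain ⟨ψ, hψ0, hψ1⟩ := exists_functional m W hmW hu
  -- the bilinear map
  let q : I' →ₗ[A] (I' ⧸ (I.submoduleOf I')) := Submodule.mkQ _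
  have hker : m ≤ LinearMap.ker (LinearMap.toSpanSingleton A (I' →ₗ[A] (I' ⧸ (I.submoduleOf I'))) q) := by
    intro r hr
    rw [LinearMap.mem_ker, LinearMap.toSpanSingleton_apply]
    ext z
    simp only [LinearMap.smul_apply, LinearMap.zero_apply]
    change Submodule.Quotient.mk (r • z) = 0
    rw [Submodule.Quotient.mk_eq_zero]
    exact hm (Ideal.mul_mem_mul hr z.2)
  let β : (A ⧸ m) →ₗ[A] (I' →ₗ[A] (I' ⧸ (I.submoduleOf I'))) := m.liftQ _ hker
  have hβ1 : β 1 = q := by
    change β (Submodule.Quotient.mk 1) = q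
    rw [Submodule.liftQ_apply, LinearMap.toSpanSingleton_apply, one_smul]
  let g : (I' ⊗[A] V) →ₗ[A] (I' ⧸ (I.submoduleOf I')) := TensorProduct.lift (β ∘ₗ ψ).flip
  have hg : ∀ (z : I') (v : V), g (z ⊗ₜ v) = β (ψ v) z := by
    intro z v
    simp [g]
  let e : (I' ⊗[A] V) →ₗ[A] V :=
    TensorProduct.lift ((LinearMap.lsmul A V).comp (Submodule.subtype I'))
  have he : ∀ (z : I') (v : V), e (z ⊗ₜ v) = (z : A) • v := by
    intro z v
    simp [e]
  have hinj : Function.Injective e := by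
    have h1 := Module.Flat.rTensor_preserves_injective_linearMap (M := V)
      (Submodule.subtype I') (Submodule.subtype_injective I')
    have h2 : e = (TensorProduct.lid A V).toLinearMap ∘ₗ
        (LinearMap.rTensor V (Submodule.subtype I')) := by
      ext z v
      simp [e]
    rw [h2]
    exact (TensorProduct.lid A V).injective.comp h1
  -- elements of `I' W + I V` come from elements killed by `g`
  have hS : I' • W ⊔ I • (⊤ : Submodule A V) ≤ Submodule.map e (LinearMap.ker g) := by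
    rw [sup_le_iff]
    constructor
    · rw [Submodule.smul_le]
      intro r hr n hn
      refine ⟨(⟨r, hr⟩ : I') ⊗ₜ n, ?_, by rw [he]⟩
      rw [SetLike.mem_coe, LinearMap.mem_ker, hg, hψ0 n hn, map_zero, LinearMap.zero_apply]
    · rw [Submodule.smul_le]
      intro r hr n _
      refine ⟨(⟨r, hII hr⟩ : I') ⊗ₜ n, ?_, by rw [he]⟩
      rw [SetLike.mem_coe, LinearMap.mem_ker, hg]
      obtain ⟨c, hc⟩ := Ideal.Quotient.mk_surjective (ψ n)
      rw [← hc]
      change β (Submodule.Quotient.mk c) _ = 0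
      rw [Submodule.liftQ_apply, LinearMap.toSpanSingleton_apply, LinearMap.smul_apply]
      change Submodule.Quotient.mk (c • (⟨r, hII hr⟩ : I')) = 0
      rw [Submodule.Quotient.mk_eq_zero]
      exact I.mul_mem_left c hr
  obtain ⟨z, hz, hze⟩ := hS h
  have hz' : z = (⟨w, hw⟩ : I') ⊗ₜ u := by
    apply hinj
    rw [hze, he]
  rw [SetLike.mem_coe, LinearMap.mem_ker, hz', hg, hψ1, hβ1] at hz
  have hz2 : (Submodule.Quotient.mk (⟨w, hw⟩ : I') : I' ⧸ (I.submoduleOf I')) = 0 := hz
  rw [Submodule.Quotient.mk_eq_zero] at hz2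
  exact hz2

end functional

end Vale.Agent.P202
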