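import Mathlib

/-!
Choice of a prime of coheight one over the maximal ideal of the base of a flat local homomorphism.
-/

namespace Vale.Agent.P202

open IsLocalRing

/-- A prime `Q` of coheight one in the closed fibre of a flat local homomorphism, of maximal
possible height. -/
theorem exists_prime_dim_one {R S : Type*} [CommRing R] [IsLocalRing R] [IsNoetherianRing R]
    [CommRing S] [IsLocalRing S] [IsNoetherianRing S] [Algebra R S]
    [IsLocalHom (algebraMap R S)] [Module.Flat R S] (s : ℕ) (hS : ringKrullDim S = s + 1)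
    (hlt : ringKrullDim R < ringKrullDim S) :
    ∃ Q : Ideal S, ∃ _ : Q.IsPrime, (maximalIdeal R).map (algebraMap R S) ≤ Q ∧
      ringKrullDim (S ⧸ Q) = 1 ∧ ringKrullDim (Localization.AtPrime Q) = s := by
  classical
  set I : Ideal S := (maximalIdeal R).map (algebraMap R S) with hI
  have hIM : I ≤ maximalIdeal S := by
    rw [hI, Ideal.map_le_iff_le_comap, IsLocalRing.maximalIdeal_comap]
  set P : Ideal (S ⧸ I) := (maximalIdeal S).map (Ideal.Quotient.mk I) with hP
  have hPprime : P.IsPrime := by
    refine Ideal.map_isPrime_of_surjective Ideal.Quotient.mk_surjective ?_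
    rwa [Ideal.mk_ker]
  have hht := Ideal.height_eq_height_add_of_liesOver_of_hasGoingDown (maximalIdeal R)
    (maximalIdeal S)
  rw [← hI, ← hP] at hht
  rw [← IsLocalRing.maximalIdeal_height_eq_ringKrullDim] at hS
  rw [← IsLocalRing.maximalIdeal_height_eq_ringKrullDim,
    ← IsLocalRing.maximalIdeal_height_eq_ringKrullDim (R := S)] at hlt
  have hS' : (maximalIdeal S).height = ((s + 1 : ℕ) : ℕ∞) := by
    exact_mod_cast hS
  have hlt' : (maximalIdeal R).height < (maximalIdeal S).height := by
    exact_mod_cast hlt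
  obtain ⟨lq, hlq, hlenq⟩ := P.exists_ltSeries_length_eq_height
  have hlen : lq.length ≠ 0 := by
    intro h0
    rw [h0, Nat.cast_zero] at hlenq
    rw [hht, ← hlenq, add_zero] at hlt'
    exact lt_irrefl _ hlt'
  set P' : PrimeSpectrum (S ⧸ I) := lq.eraseLast.last with hP'
  have hP'lt : P' < lq.last := lq.eraseLast_last_rel_last hlen
  set q : PrimeSpectrum S := PrimeSpectrum.comap (Ideal.Quotient.mk I) P' with hq
  have hqI : I ≤ q.asIdeal := by
    intro x hx
    have : Ideal.Quotient.mk I x = 0 := Ideal.Quotient.eq_zero_iff_mem.mpr hx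
    change Ideal.Quotient.mk I x ∈ P'.asIdeal
    rw [this]; exact zero_mem _
  have hmap : q.asIdeal.map (Ideal.Quotient.mk I) = P'.asIdeal := by
    change (P'.asIdeal.comap (Ideal.Quotient.mk I)).map (Ideal.Quotient.mk I) = _
    exact Ideal.map_comap_of_surjective _ Ideal.Quotient.mk_surjective _
  have hqM : q < (⟨maximalIdeal S, inferInstance⟩ : PrimeSpectrum S) := by
    refine lt_of_le_of_ne (IsLocalRing.le_maximalIdeal q.2.ne_top) ?_
    intro h
    have h1 : q.asIdeal = maximalIdeal S := congrArg PrimeSpectrum.asIdeal h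
    rw [h1, ← hP] at hmap
    apply hP'lt.ne
    rw [hlq]
    ext1
    exact hmap.symm
  have hlies : q.asIdeal.LiesOver (maximalIdeal R) := by
    refine ⟨?_⟩
    refine le_antisymm ?_ ?_
    · rw [Ideal.under_def, ← Ideal.map_le_iff_le_comap]; exact hqI
    · apply IsLocalRing.le_maximalIdeal
      exact (Ideal.IsPrime.under R q.asIdeal).ne_top
  have hhq := Ideal.height_eq_height_add_of_liesOver_of_hasGoingDown (maximalIdeal R) q.asIdeal
  rw [← hI, hmap] at hhq
  have hP'h : (lq.length - 1 : ℕ) ≤ P'.asIdeal.height := by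
    rw [P'.height_eq_orderHeight, hP']
    have := Order.length_le_height_last (p := lq.eraseLast)
    simpa using this
  have hsq : (s : ℕ∞) ≤ q.asIdeal.height := by
    rw [hhq]
    rw [hS', ← hlenq] at hht
    have hRfin : (maximalIdeal R).height ≠ ⊤ := Ideal.height_ne_top Ideal.IsPrime.ne_top'
    obtain ⟨a, ha⟩ := ENat.ne_top_iff_exists.mp hRfin
    rw [← ha] at hht ⊢
    have h2 : s + 1 = a + lq.length := by exact_mod_cast hht
    have h3 : s = a + (lq.length - 1) := by omega
    calc (s : ℕ∞) = ((a + (lq.length - 1) : ℕ) : ℕ∞) := by rw [← h3]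
      _ = (a : ℕ∞) + ((lq.length - 1 : ℕ) : ℕ∞) := by push_cast; rfl
      _ ≤ _ := by gcongr
  have hco : (1 : ℕ∞) ≤ Order.coheight q := by
    have := Order.coheight_add_one_le hqM
    exact le_trans (by simp) this
  have hsum : q.asIdeal.height + Order.coheight q ≤ ((s + 1 : ℕ) : ℕ∞) := by
    rw [q.height_eq_orderHeight]
    have h1 : ringKrullDim S = ↑(⨆ (a : PrimeSpectrum S), Order.height a + Order.coheight a) := by
      rw [ringKrullDim, Order.krullDim_eq_iSup_height_add_coheight_of_nonempty]
    rw [← IsLocalRing.maximalIdeal_height_eq_ringKrullDim, hS'] at h1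
    have h2 : ((s + 1 : ℕ) : ℕ∞) = ⨆ (a : PrimeSpectrum S), Order.height a + Order.coheight a := by
      exact_mod_cast h1
    rw [h2]
    exact le_iSup (fun a : PrimeSpectrum S => Order.height a + Order.coheight a) q
  have hqfin : q.asIdeal.height ≠ ⊤ := by
    intro h
    rw [h, top_add, top_le_iff] at hsum
    exact ENat.natCast_ne_top _ hsum
  have hcofin : Order.coheight q ≠ ⊤ := by
    intro h
    rw [h, add_top, top_le_iff] at hsum
    exact ENat.natCast_ne_top _ hsum
  obtain ⟨a, ha⟩ := ENat.ne_top_iff_exists.mp hqfin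
  obtain ⟨b, hb⟩ := ENat.ne_top_iff_exists.mp hcofin
  rw [← ha] at hsum hsq
  rw [← hb] at hsum hco
  have e1 : s ≤ a := by exact_mod_cast hsq
  have e2 : 1 ≤ b := by exact_mod_cast hco
  have e3 : a + b ≤ s + 1 := by exact_mod_cast hsum
  have ea : a = s := by omega
  have eb : b = 1 := by omega
  refine ⟨q.asIdeal, q.2, hqI, ?_, ?_⟩
  · rw [ringKrullDim_quotient]
    have hset : PrimeSpectrum.zeroLocus (q.asIdeal : Set S) = Set.Ici q := by
      ext x
      rw [PrimeSpectrum.mem_zeroLocus, Set.mem_Ici, SetLike.coe_subset_coe]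
      rfl
    rw [hset, ← Order.coheight_eq_krullDim_Ici, ← hb, eb]
    rfl
  · rw [IsLocalization.AtPrime.ringKrullDim_eq_height q.asIdeal, ← ha, ea]
    rfl

end Vale.Agent.P202
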