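import Vale.Agent.P202.LocSumLower

/-!
Upper bound for a one-element extension of the maximal ideal.
-/

set_option linter.unusedSectionVars false

namespace Vale.Agent.P202

open IsLocalRing

section Upper

variable {S S₁ : Type*} [CommRing S] [IsLocalRing S] [IsNoetherianRing S]
    [CommRing S₁] [IsLocalRing S₁] [IsNoetherianRing S₁] [Algebra S S₁]
    [IsLocalHom (algebraMap S S₁)]

/-- lengths do not grow modulo `g`. -/
lemma ell_map_sup_le {g : S₁}
    (hmax : maximalIdeal S₁ = (maximalIdeal S).map (algebraMap S S₁) ⊔ Ideal.span {g})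
    (s : ℕ) (I : Ideal S) :
    maximalIdeal S ^ s ≤ I → ell (I.map (algebraMap S S₁) ⊔ Ideal.span {g}) ≤ ell I := by
  induction I using IsNoetherian.induction with
  | hgt I' ih =>
  let I : Ideal S := I'
  change maximalIdeal S ^ s ≤ I → ell (I.map (algebraMap S S₁) ⊔ Ideal.span {g}) ≤ ell I
  change ∀ J : Ideal S, J > I → maximalIdeal S ^ s ≤ J →
    ell (J.map (algebraMap S S₁) ⊔ Ideal.span {g}) ≤ ell J at ih
  clear_value I
  intro hs
  by_cases hI : I = ⊤
  · rw [hI, Ideal.map_top, top_sup_eq, ell_top]; exact zero_le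
  obtain ⟨x, hxI, hmx⟩ := exists_socle_elt hs hI
  have hlt : I < I ⊔ Ideal.span {x} := lt_of_le_of_ne le_sup_left fun h => hxI
    (by rw [h]; exact Ideal.mem_sup_right (Ideal.mem_span_singleton_self x))
  have hJs : maximalIdeal S ^ s ≤ I ⊔ Ideal.span {x} := hs.trans le_sup_left
  have h1 := ih _ hlt hJs
  have hcol : col I x = maximalIdeal S := by
    refine le_antisymm (le_maximalIdeal fun h => hxI (col_eq_top_iff.mp h)) fun m hm => ?_
    exact mem_col.mpr (hmx m hm)
  rw [ell_eq_add I x, hcol, ell_maximalIdeal,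
    ell_eq_add (Ideal.map (algebraMap S S₁) I ⊔ Ideal.span {g}) (algebraMap S S₁ x)]
  refine add_le_add ?_ (le_trans (le_of_eq ?_) h1)
  · rw [← ell_maximalIdeal (A := S₁)]
    refine ell_mono ?_
    rw [hmax]
    refine sup_le ?_ ?_
    · rw [Ideal.map_le_iff_le_comap]
      intro m hm
      rw [Ideal.mem_comap, mem_col, ← map_mul]
      exact Ideal.mem_sup_left (Ideal.mem_map_of_mem _ (hmx m hm))
    · rw [Ideal.span_singleton_le_iff_mem, mem_col]
      exact Ideal.mem_sup_right (Ideal.mul_mem_right _ _ (Ideal.mem_span_singleton_self g))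
  · rw [Ideal.map_sup, Ideal.map_span, Set.image_singleton, sup_right_comm]

end Upper

/-- upper bound for a one-element extension of the maximal ideal. -/
theorem sum_upper {S S₁ : Type*} [CommRing S] [IsLocalRing S] [IsNoetherianRing S]
    [CommRing S₁] [IsLocalRing S₁] [IsNoetherianRing S₁] [Algebra S S₁]
    [IsLocalHom (algebraMap S S₁)] (g : S₁)
    (hmax : maximalIdeal S₁ = (maximalIdeal S).map (algebraMap S S₁) ⊔ Ideal.span {g}) (j : ℕ) :
    ell (maximalIdeal S₁ ^ j) ≤ sumf (fun i => ell (maximalIdeal S ^ i)) j := by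
  have hg : g ∈ maximalIdeal S₁ := by
    rw [hmax]; exact Ideal.mem_sup_right (Ideal.mem_span_singleton_self g)
  have hle : (maximalIdeal S).map (algebraMap S S₁) ≤ maximalIdeal S₁ := by
    rw [hmax]; exact le_sup_left
  have hcol : ∀ i k : ℕ, i + k = j → (maximalIdeal S ^ k).map (algebraMap S S₁) ⊔ Ideal.span {g} ≤
      col (maximalIdeal S₁ ^ j ⊔ Ideal.span {g ^ (i + 1)}) (g ^ i) := by
    intro i k hik
    refine sup_le (fun a ha => ?_) ?_
    · rw [mem_col]
      refine Ideal.mem_sup_left ?_
      rw [Ideal.map_pow] at ha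
      rw [← hik, add_comm i k, pow_add]
      exact Ideal.mul_mem_mul (Ideal.pow_right_mono hle k ha) (Ideal.pow_mem_pow hg i)
    · rw [Ideal.span_singleton_le_iff_mem, mem_col, ← pow_succ']
      exact Ideal.mem_sup_right (Ideal.mem_span_singleton_self _)
  have key : ∀ i, i ≤ j → ell (maximalIdeal S₁ ^ j ⊔ Ideal.span {g ^ i}) ≤
      ∑ t ∈ Finset.range i, ell (maximalIdeal S ^ (j - t)) := by
    intro i
    induction i with
    | zero =>
      intro _
      have : maximalIdeal S₁ ^ j ⊔ Ideal.span {g ^ 0} = ⊤ := by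
        rw [pow_zero, Ideal.span_singleton_one, sup_top_eq]
      rw [this, ell_top]
      exact zero_le
    | succ i ih =>
      intro hi
      rw [Finset.sum_range_succ, ell_eq_add (maximalIdeal S₁ ^ j ⊔ Ideal.span {g ^ (i + 1)}) (g ^ i),
        add_comm]
      refine add_le_add ((ell_mono ?_).trans (ih (by lia))) ?_
      · exact sup_le (le_sup_left.trans le_sup_left) le_sup_right
      · exact (ell_mono (hcol i (j - i) (by lia))).trans
          (ell_map_sup_le hmax (j - i) _ le_rfl)
  have h1 := key j le_rfl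
  have h2 : maximalIdeal S₁ ^ j ⊔ Ideal.span {g ^ j} = maximalIdeal S₁ ^ j := by
    refine sup_eq_left.mpr ?_
    rw [Ideal.span_singleton_le_iff_mem]
    exact Ideal.pow_mem_pow hg j
  rw [h2] at h1
  refine le_trans h1 (le_of_eq ?_)
  rw [sumf, ← Finset.sum_range_reflect]
  refine Finset.sum_congr rfl fun t ht => ?_
  rw [Finset.mem_range] at ht
  rw [show j - (j - 1 - t) = t + 1 by lia]

end Vale.Agent.P202
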