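import Vale.Agent.P202.LocDvr
import Vale.Agent.P202.LocSumUpper
import Mathlib.RingTheory.Localization.LocalizationLocalization
import Mathlib.RingTheory.Flat.Localization
import Mathlib.RingTheory.Polynomial.Basic
import Mathlib.RingTheory.DiscreteValuationRing.Basic
import Mathlib.RingTheory.Localization.AtPrime.Basic
import Mathlib.RingTheory.Localization.FractionRing

/-!
The localization inequality when the quotient has a birational finite extension which is a discrete
valuation ring.
-/

set_option linter.unusedSectionVars false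

namespace Vale.Agent.P202

open IsLocalRing Polynomial

section Step

variable {S V : Type*} [CommRing S] [IsLocalRing S] [IsNoetherianRing S]
    [CommRing V] [IsDomain V] [IsLocalRing V] [Algebra S V]

/-- The kernel of the residue map on polynomials is principal over the maximal ideal. -/
lemma exists_gen_over (N : Ideal S[X]) (hN : (maximalIdeal S).map (C : S →+* S[X]) ≤ N) :
    ∃ G : S[X], N = (maximalIdeal S).map (C : S →+* S[X]) ⊔ Ideal.span {G} := by
  let φ : S[X] →+* (ResidueField S)[X] := mapRingHom (residue S)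
  have hφ : Function.Surjective φ := map_surjective _ residue_surjective
  have hker : RingHom.ker φ = (maximalIdeal S).map (C : S →+* S[X]) := by
    rw [Polynomial.ker_mapRingHom, ker_residue]
  obtain ⟨g, hg⟩ : ∃ g, N.map φ = Ideal.span {g} :=
    (IsPrincipalIdealRing.principal (N.map φ)).principal
  obtain ⟨G, rfl⟩ := hφ g
  refine ⟨G, ?_⟩
  have h1 : N = (N.map φ).comap φ := by
    rw [Ideal.comap_map_of_surjective φ hφ]
    refine le_antisymm le_sup_left (sup_le le_rfl ?_)
    change RingHom.ker φ ≤ N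
    rw [hker]; exact hN
  rw [h1, hg, ← Set.image_singleton, ← Ideal.map_span, Ideal.comap_map_of_surjective φ hφ, sup_comm]
  congr 1

end Step

/-- flatness, maximal ideal and regularity for the one-element extension of the localization at
`Q`. -/
lemma lower_step {S V : Type*} [CommRing S] [IsLocalRing S] [IsNoetherianRing S]
    [CommRing V] [IsDomain V] [Algebra S V]
    (Q : Ideal S) [hQp : Q.IsPrime] (hQ : Q = RingHom.ker (algebraMap S V)) (v : V) (a b : S)
    (ha : a ∉ Q) (hab : algebraMap S V a * v = algebraMap S V b)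
    (A₁ : Type*) [CommRing A₁] [IsLocalRing A₁] [IsNoetherianRing A₁] [Algebra S[X] A₁]
    [Algebra S A₁] [IsScalarTower S S[X] A₁]
    (P : Ideal S[X]) [hP : P.IsPrime] (hPv : ∀ F : S[X], F ∈ P ↔ aeval v F = 0)
    [IsLocalization.AtPrime A₁ P] (j : ℕ) :
    sumf (fun i => ell (maximalIdeal (Localization.AtPrime Q) ^ i)) j ≤
      ell (maximalIdeal A₁ ^ j) := by
  have hmemQ : ∀ s : S, s ∈ Q ↔ algebraMap S V s = 0 := fun s => by
    rw [hQ, RingHom.mem_ker]
  have hCP : ∀ s : S, (C s : S[X]) ∈ P ↔ s ∈ Q := fun s => by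
    rw [hPv, hmemQ, aeval_C]
  have hunit : ∀ s : Q.primeCompl, IsUnit (algebraMap S A₁ s) := by
    intro s
    rw [IsScalarTower.algebraMap_apply S S[X] A₁]
    exact IsLocalization.map_units A₁ (⟨algebraMap S S[X] s, fun hs => s.2 ((hCP _).mp hs)⟩ :
      P.primeCompl)
  let algA : Algebra (Localization.AtPrime Q) A₁ :=
    (IsLocalization.lift (S := Localization.AtPrime Q) (M := Q.primeCompl) hunit).toAlgebra
  have tow : IsScalarTower S (Localization.AtPrime Q) A₁ :=
    IsScalarTower.of_algebraMap_eq fun x => (IsLocalization.lift_eq hunit x).symm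
  -- the extended ideal
  have hmapQ : (maximalIdeal (Localization.AtPrime Q)).map
      (algebraMap (Localization.AtPrime Q) A₁) =
      (Q.map (C : S →+* S[X])).map (algebraMap S[X] A₁) := by
    rw [← Localization.AtPrime.map_eq_maximalIdeal, Ideal.map_map, Ideal.map_map,
      ← IsScalarTower.algebraMap_eq S (Localization.AtPrime Q) A₁,
      IsScalarTower.algebraMap_eq S S[X] A₁]
    rfl
  have hPX : (Q.map (C : S →+* S[X])).IsPrime := Ideal.isPrime_map_C_of_isPrime
  have hPXP : Q.map (C : S →+* S[X]) ≤ P := by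
    rw [Ideal.map_le_iff_le_comap]
    intro s hs
    exact (hCP s).mpr hs
  have hdisj : Disjoint (P.primeCompl : Set S[X]) (Q.map (C : S →+* S[X]) : Ideal S[X]) := by
    rw [Set.disjoint_left]
    intro F hF hF'
    exact hF (hPXP hF')
  have hJp : ((Q.map (C : S →+* S[X])).map (algebraMap S[X] A₁)).IsPrime :=
    IsLocalization.isPrime_of_isPrime_disjoint P.primeCompl A₁ _ hPX hdisj
  have hJc : ((Q.map (C : S →+* S[X])).map (algebraMap S[X] A₁)).comap (algebraMap S[X] A₁) =
      Q.map (C : S →+* S[X]) :=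
    IsLocalization.under_map_of_isPrime_disjoint P.primeCompl A₁ hPX hdisj
  have hmaxP : P.map (algebraMap S[X] A₁) = maximalIdeal A₁ :=
    IsLocalization.AtPrime.map_eq_maximalIdeal P A₁
  have hJle : (maximalIdeal (Localization.AtPrime Q)).map
      (algebraMap (Localization.AtPrime Q) A₁) ≤ maximalIdeal A₁ := by
    rw [hmapQ, ← hmaxP]
    exact Ideal.map_mono hPXP
  have hloc : IsLocalHom (algebraMap (Localization.AtPrime Q) A₁) :=
    ((local_hom_TFAE (algebraMap (Localization.AtPrime Q) A₁)).out 0 2).mpr hJle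
  have hflat : Module.Flat (Localization.AtPrime Q) A₁ := by
    rw [Module.flat_iff_of_isLocalization (Localization.AtPrime Q) Q.primeCompl]
    have h1 : Module.Flat S[X] A₁ := IsLocalization.flat A₁ P.primeCompl
    exact Module.Flat.trans S S[X] A₁
  -- the element
  set β : Localization.AtPrime Q := IsLocalization.mk' _ b (⟨a, ha⟩ : Q.primeCompl) with hβ
  set h : A₁ := algebraMap S[X] A₁ X - algebraMap (Localization.AtPrime Q) A₁ β with hh
  have haβ : algebraMap S (Localization.AtPrime Q) a * β =
      algebraMap S (Localization.AtPrime Q) b := by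
    rw [hβ, mul_comm]
    exact IsLocalization.mk'_spec (Localization.AtPrime Q) b (⟨a, ha⟩ : Q.primeCompl)
  have hah : algebraMap S A₁ a * h = algebraMap S[X] A₁ (C a * X - C b) := by
    have h1 : algebraMap S A₁ a * algebraMap (Localization.AtPrime Q) A₁ β =
        algebraMap S A₁ b := by
      rw [IsScalarTower.algebraMap_apply S (Localization.AtPrime Q) A₁, ← map_mul, haβ,
        ← IsScalarTower.algebraMap_apply]
    have hC : ∀ s : S, algebraMap S[X] A₁ (C s) = algebraMap S A₁ s := fun s =>
      (IsScalarTower.algebraMap_apply S S[X] A₁ s).symm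
    rw [hh, mul_sub, h1, map_sub, map_mul, hC, hC]
  have hXP : C a * X - C b ∈ P := by
    rw [hPv, map_sub, map_mul, aeval_C, aeval_X, aeval_C, hab, sub_self]
  have hau : IsUnit (algebraMap S A₁ a) := hunit ⟨a, ha⟩
  have hhmem : h ∈ maximalIdeal A₁ := by
    have h1 : algebraMap S A₁ a * h ∈ maximalIdeal A₁ := by
      rw [hah, ← hmaxP]
      exact Ideal.mem_map_of_mem _ hXP
    exact (Ideal.unit_mul_mem_iff_mem _ hau).mp h1
  refine sum_lower h (le_antisymm ?_ (sup_le hJle ?_)) ?_ j
  · -- the maximal ideal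
    rw [← hmaxP, Ideal.map_le_iff_le_comap]
    intro F hF
    rw [Ideal.mem_comap]
    have h1 : algebraMap S[X] A₁ F = aeval (algebraMap S[X] A₁ X) F := by
      have : IsScalarTower.toAlgHom S S[X] A₁ = aeval (algebraMap S[X] A₁ X) := by
        apply Polynomial.algHom_ext
        rw [aeval_X]; rfl
      exact congrArg (fun f : S[X] →ₐ[S] A₁ => f F) this
    have h2 : h ∣ algebraMap S[X] A₁ F -
        algebraMap (Localization.AtPrime Q) A₁ (aeval β F) := by
      rw [h1, ← aeval_algebraMap_apply, aeval_def, aeval_def, ← eval_map, ← eval_map]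
      exact sub_dvd_eval_sub _ _ _
    have h3 : aeval β F ∈ maximalIdeal (Localization.AtPrime Q) := by
      have hg : ∀ s : Q.primeCompl,
          IsUnit (((algebraMap V (FractionRing V)).comp (algebraMap S V)) s) := by
        intro s
        refine IsUnit.mk0 _ fun h0 => s.2 ((hmemQ _).mpr ?_)
        exact (IsFractionRing.to_map_eq_zero_iff (K := FractionRing V)).mp h0
      let φ : Localization.AtPrime Q →+* FractionRing V :=
        IsLocalization.lift (S := Localization.AtPrime Q) (M := Q.primeCompl) hg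
      have hφ : ∀ s : S, φ (algebraMap S (Localization.AtPrime Q) s) =
          algebraMap V (FractionRing V) (algebraMap S V s) := fun s =>
        IsLocalization.lift_eq hg s
      have hφβ : φ β = algebraMap V (FractionRing V) v := by
        have h4 : algebraMap V (FractionRing V) (algebraMap S V a) * φ β =
            algebraMap V (FractionRing V) (algebraMap S V a) *
              algebraMap V (FractionRing V) v := by
          rw [← map_mul (algebraMap V (FractionRing V)), hab, ← hφ, ← hφ, ← map_mul, haβ]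
        have h5 : algebraMap V (FractionRing V) (algebraMap S V a) ≠ 0 := fun h0 =>
          ha ((hmemQ _).mpr ((IsFractionRing.to_map_eq_zero_iff (K := FractionRing V)).mp h0))
        exact mul_left_cancel₀ h5 h4
      have h6 : φ (aeval β F) = 0 := by
        rw [aeval_def, hom_eval₂, hφβ,
          show φ.comp (algebraMap S (Localization.AtPrime Q)) =
            (algebraMap V (FractionRing V)).comp (algebraMap S V) from RingHom.ext hφ,
          ← hom_eval₂, ← aeval_def, (hPv F).mp hF, map_zero]
      rw [mem_maximalIdeal, mem_nonunits_iff]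
      intro hu
      have := hu.map φ
      rw [h6] at this
      exact not_isUnit_zero this
    have h4 : algebraMap S[X] A₁ F = algebraMap (Localization.AtPrime Q) A₁ (aeval β F) +
        (algebraMap S[X] A₁ F - algebraMap (Localization.AtPrime Q) A₁ (aeval β F)) := by ring
    rw [h4]
    exact Submodule.add_mem_sup (Ideal.mem_map_of_mem _ h3) (Ideal.mem_span_singleton.mpr h2)
  · rw [Ideal.span_singleton_le_iff_mem]; exact hhmem
  · intro x hx
    rw [hmapQ] at hx ⊢
    refine (hJp.mem_or_mem hx).resolve_left fun hcon => ?_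
    have h1 : algebraMap S A₁ a * h ∈ (Q.map (C : S →+* S[X])).map (algebraMap S[X] A₁) :=
      Ideal.mul_mem_left _ _ hcon
    rw [hah, ← Ideal.mem_comap, hJc, Ideal.mem_map_C_iff] at h1
    have h2 := h1 1
    simp only [coeff_sub, coeff_C_mul, coeff_X_one, mul_one, coeff_C_succ, sub_zero] at h2
    exact ha h2

universe u w

lemma comap_maximalIdeal_of_finite {S V : Type*} [CommRing S] [IsLocalRing S] [CommRing V]
    [IsLocalRing V] [Algebra S V] [Module.Finite S V] :
    (maximalIdeal V).comap (algebraMap S V) = maximalIdeal S := by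
  have h1 : ((maximalIdeal V).comap (algebraMap S V)).IsMaximal :=
    Ideal.isMaximal_comap_of_isIntegral_of_isMaximal (maximalIdeal V)
  exact IsLocalRing.eq_maximalIdeal h1

lemma loc_base {S V : Type*} [CommRing S] [IsLocalRing S] [IsNoetherianRing S]
    [CommRing V] [IsDomain V] [IsDiscreteValuationRing V] [Algebra S V] [Module.Finite S V]
    (Q : Ideal S) [Q.IsPrime] (hQ : Q = RingHom.ker (algebraMap S V))
    (hsurj : Function.Surjective (algebraMap S V)) (j : ℕ) :
    sumf (fun i => ell (maximalIdeal (Localization.AtPrime Q) ^ i)) j ≤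
      ell (maximalIdeal S ^ j) := by
  obtain ⟨ϖ, hϖ⟩ := IsDiscreteValuationRing.exists_irreducible V
  have hm : maximalIdeal V = Ideal.span {ϖ} := hϖ.maximalIdeal_eq
  obtain ⟨t, rfl⟩ := hsurj ϖ
  refine loc_dvr Q t ?_ ?_ ?_ j
  · intro ht
    rw [hQ, RingHom.mem_ker] at ht
    exact hϖ.ne_zero ht
  · rw [← comap_maximalIdeal_of_finite (S := S) (V := V), Ideal.mem_comap, hm]
    exact Ideal.mem_span_singleton_self _
  · intro m hmm
    rw [← comap_maximalIdeal_of_finite (S := S) (V := V), Ideal.mem_comap, hm,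
      Ideal.mem_span_singleton'] at hmm
    obtain ⟨c, hc⟩ := hmm
    obtain ⟨s, rfl⟩ := hsurj c
    have h1 : m - s * t ∈ Q := by
      rw [hQ, RingHom.mem_ker, map_sub, map_mul, hc, sub_self]
    have h2 : m = (m - s * t) + s * t := by ring
    rw [h2]
    exact Submodule.add_mem_sup h1 (Ideal.mul_mem_left _ _ (Ideal.mem_span_singleton_self _))

/-- the lower bound, for the localization of a localization of `S[X]`. -/
lemma lower_step' {S V : Type*} [CommRing S] [IsLocalRing S] [IsNoetherianRing S]
    [CommRing V] [IsDomain V] [Algebra S V]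
    (Q : Ideal S) [hQp : Q.IsPrime] (hQ : Q = RingHom.ker (algebraMap S V)) (v : V) (a b : S)
    (ha : a ∉ Q) (hab : algebraMap S V a * v = algebraMap S V b)
    (NN : Ideal S[X]) [NN.IsPrime]
    (S₁ : Type*) [CommRing S₁] [IsNoetherianRing S₁] [Algebra S[X] S₁]
    [Algebra S S₁] [IsScalarTower S S[X] S₁] [IsLocalization.AtPrime S₁ NN] (f : S₁ →+* V)
    (hf : ∀ F : S[X], f (algebraMap S[X] S₁ F) = aeval v F) (Q₁ : Ideal S₁) [Q₁.IsPrime]
    (hQ₁ : Q₁ = RingHom.ker f) (j : ℕ) :
    sumf (fun i => ell (maximalIdeal (Localization.AtPrime Q) ^ i)) j ≤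
      ell (maximalIdeal (Localization.AtPrime Q₁) ^ j) := by
  have h1 : IsLocalization.AtPrime (Localization.AtPrime Q₁) (Q₁.comap (algebraMap S[X] S₁)) :=
    IsLocalization.isLocalization_isLocalization_atPrime_isLocalization NN.primeCompl
      (Localization.AtPrime Q₁) Q₁
  have h2 : IsScalarTower S S[X] (Localization.AtPrime Q₁) :=
    IsScalarTower.of_algebraMap_eq fun x => by
      rw [IsScalarTower.algebraMap_apply S[X] S₁ (Localization.AtPrime Q₁),
        IsScalarTower.algebraMap_apply S S₁ (Localization.AtPrime Q₁),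
        IsScalarTower.algebraMap_apply S S[X] S₁]
  exact lower_step Q hQ v a b ha hab (Localization.AtPrime Q₁)
    (Q₁.comap (algebraMap S[X] S₁)) (fun F => by
      rw [Ideal.mem_comap, hQ₁, RingHom.mem_ker, hf]) j

/-- the two bounds, for an abstract localization of `S[X]`. -/
lemma loc_step {S V : Type*} [CommRing S] [IsLocalRing S] [IsNoetherianRing S]
    [CommRing V] [IsDomain V] [IsLocalRing V] [Algebra S V] [Module.Finite S V]
    (Q : Ideal S) [hQp : Q.IsPrime] (hQ : Q = RingHom.ker (algebraMap S V)) (v : V) (a b : S)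
    (ha : a ∉ Q) (hab : algebraMap S V a * v = algebraMap S V b)
    (NN : Ideal S[X]) [NN.IsPrime] (hNN : ∀ F : S[X], F ∈ NN ↔ aeval v F ∈ maximalIdeal V)
    (S₁ : Type*) [CommRing S₁] [IsLocalRing S₁] [IsNoetherianRing S₁] [Algebra S[X] S₁]
    [Algebra S S₁] [IsScalarTower S S[X] S₁] [IsLocalization.AtPrime S₁ NN] (f : S₁ →+* V)
    (hf : ∀ F : S[X], f (algebraMap S[X] S₁ F) = aeval v F) (Q₁ : Ideal S₁) [Q₁.IsPrime]
    (hQ₁ : Q₁ = RingHom.ker f) :
    (∀ j, ell (maximalIdeal S₁ ^ j) ≤ sumf (fun i => ell (maximalIdeal S ^ i)) j) ∧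
    ∀ j, sumf (fun i => ell (maximalIdeal (Localization.AtPrime Q) ^ i)) j ≤
      ell (maximalIdeal (Localization.AtPrime Q₁) ^ j) := by
  refine ⟨?_, fun j => lower_step' Q hQ v a b ha hab NN S₁ f hf Q₁ hQ₁ j⟩
  have hcm := comap_maximalIdeal_of_finite (S := S) (V := V)
  have hle : (maximalIdeal S).map (C : S →+* S[X]) ≤ NN := by
    rw [Ideal.map_le_iff_le_comap]
    intro s hs
    rw [Ideal.mem_comap, hNN, aeval_C, ← Ideal.mem_comap, hcm]
    exact hs
  obtain ⟨G, hG⟩ := exists_gen_over NN hle
  have hmax1 : maximalIdeal S₁ =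
      (maximalIdeal S).map (algebraMap S S₁) ⊔ Ideal.span {algebraMap S[X] S₁ G} := by
    have h1 := congrArg (Ideal.map (algebraMap S[X] S₁)) hG
    rw [Ideal.map_sup, Ideal.map_map, Ideal.map_span, Set.image_singleton,
      IsLocalization.AtPrime.map_eq_maximalIdeal NN S₁] at h1
    rw [h1, IsScalarTower.algebraMap_eq S S[X] S₁]
    rfl
  have hloc1 : IsLocalHom (algebraMap S S₁) :=
    ((local_hom_TFAE (algebraMap S S₁)).out 0 2).mpr (by rw [hmax1]; exact le_sup_left)
  exact fun j => sum_upper (algebraMap S[X] S₁ G) hmax1 j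

/-- existence of the one-element extension. -/
lemma exists_step {S : Type u} {V : Type w} [CommRing S] [IsLocalRing S] [IsNoetherianRing S]
    [CommRing V] [IsDomain V] [IsLocalRing V] [Algebra S V] [Module.Finite S V]
    (Q : Ideal S) [hQp : Q.IsPrime] (hQ : Q = RingHom.ker (algebraMap S V))
    (hbir : ∀ v : V, ∃ a b : S, a ∉ Q ∧ algebraMap S V a * v = algebraMap S V b) (v : V) :
    ∃ (S₁ : Type u) (_ : CommRing S₁) (_ : IsLocalRing S₁) (_ : IsNoetherianRing S₁)
      (_ : Algebra S₁ V) (_ : Module.Finite S₁ V) (Q₁ : Ideal S₁) (_ : Q₁.IsPrime),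
      Q₁ = RingHom.ker (algebraMap S₁ V) ∧
      (∀ v : V, ∃ a b : S₁, a ∉ Q₁ ∧ algebraMap S₁ V a * v = algebraMap S₁ V b) ∧
      Set.range (algebraMap S V) ⊆ Set.range (algebraMap S₁ V) ∧
      v ∈ Set.range (algebraMap S₁ V) ∧
      (∀ j, ell (maximalIdeal S₁ ^ j) ≤ sumf (fun i => ell (maximalIdeal S ^ i)) j) ∧
      ∀ j, sumf (fun i => ell (maximalIdeal (Localization.AtPrime Q) ^ i)) j ≤
        ell (maximalIdeal (Localization.AtPrime Q₁) ^ j) := by
  obtain ⟨a, b, ha, hab⟩ := hbir v
  let NN : Ideal S[X] := (maximalIdeal V).comap (aeval v : S[X] →ₐ[S] V)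
  have hNN : NN.IsPrime := inferInstance
  have hNNu : ∀ F : NN.primeCompl, IsUnit ((aeval v : S[X] →ₐ[S] V).toRingHom F) := by
    intro F
    by_contra hcon
    exact F.2 ((mem_maximalIdeal _).mpr hcon)
  let alg1 : Algebra (Localization.AtPrime NN) V :=
    (IsLocalization.lift (S := Localization.AtPrime NN) (M := NN.primeCompl) hNNu).toAlgebra
  have halg1 : ∀ F : S[X], algebraMap (Localization.AtPrime NN) V
      (algebraMap S[X] (Localization.AtPrime NN) F) = aeval v F := fun F =>
    IsLocalization.lift_eq hNNu F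
  have tow1 : IsScalarTower S (Localization.AtPrime NN) V :=
    IsScalarTower.of_algebraMap_eq fun x => by
      rw [IsScalarTower.algebraMap_apply S S[X] (Localization.AtPrime NN), halg1, algebraMap_eq,
        aeval_C]
  have hfin1 : Module.Finite (Localization.AtPrime NN) V :=
    Module.Finite.of_restrictScalars_finite S (Localization.AtPrime NN) V
  have hQ₁ : (RingHom.ker (algebraMap (Localization.AtPrime NN) V)).IsPrime :=
    RingHom.ker_isPrime _
  have hst := loc_step Q hQ v a b ha hab NN (fun F => Iff.rfl) (Localization.AtPrime NN)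
    (algebraMap (Localization.AtPrime NN) V) halg1
    (RingHom.ker (algebraMap (Localization.AtPrime NN) V)) rfl
  refine ⟨Localization.AtPrime NN, inferInstance, inferInstance, inferInstance, alg1, hfin1,
    RingHom.ker (algebraMap (Localization.AtPrime NN) V), hQ₁, rfl, ?_, ?_, ?_, hst.1, hst.2⟩
  · intro z
    obtain ⟨c, d, hc, hcd⟩ := hbir z
    refine ⟨algebraMap S _ c, algebraMap S _ d, ?_, ?_⟩
    · rw [RingHom.mem_ker, ← IsScalarTower.algebraMap_apply]
      rw [hQ, RingHom.mem_ker] at hc
      exact hc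
    · rw [← IsScalarTower.algebraMap_apply, ← IsScalarTower.algebraMap_apply, hcd]
  · rintro _ ⟨s, rfl⟩
    exact ⟨algebraMap S _ s, (IsScalarTower.algebraMap_apply S _ V s).symm⟩
  · exact ⟨algebraMap S[X] _ X, by rw [halg1, aeval_X]⟩

theorem loc_aux {S₀ : Type u} {V : Type w} [CommRing S₀] [IsNoetherianRing S₀]
    [CommRing V] [IsDomain V] [IsDiscreteValuationRing V] [Algebra S₀ V] [Module.Finite S₀ V]
    (W : Submodule S₀ V) :
    ∀ (S : Type u) [CommRing S] [IsLocalRing S] [IsNoetherianRing S] [Algebra S V]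
      [Module.Finite S V] (Q : Ideal S) [Q.IsPrime], Q = RingHom.ker (algebraMap S V) →
      (∀ v : V, ∃ a b : S, a ∉ Q ∧ algebraMap S V a * v = algebraMap S V b) →
      (W : Set V) = Set.range (algebraMap S V) →
    ∃ p : ℕ, ∀ j : ℕ,
      (sumf^[p + 1] (fun i => ell (maximalIdeal (Localization.AtPrime Q) ^ i))) j ≤
        (sumf^[p] (fun i => ell (maximalIdeal S ^ i))) j := by
  have hno : IsNoetherian S₀ V := isNoetherian_of_isNoetherianRing_of_finite S₀ V
  induction W using IsNoetherian.induction with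
  | hgt W ih =>
  intro S _ _ _ _ _ Q _ hQ hbir hW
  by_cases hsurj : Function.Surjective (algebraMap S V)
  · exact ⟨0, fun j => loc_base Q hQ hsurj j⟩
  · obtain ⟨v, hv⟩ : ∃ v : V, v ∉ Set.range (algebraMap S V) := by
      by_contra hcon
      push Not at hcon
      exact hsurj hcon
    obtain ⟨S₁, _, _, _, _, _, Q₁, _, hQ₁, hbir₁, hsub, hv₁, hup, hlow⟩ :=
      exists_step Q hQ hbir v
    have hS₀ : ∀ s : S₀, algebraMap S₀ V s ∈ Set.range (algebraMap S V) := by
      intro s
      rw [← hW, Algebra.algebraMap_eq_smul_one]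
      refine W.smul_mem _ ?_
      rw [← SetLike.mem_coe, hW]
      exact ⟨1, map_one _⟩
    let W₁ : Submodule S₀ V :=
      { carrier := Set.range (algebraMap S₁ V)
        add_mem' := by
          rintro _ _ ⟨x, rfl⟩ ⟨y, rfl⟩
          exact ⟨x + y, map_add _ _ _⟩
        zero_mem' := ⟨0, map_zero _⟩
        smul_mem' := by
          rintro s _ ⟨x, rfl⟩
          obtain ⟨y, hy⟩ := hsub (hS₀ s)
          exact ⟨y * x, by rw [map_mul, hy, Algebra.smul_def]⟩ }
    have hW₁ : (W₁ : Set V) = Set.range (algebraMap S₁ V) := rfl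
    have hlt : W < W₁ := by
      refine lt_of_le_of_ne (fun x hx => ?_) fun h => hv ?_
      · rw [← SetLike.mem_coe, hW] at hx
        exact hsub hx
      · rw [← hW, h, hW₁]
        exact hv₁
    obtain ⟨p, hp⟩ := ih W₁ hlt S₁ Q₁ hQ₁ hbir₁ hW₁
    refine ⟨p + 1, fun j => ?_⟩
    rw [Function.iterate_succ_apply, Function.iterate_succ_apply (n := p)]
    exact ((sumf_iterate_mono hlow (p + 1) j).trans (hp j)).trans (sumf_iterate_mono hup p j)

/-- the localization inequality when the quotient has a finite extension `V` inside its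
fraction field which is a discrete valuation ring. -/
theorem loc_of_dvr_extension {S V : Type*} [CommRing S] [IsLocalRing S] [IsNoetherianRing S]
    [CommRing V] [IsDomain V] [IsDiscreteValuationRing V] [Algebra S V] [Module.Finite S V]
    (Q : Ideal S) [Q.IsPrime] (hQ : Q = RingHom.ker (algebraMap S V))
    (hbir : ∀ v : V, ∃ a b : S, a ∉ Q ∧ algebraMap S V a * v = algebraMap S V b) :
    ∃ p : ℕ, ∀ j : ℕ,
      (sumf^[p + 1] (fun i => ell (maximalIdeal (Localization.AtPrime Q) ^ i))) j ≤
        (sumf^[p] (fun i => ell (maximalIdeal S ^ i))) j := by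
  refine loc_aux (S₀ := S) (V := V)
    (LinearMap.range (Algebra.linearMap S V)) S Q hQ hbir ?_
  rw [LinearMap.coe_range]
  rfl

end Vale.Agent.P202
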