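import Mathlib

namespace Vale.Agent.P202.X178

open Module

section general

variable {D N M : Type*} [CommRing D] [AddCommGroup N] [Module D N] [AddCommGroup M] [Module D M]

theorem mapQ_injective_of {p : Submodule D N} {q : Submodule D M} (f : N →ₗ[D] M)
    (h : p ≤ q.comap f) (h' : q.comap f ≤ p) : Function.Injective (p.mapQ q f h) := by
  rw [← LinearMap.ker_eq_bot, Submodule.ker_mapQ, eq_bot_iff, Submodule.map_le_iff_le_comap]
  intro x hx
  have hx' : x ∈ p := h' hx
  simpa using hx'

theorem exact_mapQ_factor {p : Submodule D N} {q q' : Submodule D M} (f : N →ₗ[D] M)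
    (h : p ≤ q.comap f) (hqq : q ≤ q') (hrange : q' = LinearMap.range f ⊔ q) :
    Function.Exact (p.mapQ q f h) (Submodule.factor hqq) := by
  intro y
  obtain ⟨y, rfl⟩ := q.mkQ_surjective y
  constructor
  · intro hy
    have h1 : y ∈ q' := by
      have : q'.mkQ y = 0 := hy
      simpa using this
    rw [hrange] at h1
    obtain ⟨_, ⟨x, rfl⟩, z, hz, hxz⟩ := Submodule.mem_sup.mp h1
    refine ⟨p.mkQ x, ?_⟩
    change q.mkQ (f x) = q.mkQ y
    rw [← hxz, map_add]
    have : q.mkQ z = 0 := by simpa using hz
    rw [this, add_zero]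
  · rintro ⟨x, hx⟩
    obtain ⟨x, rfl⟩ := p.mkQ_surjective x
    have h1 : q.mkQ (f x) = q.mkQ y := hx
    rw [← h1]
    change q'.mkQ (f x) = 0
    have : f x ∈ q' := by rw [hrange]; exact Submodule.mem_sup_left ⟨x, rfl⟩
    simpa using this

/-- Invariance of the length of `N / a N` under passage to a submodule of finite colength. -/
theorem length_quotient_smul_eq (a : D) (hinj : ∀ x : N, a • x = 0 → x = 0)
    (N' : Submodule D N) (hfin : Module.length D (N ⧸ N') ≠ ⊤) :
    Module.length D (N ⧸ LinearMap.range (LinearMap.lsmul D N a)) =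
      Module.length D (N' ⧸ LinearMap.range (LinearMap.lsmul D N' a)) := by
  let f : N →ₗ[D] N := LinearMap.lsmul D N a
  let f' : N' →ₗ[D] N' := LinearMap.lsmul D N' a
  let R : Submodule D N := N'.map f
  have hRN' : R ≤ N' := by
    rintro _ ⟨x, hx, rfl⟩
    exact N'.smul_mem a hx
  -- first sequence
  have h1 : Module.length D (N ⧸ R) =
      Module.length D (N' ⧸ LinearMap.range f') + Module.length D (N ⧸ N') := by
    have hle : LinearMap.range f' ≤ R.comap N'.subtype := by
      rintro _ ⟨x, rfl⟩
      exact ⟨x, x.2, rfl⟩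
    refine Module.length_eq_add_of_exact ((LinearMap.range f').mapQ R N'.subtype hle)
      (Submodule.factor hRN') (mapQ_injective_of _ _ ?_) (Submodule.factor_surjective hRN')
      (exact_mapQ_factor _ _ hRN' ?_)
    · rintro x ⟨y, hy, hyx⟩
      exact ⟨⟨y, hy⟩, Subtype.ext hyx⟩
    · rw [Submodule.range_subtype]
      exact (sup_eq_left.mpr hRN').symm
  -- second sequence
  have hRf : R ≤ LinearMap.range f := by
    rintro _ ⟨x, _, rfl⟩
    exact ⟨x, rfl⟩
  have h2 : Module.length D (N ⧸ R) =
      Module.length D (N ⧸ N') + Module.length D (N ⧸ LinearMap.range f) := by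
    have hle : N' ≤ R.comap f := fun x hx => ⟨x, hx, rfl⟩
    refine Module.length_eq_add_of_exact (N'.mapQ R f hle)
      (Submodule.factor hRf) (mapQ_injective_of _ _ ?_) (Submodule.factor_surjective hRf)
      (exact_mapQ_factor _ _ hRf ?_)
    · rintro x ⟨y, hy, hyx⟩
      have h3 : a • (y - x) = 0 := by
        rw [smul_sub, sub_eq_zero]; exact hyx
      have h4 := hinj _ h3
      rw [sub_eq_zero] at h4
      exact h4 ▸ hy
    · exact (sup_eq_left.mpr hRf).symm
  rw [h1, add_comm (Module.length D (N ⧸ N'))] at h2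
  exact (ENat.add_left_injective_of_ne_top hfin h2).symm

/-- A module all of whose finitely generated submodules have bounded length is finite. -/
theorem finite_of_bounded_length (L : ℕ)
    (h : ∀ P : Submodule D N, P.FG → Module.length D P ≤ L) : Module.Finite D N := by
  by_contra hnf
  have hnfg : ¬ (⊤ : Submodule D N).FG := fun hfg => hnf ⟨hfg⟩
  have key : ∀ n : ℕ, ∃ P : Submodule D N, P.FG ∧ (n : ℕ∞) ≤ Module.length D P := by
    intro n
    induction n with
    | zero => exact ⟨⊥, Submodule.fg_bot, by simp⟩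
    | succ n ih =>
      obtain ⟨P, hP, hn⟩ := ih
      have hne : P ≠ ⊤ := fun heq => hnfg (heq ▸ hP)
      obtain ⟨x, -, hx⟩ := SetLike.exists_of_lt (lt_top_iff_ne_top.mpr hne)
      let P' : Submodule D N := P ⊔ Submodule.span D {x}
      have hP' : P'.FG := hP.sup (Submodule.fg_span_singleton x)
      refine ⟨P', hP', ?_⟩
      have hlt : P < P' := by
        refine lt_of_le_of_ne le_sup_left fun heq => hx ?_
        rw [heq]
        exact Submodule.mem_sup_right (Submodule.mem_span_singleton_self x)
      rw [Module.length_submodule] at hn ⊢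
      have h3 : Order.height P < ⊤ := by
        have := h P hP
        rw [Module.length_submodule] at this
        exact lt_of_le_of_lt this (ENat.natCast_lt_top L)
      have h4 := Order.height_strictMono hlt h3
      push_cast
      exact Order.add_one_le_of_lt (lt_of_le_of_lt hn h4)
  obtain ⟨P, hP, hn⟩ := key (L + 1)
  have h5 := hn.trans (h P hP)
  have h6 : L + 1 ≤ L := by exact_mod_cast h5
  omega

end general

section domain

variable {D : Type*} [CommRing D] [IsDomain D] [IsNoetherianRing D] [Ring.KrullDimLE 1 D]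
  {K : Type*} [Field K] [Algebra D K] [IsFractionRing D K]

theorem length_quotient_ideal_ne_top (I : Ideal D) (hI : I ≠ ⊥) :
    Module.length D (D ⧸ I) ≠ ⊤ := by
  obtain ⟨x, hxI, hx⟩ := Submodule.exists_mem_ne_zero_of_ne_bot hI
  have h1 : Module.length D (D ⧸ Ideal.span {x}) ≠ ⊤ := by
    rw [Module.length_ne_top_iff]
    exact isFiniteLength_quotient_span_singleton D (mem_nonZeroDivisors_of_ne_zero hx)
  have hle : Ideal.span {x} ≤ I := by
    rw [Ideal.span_le, Set.singleton_subset_iff]; exact hxI
  have h2 : Module.length D (D ⧸ I) ≤ Module.length D (D ⧸ Ideal.span {x}) :=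
    Module.length_le_of_surjective (Submodule.factor hle) (Submodule.factor_surjective hle)
  exact ne_top_of_le_ne_top h1 h2

theorem length_quotient_smul_ideal (a : D) (ha : a ≠ 0) (I : Ideal D) (hI : I ≠ ⊥) :
    Module.length D (I ⧸ LinearMap.range (LinearMap.lsmul D I a)) =
      Module.length D (D ⧸ Ideal.span {a}) := by
  have h := length_quotient_smul_eq (N := D) a
    (fun x hx => (mul_eq_zero.mp hx).resolve_left ha) I (length_quotient_ideal_ne_top I hI)
  rw [← h]
  have h2 : LinearMap.range (LinearMap.lsmul D D a) = Ideal.span {a} := by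
    ext x
    rw [Ideal.mem_span_singleton']
    constructor
    · rintro ⟨y, hy⟩
      exact ⟨y, by rw [← hy]; exact mul_comm _ _⟩
    · rintro ⟨y, hy⟩
      exact ⟨y, by rw [← hy]; exact mul_comm _ _⟩
  rw [h2]

/-- Key bound of the Krull-Akizuki theorem for finitely generated submodules. -/
theorem length_quotient_smul_le (a : D) (ha : a ≠ 0) (M : Submodule D K) (hM : M.FG) :
    Module.length D (M ⧸ LinearMap.range (LinearMap.lsmul D M a)) ≤
      Module.length D (D ⧸ Ideal.span {a}) := by
  rcases eq_or_ne M ⊥ with rfl | hM0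
  · rw [Module.length_eq_zero]
    exact bot_le
  -- clear denominators
  obtain ⟨b, hb, hbM⟩ : ∃ b : D, b ≠ 0 ∧ ∀ x ∈ M, ∃ y : D, algebraMap D K y = b • x := by
    obtain ⟨b, hb, hbM⟩ := FractionalIdeal.isFractional_of_fg (S := nonZeroDivisors D) hM
    exact ⟨b, nonZeroDivisors.ne_zero hb, fun x hx => hbM x hx⟩
  let I : Ideal D := (M.map (LinearMap.lsmul D K b)).comap (Algebra.linearMap D K)
  have hbK : algebraMap D K b ≠ 0 := by
    rw [Ne, FaithfulSMul.algebraMap_eq_zero_iff]; exact hb
  have hinj : Function.Injective (algebraMap D K) := IsFractionRing.injective D K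
  choose y hy using fun x : M => hbM x x.2
  have hyI : ∀ x, y x ∈ I := fun x => ⟨x, x.2, (hy x).symm⟩
  let e : M →ₗ[D] I :=
    { toFun := fun x => ⟨y x, hyI x⟩
      map_add' := by
        intro x x'
        apply Subtype.ext
        apply hinj
        change algebraMap D K (y (x + x')) = algebraMap D K (y x + y x')
        rw [map_add, hy, hy, hy, Submodule.coe_add, smul_add]
      map_smul' := by
        intro r x
        apply Subtype.ext
        apply hinj
        change algebraMap D K (y (r • x)) = algebraMap D K (r * y x)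
        rw [map_mul, hy, hy, Submodule.coe_smul, smul_comm, Algebra.smul_def r] }
  have heinj : Function.Injective e := by
    intro x x' h
    have h1 : y x = y x' := congrArg Subtype.val h
    have h2 : b • (x : K) = b • (x' : K) := by rw [← hy, ← hy, h1]
    rw [Algebra.smul_def, Algebra.smul_def] at h2
    exact Subtype.ext (mul_left_cancel₀ hbK h2)
  have hesurj : Function.Surjective e := by
    rintro ⟨z, ⟨x, hx, hxz⟩⟩
    refine ⟨⟨x, hx⟩, Subtype.ext (hinj ?_)⟩
    change algebraMap D K (y ⟨x, hx⟩) = algebraMap D K z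
    rw [hy]
    exact hxz
  let E : M ≃ₗ[D] I := LinearEquiv.ofBijective e ⟨heinj, hesurj⟩
  have hI : I ≠ ⊥ := by
    intro h
    obtain ⟨x, hx, hx0⟩ := Submodule.exists_mem_ne_zero_of_ne_bot hM0
    have h1 : e ⟨x, hx⟩ = e 0 := by
      apply Subtype.ext
      have h2 : ((e ⟨x, hx⟩ : I) : D) ∈ (⊥ : Ideal D) := h ▸ (e ⟨x, hx⟩).2
      rw [map_zero, (Submodule.mem_bot D).mp h2]
      rfl
    have h2 := heinj h1
    exact hx0 (congrArg Subtype.val h2)
  rw [← length_quotient_smul_ideal a ha I hI]
  apply le_of_eq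
  have hmap : (LinearMap.range (LinearMap.lsmul D M a)).map (E : M →ₗ[D] I) =
      LinearMap.range (LinearMap.lsmul D I a) := by
    ext z
    constructor
    · rintro ⟨_, ⟨x, rfl⟩, rfl⟩
      exact ⟨E x, by
        change a • E x = E (a • x)
        rw [map_smul]⟩
    · rintro ⟨z', rfl⟩
      obtain ⟨x, rfl⟩ := E.surjective z'
      exact ⟨a • x, ⟨x, rfl⟩, by
        change E (a • x) = a • E x
        rw [map_smul]⟩
  exact (Submodule.Quotient.equiv _ _ E hmap).length_eq

/-- For any submodule `W` of `K`, the module `W / a W` is finitely generated. -/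
theorem finite_quotient_smul (a : D) (ha : a ≠ 0) (W : Submodule D K) :
    Module.Finite D (W ⧸ LinearMap.range (LinearMap.lsmul D W a)) := by
  obtain ⟨L, hL⟩ := ENat.ne_top_iff_exists.mp
    (length_quotient_ideal_ne_top (Ideal.span {a}) (by simpa using ha))
  apply finite_of_bounded_length L
  intro P hP
  -- lift generators of `P`
  let R := LinearMap.range (LinearMap.lsmul D W a)
  obtain ⟨M', hM', hM'P⟩ : ∃ M' : Submodule D W, M'.FG ∧ M'.map R.mkQ = P := by
    obtain ⟨s, hs⟩ := hP
    classical
    choose t ht using fun x : W ⧸ R => R.mkQ_surjective x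
    refine ⟨Submodule.span D (s.image t), ⟨s.image t, rfl⟩, ?_⟩
    rw [Submodule.map_span, ← hs]
    congr 1
    rw [Finset.coe_image, Set.image_image]
    ext x
    constructor
    · rintro ⟨y, hy, rfl⟩
      change R.mkQ (t y) ∈ _
      rw [ht]; exact hy
    · intro hx
      exact ⟨x, hx, ht x⟩
  let M : Submodule D K := M'.map W.subtype
  have hM : M.FG := hM'.map _
  have h1 := length_quotient_smul_le a ha M hM
  rw [← hL] at h1
  refine le_trans ?_ h1
  -- surjection `M / a M → P`
  have hMW : ∀ x : M, (x : K) ∈ W := by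
    rintro ⟨_, x, hx, rfl⟩
    exact x.2
  have hMM' : ∀ x : M, (⟨x, hMW x⟩ : W) ∈ M' := by
    rintro ⟨_, x, hx, rfl⟩
    exact hx
  let f : M →ₗ[D] P :=
    { toFun := fun x => ⟨R.mkQ ⟨x, hMW x⟩, hM'P ▸ Submodule.mem_map_of_mem (hMM' x)⟩
      map_add' := by
        intro x x'
        apply Subtype.ext
        change R.mkQ ⟨((x + x' : M) : K), hMW (x + x')⟩ =
          R.mkQ ⟨x, hMW x⟩ + R.mkQ ⟨x', hMW x'⟩
        rw [← map_add]
        rfl
      map_smul' := by
        intro r x
        apply Subtype.ext
        change R.mkQ ⟨((r • x : M) : K), hMW (r • x)⟩ = r • R.mkQ ⟨x, hMW x⟩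
        rw [← map_smul]
        rfl }
  have hf : Function.Surjective f := by
    rintro ⟨z, hz⟩
    rw [← hM'P] at hz
    obtain ⟨x, hx, rfl⟩ := hz
    exact ⟨⟨x, x, hx, rfl⟩, rfl⟩
  have hker : LinearMap.range (LinearMap.lsmul D M a) ≤ LinearMap.ker f := by
    rintro _ ⟨x, rfl⟩
    rw [LinearMap.mem_ker]
    apply Subtype.ext
    change R.mkQ ⟨((a • x : M) : K), hMW (a • x)⟩ = 0
    have : (⟨((a • x : M) : K), hMW (a • x)⟩ : W) ∈ R := ⟨⟨x, hMW x⟩, rfl⟩
    simpa using this
  refine Module.length_le_of_surjective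
    ((LinearMap.range (LinearMap.lsmul D M a)).liftQ f hker) ?_
  intro z
  obtain ⟨x, hx⟩ := hf z
  exact ⟨Submodule.Quotient.mk x, hx⟩

end domain

end Vale.Agent.P202.X178
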