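import Mathlib
import Vale.Agent.P202.XKrullAkizuki

namespace Vale.Agent.P202.X178

open IsLocalRing

section general

variable {R : Type*} [CommRing R] (I : Ideal R)

theorem isPrecomplete_of_surjective {M N : Type*} [AddCommGroup M] [Module R M]
    [AddCommGroup N] [Module R N] [IsPrecomplete I M] (f : M →ₗ[R] N)
    (hf : Function.Surjective f) : IsPrecomplete I N := by
  rw [← AdicCompletion.of_surjective_iff]
  intro y
  obtain ⟨x, rfl⟩ := AdicCompletion.map_surjective I hf y
  obtain ⟨z, rfl⟩ := AdicCompletion.of_surjective I M x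
  exact ⟨f z, (AdicCompletion.map_of ..).symm⟩

theorem isPrecomplete_pi [IsPrecomplete I R] (k : ℕ) : IsPrecomplete I (Fin k → R) := by
  rw [isPrecomplete_iff]
  intro f hf
  have h1 : ∀ i : Fin k, ∃ L : R, ∀ n, f n i ≡ L [SMOD (I ^ n • ⊤ : Submodule R R)] := by
    intro i
    refine IsPrecomplete.prec ‹_› (f := fun n => f n i) ?_
    intro m n hmn
    have h := hf hmn
    rw [SModEq.sub_mem] at h ⊢
    have h2 : (LinearMap.proj (R := R) (φ := fun _ : Fin k => R) i) (f m - f n) ∈
        Submodule.map (LinearMap.proj (R := R) (φ := fun _ : Fin k => R) i)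
          (I ^ m • ⊤ : Submodule R (Fin k → R)) := Submodule.mem_map_of_mem h
    rw [Submodule.map_smul''] at h2
    exact Submodule.smul_mono le_rfl le_top h2
  choose L hL using h1
  refine ⟨L, fun n => ?_⟩
  rw [SModEq.sub_mem]
  have h3 : f n - L = ∑ i, (f n i - L i) • (Pi.single i (1 : R) : Fin k → R) := by
    rw [← (Pi.basisFun R (Fin k)).sum_repr (f n - L)]
    simp
  rw [h3]
  refine Submodule.sum_mem _ fun i _ => ?_
  refine Submodule.smul_mem_smul ?_ trivial
  have h4 := hL i n
  rw [SModEq.sub_mem] at h4
  simpa using h4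

theorem finite_of_finite_quotient [IsPrecomplete I R] (N : Type*) [AddCommGroup N] [Module R N]
    [IsHausdorff I N] [Module.Finite R (N ⧸ (I • ⊤ : Submodule R N))] : Module.Finite R N := by
  obtain ⟨k, g, hg⟩ := Module.Finite.exists_fin' R (N ⧸ (I • ⊤ : Submodule R N))
  have := isPrecomplete_pi I k
  obtain ⟨f, hf⟩ := Module.projective_lifting_property (I • ⊤ : Submodule R N).mkQ g
    (Submodule.mkQ_surjective _)
  have h1 : Function.Surjective f := by
    apply surjective_of_mkQ_comp_surjective (I := I)
    rw [hf]
    exact hg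
  exact Module.Finite.of_surjective f h1

theorem isPrecomplete_quotient [IsPrecomplete I R] (P : Ideal R) :
    IsPrecomplete (I.map (Ideal.Quotient.mk P)) (R ⧸ P) := by
  have h1 : IsPrecomplete I (R ⧸ P) := isPrecomplete_of_surjective I P.mkQ P.mkQ_surjective
  exact IsPrecomplete.map_algebraMap_iff.mpr h1

end general

section domain

variable {D : Type*} [CommRing D] [IsDomain D] [IsNoetherianRing D] [Ring.KrullDimLE 1 D]
  [IsLocalRing D]
  {K : Type*} [Field K] [Algebra D K] [IsFractionRing D K]

/-- Every nonzero ideal of a one-dimensional local domain contains a power of the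
maximal ideal. -/
theorem exists_pow_le (J : Ideal D) (hJ : J ≠ ⊥) : ∃ s : ℕ, maximalIdeal D ^ s ≤ J := by
  apply Ideal.exists_pow_le_of_le_radical_of_fg
  · rw [Ideal.radical_eq_sInf]
    refine le_sInf ?_
    rintro p ⟨hJp, hp⟩
    have hp0 : p ≠ ⊥ := fun h => hJ (le_bot_iff.mp (h ▸ hJp))
    have := hp
    have hpm : p.IsMaximal := hp.isMaximal_of_ne_bot hp0
    exact (eq_maximalIdeal hpm).ge
  · exact IsNoetherian.noetherian _

/-- The integral closure `W` of a one-dimensional local domain is separated. -/
theorem isHausdorff_integralClosure : IsHausdorff (maximalIdeal D) (integralClosure D K) := by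
  refine ⟨fun x hx => ?_⟩
  by_contra hx0
  simp only [SModEq.zero] at hx
  rcases eq_or_ne (maximalIdeal D) ⊥ with hm | hm
  · have h1 := hx 1
    rw [hm] at h1
    simp at h1
    exact hx0 h1
  obtain ⟨a, ham, ha⟩ := Submodule.exists_mem_ne_zero_of_ne_bot hm
  have hinj : Function.Injective (algebraMap D K) := IsFractionRing.injective D K
  -- `x` divides a nonzero element `b` of `D`
  obtain ⟨b, hb, w, hbw⟩ : ∃ b : D, b ≠ 0 ∧ ∃ w : integralClosure D K,
      algebraMap D (integralClosure D K) b = x * w := by
    have hxK : (x : K) ≠ 0 := fun h => hx0 (Subtype.ext h)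
    obtain ⟨b, c, hc, hbc⟩ := IsFractionRing.div_surjective (A := D) ((x : K)⁻¹)
    have hc0 : algebraMap D K c ≠ 0 := by
      rw [Ne, FaithfulSMul.algebraMap_eq_zero_iff]; exact nonZeroDivisors.ne_zero hc
    refine ⟨c, nonZeroDivisors.ne_zero hc, algebraMap D _ b, ?_⟩
    apply Subtype.ext
    change algebraMap D K c = x * algebraMap D K b
    rw [div_eq_iff hc0] at hbc
    rw [hbc, ← mul_assoc, mul_inv_cancel₀ hxK, one_mul]
  obtain ⟨s, hs⟩ := exists_pow_le (Ideal.span {b * a}) (by simpa using mul_ne_zero hb ha)
  have h1 : x ∈ (Ideal.span {b * a} • ⊤ : Submodule D (integralClosure D K)) :=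
    Submodule.smul_mono_left hs (hx s)
  rw [Submodule.ideal_span_singleton_smul] at h1
  obtain ⟨y, -, hy⟩ := h1
  have h2 : algebraMap D (integralClosure D K) (b * a) * y = x := by
    rw [← hy]; exact (Algebra.smul_def _ _).symm
  have h3 : algebraMap D (integralClosure D K) b *
      (algebraMap D (integralClosure D K) a * (y * w)) =
      algebraMap D (integralClosure D K) b * 1 := by
    rw [mul_one]
    nth_rewrite 2 [hbw]
    rw [← h2, map_mul]
    ring
  have h4 : algebraMap D (integralClosure D K) b ≠ 0 := by
    rw [Ne, FaithfulSMul.algebraMap_eq_zero_iff]; exact hb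
  have h5 := mul_left_cancel₀ h4 h3
  have h6 : IsUnit (algebraMap D (integralClosure D K) a) := IsUnit.of_mul_eq_one _ h5
  have h7 : IsUnit a := (isUnit_map_iff (algebraMap D (integralClosure D K)) a).mp h6
  exact (mem_maximalIdeal a).mp ham h7

theorem finite_integralClosure_of_precomplete [IsPrecomplete (maximalIdeal D) D] :
    Module.Finite D (integralClosure D K) := by
  rcases eq_or_ne (maximalIdeal D) ⊥ with hm | hm
  · have hf : IsField D := by
      rw [IsLocalRing.isField_iff_maximalIdeal_eq]; exact hm
    have hbij := hf.localization_map_bijective (Rₘ := K) (M := nonZeroDivisors D)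
      (fun h => nonZeroDivisors.ne_zero h rfl)
    have h1 : Function.Surjective (Algebra.linearMap D (integralClosure D K)) := by
      intro x
      obtain ⟨y, hy⟩ := hbij.2 (x : K)
      exact ⟨y, Subtype.ext hy⟩
    exact Module.Finite.of_surjective _ h1
  obtain ⟨a, ham, ha⟩ := Submodule.exists_mem_ne_zero_of_ne_bot hm
  have := isHausdorff_integralClosure (D := D) (K := K)
  have h1 : Module.Finite D (integralClosure D K ⧸
      LinearMap.range (LinearMap.lsmul D (integralClosure D K) a)) :=
    finite_quotient_smul a ha (Subalgebra.toSubmodule (integralClosure D K))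
  have hle : LinearMap.range (LinearMap.lsmul D (integralClosure D K) a) ≤
      (maximalIdeal D • ⊤ : Submodule D (integralClosure D K)) := by
    rintro _ ⟨x, rfl⟩
    exact Submodule.smul_mem_smul ham trivial
  have h2 : Module.Finite D (integralClosure D K ⧸
      (maximalIdeal D • ⊤ : Submodule D (integralClosure D K))) :=
    Module.Finite.of_surjective (Submodule.factor hle) (Submodule.factor_surjective hle)
  exact finite_of_finite_quotient (maximalIdeal D) (integralClosure D K)

end domain

/-- **Complete local rings are N-1 in dimension one.** For a prime `P` of a complete Noetherian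
local ring `A` with `dim A / P ≤ 1`, the normalization of `A / P` is a finite module. -/
theorem finite_integralClosure_of_isAdicComplete {A : Type*} [CommRing A] [IsLocalRing A]
    [IsNoetherianRing A] [IsAdicComplete (maximalIdeal A) A] (P : Ideal A) [P.IsPrime]
    [Ring.KrullDimLE 1 (A ⧸ P)] (K : Type*) [Field K] [Algebra (A ⧸ P) K]
    [IsFractionRing (A ⧸ P) K] : Module.Finite (A ⧸ P) (integralClosure (A ⧸ P) K) := by
  have : Nontrivial (A ⧸ P) := Ideal.Quotient.nontrivial_iff.mpr (Ideal.IsPrime.ne_top ‹_›)
  have : IsLocalRing (A ⧸ P) :=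
    IsLocalRing.of_surjective' (Ideal.Quotient.mk P) Ideal.Quotient.mk_surjective
  have : IsPrecomplete (maximalIdeal (A ⧸ P)) (A ⧸ P) := by
    have h1 := isPrecomplete_quotient (maximalIdeal A) P
    have h2 : (maximalIdeal A).map (Ideal.Quotient.mk P) = maximalIdeal (A ⧸ P) := by
      apply eq_maximalIdeal
      refine Ideal.IsMaximal.map_of_surjective_of_ker_le Ideal.Quotient.mk_surjective ?_
      rw [Ideal.mk_ker]
      exact IsLocalRing.le_maximalIdeal (Ideal.IsPrime.ne_top ‹_›)
    rwa [h2] at h1
  exact finite_integralClosure_of_precomplete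

end Vale.Agent.P202.X178
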