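import Mathlib

namespace Vale.Agent.P202.X190

open IsLocalRing TensorProduct

universe u

/-- Completeness only depends on the ideal up to powers. -/
theorem isAdicComplete_of_pow_le {R M : Type*} [CommRing R] [AddCommGroup M] [Module R M]
    (I J : Ideal R) (c : ℕ) (hIJ : I ≤ J) (hJI : J ^ c ≤ I) (h : IsAdicComplete I M) :
    IsAdicComplete J M := by
  have h1 : ∀ n, (J ^ (c * n) • (⊤ : Submodule R M)) ≤ I ^ n • (⊤ : Submodule R M) := by
    intro n
    rw [pow_mul]
    exact Submodule.smul_mono_left (Ideal.pow_right_mono hJI n)
  have h2 : ∀ n, (I ^ n • (⊤ : Submodule R M)) ≤ J ^ n • (⊤ : Submodule R M) := fun n =>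
    Submodule.smul_mono_left (Ideal.pow_right_mono hIJ n)
  refine { haus' := ?_, prec' := ?_ }
  · intro x hx
    apply h.haus'
    intro n
    exact (hx (c * n)).mono (h1 n)
  · intro f hf
    obtain ⟨L, hL⟩ := h.prec' (fun n => f ((c + 1) * n)) (by
      intro m n hmn
      refine SModEq.mono ?_ (hf (Nat.mul_le_mul_left (c + 1) hmn))
      refine le_trans ?_ (h1 m)
      apply Submodule.smul_mono_left
      exact Ideal.pow_le_pow_right (by nlinarith))
    refine ⟨L, fun n => ?_⟩
    have h3 : f n ≡ f ((c + 1) * n) [SMOD (J ^ n • (⊤ : Submodule R M))] :=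
      hf (by nlinarith)
    exact h3.trans ((hL n).mono (h2 n))

/-- A finite module over a complete Noetherian ring is complete. -/
theorem isAdicComplete_of_finite {A M : Type u} [CommRing A] [IsNoetherianRing A]
    [AddCommGroup M] [Module A M] [Module.Finite A M] (I : Ideal A) (h : IsAdicComplete I A) :
    IsAdicComplete I M := by
  rw [← AdicCompletion.of_bijective_iff]
  have h1 : Function.Bijective (AdicCompletion.of I A) := AdicCompletion.of_bijective I A
  let e1 : A ≃ₗ[A] AdicCompletion I A := LinearEquiv.ofBijective (AdicCompletion.of I A) h1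
  let e2 : M ≃ₗ[A] AdicCompletion I A ⊗[A] M :=
    (TensorProduct.lid A M).symm ≪≫ₗ TensorProduct.congr e1 (LinearEquiv.refl A M)
  have h2 := AdicCompletion.ofTensorProduct_bijective_of_finite_of_isNoetherian I M
  have h3 : ∀ x : M, AdicCompletion.of I M x = AdicCompletion.ofTensorProduct I M (e2 x) := by
    intro x
    have : e2 x = (1 : AdicCompletion I A) ⊗ₜ[A] x := by
      simp only [e2, LinearEquiv.trans_apply, TensorProduct.lid_symm_apply,
        TensorProduct.congr_tmul, LinearEquiv.refl_apply]
      congr 1
    rw [this, AdicCompletion.ofTensorProduct_tmul, one_smul]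
  have h4 : (AdicCompletion.of I M : M → AdicCompletion I M) =
      (AdicCompletion.ofTensorProduct I M) ∘ e2 := funext h3
  rw [h4]
  exact h2.comp e2.bijective

/-- A local ring that is finite over a complete Noetherian local ring is complete. -/
theorem isAdicComplete_of_finite_local {A R : Type u} [CommRing A] [IsNoetherianRing A]
    [IsLocalRing A] [CommRing R] [IsLocalRing R] [Algebra A R] [Module.Finite A R]
    (h : IsAdicComplete (maximalIdeal A) A) : IsAdicComplete (maximalIdeal R) R := by
  have h1 : IsAdicComplete (maximalIdeal A) R := isAdicComplete_of_finite _ h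
  have h2 : IsAdicComplete ((maximalIdeal A).map (algebraMap A R)) R :=
    (IsAdicComplete.map_algebraMap_iff _ _).mpr h1
  have hN : IsNoetherianRing R := IsNoetherianRing.of_finite A R
  have hint : Algebra.IsIntegral A R := Algebra.IsIntegral.of_finite A R
  have hprime : ∀ Q : Ideal R, Q.IsPrime → (maximalIdeal A).map (algebraMap A R) ≤ Q →
      maximalIdeal R ≤ Q := by
    intro Q hQ hle
    have h3 : (Q.comap (algebraMap A R)).IsMaximal := by
      have : maximalIdeal A = Q.comap (algebraMap A R) := by
        apply (maximalIdeal.isMaximal A).eq_of_le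
        · exact (Ideal.IsPrime.comap (algebraMap A R)).ne_top
        · exact Ideal.map_le_iff_le_comap.mp hle
      rw [← this]
      exact maximalIdeal.isMaximal A
    have h4 : Q.IsMaximal := Ideal.isMaximal_of_isIntegral_of_isMaximal_comap Q h3
    exact (IsLocalRing.eq_maximalIdeal h4).ge
  have hle : (maximalIdeal A).map (algebraMap A R) ≤ maximalIdeal R := by
    by_contra hcon
    have htop : (maximalIdeal A).map (algebraMap A R) = ⊤ := by
      by_contra h5
      exact hcon (IsLocalRing.le_maximalIdeal h5)
    -- then the module is zero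
    have h6 : IsHausdorff ((maximalIdeal A).map (algebraMap A R)) R := h2.toIsHausdorff
    have h7 := h6.haus' (1 : R) (by
      intro n
      rw [htop, Ideal.top_pow, Submodule.top_smul]
      exact SModEq.top)
    exact one_ne_zero h7
  have hrad : maximalIdeal R ≤ ((maximalIdeal A).map (algebraMap A R)).radical := by
    rw [Ideal.radical_eq_sInf]
    apply le_sInf
    rintro Q ⟨hQ1, hQ2⟩
    exact hprime Q hQ2 hQ1
  obtain ⟨c, hc⟩ := Ideal.exists_pow_le_of_le_radical_of_fg hrad
    (IsNoetherian.noetherian (maximalIdeal R))
  exact isAdicComplete_of_pow_le _ _ c hle hc h2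

end Vale.Agent.P202.X190
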