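import Mathlib
import Vale.Agent.P202.XComplete178
import Vale.Agent.P202.XComplete190

/-!
The integral closure of a complete one-dimensional local domain is a finite module and a discrete
valuation ring.
-/

namespace Vale.Agent.P202

open IsLocalRing

universe u

/-- In an Artinian quotient, a power of an element is associated to an idempotent. -/
theorem exists_pow_eq_of_artinian {R : Type*} [CommRing R] [IsArtinianRing R] (a : R) :
    ∃ (n : ℕ) (y : R), 0 < n ∧ a ^ n = a ^ n * (a * y) ^ n := by
  obtain ⟨n, y, hy⟩ := IsArtinian.exists_pow_succ_smul_dvd a (1 : R)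
  have h1 : a ^ n = a ^ n * (a * y) := by
    rw [smul_eq_mul, smul_eq_mul, mul_one, pow_succ, mul_assoc] at hy
    exact hy.symm
  have h2 : ∀ k : ℕ, a ^ n = a ^ n * (a * y) ^ k := by
    intro k
    induction k with
    | zero => simp
    | succ k ih => rw [pow_succ, ← mul_assoc, ← ih]; exact h1
  refine ⟨n + 1, y, Nat.succ_pos n, ?_⟩
  nth_rewrite 1 [pow_succ]
  rw [h2 (n + 1)]
  ring

/-- A domain which is finite over a complete local ring is local. -/
theorem isLocalRing_of_finite_domain {B V : Type u} [CommRing B] [IsLocalRing B]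
    [IsNoetherianRing B] [IsAdicComplete (maximalIdeal B) B] [CommRing V] [IsDomain V]
    [Algebra B V] [Module.Finite B V] : IsLocalRing V := by
  let J : Ideal V := (maximalIdeal B).map (algebraMap B V)
  have hc : IsAdicComplete J V := (IsAdicComplete.map_algebraMap_iff _ _).mpr
    (Vale.Agent.P202.X190.isAdicComplete_of_finite (maximalIdeal B) inferInstance)
  have hH : HenselianRing V J := inferInstance
  have hjac : J ≤ Ideal.jacobson ⊥ := hH.jac
  have hloc : IsLocalHom (Ideal.Quotient.mk J) := isLocalHom_of_le_jacobson_bot J hjac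
  have hart : IsArtinianRing (V ⧸ J) := by
    let _ : Algebra (B ⧸ maximalIdeal B) (V ⧸ J) := Ideal.Quotient.algebraQuotientMapQuotient
    have : IsScalarTower B (B ⧸ maximalIdeal B) (V ⧸ J) :=
      IsScalarTower.of_algebraMap_eq (fun x => rfl)
    have : Module.Finite (B ⧸ maximalIdeal B) (V ⧸ J) :=
      Module.Finite.of_restrictScalars_finite B _ _
    let _ : Field (B ⧸ maximalIdeal B) := Ideal.Quotient.field _
    exact IsArtinianRing.of_finite (B ⧸ maximalIdeal B) (V ⧸ J)
  refine IsLocalRing.of_isUnit_or_isUnit_one_sub_self fun a => ?_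
  obtain ⟨n, y', hpos, hy⟩ := exists_pow_eq_of_artinian (Ideal.Quotient.mk J a)
  obtain ⟨y, rfl⟩ := Ideal.Quotient.mk_surjective y'
  have he : (a * y) ^ n * (a * y) ^ n - (a * y) ^ n ∈ J := by
    rw [← Ideal.Quotient.eq, map_mul, map_pow, map_mul]
    nth_rewrite 1 [mul_pow]
    rw [mul_right_comm, ← hy, ← mul_pow]
  obtain ⟨e, he1, he2⟩ := hH.is_henselian (Polynomial.X ^ 2 - Polynomial.X) (by monicity!)
    ((a * y) ^ n) (by simpa [pow_two] using he) (by
      refine IsUnit.of_mul_eq_one (Ideal.Quotient.mk J
        ((Polynomial.derivative (Polynomial.X ^ 2 - Polynomial.X)).eval ((a * y) ^ n))) ?_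
      rw [← map_mul, ← map_one (Ideal.Quotient.mk J), Ideal.Quotient.eq]
      have h3 : (Polynomial.derivative (Polynomial.X ^ 2 - Polynomial.X : Polynomial V)).eval
          ((a * y) ^ n) = 2 * (a * y) ^ n - 1 := by
        rw [Polynomial.derivative_sub, Polynomial.derivative_X_sq, Polynomial.derivative_X,
          Polynomial.eval_sub, Polynomial.eval_mul, Polynomial.eval_X, Polynomial.eval_C,
          Polynomial.eval_one]
      rw [h3]
      have h4 : (2 * (a * y) ^ n - 1) * (2 * (a * y) ^ n - 1) - 1 =
          4 * ((a * y) ^ n * (a * y) ^ n - (a * y) ^ n) := by ring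
      rw [h4]
      exact J.mul_mem_left _ he)
  have h5 : e * (e - 1) = 0 := by
    have := he1
    rw [Polynomial.IsRoot.def] at this
    simp only [Polynomial.eval_sub, Polynomial.eval_pow, Polynomial.eval_X] at this
    linear_combination this
  rcases mul_eq_zero.1 h5 with h6 | h6
  · right
    have h7 : (Ideal.Quotient.mk J a) ^ n = 0 := by
      rw [hy, ← map_mul, ← map_pow, ← map_pow, ← map_mul, Ideal.Quotient.eq_zero_iff_mem]
      refine J.mul_mem_left _ ?_
      rw [h6] at he2
      simpa using he2
    have h8 : IsUnit (1 - Ideal.Quotient.mk J a) := IsNilpotent.isUnit_one_sub ⟨n, h7⟩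
    rw [← map_one (Ideal.Quotient.mk J), ← map_sub] at h8
    exact (isUnit_map_iff (Ideal.Quotient.mk J) _).1 h8
  · left
    have h7 : (Ideal.Quotient.mk J (a * y)) ^ n = 1 := by
      rw [← map_pow, ← map_one (Ideal.Quotient.mk J), Ideal.Quotient.eq]
      rw [sub_eq_zero] at h6
      rw [h6] at he2
      have := J.neg_mem he2
      simpa using this
    have h8 : IsUnit (Ideal.Quotient.mk J (a * y)) := IsUnit.of_pow_eq_one h7 hpos.ne'
    have h9 := (isUnit_map_iff (Ideal.Quotient.mk J) _).1 h8
    exact isUnit_of_mul_isUnit_left h9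

/-- The integral closure of a complete one-dimensional local domain is finite and a discrete
valuation ring. -/
theorem exists_dvr_extension {B : Type*} [CommRing B] [IsDomain B] [IsLocalRing B]
    [IsNoetherianRing B] [IsAdicComplete (maximalIdeal B) B] (hdim : ringKrullDim B = 1) :
    Module.Finite B (integralClosure B (FractionRing B)) ∧
      IsDiscreteValuationRing (integralClosure B (FractionRing B)) := by
  have hK : Ring.KrullDimLE 1 B := by
    rw [Ring.krullDimLE_iff, hdim]
    rfl
  have hfin : Module.Finite B (integralClosure B (FractionRing B)) :=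
    Vale.Agent.P202.X178.finite_integralClosure_of_precomplete
  refine ⟨hfin, ?_⟩
  have hD : Ring.DimensionLEOne B :=
    ⟨fun {p} hp hp' => Ring.krullDimLE_one_iff_of_isPrime_bot.1 hK p hp hp'⟩
  have hnf : ¬ IsField B := by
    intro h
    let _ := h.toField
    rw [ringKrullDim_eq_zero_of_field] at hdim
    exact zero_ne_one hdim
  have hN : IsNoetherianRing (integralClosure B (FractionRing B)) :=
    IsNoetherianRing.of_finite B _
  have hL : IsLocalRing (integralClosure B (FractionRing B)) := isLocalRing_of_finite_domain (B := B)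
  have hI : IsIntegrallyClosed (integralClosure B (FractionRing B)) :=
    integralClosure.isIntegrallyClosedOfFiniteExtension (FractionRing B)
  have hD' : Ring.DimensionLEOne (integralClosure B (FractionRing B)) := inferInstance
  have hDed : IsDedekindDomain (integralClosure B (FractionRing B)) := { }
  have hnf' : ¬ IsField (integralClosure B (FractionRing B)) := by
    intro h
    exact hnf (isField_of_isIntegral_of_isField
      (FaithfulSMul.algebraMap_injective B (integralClosure B (FractionRing B))) h)
  exact ((IsDiscreteValuationRing.TFAE _ hnf').out 0 2).2 hDed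

end Vale.Agent.P202
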