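import Vale.Agent.P202.SumAsym
import Vale.Agent.P202.FinLen
import Vale.Agent.P202.LocDvrExt
import Vale.Agent.P202.LocNorm
import Mathlib.RingTheory.AdicCompletion.Noetherian
import Mathlib.RingTheory.AdicCompletion.Completeness
import Mathlib.RingTheory.AdicCompletion.Exactness

/-!
The localization inequality `e(S_Q) ≤ e(S)` for a complete local ring `S` and a prime `Q` with
`dim S / Q = 1`.
-/

namespace Vale.Agent.P202

open IsLocalRing Filter Topology

section quotient

variable {R : Type*} [CommRing R] (I : Ideal R)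

lemma loc_isPrecomplete_of_surjective {M N : Type*} [AddCommGroup M] [Module R M]
    [AddCommGroup N] [Module R N] [IsPrecomplete I M] (f : M →ₗ[R] N)
    (hf : Function.Surjective f) : IsPrecomplete I N := by
  rw [← AdicCompletion.of_surjective_iff]
  intro y
  obtain ⟨x, rfl⟩ := AdicCompletion.map_surjective I hf y
  obtain ⟨z, rfl⟩ := AdicCompletion.of_surjective I M x
  exact ⟨f z, (AdicCompletion.map_of ..).symm⟩

lemma loc_isPrecomplete_quotient [IsPrecomplete I R] (P : Ideal R) :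
    IsPrecomplete (I.map (Ideal.Quotient.mk P)) (R ⧸ P) := by
  have h1 : IsPrecomplete I (R ⧸ P) :=
    loc_isPrecomplete_of_surjective I P.mkQ P.mkQ_surjective
  exact IsPrecomplete.map_algebraMap_iff.mpr h1

end quotient

/-- A nonzero quotient of a complete local ring is complete. -/
lemma loc_isAdicComplete_quotient {S : Type*} [CommRing S] [IsLocalRing S] [IsNoetherianRing S]
    [IsAdicComplete (maximalIdeal S) S] (Q : Ideal S) (hQ : Q ≠ ⊤) [IsLocalRing (S ⧸ Q)] :
    IsAdicComplete (maximalIdeal (S ⧸ Q)) (S ⧸ Q) := by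
  have h1 : IsPrecomplete (maximalIdeal (S ⧸ Q)) (S ⧸ Q) := by
    have h1 := loc_isPrecomplete_quotient (maximalIdeal S) Q
    have h2 : (maximalIdeal S).map (Ideal.Quotient.mk Q) = maximalIdeal (S ⧸ Q) := by
      apply eq_maximalIdeal
      refine Ideal.IsMaximal.map_of_surjective_of_ker_le Ideal.Quotient.mk_surjective ?_
      rw [Ideal.mk_ker]
      exact IsLocalRing.le_maximalIdeal hQ
    rwa [h2] at h1
  have h3 : IsHausdorff (maximalIdeal (S ⧸ Q)) (S ⧸ Q) :=
    IsHausdorff.of_le_jacobson _ _ (by rw [IsLocalRing.jacobson_eq_maximalIdeal ⊥ bot_ne_top])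
  exact { h1, h3 with }

theorem mult_localization {S : Type*} [CommRing S] [IsLocalRing S] [IsNoetherianRing S]
    [IsAdicComplete (maximalIdeal S) S] (Q : Ideal S) [Q.IsPrime] {s : ℕ}
    (hQ1 : ringKrullDim (S ⧸ Q) = 1) {eQ eS : ℕ}
    (hteQ : Tendsto (fun N : ℕ => (s.factorial : ℝ) *
      ((ell (maximalIdeal (Localization.AtPrime Q) ^ N)).toNat : ℝ) / (N : ℝ) ^ s) atTop
      (𝓝 (eQ : ℝ)))
    (hteS : Tendsto (fun N : ℕ => ((s + 1).factorial : ℝ) *
      ((ell (maximalIdeal S ^ N)).toNat : ℝ) / (N : ℝ) ^ (s + 1)) atTop (𝓝 (eS : ℝ))) :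
    eQ ≤ eS := by
  have hQ : Q ≠ ⊤ := Ideal.IsPrime.ne_top ‹_›
  have : Nontrivial (S ⧸ Q) := Ideal.Quotient.nontrivial_iff.mpr hQ
  have : IsLocalRing (S ⧸ Q) :=
    IsLocalRing.of_surjective' (Ideal.Quotient.mk Q) Ideal.Quotient.mk_surjective
  have hc := loc_isAdicComplete_quotient Q hQ
  obtain ⟨hfin, hdvr⟩ := exists_dvr_extension (B := S ⧸ Q) hQ1
  have hfin' : Module.Finite S (integralClosure (S ⧸ Q) (FractionRing (S ⧸ Q))) := by
    have : Module.Finite S (S ⧸ Q) := inferInstance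
    exact Module.Finite.trans (S ⧸ Q) _
  have hinj : Function.Injective (algebraMap (S ⧸ Q)
      (integralClosure (S ⧸ Q) (FractionRing (S ⧸ Q)))) := by
    intro x y hxy
    exact IsFractionRing.injective (S ⧸ Q) (FractionRing (S ⧸ Q)) (congrArg Subtype.val hxy)
  have hmap : ∀ x : S, algebraMap S (integralClosure (S ⧸ Q) (FractionRing (S ⧸ Q))) x =
      algebraMap (S ⧸ Q) _ (Ideal.Quotient.mk Q x) := fun x => rfl
  obtain ⟨p, hp⟩ := loc_of_dvr_extension (S := S)
    (V := integralClosure (S ⧸ Q) (FractionRing (S ⧸ Q))) Q (by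
      ext x
      rw [RingHom.mem_ker, hmap, map_eq_zero_iff _ hinj, Ideal.Quotient.eq_zero_iff_mem]) (by
      intro v
      obtain ⟨b, c, hc0, hbc⟩ := IsFractionRing.div_surjective (A := S ⧸ Q)
        (v : FractionRing (S ⧸ Q))
      obtain ⟨b, rfl⟩ := Ideal.Quotient.mk_surjective b
      obtain ⟨c, rfl⟩ := Ideal.Quotient.mk_surjective c
      have hc1 : Ideal.Quotient.mk Q c ≠ 0 := nonZeroDivisors.ne_zero hc0
      refine ⟨c, b, fun h => hc1 (Ideal.Quotient.eq_zero_iff_mem.mpr h), ?_⟩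
      rw [hmap, hmap]
      apply Subtype.ext
      have hc2 : algebraMap (S ⧸ Q) (FractionRing (S ⧸ Q)) (Ideal.Quotient.mk Q c) ≠ 0 := by
        rw [Ne, FaithfulSMul.algebraMap_eq_zero_iff]
        exact hc1
      rw [div_eq_iff hc2] at hbc
      change algebraMap (S ⧸ Q) (FractionRing (S ⧸ Q)) (Ideal.Quotient.mk Q c) * v =
        algebraMap (S ⧸ Q) (FractionRing (S ⧸ Q)) (Ideal.Quotient.mk Q b)
      rw [hbc, mul_comm])
  exact coeff_le_of_sumf_le (p := p) (fun i => ell_ne_top_of_pow_le le_rfl)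
    (fun i => ell_ne_top_of_pow_le le_rfl) hteQ hteS hp

end Vale.Agent.P202
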