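import Vale.Agent.P202.CharP.GenFinal
import Vale.Agent.P202.CharZero.CompleteCZ
import Vale.Agent.P202.CharZero.FinalCZ
import Vale.Agent.P202.MultExists

/-!
P202: Lech's inequality in equal characteristic from Theorem B: characteristic zero through the
theorem of helper505 (reduction to finite residue fields of prime characteristic).
-/

namespace Vale.Agent.P202

open IsLocalRing Filter Topology

universe u

/-- finite residue fields are `F`-finite. -/
theorem charPLech_of_theoremB
    (HB : ∀ (p : ℕ) [Fact p.Prime], CharP.TheoremB.{u} p) : CZ.CharPLech.{u} := by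
  intro p hp R S _ _ _ _ _ _ _ _ _ hRp hfin d hd hR hS eR eS heR heS
  have : Fact p.Prime := ⟨hp⟩
  have c2 : _root_.CharP (ResidueField R) p := CharP.charP_of_algebra p hp (R := R)
  have hF : (frobenius (ResidueField R) p).Finite :=
    RingHom.Finite.of_surjective _
      (Finite.surjective_of_injective (frobenius_inj (ResidueField R) p))
  obtain ⟨s, eR', eS', h1, h2, h3, h4⟩ :=
    CharP.lech_charp_of_theoremB p (HB p) hF hd hR (S := S)
  have hs : s = d := by
    have h5 : ((s : ℕ) : WithBot ℕ∞) = ((d : ℕ) : WithBot ℕ∞) := h1.symm.trans hS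
    exact_mod_cast h5
  subst hs
  have e1 : (eR : ℝ) = eR' := tendsto_nhds_unique heR h2
  have e2 : (eS : ℝ) = eS' := tendsto_nhds_unique heS h3
  have e1' : eR = eR' := by exact_mod_cast e1
  have e2' : eS = eS' := by exact_mod_cast e2
  rw [e1', e2']
  exact h4

/-- Lech's inequality for all Noetherian local rings containing the rationals, from Theorem B. -/
theorem lech_char_zero_of_theoremB
    (HB : ∀ (p : ℕ) [Fact p.Prime], CharP.TheoremB.{u} p) {R S : Type u}
    [CommRing R] [IsLocalRing R] [IsNoetherianRing R]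
    [CommRing S] [IsLocalRing S] [IsNoetherianRing S]
    [Algebra R S] [IsLocalHom (algebraMap R S)] [Module.Flat R S] [Algebra ℚ R]
    {d s : ℕ} (hd : 0 < d) (hR : ringKrullDim R = d) (hS : ringKrullDim S = s) (eR eS : ℕ)
    (heR : Tendsto (hsSeq R d) atTop (𝓝 (eR : ℝ)))
    (heS : Tendsto (hsSeq S s) atTop (𝓝 (eS : ℝ))) : eR ≤ eS :=
  CZ.lech_char_zero_of (fun hd hR hS eR eS heR heS =>
    CZ.complete_char_zero (charPLech_of_theoremB HB) hd hR hS eR eS heR heS) hd hR hS eR eS
    heR heS

end Vale.Agent.P202
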