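import Vale.Agent.P202.ChainD
import Vale.Agent.P202.Assembly2

/-!
The complete case in all dimensions: `e(R) ≤ (d - 2)! e(S)`.
-/

set_option linter.unusedSectionVars false

namespace Vale.Agent.P202

open Ideal IsLocalRing Finset

universe u

/-- a reduction stays a reduction after perturbation by the square of the ideal. -/
lemma isRed_perturb {A : Type*} [CommRing A] [IsLocalRing A] [IsNoetherianRing A] {δ : ℕ}
    {I : Ideal A} (hI : I ≤ maximalIdeal A) (x x' : Fin δ → A)
    (h : IsRed (Ideal.span (Set.range x)) I) (hx : ∀ i, x' i - x i ∈ I ^ 2) :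
    IsRed (Ideal.span (Set.range x')) I := by
  obtain ⟨hle, c, hc⟩ := h
  have hx' : Ideal.span (Set.range x') ≤ I := by
    rw [Ideal.span_le]
    rintro _ ⟨i, rfl⟩
    have h1 := Ideal.add_mem _ (Ideal.pow_le_self two_ne_zero (hx i))
      (hle (Ideal.subset_span ⟨i, rfl⟩ : x i ∈ Ideal.span (Set.range x)))
    simpa using h1
  refine ⟨hx', c, ?_⟩
  have hJ : Ideal.span (Set.range x) ≤ Ideal.span (Set.range x') ⊔ I ^ 2 := by
    rw [Ideal.span_le]
    rintro _ ⟨i, rfl⟩
    have h1 := Submodule.sub_mem _ (Ideal.mem_sup_left (Ideal.subset_span ⟨i, rfl⟩) :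
      x' i ∈ Ideal.span (Set.range x') ⊔ I ^ 2) (Ideal.mem_sup_right (hx i))
    simpa using h1
  refine Submodule.le_of_le_smul_of_le_jacobson_bot (I := I) (IsNoetherian.noetherian _) ?_ ?_
  · rw [IsLocalRing.jacobson_eq_maximalIdeal _ bot_ne_top]
    exact hI
  · refine (hc.trans (Ideal.mul_mono_left hJ)).trans ?_
    rw [Ideal.sup_mul, smul_eq_mul]
    refine sup_le_sup_left (le_of_eq ?_) _
    ring

/-- The statement for complete rings of the same dimension, with a condition on the residue field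
extension when `b` holds. -/
def CompleteCaseB (b : Prop) (d κ : ℕ) : Prop :=
  ∀ (R S : Type u) [CommRing R] [IsLocalRing R] [IsNoetherianRing R]
    [IsAdicComplete (maximalIdeal R) R] [Infinite (ResidueField R)]
    [CommRing S] [IsLocalRing S] [IsNoetherianRing S] [Algebra R S]
    [IsLocalHom (algebraMap R S)] [Module.Flat R S],
    (b → Module.length (ResidueField R) (ResidueField S) ≠ ⊤) →
    ringKrullDim R = d → ringKrullDim S = d →
    ∃ c K : ℕ, ∀ N : ℕ, (d.factorial : ℕ∞) * ell (maximalIdeal R ^ N) ≤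
      (κ : ℕ∞) * ((d.factorial : ℕ∞) * ell (maximalIdeal S ^ (N + c))) +
        (K : ℕ∞) * ((N : ℕ∞) + 1) ^ (d - 1)

theorem completeCaseB_of_twoDim {b : Prop} (H : TwoDimBound.{u} b) {δ : ℕ} (hδ : 0 < δ) :
    CompleteCaseB.{u} b (δ + 2) δ.factorial := by
  classical
  intro R S _ _ _ _ _ _ _ _ _ _ _ hres hR hS
  have : Infinite (ResidueField S) :=
    Infinite.of_injective (algebraMap (ResidueField R) (ResidueField S)) (RingHom.injective _)
  have hfib := ell_fibre_ne_top (R := R) (S := S) (by rw [hR, hS])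
  obtain ⟨y0, c0, hy0, hy0fin, hlow⟩ := exists_max_reduction (S := S) (d := δ + 2) hS
  obtain ⟨E, hE⟩ := ENat.ne_top_iff_exists.mp (emin_ne_top hy0fin)
  obtain ⟨l, B, hl, hB⟩ := exists_cut 2 S δ hδ y0 hy0 hy0fin
  have hlr : Set.range l = {l 0, l 1} := by
    rw [← range_two (l 0) (l 1)]
    congr 1
    funext i
    fin_cases i <;> rfl
  rw [hlr] at hB
  obtain ⟨D, hD⟩ := exists_pow_le_of_ell_ne_top hfib
  have hy0m : Ideal.span (Set.range y0) ≤ maximalIdeal S := by
    rw [Ideal.span_le]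
    rintro _ ⟨i, rfl⟩
    exact hy0 i
  set I := (maximalIdeal R).map (algebraMap R S) with hI
  have hIm : I ≤ maximalIdeal S := map_max_le
  have hmain := hB I D ((Ideal.pow_right_mono hy0m D).trans hD)
  rw [← hE] at hmain
  have hL : Ideal.span {l 0, l 1} ≤ maximalIdeal S := by
    rw [← hlr, Ideal.span_le]
    rintro _ ⟨i, rfl⟩
    exact hl i
  have hρt : ell (Ideal.span {l 0, l 1} ⊔ I) ≠ ⊤ := ne_top_of_le_ne_top hfib (ell_mono le_sup_right)
  have hρ0 : ell (Ideal.span {l 0, l 1} ⊔ I) ≠ 0 := by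
    rw [Ne, ell_eq_zero_iff]
    intro h
    have h1 : Ideal.span {l 0, l 1} ⊔ I ≤ maximalIdeal S := sup_le hL hIm
    rw [h, top_le_iff] at h1
    exact (IsLocalRing.maximalIdeal.isMaximal S).ne_top h1
  obtain ⟨ρ, hρ⟩ := ENat.ne_top_iff_exists.mp hρt
  rw [← hρ] at hρ0 hmain
  have hρpos : 0 < ρ := by
    rcases Nat.eq_zero_or_pos ρ with h | h
    · rw [h] at hρ0
      exact absurd rfl hρ0
    · exact h
  -- the ring `S / (l)`
  have iD : IsLocalRing (S ⧸ Ideal.span {l 0, l 1}) := isLocalRing_quot hL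
  set π := Ideal.Quotient.mk (Ideal.span {l 0, l 1}) with hπ
  have hmS : (maximalIdeal S).map π = maximalIdeal (S ⧸ Ideal.span {l 0, l 1}) := map_max_quot hL
  have hal : ∀ a : R, algebraMap R (S ⧸ Ideal.span {l 0, l 1}) a = π (algebraMap R S a) :=
    fun a => rfl
  have iL : IsLocalHom (algebraMap R (S ⧸ Ideal.span {l 0, l 1})) := by
    refine ⟨fun a ha => ?_⟩
    by_contra hna
    have h1 : a ∈ maximalIdeal R := (IsLocalRing.mem_maximalIdeal _).mpr hna
    have h2 : π (algebraMap R S a) ∈ maximalIdeal (S ⧸ Ideal.span {l 0, l 1}) := by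
      rw [← hmS]
      exact Ideal.mem_map_of_mem _ (hIm (Ideal.mem_map_of_mem _ h1))
    rw [hal] at ha
    exact (IsLocalRing.mem_maximalIdeal _).mp h2 ha
  have hellπ : ∀ J : Ideal S, ell (J.map π) = ell (Ideal.span {l 0, l 1} ⊔ J) := by
    intro J
    rw [hπ, ell_map_mk, sup_comm]
  obtain ⟨s, hs⟩ := (IsNoetherian.noetherian (maximalIdeal R) : (maximalIdeal R).FG)
  have hrange : Set.range (fun i : Fin s.card => ((s.equivFin.symm i : s) : R)) = (s : Set R) := by
    ext x
    constructor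
    · rintro ⟨i, rfl⟩; exact (s.equivFin.symm i).2
    · intro hx; exact ⟨s.equivFin ⟨x, hx⟩, by simp⟩
  have hspan : Ideal.span (Set.range (fun i : Fin s.card => ((s.equivFin.symm i : s) : R))) =
      maximalIdeal R := by rw [hrange]; exact hs
  have hmem : ∀ i : Fin s.card, ((s.equivFin.symm i : s) : R) ∈ maximalIdeal R := by
    intro i
    rw [← hspan]
    exact Ideal.subset_span ⟨i, rfl⟩
  let x0 : Fin s.card → S ⧸ Ideal.span {l 0, l 1} := fun i =>
    algebraMap R (S ⧸ Ideal.span {l 0, l 1}) ((s.equivFin.symm i : s) : R)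
  have hmapR : ∀ J : Ideal R, J.map (algebraMap R (S ⧸ Ideal.span {l 0, l 1})) =
      (J.map (algebraMap R S)).map π := by
    intro J
    rw [Ideal.map_map]
    rfl
  have hx0span : Ideal.span (Set.range x0) = I.map π := by
    rw [hI, ← hmapR, ← hspan, Ideal.map_span]
    congr 1
    ext a
    simp [x0]
  have hx0mem : ∀ i, x0 i ∈ maximalIdeal (S ⧸ Ideal.span {l 0, l 1}) := by
    intro i
    rw [← hmS]
    exact Ideal.mem_map_of_mem π (hIm (Ideal.mem_map_of_mem _ (hmem i)))
  have hI1 : I.map π ≤ maximalIdeal (S ⧸ Ideal.span {l 0, l 1}) := by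
    rw [← hmS]; exact Ideal.map_mono hIm
  obtain ⟨x, hx, hred⟩ := exists_reduction (R := R) x0 hx0mem δ (ρ * (E + B)) (fun n hn => by
    rw [hx0span, ← Ideal.map_pow, hellπ]
    refine (hmain n hn).trans ?_
    have h1 : n ^ (δ - 1) ≤ n ^ δ := Nat.pow_le_pow_right hn (Nat.sub_le _ _)
    have h2 : ρ * (n ^ δ * E + B * n ^ (δ - 1)) ≤ ρ * (E + B) * n ^ δ := by
      calc ρ * (n ^ δ * E + B * n ^ (δ - 1)) ≤ ρ * (n ^ δ * E + B * n ^ δ) := by gcongr
        _ = _ := by ring
    exact_mod_cast h2)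
  rw [hx0span] at hred
  -- lift to `R`
  have hxlift : ∀ i, ∃ a ∈ maximalIdeal R, algebraMap R (S ⧸ Ideal.span {l 0, l 1}) a = x i := by
    intro i
    have h1 : Submodule.span R (Set.range x0) ≤
        Submodule.map (Algebra.linearMap R (S ⧸ Ideal.span {l 0, l 1})) (maximalIdeal R) := by
      rw [Submodule.span_le]
      rintro _ ⟨j, rfl⟩
      exact ⟨_, hmem j, rfl⟩
    obtain ⟨a, ha, hax⟩ := h1 (hx i)
    exact ⟨a, ha, hax⟩
  choose xt hxt hxtx using hxlift
  have hpert : ∀ x' : Fin δ → R, (∀ i, x' i - xt i ∈ maximalIdeal R ^ 2) →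
      IsRed (((Ideal.span (Set.range x')).map (algebraMap R S)).map π) (I.map π) := by
    intro x' hx'
    have h1 : ((Ideal.span (Set.range x')).map (algebraMap R S)).map π =
        Ideal.span (Set.range fun i => algebraMap R (S ⧸ Ideal.span {l 0, l 1}) (x' i)) := by
      rw [← hmapR, Ideal.map_span]
      congr 1
      ext a
      simp
    rw [h1]
    refine isRed_perturb hI1 x _ hred fun i => ?_
    rw [← hxtx, ← map_sub, hI, ← hmapR, ← Ideal.map_pow]
    exact Ideal.mem_map_of_mem _ (hx' i)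
  have hfin : ∀ x' : Fin δ → R, (∀ i, x' i - xt i ∈ maximalIdeal R ^ 2) →
      ell (Ideal.span {l 0, l 1} ⊔ (Ideal.span (Set.range x')).map (algebraMap R S)) ≠ ⊤ := by
    intro x' hx'
    obtain ⟨c, hc⟩ := (hpert x' hx').exists_pow_le
    have h1 := hc 1
    rw [pow_one, ← Ideal.map_pow] at h1
    have h2 := ell_mono h1
    rw [hellπ, hellπ] at h2
    refine ne_top_of_le_ne_top ?_ h2
    refine ne_top_of_le_ne_top ?_ (ell_mono (le_sup_right : I ^ (1 + c) ≤ _))
    refine ell_ne_top_of_pow_le (s := D * (1 + c)) ?_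
    rw [pow_mul]
    exact Ideal.pow_right_mono hD _
  obtain ⟨x', hx', hchain⟩ := chainD H δ R S hres hfib (l 0) (l 1) (hl 0) (hl 1) ρ
    (by rw [sup_comm]; exact hρ.symm) xt hxt hfin
  let xx : Fin δ → S := fun i => algebraMap R S (x' i)
  have hxx : Ideal.span (Set.range xx) = (Ideal.span (Set.range x')).map (algebraMap R S) := by
    rw [Ideal.map_span]
    congr 1
    ext a
    simp [xx]
  let y : Fin (δ + 2) → S := Fin.cons (l 0) (Fin.cons (l 1) xx : Fin (δ + 1) → S)
  have hyspan : Ideal.span (Set.range y) = Ideal.span {l 0, l 1} ⊔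
      (Ideal.span (Set.range x')).map (algebraMap R S) := by
    rw [← hxx]
    simp only [y]
    rw [Fin.range_cons, Fin.range_cons, Ideal.span_insert, Ideal.span_insert,
      Ideal.span_insert, sup_assoc]
  have hyfin : ell (Ideal.span (Set.range y)) ≠ ⊤ := by
    rw [hyspan]; exact hfin x' hx'
  obtain ⟨e, he⟩ := ENat.ne_top_iff_exists.mp (emin_ne_top hyfin)
  obtain ⟨K, hK⟩ := hchain y hyspan e he.symm
  -- bound for `e`
  have hebound : e ≤ δ.factorial * ρ * E := by
    obtain ⟨c, hc⟩ := (hpert x' hx').exists_pow_le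
    refine le_of_forall_pow_le hδ e (δ.factorial * ρ * E) (δ.factorial * ρ * B) c fun n hn => ?_
    have h1 : emin y ≤ emin (fun i => Ideal.Quotient.mk (Ideal.span {l 0})
        ((Fin.cons (l 1) xx : Fin (δ + 1) → S) i)) :=
      emin_le_quot (by omega) (l 0) _ hyfin
    have h2 : (fun i => Ideal.Quotient.mk (Ideal.span {l 0})
        ((Fin.cons (l 1) xx : Fin (δ + 1) → S) i)) =
        (Fin.cons (Ideal.Quotient.mk (Ideal.span {l 0}) (l 1))
          (fun i => Ideal.Quotient.mk (Ideal.span {l 0}) (xx i)) :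
          Fin (δ + 1) → S ⧸ Ideal.span {l 0}) := by
      funext i
      refine Fin.cases ?_ (fun i => ?_) i
      · simp
      · simp
    have hXmap : ∀ K : Ideal (S ⧸ Ideal.span {l 0}), ∀ J : Ideal S,
        ell (((J.map (Ideal.Quotient.mk (Ideal.span {l 0}))).map
          (Ideal.Quotient.mk (Ideal.span {Ideal.Quotient.mk (Ideal.span {l 0}) (l 1)})))) =
        ell (Ideal.span {l 0, l 1} ⊔ J) := by
      intro _ J
      rw [ell_map_mk]
      have h3 : J.map (Ideal.Quotient.mk (Ideal.span {l 0})) ⊔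
          Ideal.span {Ideal.Quotient.mk (Ideal.span {l 0}) (l 1)} =
          (J ⊔ Ideal.span {l 1}).map (Ideal.Quotient.mk (Ideal.span {l 0})) := by
        rw [Ideal.map_sup, Ideal.map_span _ {l 1}, Set.image_singleton]
      rw [h3, ell_map_mk]
      congr 1
      rw [Ideal.span_insert, sup_assoc, sup_comm, sup_comm (Ideal.span {l 1})]
    have h3 : ell (Ideal.span (Set.range (Fin.cons (Ideal.Quotient.mk (Ideal.span {l 0}) (l 1))
          (fun i => Ideal.Quotient.mk (Ideal.span {l 0}) (xx i)) :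
          Fin (δ + 1) → S ⧸ Ideal.span {l 0}))) ≠ ⊤ := by
      rw [← h2]
      have h4 : Ideal.span (Set.range fun i => Ideal.Quotient.mk (Ideal.span {l 0})
          ((Fin.cons (l 1) xx : Fin (δ + 1) → S) i)) =
          (Ideal.span (Set.range (Fin.cons (l 1) xx : Fin (δ + 1) → S))).map
            (Ideal.Quotient.mk (Ideal.span {l 0})) := by
        rw [Ideal.map_span]
        congr 1
        ext a
        constructor
        · rintro ⟨i, rfl⟩; exact ⟨_, ⟨i, rfl⟩, rfl⟩
        · rintro ⟨_, ⟨i, rfl⟩, rfl⟩; exact ⟨i, rfl⟩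
      rw [h4, ell_map_mk, Fin.range_cons, Ideal.span_insert]
      have h5 : Ideal.span {l 1} ⊔ Ideal.span (Set.range xx) ⊔ Ideal.span {l 0} =
          Ideal.span (Set.range y) := by
        rw [hyspan, ← hxx, Ideal.span_insert, sup_comm, ← sup_assoc]
      rw [h5]
      exact hyfin
    have h6 := emin_le_quot hδ (Ideal.Quotient.mk (Ideal.span {l 0}) (l 1))
      (fun i => Ideal.Quotient.mk (Ideal.span {l 0}) (xx i)) h3
    rw [← h2] at h6
    have h7 := h1.trans h6
    rw [← he] at h7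
    have h8 := emin_mul_card_le (fun i => Ideal.Quotient.mk
      (Ideal.span {Ideal.Quotient.mk (Ideal.span {l 0}) (l 1)})
      (Ideal.Quotient.mk (Ideal.span {l 0}) (xx i))) n
    have h9 : Ideal.span (Set.range fun i => Ideal.Quotient.mk
      (Ideal.span {Ideal.Quotient.mk (Ideal.span {l 0}) (l 1)})
      (Ideal.Quotient.mk (Ideal.span {l 0}) (xx i))) =
        ((Ideal.span (Set.range xx)).map (Ideal.Quotient.mk (Ideal.span {l 0}))).map
          (Ideal.Quotient.mk (Ideal.span {Ideal.Quotient.mk (Ideal.span {l 0}) (l 1)})) := by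
      rw [Ideal.map_map, Ideal.map_span]
      congr 1
      ext a
      simp
    rw [h9, ← Ideal.map_pow, ← Ideal.map_pow, hXmap ⊥, hxx] at h8
    have h10 : ell (Ideal.span {l 0, l 1} ⊔
        ((Ideal.span (Set.range x')).map (algebraMap R S)) ^ n) ≤
        ell (Ideal.span {l 0, l 1} ⊔ I ^ (n + c)) := by
      rw [← hellπ, ← hellπ, Ideal.map_pow, Ideal.map_pow]
      exact ell_mono (hc n)
    have h11 : (e : ℕ∞) * (tri (Fin δ) n).card ≤
        ρ * ((n + c) ^ δ * E + B * (n + c) ^ (δ - 1)) := by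
      refine le_trans ?_ (h8.trans (h10.trans (le_of_le_of_eq (hmain (n + c) (by omega)) ?_)))
      · gcongr
      · push_cast; rfl
    have h12 : e * (tri (Fin δ) n).card ≤ ρ * ((n + c) ^ δ * E + B * (n + c) ^ (δ - 1)) := by
      exact_mod_cast h11
    have h13 := pow_le_factorial_mul_card_tri (σ := Fin δ) n hn
    rw [Fintype.card_fin] at h13
    calc e * n ^ δ ≤ e * (δ.factorial * (tri (Fin δ) n).card) := Nat.mul_le_mul_left _ h13
      _ = δ.factorial * (e * (tri (Fin δ) n).card) := by ring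
      _ ≤ δ.factorial * (ρ * ((n + c) ^ δ * E + B * (n + c) ^ (δ - 1))) :=
          Nat.mul_le_mul_left _ h12
      _ = _ := by ring
  -- conclusion
  refine ⟨c0, K, fun N => ?_⟩
  have hSt : ∀ s, ell (maximalIdeal S ^ s) ≠ ⊤ := fun s => ell_ne_top_of_pow_le le_rfl
  have hRt : ∀ s, ell (maximalIdeal R ^ s) ≠ ⊤ := fun s => ell_ne_top_of_pow_le le_rfl
  obtain ⟨a, ha⟩ := ENat.ne_top_iff_exists.mp (hRt N)
  obtain ⟨b, hb⟩ := ENat.ne_top_iff_exists.mp (hSt (N + c0))
  have h1 := hK N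
  rw [← ha, ENat.toNat_natCast] at h1
  have h2 := hlow N
  rw [← hE, ← hb] at h2
  have h2' : E * (tri (Fin (δ + 2)) N).card ≤ b := by exact_mod_cast h2
  have h3 : E * N ^ (δ + 2) ≤ (δ + 2).factorial * b := by
    rcases Nat.eq_zero_or_pos N with rfl | hN
    · simp
    · have h4 := pow_le_factorial_mul_card_tri (σ := Fin (δ + 2)) N hN
      rw [Fintype.card_fin] at h4
      calc E * N ^ (δ + 2) ≤ E * ((δ + 2).factorial * (tri (Fin (δ + 2)) N).card) :=
            Nat.mul_le_mul_left _ h4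
        _ = (δ + 2).factorial * (E * (tri (Fin (δ + 2)) N).card) := by ring
        _ ≤ _ := Nat.mul_le_mul_left _ h2'
  have h5 : ρ * ((δ + 2).factorial * a) ≤
      ρ * (δ.factorial * ((δ + 2).factorial * b) + K * (N + 1) ^ (δ + 1)) := by
    calc ρ * ((δ + 2).factorial * a) ≤ e * N ^ (δ + 2) + K * (N + 1) ^ (δ + 1) := h1
      _ ≤ δ.factorial * ρ * E * N ^ (δ + 2) + ρ * (K * (N + 1) ^ (δ + 1)) :=
          add_le_add (Nat.mul_le_mul_right _ hebound) (Nat.le_mul_of_pos_left _ hρpos)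
      _ = ρ * (δ.factorial * (E * N ^ (δ + 2)) + K * (N + 1) ^ (δ + 1)) := by ring
      _ ≤ _ := by gcongr
  have h6 := Nat.le_of_mul_le_mul_left h5 hρpos
  rw [← ha, ← hb]
  have h7 : δ + 2 - 1 = δ + 1 := by omega
  rw [h7]
  exact_mod_cast h6

theorem completeCase_of_twoDim (H : TwoDimBound.{u} False) {δ : ℕ} (hδ : 0 < δ) :
    CompleteCase.{u} (δ + 2) δ.factorial := by
  intro R S _ _ _ _ _ _ _ _ _ _ _ hR hS
  exact completeCaseB_of_twoDim H hδ R S (fun h => h.elim) hR hS

/-- Equal dimensions, with a finite residue field extension. -/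
theorem lech_equal_dim_res {d κ : ℕ} (hd : 0 < d) (H : CompleteCaseB.{u} True d κ) {R S : Type u}
    [CommRing R] [IsLocalRing R] [IsNoetherianRing R]
    [CommRing S] [IsLocalRing S] [IsNoetherianRing S] [Algebra R S]
    [IsLocalHom (algebraMap R S)] [Module.Flat R S]
    (hres : Module.length (ResidueField R) (ResidueField S) ≠ ⊤)
    (hR : ringKrullDim R = d) (hS : ringKrullDim S = d) :
    ∃ eR eS : ℕ, Filter.Tendsto (hsSeq R d) Filter.atTop (nhds (eR : ℝ)) ∧
      Filter.Tendsto (hsSeq S d) Filter.atTop (nhds (eS : ℝ)) ∧ eR ≤ κ * eS := by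
  obtain ⟨eR, heR⟩ := exists_mult (A := R) hd hR
  obtain ⟨eS, heS⟩ := exists_mult (A := S) hd hS
  refine ⟨eR, eS, heR, heS, ?_⟩
  obtain ⟨R1, S1, _, _, _, _, _, _, _, _, _, hinf, hlR, hlS, hdR, hdS, hf1, hr1⟩ :=
    exists_infinite_residue (R := R) (S := S)
  obtain ⟨R2, S2, _, _, _, _, _, _, _, _, _, _, _, hlR2, hlS2, hdR2, hdS2, hf2, hinf2, hr2⟩ :=
    exists_completion (R := R1) (S := S1)
  have := hinf2 hinf
  obtain ⟨c, K, hN⟩ := H R2 S2 (fun _ => by rw [hr2, hr1 hres]; exact hres)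
    (hdR2.trans (hdR.trans hR)) (hdS2.trans (hdS.trans hS))
  have key : (eR : ℝ) ≤ κ * (eS : ℝ) := by
    refine le_of_growth hd κ c K
      (fun N => (Module.length R2 (R2 ⧸ maximalIdeal R2 ^ N)).toNat)
      (fun N => (Module.length S2 (S2 ⧸ maximalIdeal S2 ^ N)).toNat)
      (fun N => growth_toNat d κ c K N (hN N)) eR eS ?_ ?_
    · simp only [hlR2, hlR]
      exact heR
    · simp only [hlS2, hlS]
      exact heS
  exact_mod_cast key

end Vale.Agent.P202
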