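import Vale.Agent.P202.RL

/-!
The Koszul identity, and regularity of pairs with finite length quotient.
-/

namespace Vale.Agent.P202

open IsLocalRing

/-- Powers of a regular pair form a regular pair. -/
lemma pow_regular_pair {S : Type*} [CommRing S] {N : Type*} [AddCommGroup N] [Module S N]
    (x1 x2 : S) (r1 : ∀ v : N, x1 • v = 0 → v = 0)
    (r2 : ∀ v w : N, x2 • v = x1 • w → ∃ u : N, v = x1 • u) (k : ℕ) :
    (∀ v : N, x1 ^ k • v = 0 → v = 0) ∧
      ∀ (l : ℕ) (v w : N), x2 ^ l • v = x1 ^ k • w → ∃ u : N, v = x1 ^ k • u := by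
  have h1 : ∀ (k : ℕ) (v : N), x1 ^ k • v = 0 → v = 0 := by
    intro k
    induction k with
    | zero => intro v h; simpa using h
    | succ k ih =>
      intro v h
      rw [pow_succ, mul_smul] at h
      exact r1 v (ih _ h)
  have h2 : ∀ (l : ℕ) (v w : N), x2 ^ l • v = x1 • w → ∃ u : N, v = x1 • u := by
    intro l
    induction l with
    | zero => intro v w h; exact ⟨w, by simpa using h⟩
    | succ l ih =>
      intro v w h
      rw [pow_succ, mul_smul] at h
      obtain ⟨u, hu⟩ := ih _ w h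
      exact r2 v u hu
  refine ⟨h1 k, ?_⟩
  intro l
  induction k with
  | zero => intro v w _; exact ⟨v, by simp⟩
  | succ k ih =>
    intro v w h
    obtain ⟨u, rfl⟩ := h2 l v (x1 ^ k • w) (by rw [h, pow_succ', mul_smul])
    have h' : x1 • (x2 ^ l • u - x1 ^ k • w) = 0 := by
      rw [smul_sub, smul_comm x1 (x2 ^ l) u, h, pow_succ', mul_smul, sub_self]
    obtain ⟨u', rfl⟩ := ih u w (sub_eq_zero.mp (r1 _ h'))
    exact ⟨u', by rw [pow_succ', mul_smul]⟩

/-- A power of the maximal ideal lies in `(y1, y2) + ann N` when `N / (y1, y2) N` has finite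
length. -/
lemma exists_pow_le_of_length {S : Type*} [CommRing S] [IsLocalRing S] [IsNoetherianRing S]
    {N : Type*} [AddCommGroup N] [Module S N] [Module.Finite S N] (I : Ideal S)
    (hfin : Module.length S (N ⧸ (I • (⊤ : Submodule S N))) ≠ ⊤) :
    ∃ K : ℕ, maximalIdeal S ^ K ≤ I ⊔ Module.annihilator S N := by
  have hL : IsFiniteLength S (N ⧸ (I • (⊤ : Submodule S N))) := Module.length_ne_top_iff.mp hfin
  obtain ⟨hNo, hAr⟩ := isFiniteLength_iff_isNoetherian_isArtinian.mp hL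
  -- a power of the maximal ideal kills the quotient
  obtain ⟨k, hk⟩ : ∃ k : ℕ, maximalIdeal S ^ k • (⊤ : Submodule S (N ⧸ (I • (⊤ : Submodule S N))))
      = ⊥ := by
    let f : ℕ →o (Submodule S (N ⧸ (I • (⊤ : Submodule S N))))ᵒᵈ :=
      ⟨fun k => OrderDual.toDual (maximalIdeal S ^ k • ⊤), fun a b hab =>
        Submodule.smul_mono_left (Ideal.pow_le_pow_right hab)⟩
    obtain ⟨k, hk⟩ := IsArtinian.monotone_stabilizes f
    refine ⟨k, ?_⟩
    have h1 : maximalIdeal S ^ k • (⊤ : Submodule S (N ⧸ (I • (⊤ : Submodule S N))))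
        = maximalIdeal S ^ (k + 1) • ⊤ := hk (k + 1) (Nat.le_succ k)
    refine Submodule.eq_bot_of_le_smul_of_le_jacobson_bot (maximalIdeal S) _
      (IsNoetherian.noetherian _) ?_ (IsLocalRing.maximalIdeal_le_jacobson _)
    rw [← mul_smul, ← pow_succ']
    exact h1.le
  have hann : maximalIdeal S ^ k ≤ Module.annihilator S (N ⧸ (I • (⊤ : Submodule S N))) := by
    intro a ha
    rw [Module.mem_annihilator]
    intro m
    have : a • m ∈ maximalIdeal S ^ k • (⊤ : Submodule S (N ⧸ (I • (⊤ : Submodule S N)))) :=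
      Submodule.smul_mem_smul ha trivial
    rw [hk] at this
    exact (Submodule.mem_bot S).mp this
  have hrad : maximalIdeal S ≤ (I ⊔ Module.annihilator S N).radical := by
    rw [Ideal.radical_eq_sInf]
    refine le_sInf ?_
    rintro P ⟨hP, hPp⟩
    have hs : (⟨P, hPp⟩ : PrimeSpectrum S) ∈ Module.support S (N ⧸ (I • (⊤ : Submodule S N))) := by
      rw [Module.support_quotient]
      refine ⟨?_, ?_⟩
      · rw [Module.support_eq_zeroLocus, PrimeSpectrum.mem_zeroLocus]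
        exact (le_sup_right.trans hP : Module.annihilator S N ≤ P)
      · rw [PrimeSpectrum.mem_zeroLocus]
        exact (le_sup_left.trans hP : I ≤ P)
    have := hann.trans (Module.annihilator_le_of_mem_support hs)
    exact hPp.le_of_pow_le this
  exact Ideal.exists_pow_le_of_le_radical_of_fg hrad (IsNoetherian.noetherian _)

/-- TASK F2: in a module of depth two over a local ring, any pair with finite length quotient
is regular. -/
theorem regular_of_finite_length {S : Type*} [CommRing S] [IsLocalRing S] [IsNoetherianRing S]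
    {N : Type*} [AddCommGroup N] [Module S N] [Module.Finite S N]
    (x1 x2 : S) (hx1 : x1 ∈ maximalIdeal S) (hx2 : x2 ∈ maximalIdeal S)
    (r1 : ∀ v : N, x1 • v = 0 → v = 0)
    (r2 : ∀ v w : N, x2 • v = x1 • w → ∃ u : N, v = x1 • u)
    (y1 y2 : S) (hy1 : y1 ∈ maximalIdeal S) (hy2 : y2 ∈ maximalIdeal S)
    (hfin : Module.length S (N ⧸ (Ideal.span {y1, y2} • (⊤ : Submodule S N))) ≠ ⊤) :
    (∀ v : N, y1 • v = 0 → v = 0) ∧
      (∀ v w : N, y2 • v = y1 • w → ∃ u : N, v = y1 • u) := by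
  obtain ⟨K, hK⟩ := exists_pow_le_of_length (Ideal.span {y1, y2}) hfin
  obtain ⟨p1, p2⟩ := pow_regular_pair x1 x2 r1 r2 K
  have key : ∀ a ∈ maximalIdeal S ^ K, ∃ s t : S, ∀ v : N, a • v = s • y1 • v + t • y2 • v := by
    intro a ha
    obtain ⟨b, hb, c, hc, rfl⟩ := Submodule.mem_sup.mp (hK ha)
    obtain ⟨s, t, rfl⟩ := Ideal.mem_span_pair.mp hb
    refine ⟨s, t, fun v => ?_⟩
    rw [add_smul, Module.mem_annihilator.mp hc v, add_zero, add_smul, mul_smul, mul_smul]
  obtain ⟨s1, t1, k1⟩ := key (x1 ^ K) (Ideal.pow_mem_pow hx1 K)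
  obtain ⟨s2, t2, k2⟩ := key (x2 ^ K) (Ideal.pow_mem_pow hx2 K)
  -- second Koszul homology vanishes
  have H2 : ∀ v : N, y1 • v = 0 → y2 • v = 0 → v = 0 := by
    intro v h1 h2
    apply p1
    rw [k1, h1, h2, smul_zero, smul_zero, add_zero]
  -- first Koszul homology vanishes
  have H1 : ∀ a b : N, y1 • a + y2 • b = 0 → ∃ u : N, a = -(y2 • u) ∧ b = y1 • u := by
    intro a b hab
    have hab1 : y1 • a = -(y2 • b) := eq_neg_of_add_eq_zero_left hab
    have hab2 : y2 • b = -(y1 • a) := by rw [hab1, neg_neg]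
    -- for each `c` with `c = s y1 + t y2` on `N`, `c • (a, b) = d (s b - t a)`
    have step : ∀ c s t : S, (∀ v : N, c • v = s • y1 • v + t • y2 • v) →
        c • a = -(y2 • (s • b - t • a)) ∧ c • b = y1 • (s • b - t • a) := by
      intro c s t h
      constructor
      · rw [h a, hab1, smul_sub, smul_comm y2 s b, smul_comm y2 t a, smul_neg]
        abel
      · rw [h b, hab2, smul_sub, smul_comm y1 s b, smul_comm y1 t a, smul_neg]
        abel
    obtain ⟨e1, f1⟩ := step (x1 ^ K) s1 t1 k1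
    obtain ⟨e2, f2⟩ := step (x2 ^ K) s2 t2 k2
    set v1 := s1 • b - t1 • a with hv1
    set v2 := s2 • b - t2 • a with hv2
    have hz : x2 ^ K • v1 - x1 ^ K • v2 = 0 := by
      apply H2
      · rw [smul_sub, smul_comm y1 (x2 ^ K) v1, smul_comm y1 (x1 ^ K) v2, ← f1, ← f2,
          smul_comm, sub_self]
      · rw [smul_sub, smul_comm y2 (x2 ^ K) v1, smul_comm y2 (x1 ^ K) v2,
          neg_eq_iff_eq_neg.mp e1.symm, neg_eq_iff_eq_neg.mp e2.symm, smul_neg, smul_neg,
          smul_comm (x2 ^ K) (x1 ^ K) a, sub_self]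
    obtain ⟨u, hu⟩ := p2 K v1 v2 (sub_eq_zero.mp hz)
    refine ⟨u, ?_, ?_⟩
    · have : x1 ^ K • (a + y2 • u) = 0 := by
        rw [smul_add, e1, hu, smul_comm y2 (x1 ^ K) u, neg_add_cancel]
      exact eq_neg_of_add_eq_zero_left (p1 _ this)
    · have : x1 ^ K • (b - y1 • u) = 0 := by
        rw [smul_sub, f1, hu, smul_comm y1 (x1 ^ K) u, sub_self]
      exact sub_eq_zero.mp (p1 _ this)
  refine ⟨?_, ?_⟩
  · -- Nakayama for the kernel of `y1`
    let Kr : Submodule S N := LinearMap.ker (LinearMap.lsmul S N y1)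
    have hKr : Kr ≤ maximalIdeal S • Kr := by
      intro v hv
      have hv' : y1 • v = 0 := hv
      obtain ⟨u, hu1, hu2⟩ := H1 v 0 (by rw [hv', smul_zero, add_zero])
      rw [hu1]
      exact Submodule.neg_mem _ (Submodule.smul_mem_smul hy2 (hu2.symm : y1 • u = 0))
    have hbot : Kr = ⊥ := Submodule.eq_bot_of_le_smul_of_le_jacobson_bot (maximalIdeal S) _
      (IsNoetherian.noetherian _) hKr (IsLocalRing.maximalIdeal_le_jacobson _)
    intro v hv
    have : v ∈ Kr := hv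
    rw [hbot] at this
    exact (Submodule.mem_bot S).mp this
  · intro v w h
    obtain ⟨u, -, hu⟩ := H1 (-w) v (by rw [h, smul_neg, neg_add_cancel])
    exact ⟨u, hu⟩

section koszul
variable {A : Type*} [CommRing A] {V : Type*} [AddCommGroup V] [Module A V]

/-- relative length of a square. -/
lemma rl_prod_self (N W : Submodule A V) (h : N ≤ W) :
    rl (N.prod N) (W.prod W) = rl N W + rl N W := by
  have h1 : rl (N.prod N) (W.prod N) = rl N W := by
    have e1 : W.prod N = N.prod N ⊔ W.map (LinearMap.inl A V V) := by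
      ext ⟨a, b⟩
      simp only [Submodule.mem_prod, Submodule.mem_sup, Submodule.mem_map, Prod.exists,
        LinearMap.inl_apply]
      constructor
      · rintro ⟨ha, hb⟩
        exact ⟨0, b, ⟨N.zero_mem, hb⟩, a, 0, ⟨a, ha, rfl⟩, by simp⟩
      · rintro ⟨a', b', ⟨ha', hb'⟩, c, d, ⟨e, he, hed⟩, hsum⟩
        simp only [Prod.mk.injEq, Prod.mk_add_mk] at hed hsum
        obtain ⟨rfl, rfl⟩ := hed
        obtain ⟨rfl, rfl⟩ := hsum
        exact ⟨W.add_mem (h ha') he, by simpa using hb'⟩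
    have e2 : N.prod N ⊓ W.map (LinearMap.inl A V V) = N.map (LinearMap.inl A V V) := by
      ext ⟨a, b⟩
      simp only [Submodule.mem_prod, Submodule.mem_inf, Submodule.mem_map,
        LinearMap.inl_apply, Prod.mk.injEq]
      constructor
      · rintro ⟨⟨ha, hb⟩, c, hc, rfl, rfl⟩
        exact ⟨c, ha, rfl, rfl⟩
      · rintro ⟨c, hc, rfl, rfl⟩
        exact ⟨⟨hc, N.zero_mem⟩, c, h hc, rfl, rfl⟩
    rw [e1, rl_sup_right, ← rl_inf_left, e2, rl_map_of_injective _ LinearMap.inl_injective]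
  have h2 : rl (W.prod N) (W.prod W) = rl N W := by
    have e1 : W.prod W = W.prod N ⊔ W.map (LinearMap.inr A V V) := by
      ext ⟨a, b⟩
      simp only [Submodule.mem_prod, Submodule.mem_sup, Submodule.mem_map, Prod.exists,
        LinearMap.inr_apply]
      constructor
      · rintro ⟨ha, hb⟩
        exact ⟨a, 0, ⟨ha, N.zero_mem⟩, 0, b, ⟨b, hb, rfl⟩, by simp⟩
      · rintro ⟨a', b', ⟨ha', hb'⟩, c, d, ⟨e, he, hed⟩, hsum⟩
        simp only [Prod.mk.injEq, Prod.mk_add_mk] at hed hsum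
        obtain ⟨rfl, rfl⟩ := hed
        obtain ⟨rfl, rfl⟩ := hsum
        exact ⟨by simpa using ha', W.add_mem (h hb') he⟩
    have e2 : W.prod N ⊓ W.map (LinearMap.inr A V V) = N.map (LinearMap.inr A V V) := by
      ext ⟨a, b⟩
      simp only [Submodule.mem_prod, Submodule.mem_inf, Submodule.mem_map,
        LinearMap.inr_apply, Prod.mk.injEq]
      constructor
      · rintro ⟨⟨ha, hb⟩, c, hc, rfl, rfl⟩
        exact ⟨c, hb, rfl, rfl⟩
      · rintro ⟨c, hc, rfl, rfl⟩
        exact ⟨⟨W.zero_mem, hc⟩, c, h hc, rfl, rfl⟩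
    rw [e1, rl_sup_right, ← rl_inf_left, e2, rl_map_of_injective _ LinearMap.inr_injective]
  rw [rl_add (Submodule.prod_mono h le_rfl : N.prod N ≤ W.prod N)
    (Submodule.prod_mono le_rfl h : W.prod N ≤ W.prod W), h1, h2]

/-- TASK F1 (Koszul identity). -/
theorem koszul_identity
    (y1 y2 : V →ₗ[A] V) (hc : y1 ∘ₗ y2 = y2 ∘ₗ y1)
    (W N : Submodule A V) (hNW : N ≤ W) (hfin : rl N W ≠ ⊤)
    (hW1 : W.map y1 ≤ W) (hW2 : W.map y2 ≤ W) (hN1 : N.map y1 ≤ N) (hN2 : N.map y2 ≤ N)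
    (r1 : ∀ v ∈ W, y1 v = 0 → v = 0)
    (r2 : ∀ v ∈ W, ∀ w ∈ W, y2 v = y1 w → ∃ u ∈ W, v = y1 u)
    (_hfin2 : rl (W.map y1 ⊔ W.map y2) W ≠ ⊤) :
    rl (N.map y1 ⊔ N.map y2) N =
      rl (W.map y1 ⊔ W.map y2) W + rl N (W ⊓ N.comap y1 ⊓ N.comap y2) := by
  have hcc : ∀ v, y1 (y2 v) = y2 (y1 v) := fun v => LinearMap.congr_fun hc v
  set X : Submodule A V := W ⊓ N.comap y1 ⊓ N.comap y2 with hX
  let ψ : (V × V) →ₗ[A] V := y1.coprod y2
  let d : V →ₗ[A] (V × V) := (-y2).prod y1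
  have hψ : ∀ a b, ψ (a, b) = y1 a + y2 b := fun a b => LinearMap.coprod_apply _ _ _
  have hd : ∀ v, d v = (-(y2 v), y1 v) := fun v => rfl
  have hNX : N ≤ X := by
    intro v hv
    exact ⟨⟨hNW hv, hN1 (Submodule.mem_map_of_mem hv)⟩, hN2 (Submodule.mem_map_of_mem hv)⟩
  have hXW : X ≤ W := inf_le_left.trans inf_le_left
  have hWψ : (W.prod W).map ψ = W.map y1 ⊔ W.map y2 := LinearMap.map_coprod_prod y1 y2 W W
  have hNψ : (N.prod N).map ψ = N.map y1 ⊔ N.map y2 := LinearMap.map_coprod_prod y1 y2 N N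
  have hN2W2 : N.prod N ≤ W.prod W := Submodule.prod_mono hNW hNW
  -- the kernel of `ψ` on `W × W`
  have hker : LinearMap.ker ψ ⊓ W.prod W = W.map d := by
    ext ⟨a, b⟩
    simp only [Submodule.mem_inf, LinearMap.mem_ker, hψ, Submodule.mem_prod, Submodule.mem_map, hd,
      Prod.mk.injEq]
    constructor
    · rintro ⟨h, ha, hb⟩
      obtain ⟨u, hu, rfl⟩ := r2 b hb (-a) (W.neg_mem ha) (by
        rw [map_neg]; exact eq_neg_of_add_eq_zero_right h)
      refine ⟨u, hu, ?_, rfl⟩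
      have : y1 (a + y2 u) = 0 := by rw [map_add, hcc, h]
      have hz := r1 _ (W.add_mem ha (hW2 (Submodule.mem_map_of_mem hu))) this
      exact (eq_neg_of_add_eq_zero_left hz).symm
    · rintro ⟨u, hu, rfl, rfl⟩
      refine ⟨by rw [map_neg, hcc, neg_add_cancel], W.neg_mem (hW2 (Submodule.mem_map_of_mem hu)),
        hW1 (Submodule.mem_map_of_mem hu)⟩
  have hq : rl (N.map y1 ⊔ N.map y2) (W.map y1 ⊔ W.map y2) = rl (N.prod N ⊔ W.map d) (W.prod W) := by
    rw [← hWψ, ← hNψ, rl_map, ← rl_inf_left, ← hker, sup_inf_assoc_of_le _ hN2W2]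
  have hWd : W.map d ≤ W.prod W := by rw [← hker]; exact inf_le_right
  have hinf : N.prod N ⊓ W.map d = X.map d := by
    ext ⟨a, b⟩
    simp only [Submodule.mem_inf, Submodule.mem_prod, Submodule.mem_map, hd, Prod.mk.injEq, hX,
      Submodule.mem_comap]
    constructor
    · rintro ⟨⟨ha, hb⟩, u, hu, rfl, rfl⟩
      exact ⟨u, ⟨⟨hu, hb⟩, by simpa using ha⟩, rfl, rfl⟩
    · rintro ⟨u, ⟨⟨hu, hb⟩, ha⟩, rfl, rfl⟩
      exact ⟨⟨N.neg_mem ha, hb⟩, u, hu, rfl, rfl⟩
  have hz : rl (N.prod N) (W.map d) = rl X W := by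
    rw [← rl_inf_left, hinf, rl_map, ← rl_inf_left, sup_inf_assoc_of_le _ hXW]
    have hbot : LinearMap.ker d ⊓ W = ⊥ := by
      rw [eq_bot_iff]
      rintro v ⟨h, hv⟩
      have h' : d v = 0 := h
      rw [hd] at h'
      exact (Submodule.mem_bot A).mpr (r1 v hv (congrArg Prod.snd h'))
    rw [hbot, sup_bot_eq]
  have E1 : rl (N.map y1 ⊔ N.map y2) N + rl N W =
      rl (N.map y1 ⊔ N.map y2) (W.map y1 ⊔ W.map y2) + rl (W.map y1 ⊔ W.map y2) W := by
    rw [← rl_add (sup_le hN1 hN2) hNW, ← rl_add (sup_le_sup (Submodule.map_mono hNW)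
      (Submodule.map_mono hNW)) (sup_le hW1 hW2)]
  have E2 : rl N W + rl N W =
      rl X W + rl (N.map y1 ⊔ N.map y2) (W.map y1 ⊔ W.map y2) := by
    rw [← rl_prod_self N W hNW, rl_add (le_sup_left : N.prod N ≤ N.prod N ⊔ W.map d)
      (sup_le hN2W2 hWd), rl_sup_right, hz, hq]
  have E3 : rl N W = rl N X + rl X W := rl_add hNX hXW
  have hzt : rl X W ≠ ⊤ := by
    intro h
    rw [h, add_top] at E3
    exact hfin E3
  have E4 : rl (N.map y1 ⊔ N.map y2) (W.map y1 ⊔ W.map y2) = rl N W + rl N X := by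
    have : rl X W + rl (N.map y1 ⊔ N.map y2) (W.map y1 ⊔ W.map y2) =
        rl X W + (rl N W + rl N X) := by
      rw [← E2]
      nth_rewrite 2 [E3]
      ac_rfl
    exact ENat.add_right_injective_of_ne_top hzt this
  have E5 : rl N W + rl (N.map y1 ⊔ N.map y2) N = rl N W + (rl (W.map y1 ⊔ W.map y2) W + rl N X) := by
    rw [add_comm, E1, E4]
    ac_rfl
  exact ENat.add_right_injective_of_ne_top hfin E5

end koszul

end Vale.Agent.P202
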