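import Vale.Agent.P202.Fil
import Vale.Agent.P202.FinLen
import Vale.Agent.P202.FilterReg

/-!
A complete local domain of dimension two has an ideal which is a maximal Cohen-Macaulay module,
and a growth comparison for nonzero ideals of a domain.
-/

set_option linter.unusedSectionVars false

namespace Vale.Agent.P202

open IsLocalRing

namespace Mcm

section chevalley

variable {D : Type*} [CommRing D] [IsLocalRing D] [IsNoetherianRing D]

/-- Chevalley's theorem: in a complete local ring a decreasing sequence of ideals with zero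
intersection is eventually contained in every power of the maximal ideal. -/
lemma closed_of_forall (C : Ideal D) (L : D) (h : ∀ n, L ∈ C ⊔ maximalIdeal D ^ n) : L ∈ C := by
  have hk : (⨅ n : ℕ, maximalIdeal D ^ n • (⊤ : Submodule D (D ⧸ C))) = ⊥ := by
    exact Ideal.iInf_pow_smul_eq_bot_of_isLocalRing _ (Ideal.IsPrime.ne_top inferInstance)
  have h1 : (Submodule.Quotient.mk L : D ⧸ C) ∈
      (⨅ n : ℕ, maximalIdeal D ^ n • (⊤ : Submodule D (D ⧸ C))) := by
    rw [Submodule.mem_iInf]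
    intro n
    obtain ⟨c, hc, d, hd, hcd⟩ := Submodule.mem_sup.mp (h n)
    have h2 : (Submodule.Quotient.mk L : D ⧸ C) = d • (Submodule.Quotient.mk 1 : D ⧸ C) := by
      rw [← Submodule.Quotient.mk_smul, Submodule.Quotient.eq, ← hcd]
      simpa using hc
    rw [h2]
    exact Submodule.smul_mem_smul hd trivial
  rw [hk, Submodule.mem_bot, Submodule.Quotient.mk_eq_zero] at h1
  exact h1

lemma exists_stable (C : ℕ → Ideal D) (hC : Antitone C) (n : ℕ) :
    ∃ i₀, ∀ i, i₀ ≤ i → C i ⊔ maximalIdeal D ^ n = C i₀ ⊔ maximalIdeal D ^ n := by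
  have hart : IsArtinianRing (D ⧸ maximalIdeal D ^ n) := isArtinianRing_quot (s := n) le_rfl
  obtain ⟨i₀, hi₀⟩ := IsArtinian.monotone_stabilizes (R := D ⧸ maximalIdeal D ^ n)
    (M := D ⧸ maximalIdeal D ^ n)
    ⟨fun i => OrderDual.toDual ((C i).map (Ideal.Quotient.mk (maximalIdeal D ^ n))),
      fun i j hij => Ideal.map_mono (hC hij)⟩
  refine ⟨i₀, fun i hi => ?_⟩
  have h1 : (C i₀).map (Ideal.Quotient.mk (maximalIdeal D ^ n)) =
      (C i).map (Ideal.Quotient.mk (maximalIdeal D ^ n)) := hi₀ i hi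
  have h2 := congrArg (Ideal.comap (Ideal.Quotient.mk (maximalIdeal D ^ n))) h1
  rw [Ideal.comap_map_of_surjective _ Ideal.Quotient.mk_surjective,
    Ideal.comap_map_of_surjective _ Ideal.Quotient.mk_surjective] at h2
  have h3 : Ideal.comap (Ideal.Quotient.mk (maximalIdeal D ^ n)) ⊥ = maximalIdeal D ^ n := by
    rw [← RingHom.ker_eq_comap_bot, Ideal.mk_ker]
  rw [h3] at h2
  exact h2.symm

lemma chevalley [IsAdicComplete (maximalIdeal D) D] (C : ℕ → Ideal D) (hC : Antitone C)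
    (hinf : ∀ b, (∀ i, b ∈ C i) → b = 0) (n₀ : ℕ) : ∃ i, C i ≤ maximalIdeal D ^ n₀ := by
  by_contra hcon
  push Not at hcon
  let E : ℕ → Ideal D := fun n => ⨅ i, C i ⊔ maximalIdeal D ^ n
  have hE : ∀ n i, E n ≤ C i ⊔ maximalIdeal D ^ n := fun n i => iInf_le _ i
  have hE' : ∀ n, ∃ i₀, ∀ i, i₀ ≤ i → C i ⊔ maximalIdeal D ^ n ≤ E n := by
    intro n
    obtain ⟨i₀, hi₀⟩ := exists_stable C hC n
    refine ⟨i₀, fun i hi => ?_⟩
    rw [hi₀ i hi]
    refine le_iInf fun j => ?_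
    rcases le_total i₀ j with h | h
    · rw [hi₀ j h]
    · exact sup_le_sup_right (hC h) _
  have hstep : ∀ n, ∀ y ∈ E n, ∃ z ∈ E (n + 1), y - z ∈ maximalIdeal D ^ n := by
    intro n y hy
    obtain ⟨i₀, hi₀⟩ := hE' (n + 1)
    obtain ⟨c, hc, d, hd, hcd⟩ := Submodule.mem_sup.mp (hE n i₀ hy)
    refine ⟨c, hi₀ i₀ le_rfl (Ideal.mem_sup_left hc), ?_⟩
    rw [← hcd]
    simpa using hd
  -- starting point
  have hstart : ∃ y ∈ E n₀, y ∉ maximalIdeal D ^ n₀ := by
    obtain ⟨i₀, hi₀⟩ := hE' n₀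
    obtain ⟨y, hy, hy'⟩ := SetLike.not_le_iff_exists.mp (hcon i₀)
    exact ⟨y, hi₀ i₀ le_rfl (Ideal.mem_sup_left hy), hy'⟩
  obtain ⟨y₀, hy₀, hy₀'⟩ := hstart
  choose! f hfE hf using hstep
  let y : ℕ → D := fun k => Nat.rec y₀ (fun k y => f (n₀ + k) y) k
  have hy0 : y 0 = y₀ := rfl
  have hys : ∀ k, y (k + 1) = f (n₀ + k) (y k) := fun k => rfl
  have hyE : ∀ k, y k ∈ E (n₀ + k) := by
    intro k
    induction k with
    | zero => exact hy₀
    | succ k ih => rw [hys]; exact hfE _ _ ih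
  have hyd : ∀ k, y k - y (k + 1) ∈ maximalIdeal D ^ (n₀ + k) := by
    intro k
    rw [hys]
    exact hf _ _ (hyE k)
  have hyd2 : ∀ k j, y k - y (k + j) ∈ maximalIdeal D ^ (n₀ + k) := by
    intro k j
    induction j with
    | zero => simp
    | succ j ih =>
      have h1 : y k - y (k + (j + 1)) = (y k - y (k + j)) + (y (k + j) - y (k + j + 1)) := by
        rw [← add_assoc]; ring
      rw [h1]
      exact Ideal.add_mem _ ih (Ideal.pow_le_pow_right (by omega) (hyd (k + j)))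
  obtain ⟨L, hL⟩ := IsPrecomplete.prec' (I := maximalIdeal D) (M := D) y (by
    intro a b hab
    rw [SModEq.sub_mem]
    obtain ⟨j, rfl⟩ := Nat.exists_eq_add_of_le hab
    have h1 := Ideal.pow_le_pow_right (by omega : a ≤ n₀ + a) (hyd2 a j)
    rwa [smul_eq_mul, Ideal.mul_top])
  have hL' : ∀ n, y n - L ∈ maximalIdeal D ^ n := by
    intro n
    have h1 := hL n
    rw [SModEq.sub_mem] at h1
    rwa [smul_eq_mul, Ideal.mul_top] at h1
  have hLC : ∀ i, L ∈ C i := by
    intro i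
    refine closed_of_forall _ _ fun n => ?_
    have h1 : y n ∈ C i ⊔ maximalIdeal D ^ n :=
      (sup_le_sup_left (Ideal.pow_le_pow_right (show n ≤ n₀ + n by omega)) (C i) :
        C i ⊔ maximalIdeal D ^ (n₀ + n) ≤ C i ⊔ maximalIdeal D ^ n) (hE (n₀ + n) i (hyE n))
    have h2 : L = y n - (y n - L) := by ring
    rw [h2]
    exact Ideal.sub_mem _ h1 (Ideal.mem_sup_right (hL' n))
  have hL0 : L = 0 := hinf L hLC
  apply hy₀'
  have h1 : y 0 - y (0 + n₀) ∈ maximalIdeal D ^ (n₀ + 0) := hyd2 0 n₀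
  rw [hy0, zero_add, add_zero] at h1
  have h2 := hL' n₀
  rw [hL0, sub_zero] at h2
  have h3 : y₀ = (y₀ - y n₀) + y n₀ := by ring
  rw [h3]
  exact Ideal.add_mem _ h1 h2

end chevalley

section sat

variable {D : Type*} [CommRing D]

/-- saturation of `x1 ^ i D` with respect to `x2`. -/
def sat (x1 x2 : D) (i : ℕ) : Ideal D where
  carrier := {b | ∃ j, x1 ^ i ∣ x2 ^ j * b}
  zero_mem' := ⟨0, by simp⟩
  add_mem' := by
    rintro a b ⟨j, hj⟩ ⟨k, hk⟩
    refine ⟨j + k, ?_⟩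
    have : x2 ^ (j + k) * (a + b) = x2 ^ k * (x2 ^ j * a) + x2 ^ j * (x2 ^ k * b) := by
      rw [pow_add]; ring
    rw [this]
    exact dvd_add (Dvd.dvd.mul_left hj _) (Dvd.dvd.mul_left hk _)
  smul_mem' := by
    rintro c a ⟨j, hj⟩
    refine ⟨j, ?_⟩
    have : x2 ^ j * (c • a) = c * (x2 ^ j * a) := by rw [smul_eq_mul]; ring
    rw [this]
    exact Dvd.dvd.mul_left hj _

lemma mem_sat {x1 x2 : D} {i : ℕ} {b : D} : b ∈ sat x1 x2 i ↔ ∃ j, x1 ^ i ∣ x2 ^ j * b := Iff.rfl

lemma sat_anti (x1 x2 : D) : Antitone (sat x1 x2) := by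
  intro i j hij b hb
  obtain ⟨k, hk⟩ := hb
  exact ⟨k, (pow_dvd_pow x1 hij).trans hk⟩

lemma pow_mem_sat (x1 x2 : D) (i : ℕ) : x1 ^ i ∈ sat x1 x2 i := ⟨0, by simp⟩

lemma mem_sat_of_mul [IsDomain D] {x1 x2 : D} (h1 : x1 ≠ 0) {i : ℕ} {c : D}
    (h : x1 * c ∈ sat x1 x2 (i + 1)) : c ∈ sat x1 x2 i := by
  obtain ⟨j, d, hd⟩ := h
  refine ⟨j, d, ?_⟩
  apply mul_left_cancel₀ h1
  calc x1 * (x2 ^ j * c) = x2 ^ j * (x1 * c) := by ring
    _ = x1 * (x1 ^ i * d) := by rw [hd]; ring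

/-- the element `x2` is not nilpotent modulo `x1`. -/
lemma not_mem_radical [IsLocalRing D] [IsNoetherianRing D] (hdim : ringKrullDim D = 2)
    (x1 x2 : D) (hx1 : x1 ∈ maximalIdeal D)
    {s : ℕ} (hs : maximalIdeal D ^ s ≤ Ideal.span {x1, x2}) :
    x2 ∉ (Ideal.span {x1}).radical := by
  intro hrad
  have hmem : maximalIdeal D ∈ (Ideal.span {x1}).minimalPrimes := by
    refine ⟨⟨inferInstance, (Ideal.span_singleton_le_iff_mem _).mpr hx1⟩, ?_⟩
    rintro P ⟨hP, hxP⟩ _
    have hx1P : x1 ∈ P := hxP (Ideal.mem_span_singleton_self x1)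
    have hx2P : x2 ∈ P := (hP.radical_le_iff.mpr hxP) hrad
    refine hP.le_of_pow_le (hs.trans ?_)
    rw [Ideal.span_le]
    rintro z hz
    simp only [Set.mem_insert_iff, Set.mem_singleton_iff] at hz
    rcases hz with rfl | rfl
    · exact hx1P
    · exact hx2P
  have hh := Ideal.height_le_one_of_isPrincipal_of_mem_minimalPrimes _ _ hmem
  rw [← IsLocalRing.maximalIdeal_height_eq_ringKrullDim] at hdim
  have h2 : (maximalIdeal D).height = 2 := by
    have : ((maximalIdeal D).height : WithBot ℕ∞) = ((2 : ℕ∞) : WithBot ℕ∞) := hdim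
    exact WithBot.coe_inj.mp this
  rw [h2] at hh
  exact absurd hh (by decide)

lemma eq_zero_of_mem_sat [IsDomain D] [IsNoetherianRing D] (x1 x2 : D)
    (hrad : x2 ∉ (Ideal.span {x1}).radical) (b : D) (hb : ∀ i, b ∈ sat x1 x2 i) : b = 0 := by
  have hrad' : ∃ P : Ideal D, (Ideal.span {x1} ≤ P ∧ P.IsPrime) ∧ x2 ∉ P := by
    by_contra hcon
    push Not at hcon
    apply hrad
    rw [Ideal.radical_eq_sInf, Submodule.mem_sInf]
    intro P hP
    exact hcon P hP
  obtain ⟨P, ⟨hxP, hP⟩, hx2P⟩ := hrad'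
  have hx1P : x1 ∈ P := hxP (Ideal.mem_span_singleton_self x1)
  have hP' : P.IsPrime := hP
  let L := Localization.AtPrime P
  have hinj : Function.Injective (algebraMap D L) :=
    IsLocalization.injective L (Ideal.primeCompl_le_nonZeroDivisors P)
  have : IsNoetherianRing L := IsLocalization.isNoetherianRing P.primeCompl L inferInstance
  have : IsDomain L := IsLocalization.isDomain_of_atPrime L P
  have hx1L : algebraMap D L x1 ∈ maximalIdeal L := by
    rw [IsLocalization.AtPrime.to_map_mem_maximal_iff L P]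
    exact hx1P
  have hk := Ideal.iInf_pow_eq_bot_of_isLocalRing (R := L) (maximalIdeal L)
    (Ideal.IsPrime.ne_top inferInstance)
  have hb' : algebraMap D L b ∈ (⨅ n : ℕ, maximalIdeal L ^ n) := by
    rw [Submodule.mem_iInf]
    intro i
    obtain ⟨j, d, hd⟩ := hb i
    have hu : IsUnit (algebraMap D L (x2 ^ j)) := by
      refine IsLocalization.map_units L (⟨x2 ^ j, ?_⟩ : P.primeCompl)
      intro h
      exact hx2P (hP.mem_of_pow_mem _ h)
    have h1 : algebraMap D L (x2 ^ j) * algebraMap D L b =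
        algebraMap D L x1 ^ i * algebraMap D L d := by
      rw [← map_mul, hd, map_mul, map_pow]
    have h2 : algebraMap D L (x2 ^ j) * algebraMap D L b ∈ maximalIdeal L ^ i := by
      rw [h1]
      exact Ideal.mul_mem_right _ _ (Ideal.pow_mem_pow hx1L i)
    exact (Ideal.unit_mul_mem_iff_mem _ hu).mp h2
  rw [hk] at hb'
  have h3 : algebraMap D L b = 0 := hb'
  rw [← map_zero (algebraMap D L)] at h3
  exact hinj h3

lemma exists_pow_mul_sat_le [IsLocalRing D] [IsNoetherianRing D] (x1 x2 : D)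
    {s : ℕ} (hs : maximalIdeal D ^ s ≤ Ideal.span {x1, x2}) :
    ∃ t, maximalIdeal D ^ t * sat x1 x2 1 ≤ Ideal.span {x1} := by
  obtain ⟨J, hJ⟩ := monotone_stabilizes_iff_noetherian.mpr (inferInstance : IsNoetherian D D)
    ⟨fun j => col (Ideal.span {x1}) (x2 ^ j), by
      intro a b hab z hz
      rw [mem_col] at hz ⊢
      obtain ⟨c, rfl⟩ := Nat.exists_eq_add_of_le hab
      rw [pow_add, ← mul_assoc]
      exact Ideal.mul_mem_right _ _ hz⟩
  have hJ' : ∀ b ∈ sat x1 x2 1, x2 ^ J * b ∈ Ideal.span {x1} := by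
    rintro b ⟨j, hj⟩
    rw [pow_one] at hj
    have h1 : b ∈ col (Ideal.span {x1}) (x2 ^ (max J j)) := by
      rw [mem_col, Ideal.mem_span_singleton]
      obtain ⟨c, hc⟩ := Nat.exists_eq_add_of_le (le_max_right J j)
      rw [hc, pow_add]
      have : b * (x2 ^ j * x2 ^ c) = x2 ^ c * (x2 ^ j * b) := by ring
      rw [this]
      exact Dvd.dvd.mul_left hj _
    have h2 : col (Ideal.span {x1}) (x2 ^ J) = col (Ideal.span {x1}) (x2 ^ (max J j)) :=
      hJ _ (le_max_left J j)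
    rw [← h2, mem_col, mul_comm] at h1
    exact h1
  refine ⟨s * (1 + J), ?_⟩
  have h1 : maximalIdeal D ^ (s * (1 + J)) ≤ Ideal.span {x1} ⊔ Ideal.span {x2 ^ J} := by
    rw [pow_mul]
    refine (Ideal.pow_right_mono hs _).trans ?_
    have h2 : Ideal.span {x1, x2} = Ideal.span {x1} ⊔ Ideal.span {x2} := by
      rw [← Ideal.span_union]; rfl
    rw [h2]
    refine (Ideal.sup_pow_add_le_pow_sup_pow).trans ?_
    rw [pow_one, Ideal.span_singleton_pow]
  refine (Ideal.mul_mono_left h1).trans ?_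
  rw [Ideal.sup_mul]
  refine sup_le Ideal.mul_le_left ?_
  rw [Ideal.mul_le]
  intro r hr b hb
  obtain ⟨c, rfl⟩ := Ideal.mem_span_singleton'.mp hr
  rw [mul_assoc]
  exact Ideal.mul_mem_left _ _ (hJ' b hb)

end sat

section growth

variable {D : Type*} [CommRing D]

lemma span_mul_eq_map (x : D) (N : Ideal D) :
    Ideal.span {x} * N = Submodule.map (LinearMap.lsmul D D x) N := by
  ext z
  rw [mul_comm, Ideal.mem_mul_span_singleton, Submodule.mem_map]
  constructor
  · rintro ⟨y, hy, rfl⟩; exact ⟨y, hy, by simp [mul_comm]⟩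
  · rintro ⟨y, hy, rfl⟩; exact ⟨y, hy, by simp [mul_comm]⟩

lemma rl_span_mul_le (x : D) (K N : Ideal D) :
    rl (Ideal.span {x} * K) (Ideal.span {x} * N) ≤ rl K N := by
  rw [span_mul_eq_map, span_mul_eq_map]
  exact rl_map_le _ _ _

lemma rl_sup_le (K A B : Ideal D) : rl K (A ⊔ B) ≤ rl K A + rl K B := by
  calc rl K (A ⊔ B) = rl K (K ⊔ (A ⊔ B)) := (rl_sup_right _ _).symm
    _ = rl K (K ⊔ A) + rl (K ⊔ A) (K ⊔ (A ⊔ B)) :=
      rl_add le_sup_left (sup_le_sup_left le_sup_left _)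
    _ = rl K A + rl (K ⊔ A) B := by
      rw [rl_sup_right, ← sup_assoc, rl_sup_right]
    _ ≤ rl K A + rl K B := add_le_add le_rfl (rl_anti_left le_sup_left)

lemma pow_mul_le (x1 x2 : D) (N : Ideal D) (i : ℕ) :
    Ideal.span {x1, x2} ^ (i + 1) * N ≤
      Ideal.span {x1 ^ (i + 1)} * N ⊔ Ideal.span {x2} * (Ideal.span {x1, x2} ^ i * N) := by
  have hq : Ideal.span {x1, x2} = Ideal.span {x1} ⊔ Ideal.span {x2} := by
    rw [← Ideal.span_union]; rfl
  induction i with
  | zero =>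
    rw [zero_add, pow_one, pow_one, pow_zero, one_mul, hq, Ideal.sup_mul]
  | succ i ih =>
    have h1 : Ideal.span {x1, x2} ^ (i + 1 + 1) * N =
        Ideal.span {x1} * (Ideal.span {x1, x2} ^ (i + 1) * N) ⊔
        Ideal.span {x2} * (Ideal.span {x1, x2} ^ (i + 1) * N) := by
      conv_lhs => rw [pow_succ' _ (i + 1)]
      rw [← Ideal.sup_mul, ← hq, mul_assoc]
    rw [h1]
    refine sup_le ?_ le_sup_right
    refine (Ideal.mul_mono_right ih).trans ?_
    rw [Ideal.mul_sup]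
    refine sup_le ?_ ?_
    · rw [← mul_assoc, Ideal.span_singleton_mul_span_singleton, ← pow_succ']
      exact le_sup_left
    · refine le_trans ?_ le_sup_right
      have h2 : Ideal.span {x1} * (Ideal.span {x2} * (Ideal.span {x1, x2} ^ i * N)) =
          Ideal.span {x2} * (Ideal.span {x1} * (Ideal.span {x1, x2} ^ i * N)) := by
        rw [← mul_assoc, mul_comm (Ideal.span {x1}), mul_assoc]
      rw [h2]
      refine Ideal.mul_mono_right ?_
      rw [pow_succ', mul_assoc]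
      refine Ideal.mul_mono_left ?_
      rw [hq]
      exact le_sup_left

lemma rl_pow_succ_le (x1 x2 : D) (N : Ideal D) (i : ℕ) :
    rl (Ideal.span {x1, x2} ^ (i + 1) * N) (Ideal.span {x1, x2} ^ i * N) ≤
      (i + 1 : ℕ) * rl (Ideal.span {x1, x2} * N) N := by
  induction i with
  | zero => simp
  | succ i ih =>
    have h1 : Ideal.span {x1 ^ (i + 1)} * (Ideal.span {x1, x2} * N) ≤
        Ideal.span {x1, x2} ^ (i + 1 + 1) * N := by
      rw [← mul_assoc, pow_succ _ (i + 1)]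
      refine Ideal.mul_mono_left (Ideal.mul_mono_left ?_)
      rw [Ideal.span_singleton_le_iff_mem]
      exact Ideal.pow_mem_pow (Ideal.subset_span (by simp)) _
    have h2 : Ideal.span {x2} * (Ideal.span {x1, x2} ^ (i + 1) * N) ≤
        Ideal.span {x1, x2} ^ (i + 1 + 1) * N := by
      rw [← mul_assoc, pow_succ' _ (i + 1)]
      refine Ideal.mul_mono_left (Ideal.mul_mono_left ?_)
      rw [Ideal.span_singleton_le_iff_mem]
      exact Ideal.subset_span (by simp)
    calc rl (Ideal.span {x1, x2} ^ (i + 1 + 1) * N) (Ideal.span {x1, x2} ^ (i + 1) * N)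
        ≤ rl (Ideal.span {x1, x2} ^ (i + 1 + 1) * N)
          (Ideal.span {x1 ^ (i + 1)} * N ⊔
            Ideal.span {x2} * (Ideal.span {x1, x2} ^ i * N)) := rl_mono_right (pow_mul_le _ _ _ _)
      _ ≤ rl (Ideal.span {x1, x2} ^ (i + 1 + 1) * N) (Ideal.span {x1 ^ (i + 1)} * N) +
          rl (Ideal.span {x1, x2} ^ (i + 1 + 1) * N)
            (Ideal.span {x2} * (Ideal.span {x1, x2} ^ i * N)) := rl_sup_le _ _ _
      _ ≤ rl (Ideal.span {x1 ^ (i + 1)} * (Ideal.span {x1, x2} * N))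
            (Ideal.span {x1 ^ (i + 1)} * N) +
          rl (Ideal.span {x2} * (Ideal.span {x1, x2} ^ (i + 1) * N))
            (Ideal.span {x2} * (Ideal.span {x1, x2} ^ i * N)) :=
          add_le_add (rl_anti_left h1) (rl_anti_left h2)
      _ ≤ rl (Ideal.span {x1, x2} * N) N + (i + 1 : ℕ) * rl (Ideal.span {x1, x2} * N) N :=
          add_le_add (rl_span_mul_le _ _ _) ((rl_span_mul_le _ _ _).trans ih)
      _ = (i + 1 + 1 : ℕ) * rl (Ideal.span {x1, x2} * N) N := by
          push_cast; ring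

lemma pow_succ_mul_le (q N : Ideal D) (i : ℕ) : q ^ (i + 1) * N ≤ q ^ i * N :=
  Ideal.mul_mono_left (Ideal.pow_le_pow_right (Nat.le_succ i))

lemma two_mul_rl_pow_le (x1 x2 : D) (N : Ideal D) (j : ℕ) :
    2 * rl (Ideal.span {x1, x2} ^ j * N) N ≤
      (j * (j + 1) : ℕ) * rl (Ideal.span {x1, x2} * N) N := by
  induction j with
  | zero => simp
  | succ j ih =>
    have h1 : rl (Ideal.span {x1, x2} ^ (j + 1) * N) N =
        rl (Ideal.span {x1, x2} ^ (j + 1) * N) (Ideal.span {x1, x2} ^ j * N) +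
        rl (Ideal.span {x1, x2} ^ j * N) N :=
      rl_add (pow_succ_mul_le _ _ _) Ideal.mul_le_right
    rw [h1, mul_add]
    refine (add_le_add (mul_le_mul_right (rl_pow_succ_le x1 x2 N j) 2) ih).trans (le_of_eq ?_)
    push_cast; ring

lemma rl_pow_le (x1 x2 : D) (i c : ℕ) :
    rl (Ideal.span {x1, x2} ^ (i + c)) (Ideal.span {x1, x2} ^ i) ≤
      (c * (i + c) : ℕ) * ell (Ideal.span {x1, x2}) := by
  induction c with
  | zero => simp
  | succ c ih =>
    have h0 := rl_pow_succ_le x1 x2 (⊤ : Ideal D) (i + c)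
    rw [Ideal.mul_top, Ideal.mul_top, Ideal.mul_top, rl_top] at h0
    have h1 : rl (Ideal.span {x1, x2} ^ (i + (c + 1))) (Ideal.span {x1, x2} ^ i) =
        rl (Ideal.span {x1, x2} ^ (i + c + 1)) (Ideal.span {x1, x2} ^ (i + c)) +
        rl (Ideal.span {x1, x2} ^ (i + c)) (Ideal.span {x1, x2} ^ i) :=
      rl_add (Ideal.pow_le_pow_right (by omega)) (Ideal.pow_le_pow_right (by omega))
    rw [h1]
    refine (add_le_add h0 ih).trans ?_
    change (i + c + 1 : ℕ) * ell (Ideal.span {x1, x2}) + _ ≤ _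
    rw [← add_mul, ← Nat.cast_add]
    refine mul_le_mul_left ?_ _
    rw [Nat.cast_le]
    nlinarith

end growth

end Mcm

open Mcm in
/-- growth comparison for a nonzero ideal of a domain. -/
theorem growth_le {D : Type*} [CommRing D] [IsDomain D] [IsLocalRing D]
    [IsNoetherianRing D] (x1 x2 : D) (hx1 : x1 ∈ maximalIdeal D) (hx2 : x2 ∈ maximalIdeal D)
    (hfin : Module.length D (D ⧸ Ideal.span {x1, x2}) ≠ ⊤) (C : Ideal D) (hC : C ≠ ⊥) :
    ∃ K : ℕ, ∀ j : ℕ, 2 * Module.length D (D ⧸ maximalIdeal D ^ j) ≤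
      rl (Ideal.span {x1, x2} * C) C * (j : ℕ∞) ^ 2 + (K : ℕ∞) * ((j : ℕ∞) + 1) := by
  obtain ⟨s, hs⟩ := exists_pow_le_of_ell_ne_top hfin
  set q : Ideal D := Ideal.span {x1, x2} with hq
  by_cases htop : rl (q * C) C = ⊤
  · refine ⟨0, fun j => ?_⟩
    rw [htop]
    rcases Nat.eq_zero_or_pos j with rfl | hj
    · have : Module.length D (D ⧸ maximalIdeal D ^ 0) = 0 := by
        rw [pow_zero, Ideal.one_eq_top]; exact ell_top
      rw [this]; simp
    · have : (⊤ : ℕ∞) * (j : ℕ∞) ^ 2 = ⊤ := by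
        apply ENat.top_mul
        have : (j : ℕ∞) ≠ 0 := by exact_mod_cast hj.ne'
        exact pow_ne_zero 2 this
      rw [this]; simp
  obtain ⟨h, hh⟩ := ENat.ne_top_iff_exists.mp htop
  obtain ⟨e, he⟩ := ENat.ne_top_iff_exists.mp (show ell q ≠ ⊤ from hfin)
  obtain ⟨z, hzC, hz0⟩ := (Submodule.ne_bot_iff _).mp hC
  obtain ⟨k, hk⟩ := artin_rees_col q z
  have hcolbot : col (⊥ : Ideal D) z = ⊥ := by
    rw [eq_bot_iff]
    intro a ha
    rw [mem_col, Ideal.mem_bot] at ha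
    exact (mul_eq_zero.mp ha).resolve_right hz0
  have hell_pow : ∀ j, ell (q ^ j) ≠ ⊤ := by
    intro j
    refine ell_ne_top_of_pow_le (s := s * j) ?_
    rw [pow_mul]
    exact Ideal.pow_right_mono hs j
  obtain ⟨L, hL⟩ := ENat.ne_top_iff_exists.mp (hell_pow k)
  have hlin : ∀ j, ell (q ^ j ⊔ Ideal.span {z}) ≤ (k * j * e + L : ℕ) := by
    intro j
    rcases le_or_gt k j with hkj | hkj
    · have h1 := ell_eq_add (q ^ j) z
      have h2 : ell (q ^ (j - k)) ≤ ell (col (q ^ j) z) := by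
        refine ell_mono ?_
        have := hk j hkj
        rwa [hcolbot, sup_bot_eq] at this
      have h3 : ell (q ^ j) = rl (q ^ j) (q ^ (j - k)) + ell (q ^ (j - k)) := by
        have := rl_add (K := q ^ j) (L := q ^ (j - k)) (N := ⊤)
          (Ideal.pow_le_pow_right (by omega)) le_top
        rw [rl_top, rl_top] at this
        exact this
      have h4 : rl (q ^ j) (q ^ (j - k)) ≤ (k * j * e : ℕ) := by
        have := rl_pow_le x1 x2 (j - k) k
        rw [Nat.sub_add_cancel hkj, ← hq, ← he] at this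
        exact_mod_cast this
      have h5 : ell (q ^ (j - k)) + ell (q ^ j ⊔ Ideal.span {z}) ≤
          ell (q ^ (j - k)) + (k * j * e : ℕ) := by
        calc ell (q ^ (j - k)) + ell (q ^ j ⊔ Ideal.span {z})
            ≤ ell (col (q ^ j) z) + ell (q ^ j ⊔ Ideal.span {z}) := add_le_add h2 le_rfl
          _ = rl (q ^ j) (q ^ (j - k)) + ell (q ^ (j - k)) := by rw [← h1, h3]
          _ ≤ (k * j * e : ℕ) + ell (q ^ (j - k)) := add_le_add h4 le_rfl
          _ = _ := add_comm _ _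
      have h6 := (ENat.add_le_add_iff_left (hell_pow (j - k))).mp h5
      refine h6.trans ?_
      exact_mod_cast Nat.le_add_right _ _
    · have h1 : ell (q ^ j ⊔ Ideal.span {z}) ≤ ell (q ^ k) :=
        ell_mono ((Ideal.pow_le_pow_right hkj.le).trans le_sup_left)
      rw [← hL] at h1
      refine h1.trans ?_
      exact_mod_cast Nat.le_add_left _ _
  refine ⟨h + 2 * (k * e) + 2 * L, fun j => ?_⟩
  have g1 : Module.length D (D ⧸ maximalIdeal D ^ j) ≤ ell (q ^ j) := by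
    refine ell_mono (Ideal.pow_right_mono ?_ j)
    rw [hq, Ideal.span_le]
    rintro w hw
    simp only [Set.mem_insert_iff, Set.mem_singleton_iff] at hw
    rcases hw with rfl | rfl
    · exact hx1
    · exact hx2
  have g2 : ell (q ^ j) ≤ rl (q ^ j * C) C + (k * j * e + L : ℕ) := by
    have h1 : ell (q ^ j) = rl (q ^ j) ⊤ := (rl_top _).symm
    rw [h1]
    calc rl (q ^ j) ⊤ = rl (q ^ j) (q ^ j ⊔ C) + rl (q ^ j ⊔ C) ⊤ := rl_add le_sup_left le_top
      _ = rl (q ^ j) C + ell (q ^ j ⊔ C) := by rw [rl_sup_right, rl_top]; rfl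
      _ ≤ rl (q ^ j * C) C + ell (q ^ j ⊔ Ideal.span {z}) :=
        add_le_add (rl_anti_left Ideal.mul_le_left)
          (ell_mono (sup_le_sup_left ((Ideal.span_singleton_le_iff_mem _).mpr hzC) _))
      _ ≤ _ := add_le_add le_rfl (hlin j)
  have g3 := two_mul_rl_pow_le x1 x2 C j
  rw [← hq, ← hh] at g3
  rw [← hh]
  calc 2 * Module.length D (D ⧸ maximalIdeal D ^ j)
      ≤ 2 * (rl (q ^ j * C) C + (k * j * e + L : ℕ)) := mul_le_mul_right (g1.trans g2) 2
    _ = 2 * rl (q ^ j * C) C + 2 * (k * j * e + L : ℕ) := mul_add _ _ _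
    _ ≤ (j * (j + 1) : ℕ) * (h : ℕ∞) + 2 * (k * j * e + L : ℕ) := add_le_add g3 le_rfl
    _ ≤ _ := by
      norm_cast
      nlinarith [Nat.zero_le (h * j), Nat.zero_le (k * e), Nat.zero_le (L * j)]

open Mcm in
/-- existence of a maximal Cohen-Macaulay ideal, with a hypothesis on the two elements instead of
the dimension. -/
theorem exists_mcm_ideal' {D : Type*} [CommRing D] [IsDomain D] [IsLocalRing D]
    [IsNoetherianRing D] [IsAdicComplete (maximalIdeal D) D]
    (x1 x2 : D) (hx10 : x1 ≠ 0) (hrad : x2 ∉ (Ideal.span {x1}).radical) {s : ℕ}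
    (hs : maximalIdeal D ^ s ≤ Ideal.span {x1, x2}) :
    ∃ C : Ideal D, C ≠ ⊥ ∧ (∀ v ∈ C, x1 * v = 0 → v = 0) ∧
      (∀ v ∈ C, ∀ w ∈ C, x2 * v = x1 * w → ∃ u ∈ C, v = x1 * u) := by
  obtain ⟨t, ht⟩ := exists_pow_mul_sat_le x1 x2 hs
  obtain ⟨k, hk⟩ := Ideal.exists_pow_inf_eq_pow_smul (M := D) (maximalIdeal D) (sat x1 x2 1)
  obtain ⟨i, hi⟩ := chevalley (sat x1 x2) (sat_anti x1 x2)
    (eq_zero_of_mem_sat x1 x2 hrad) (k + t)
  have hdvd : ∀ v ∈ sat x1 x2 (i + 1), x1 ∣ v := by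
    intro v hv
    have h1 : v ∈ maximalIdeal D ^ (k + t) • (⊤ : Ideal D) ⊓ sat x1 x2 1 := by
      refine ⟨?_, sat_anti x1 x2 (by omega) hv⟩
      have : v ∈ maximalIdeal D ^ (k + t) := hi (sat_anti x1 x2 (by omega) hv)
      simpa using this
    rw [hk (k + t) (by omega)] at h1
    have h2 : k + t - k = t := by omega
    rw [h2] at h1
    have h3 : v ∈ maximalIdeal D ^ t * sat x1 x2 1 := Submodule.smul_mono le_rfl inf_le_right h1
    exact Ideal.mem_span_singleton.mp (ht h3)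
  refine ⟨sat x1 x2 i, ?_, ?_, ?_⟩
  · intro h
    have h1 := pow_mem_sat x1 x2 i
    rw [h] at h1
    exact pow_ne_zero i hx10 h1
  · intro v _ hv
    exact (mul_eq_zero.mp hv).resolve_left hx10
  · intro v _ w hw h
    have h1 : v ∈ sat x1 x2 (i + 1) := by
      obtain ⟨j, d, hd⟩ := hw
      refine ⟨j + 1, d, ?_⟩
      have : x2 ^ (j + 1) * v = x2 ^ j * (x2 * v) := by rw [pow_succ]; ring
      rw [this, h, pow_succ']
      have : x2 ^ j * (x1 * w) = x1 * (x2 ^ j * w) := by ring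
      rw [this, hd]; ring
    obtain ⟨u, rfl⟩ := hdvd v h1
    exact ⟨u, mem_sat_of_mul hx10 h1, rfl⟩

open Mcm in
/-- a complete local domain of dimension two has an ideal which is a maximal
Cohen-Macaulay module. -/
theorem exists_mcm_ideal {D : Type*} [CommRing D] [IsDomain D] [IsLocalRing D]
    [IsNoetherianRing D] [IsAdicComplete (maximalIdeal D) D] (hdim : ringKrullDim D = 2)
    (x1 x2 : D) (hx1 : x1 ∈ maximalIdeal D) (hx2 : x2 ∈ maximalIdeal D)
    (hfin : Module.length D (D ⧸ Ideal.span {x1, x2}) ≠ ⊤) :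
    ∃ C : Ideal D, C ≠ ⊥ ∧ (∀ v ∈ C, x1 * v = 0 → v = 0) ∧
      (∀ v ∈ C, ∀ w ∈ C, x2 * v = x1 * w → ∃ u ∈ C, v = x1 * u) := by
  obtain ⟨s, hs⟩ := exists_pow_le_of_ell_ne_top hfin
  have hrad := not_mem_radical hdim x1 x2 hx1 hs
  have hx10 : x1 ≠ 0 := by
    rintro rfl
    have hs' : maximalIdeal D ^ s ≤ Ideal.span {x2, (0 : D)} := by
      rw [Set.pair_comm]; exact hs
    exact not_mem_radical hdim x2 0 hx2 hs' (Ideal.zero_mem _)
  exact exists_mcm_ideal' x1 x2 hx10 hrad hs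

end Vale.Agent.P202
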