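import Vale.Agent.P202.CoreB

/-!
Flatness over a local ring gives the property used in the core inequality; comparison of relative
lengths over the two rings.
-/

namespace Vale.Agent.P202

open Submodule TensorProduct IsLocalRing

section
variable {A B : Type*} [CommRing A] [CommRing B] [Algebra A B] {V : Type*} [AddCommGroup V]
  [Module A V] [Module B V] [IsScalarTower A B V]

/-- a retraction onto the residue field. -/
lemma exists_functionalB (m : Ideal A) [m.IsMaximal] (n : Ideal B) [n.IsMaximal]
    (hmn : m.map (algebraMap A B) ≤ n) (W : Submodule B V)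
    (hmW : (m.map (algebraMap A B)) • (⊤ : Submodule B V) ≤ W) {u : V} (hu : u ∉ W)
    (hnu : ∀ r ∈ n, r • u ∈ W) :
    ∃ ψ : V →ₗ[A] (B ⧸ n), (∀ w ∈ W, ψ w = 0) ∧ ∀ b : B, ψ (b • u) = Ideal.Quotient.mk n b := by
  let _ : Field (A ⧸ m) := Ideal.Quotient.field m
  have hm : ∀ r ∈ m, ∀ v : V, r • v ∈ W := by
    intro r hr v
    rw [← algebraMap_smul B r v]
    exact hmW (Submodule.smul_mem_smul (Ideal.mem_map_of_mem _ hr) Submodule.mem_top)
  have htor : Module.IsTorsionBySet A (V ⧸ W) m := by
    intro x r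
    obtain ⟨x, rfl⟩ := Submodule.Quotient.mk_surjective _ x
    change Submodule.Quotient.mk (r.1 • x) = _
    rw [Submodule.Quotient.mk_eq_zero]
    exact hm _ r.2 x
  have htor2 : Module.IsTorsionBySet A (B ⧸ n) m := by
    intro x r
    obtain ⟨x, rfl⟩ := Submodule.Quotient.mk_surjective _ x
    change Submodule.Quotient.mk (r.1 • x) = _
    rw [Submodule.Quotient.mk_eq_zero, Algebra.smul_def]
    exact n.mul_mem_right _ (hmn (Ideal.mem_map_of_mem _ r.2))
  let _ : Module (A ⧸ m) (V ⧸ W) := htor.module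
  have _ : IsScalarTower A (A ⧸ m) (V ⧸ W) := htor.isScalarTower
  let _ : Module (A ⧸ m) (B ⧸ n) := htor2.module
  have _ : IsScalarTower A (A ⧸ m) (B ⧸ n) := htor2.isScalarTower
  let f0 : B →ₗ[B] (V ⧸ W) := W.mkQ.comp (LinearMap.toSpanSingleton B V u)
  have hf0 : ∀ b, f0 b = Submodule.Quotient.mk (b • u) := fun b => rfl
  have hker : LinearMap.ker f0 = n := by
    refine (Ideal.IsMaximal.eq_of_le (inferInstance : n.IsMaximal) ?_ ?_).symm
    · intro h
      apply hu
      have h1 : (1 : B) ∈ LinearMap.ker f0 := by rw [h]; trivial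
      rw [LinearMap.mem_ker, hf0, one_smul, Submodule.Quotient.mk_eq_zero] at h1
      exact h1
    · intro r hr
      rw [LinearMap.mem_ker, hf0, Submodule.Quotient.mk_eq_zero]
      exact hnu r hr
  let f1 : (B ⧸ n) →ₗ[B] (V ⧸ W) := n.liftQ f0 hker.ge
  have hf1 : ∀ b : B, f1 (Submodule.Quotient.mk b) = Submodule.Quotient.mk (b • u) := fun b => rfl
  have hf1inj : Function.Injective f1 := by
    rw [← LinearMap.ker_eq_bot]
    exact Submodule.ker_liftQ_eq_bot _ _ _ hker.le
  let f2 : (B ⧸ n) →ₗ[A ⧸ m] (V ⧸ W) :=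
    { toFun := f1
      map_add' := f1.map_add
      map_smul' := by
        intro r x
        obtain ⟨r, rfl⟩ := Ideal.Quotient.mk_surjective r
        have h1 : (Ideal.Quotient.mk m r) • x = r • x := by
          rw [← algebraMap_smul (A ⧸ m) r x]; rfl
        have h2 : (Ideal.Quotient.mk m r) • f1 x = r • f1 x := by
          rw [← algebraMap_smul (A ⧸ m) r (f1 x)]; rfl
        rw [h1, RingHom.id_apply, h2, ← algebraMap_smul B r x, map_smul, algebraMap_smul] }
  have hf2 : ∀ x, f2 x = f1 x := fun x => rfl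
  obtain ⟨g, hg⟩ := f2.exists_leftInverse_of_injective (LinearMap.ker_eq_bot.mpr hf1inj)
  refine ⟨(g.restrictScalars A).comp (W.mkQ.restrictScalars A), ?_, ?_⟩
  · intro w hw
    have : (Submodule.Quotient.mk w : V ⧸ W) = 0 := (Submodule.Quotient.mk_eq_zero _).mpr hw
    simp only [LinearMap.comp_apply, LinearMap.restrictScalars_apply, Submodule.mkQ_apply, this,
      map_zero]
  · intro b
    simp only [LinearMap.comp_apply, LinearMap.restrictScalars_apply, Submodule.mkQ_apply]
    rw [← hf1, ← hf2]
    exact LinearMap.congr_fun hg (Submodule.Quotient.mk b)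

/-- flatness gives `FlatLike`. -/
theorem flatLike_of_flat [Module.Flat A V] (m : Ideal A) [m.IsMaximal] (n : Ideal B) [n.IsMaximal]
    (hmn : m.map (algebraMap A B) ≤ n) {I I' : Ideal A} (hII : I ≤ I') :
    FlatLike (m.map (algebraMap A B)) n V (I.map (algebraMap A B)) (I'.map (algebraMap A B)) := by
  intro W u hmW hu hnu w hw h
  obtain ⟨ψ, hψ0, hψ1⟩ := exists_functionalB m n hmn W hmW hu hnu
  let q : I' →ₗ[A] (I' ⧸ (I.submoduleOf I')) := Submodule.mkQ _
  let θ : (I' ⊗[A] V) →ₗ[A] ((I' ⧸ (I.submoduleOf I')) ⊗[A] (B ⧸ n)) := TensorProduct.map q ψ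
  let e : (I' ⊗[A] V) →ₗ[A] V :=
    TensorProduct.lift ((LinearMap.lsmul A V).comp (Submodule.subtype I'))
  have he : ∀ (z : I') (v : V), e (z ⊗ₜ v) = (z : A) • v := by
    intro z v
    simp [e]
  have hinj : Function.Injective e := by
    have h1 := Module.Flat.rTensor_preserves_injective_linearMap (M := V)
      (Submodule.subtype I') (Submodule.subtype_injective I')
    have h2 : e = (TensorProduct.lid A V).toLinearMap ∘ₗ
        (LinearMap.rTensor V (Submodule.subtype I')) := by
      ext z v
      simp [e]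
    rw [h2]
    exact (TensorProduct.lid A V).injective.comp h1
  -- the image of the kernel of `θ`
  have hS : I' • (W.restrictScalars A) ⊔ I • (⊤ : Submodule A V) ≤
      Submodule.map e (LinearMap.ker θ) := by
    rw [sup_le_iff]
    constructor
    · rw [Submodule.smul_le]
      intro r hr x hx
      refine ⟨(⟨r, hr⟩ : I') ⊗ₜ x, ?_, by rw [he]⟩
      rw [SetLike.mem_coe, LinearMap.mem_ker]
      simp only [θ, TensorProduct.map_tmul]
      rw [hψ0 x hx, TensorProduct.tmul_zero]
    · rw [Submodule.smul_le]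
      intro r hr x _
      refine ⟨(⟨r, hII hr⟩ : I') ⊗ₜ x, ?_, by rw [he]⟩
      rw [SetLike.mem_coe, LinearMap.mem_ker]
      simp only [θ, TensorProduct.map_tmul]
      have : q (⟨r, hII hr⟩ : I') = 0 := by
        change Submodule.Quotient.mk (⟨r, hII hr⟩ : I') = 0
        rw [Submodule.Quotient.mk_eq_zero]
        exact hr
      rw [this, TensorProduct.zero_tmul]
  have h' : w • u ∈ I' • (W.restrictScalars A) ⊔ I • (⊤ : Submodule A V) := by
    have e1 := Ideal.smul_restrictScalars (R := A) (S := B) I' W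
    have e2 := Ideal.smul_restrictScalars (R := A) (S := B) I (⊤ : Submodule B V)
    obtain ⟨p, hp, r, hr, hpr⟩ := Submodule.mem_sup.mp h
    rw [← hpr]
    refine Submodule.add_mem _ (Submodule.mem_sup_left ?_) (Submodule.mem_sup_right ?_)
    · rw [← e1]; exact hp
    · rw [Submodule.restrictScalars_top] at e2
      rw [← e2]; exact hr
  obtain ⟨z, hz, hze⟩ := hS h'
  -- lift of `w`
  let μ : (I' ⊗[A] B) →ₗ[A] B :=
    TensorProduct.lift ((LinearMap.lsmul A B).comp (Submodule.subtype I'))
  have hμ : ∀ (z : I') (b : B), μ (z ⊗ₜ b) = (z : A) • b := by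
    intro z b
    simp [μ]
  have hw' : w ∈ Submodule.map μ ⊤ := by
    have h1 : w ∈ I' • (⊤ : Submodule A B) := by
      rw [Ideal.smul_top_eq_map]; exact hw
    refine (?_ : I' • (⊤ : Submodule A B) ≤ Submodule.map μ ⊤) h1
    rw [Submodule.smul_le]
    intro r hr b _
    exact ⟨(⟨r, hr⟩ : I') ⊗ₜ b, trivial, by rw [hμ]⟩
  obtain ⟨y, -, hy⟩ := hw'
  let ρ : B →ₗ[A] V := (LinearMap.toSpanSingleton B V u).restrictScalars A
  have hρ : ∀ b, ρ b = b • u := fun b => rfl
  have heρ : ∀ y, e (LinearMap.lTensor I' ρ y) = ρ (μ y) := by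
    intro y
    have : e ∘ₗ LinearMap.lTensor I' ρ = ρ ∘ₗ μ := by
      refine TensorProduct.ext' fun a b => ?_
      rw [LinearMap.comp_apply, LinearMap.comp_apply, LinearMap.lTensor_tmul, he, hμ, map_smul]
    exact LinearMap.congr_fun this y
  have hyz : LinearMap.lTensor I' ρ y = z := by
    apply hinj
    rw [heρ, hze, hy, hρ]
  have hθy : TensorProduct.map q (Ideal.Quotient.mkₐ A n).toLinearMap y = 0 := by
    have h1 : TensorProduct.map q (Ideal.Quotient.mkₐ A n).toLinearMap =
        θ ∘ₗ LinearMap.lTensor I' ρ := by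
      refine TensorProduct.ext' fun a b => ?_
      rw [LinearMap.comp_apply, LinearMap.lTensor_tmul]
      simp only [θ, TensorProduct.map_tmul]
      rw [hρ, hψ1]
      rfl
    rw [h1, LinearMap.comp_apply, hyz]
    exact hz
  have hex1 : Function.Exact (Submodule.subtype (I.submoduleOf I')) q :=
    LinearMap.exact_subtype_mkQ _
  have hex2 : Function.Exact (Submodule.subtype (n.restrictScalars A))
      (Ideal.Quotient.mkₐ A n).toLinearMap := by
    intro x
    have h1 : (Ideal.Quotient.mkₐ A n).toLinearMap x = 0 ↔ x ∈ n := Ideal.Quotient.eq_zero_iff_mem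
    rw [h1]
    constructor
    · intro hx; exact ⟨⟨x, hx⟩, rfl⟩
    · rintro ⟨x, rfl⟩; exact x.2
  have hyker : y ∈ LinearMap.ker (TensorProduct.map q (Ideal.Quotient.mkₐ A n).toLinearMap) := hθy
  rw [TensorProduct.map_ker hex1 (Submodule.mkQ_surjective _) hex2
    (Ideal.Quotient.mkₐ_surjective A n)] at hyker
  have hm1 : ∀ y1, μ (LinearMap.lTensor I' (Submodule.subtype (n.restrictScalars A)) y1) ∈
      n * I'.map (algebraMap A B) := by
    intro y1
    induction y1 using TensorProduct.induction_on with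
    | zero => rw [map_zero, map_zero]; exact Ideal.zero_mem _
    | tmul a b =>
      rw [LinearMap.lTensor_tmul, hμ, Algebra.smul_def, mul_comm (algebraMap A B a)]
      exact Ideal.mul_mem_mul b.2 (Ideal.mem_map_of_mem _ a.2)
    | add a b ha hb =>
      rw [map_add, map_add]
      exact Ideal.add_mem _ ha hb
  have hm2 : ∀ y2, μ (LinearMap.rTensor B (Submodule.subtype (I.submoduleOf I')) y2) ∈
      I.map (algebraMap A B) := by
    intro y2
    induction y2 using TensorProduct.induction_on with
    | zero => rw [map_zero, map_zero]; exact Ideal.zero_mem _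
    | tmul a b =>
      rw [LinearMap.rTensor_tmul, hμ, Algebra.smul_def]
      exact Ideal.mul_mem_right _ _ (Ideal.mem_map_of_mem _ a.2)
    | add a b ha hb =>
      rw [map_add, map_add]
      exact Ideal.add_mem _ ha hb
  obtain ⟨y1, ⟨y1, rfl⟩, y2, ⟨y2, rfl⟩, hy12⟩ := Submodule.mem_sup.mp hyker
  rw [← hy, ← hy12, map_add]
  exact Ideal.add_mem _ (Ideal.mem_sup_right (hm1 y1)) (Ideal.mem_sup_left (hm2 y2))

end

section
variable {A B : Type*} [CommRing A] [IsLocalRing A] [CommRing B] [IsLocalRing B] [Algebra A B]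
  [IsLocalHom (algebraMap A B)]

lemma map_maximalIdeal_le : (maximalIdeal A).map (algebraMap A B) ≤ maximalIdeal B :=
  ((IsLocalRing.local_hom_TFAE (algebraMap A B)).out 0 2).mp
    (inferInstance : IsLocalHom (algebraMap A B))

/-- comparison of lengths over `A` and over `B`. -/
theorem rl_map_eq [Module.Flat A B] {I I' : Ideal A} (hII : I ≤ I') (hm : maximalIdeal A * I' ≤ I) (N : ℕ)
    (hN : rl I I' = (N : ℕ∞)) :
    rl (I.map (algebraMap A B) ⊔ maximalIdeal B * I'.map (algebraMap A B))
      (I'.map (algebraMap A B)) = (N : ℕ∞) := by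
  set Z : Ideal B := I.map (algebraMap A B) ⊔ maximalIdeal B * I'.map (algebraMap A B) with hZ
  have key := chain_inductionB (B := A) (V := A) (W := I) (P := fun n J => J ≤ I' →
    rl Z (Ideal.map (algebraMap A B) J ⊔ Z) = (n : ℕ∞)) ?_ ?_ N I' hII hN le_rfl
  · have h1 : I'.map (algebraMap A B) ⊔ Z = I'.map (algebraMap A B) := by
      rw [sup_eq_left]
      exact sup_le (Ideal.map_mono hII) Ideal.mul_le_right
    rw [h1] at key
    exact key
  · intro _
    rw [Nat.cast_zero, rl_eq_zero_iff]
    exact sup_le le_sup_left le_rfl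
  · intro n (J : Ideal A) u hIJ hu hmu ih hJu
    have hJ : J ≤ I' := le_sup_left.trans hJu
    have huI' : u ∈ I' := hJu (Submodule.mem_sup_right (Submodule.mem_span_singleton_self u))
    have e1 : Ideal.map (algebraMap A B) (J ⊔ span A {u}) ⊔ Z =
        (J.map (algebraMap A B) ⊔ Z) ⊔ span B {algebraMap A B u} := by
      have : Ideal.map (algebraMap A B) (span A {u}) = span B {algebraMap A B u} := by
        change (Ideal.span {u}).map (algebraMap A B) = Ideal.span {algebraMap A B u}
        rw [Ideal.map_span, Set.image_singleton]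
      rw [Ideal.map_sup, this, sup_right_comm]
    have hu' : algebraMap A B u ∉ J.map (algebraMap A B) ⊔ Z := by
      intro hmem
      apply hu
      have hle : J.map (algebraMap A B) ⊔ Z ≤
          J.map (algebraMap A B) ⊔ maximalIdeal B * I'.map (algebraMap A B) := by
        refine sup_le le_sup_left (sup_le ?_ le_sup_right)
        exact (Ideal.map_mono hIJ).trans le_sup_left
      have h1 := hle hmem
      refine mem_of_smul_mem (V := B) (maximalIdeal A) (I := J) (I' := I') hJ (hm.trans hIJ)
        ((maximalIdeal B).restrictScalars A) ?_ (u := 1) ?_ huI' ?_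
      · rw [Ideal.smul_top_eq_map]
        intro x hx
        exact map_maximalIdeal_le hx
      · intro h2
        exact (Ideal.ne_top_iff_one _).mp (IsLocalRing.maximalIdeal.isMaximal B).ne_top h2
      · obtain ⟨p, hp, q, hq, hpq⟩ := Submodule.mem_sup.mp h1
        have h3 : u • (1 : B) = q + p := by
          rw [Algebra.smul_def, mul_one, ← hpq, add_comm]
        rw [h3]
        refine Submodule.add_mem _ (Submodule.mem_sup_left ?_) (Submodule.mem_sup_right ?_)
        · have e2 := Ideal.smul_restrictScalars (R := A) (S := B) I' (maximalIdeal B)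
          rw [← e2]
          rw [mul_comm] at hq
          exact hq
        · rw [Ideal.smul_top_eq_map]
          exact hp
    have hnu : ∀ r ∈ maximalIdeal B, r • algebraMap A B u ∈ J.map (algebraMap A B) ⊔ Z := by
      intro r hr
      refine Ideal.mem_sup_right (Ideal.mem_sup_right ?_)
      exact Ideal.mul_mem_mul hr (Ideal.mem_map_of_mem _ huI')
    rw [e1, rl_add (le_sup_right : Z ≤ J.map (algebraMap A B) ⊔ Z) le_sup_left, ih hJ,
      rl_sup_span_eq_one (maximalIdeal B) hu' hnu]
    push_cast
    rfl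

end

end Vale.Agent.P202
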