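import Vale.Agent.P202.GprFg
import Vale.Agent.P202.FlatB
import Vale.Agent.P202.Chain
import Vale.Agent.P202.Base
import Vale.Agent.P202.Basic

/-!
Slope bounds: translation from graded vector spaces to ideals.
-/

namespace Vale.Agent.P202

set_option linter.unusedSectionVars false

open IsLocalRing TensorProduct

section corr
variable {R K : Type*} [CommRing R] [Field K] [Algebra R K] {M E T : Type*} [AddCommGroup M]
  [Module R M] [AddCommGroup E] [Module R E] [AddCommGroup T] [Module R T] [Module K T]
  [IsScalarTower R K T]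

/-- lengths through a correspondence. -/
lemma corr_lengths (hsurj : Function.Surjective (algebraMap R K)) (f : E →ₗ[R] M) (g : E →ₗ[R] T)
    (hg : Function.Surjective g) {Z H P : Submodule R M} (hZ : Z.comap f = LinearMap.ker g)
    (hH : LinearMap.range f = H) (hP : P ≤ H) (Pb : Submodule K T)
    (hcorr : P.comap f = (Pb.restrictScalars R).comap g) :
    rl P H = Module.length K (T ⧸ Pb) ∧ rl Z P = Module.length K Pb := by
  subst hH
  constructor
  · have h1 := rl_eq_of_corr f g (K₁ := P) (N₁ := LinearMap.range f)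
      (K₂ := Pb.restrictScalars R) (N₂ := ⊤) hcorr rfl (by rw [LinearMap.range_eq_top.mpr hg])
    rw [h1, rl_top, (Submodule.Quotient.restrictScalarsEquiv R Pb).length_eq]
    have : IsScalarTower R K (T ⧸ Pb) := ⟨fun r c x => by
      obtain ⟨x, rfl⟩ := Submodule.Quotient.mk_surjective _ x
      rw [← Submodule.Quotient.mk_smul, ← Submodule.Quotient.mk_smul, ← Submodule.Quotient.mk_smul,
        smul_assoc]⟩
    exact Module.length_eq_of_surjective hsurj
  · have h1 := rl_eq_of_corr (E := ↥(P.comap f)) (f.comp (Submodule.subtype _))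
      (g.comp (Submodule.subtype _)) (K₁ := Z) (N₁ := P)
      (K₂ := ⊥) (N₂ := Pb.restrictScalars R) ?_ ?_ ?_
    · rw [h1, rl_bot]
      have : IsScalarTower R K Pb := ⟨fun r c x => Subtype.ext (smul_assoc r c (x : T))⟩
      change Module.length R Pb = _
      exact Module.length_eq_of_surjective hsurj
    · ext z
      have := Submodule.ext_iff.mp hZ z.1
      simpa using this
    · rw [LinearMap.range_comp, Submodule.range_subtype, Submodule.map_comap_eq,
        inf_eq_right.mpr hP]
    · rw [LinearMap.range_comp, Submodule.range_subtype, hcorr, Submodule.map_comap_eq,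
        LinearMap.range_eq_top.mpr hg, top_inf_eq]

/-- the `K`-subspace attached to an `R`-submodule. -/
def toField (hsurj : Function.Surjective (algebraMap R K)) (N : Submodule R T) :
    Submodule K T where
  carrier := N
  add_mem' := N.add_mem
  zero_mem' := N.zero_mem
  smul_mem' := by
    intro c x hx
    obtain ⟨r, rfl⟩ := hsurj c
    rw [algebraMap_smul]
    exact N.smul_mem r hx

lemma restrictScalars_toField (hsurj : Function.Surjective (algebraMap R K))
    (N : Submodule R T) : (toField (K := K) hsurj N).restrictScalars R = N := rfl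

lemma mem_toField (hsurj : Function.Surjective (algebraMap R K)) (N : Submodule R T) (x : T) :
    x ∈ toField (K := K) hsurj N ↔ x ∈ N := Iff.rfl

end corr

section graded
variable {A : Type*} [CommRing A] [IsLocalRing A] (G : ℕ → Ideal A)

/-- the graded pieces. -/
abbrev Gr (j : ℕ) : Type _ := ↥(G j) ⧸ (G (j + 1)).submoduleOf (G j)

/-- the graded pieces as vector spaces. -/
abbrev GrK (j : ℕ) : Type _ := ResidueField A ⊗[A] Gr G j

/-- multiplication by `a` from `G j` to `G (j + 1)`. -/
def mulG (hG : ∀ j, maximalIdeal A • G j ≤ G (j + 1)) (a : maximalIdeal A) (j : ℕ) :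
    ↥(G j) →ₗ[A] ↥(G (j + 1)) :=
  LinearMap.restrict (LinearMap.lsmul A A a.1) (p := G j) (q := G (j + 1))
    (fun _ hx => hG j (Submodule.smul_mem_smul a.2 hx))

lemma mulG_coe (hG : ∀ j, maximalIdeal A • G j ≤ G (j + 1)) (a : maximalIdeal A) (j : ℕ)
    (x : G j) : (mulG G hG a j x : A) = a.1 * x.1 := rfl

/-- multiplication on the graded pieces. -/
def mulGr (hG : ∀ j, maximalIdeal A • G j ≤ G (j + 1)) (a : maximalIdeal A) (j : ℕ) :
    Gr G j →ₗ[A] Gr G (j + 1) :=
  Submodule.mapQ _ _ (mulG G hG a j) (by
    intro x hx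
    exact hG (j + 1) (Submodule.smul_mem_smul a.2 hx))

/-- multiplication on the graded vector spaces. -/
noncomputable def mulGrK (hG : ∀ j, maximalIdeal A • G j ≤ G (j + 1)) (a : maximalIdeal A)
    (j : ℕ) : GrK G j →ₗ[ResidueField A] GrK G (j + 1) :=
  (mulGr G hG a j).baseChange (ResidueField A)

end graded

section
variable {A : Type*} [CommRing A] [IsLocalRing A] [IsNoetherianRing A] (G : ℕ → Ideal A)

instance (j : ℕ) : FiniteDimensional (ResidueField A) (GrK G j) := inferInstance

end

/-- the projection from `G j` to the graded vector space. -/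
noncomputable def prK {A : Type*} [CommRing A] [IsLocalRing A] (G : ℕ → Ideal A) (j : ℕ) :
    ↥(G j) →ₗ[A] GrK G j :=
  (TensorProduct.mk A (ResidueField A) (Gr G j) 1).comp
    (Submodule.mkQ ((G (j + 1)).submoduleOf (G j)))

section
variable {A : Type*} [CommRing A] [IsLocalRing A] (G : ℕ → Ideal A)

lemma prK_surjective (j : ℕ) : Function.Surjective (prK G j) := by
  intro z
  induction z using TensorProduct.induction_on with
  | zero => exact ⟨0, map_zero _⟩
  | tmul c q =>
    obtain ⟨a, rfl⟩ := IsLocalRing.residue_surjective c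
    obtain ⟨g, rfl⟩ := Submodule.mkQ_surjective _ q
    refine ⟨a • g, ?_⟩
    rw [prK, LinearMap.comp_apply, map_smul, TensorProduct.mk_apply]
    rw [TensorProduct.tmul_smul, TensorProduct.smul_tmul', Algebra.smul_def, mul_one]
    rfl
  | add x y hx hy =>
    obtain ⟨x, rfl⟩ := hx
    obtain ⟨y, rfl⟩ := hy
    exact ⟨x + y, map_add _ _ _⟩

lemma ker_prK (hG : ∀ j, maximalIdeal A • G j ≤ G (j + 1)) (j : ℕ) :
    LinearMap.ker (prK G j) = (G (j + 1)).submoduleOf (G j) := by
  apply le_antisymm
  · intro x hx
    rw [LinearMap.mem_ker] at hx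
    -- a retraction `k ⊗ Gr → Gr`
    have ht : Module.IsTorsionBySet A (Gr G j) (maximalIdeal A : Set A) := by
      intro v a
      obtain ⟨v, rfl⟩ := Submodule.Quotient.mk_surjective _ v
      rw [← Submodule.Quotient.mk_smul, Submodule.Quotient.mk_eq_zero]
      exact hG j (Submodule.smul_mem_smul a.2 v.2)
    let _ : Module (ResidueField A) (Gr G j) := ht.module
    have : IsScalarTower A (ResidueField A) (Gr G j) := ht.isScalarTower
    let r : GrK G j →ₗ[A] Gr G j :=
      TensorProduct.lift ((Algebra.lsmul A A (Gr G j) : ResidueField A →ₐ[A] _).toLinearMap)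
    have h1 : r (prK G j x) = Submodule.Quotient.mk x := by
      rw [prK, LinearMap.comp_apply, TensorProduct.mk_apply, TensorProduct.lift.tmul]
      simp
    rw [hx, map_zero] at h1
    exact (Submodule.Quotient.mk_eq_zero _).mp h1.symm
  · intro x hx
    rw [LinearMap.mem_ker, prK, LinearMap.comp_apply,
      (Submodule.Quotient.mk_eq_zero _).mpr hx |> (fun h => (show Submodule.mkQ _ x = 0 from h)),
      map_zero]

lemma mulGrK_prK (hG : ∀ j, maximalIdeal A • G j ≤ G (j + 1)) (a : maximalIdeal A)
    (j : ℕ) (x : G j) : mulGrK G hG a j (prK G j x) = prK G (j + 1) (mulG G hG a j x) := rfl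

end

/-- slope bounds for the graded vector spaces. -/
theorem gpr_of_pr {A : Type*} [CommRing A] [IsLocalRing A] [IsNoetherianRing A] (G : ℕ → Ideal A)
    (hG : Fil (maximalIdeal A) G) (lo hi : ℤ) (hPr : Pr (maximalIdeal A) G lo hi) :
    GPr (ResidueField A) (GrK G) (mulGrK G hG.smul) lo hi := by
  intro Pb hPb
  have hsurj : Function.Surjective (algebraMap A (ResidueField A)) :=
    IsLocalRing.residue_surjective
  let P : ℕ → Ideal A := fun j =>
    (((Pb j).restrictScalars A).comap (prK G j)).map (G j).subtype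
  have hP : SubFil (maximalIdeal A) G P := by
    refine ⟨fun j => ?_, fun j => ?_, fun j => ?_⟩
    · rintro _ ⟨x, -, rfl⟩
      exact x.2
    · intro x hx
      refine ⟨⟨x, hG.anti j hx⟩, ?_, rfl⟩
      rw [SetLike.mem_coe, Submodule.mem_comap]
      have : prK G j ⟨x, hG.anti j hx⟩ = 0 := by
        rw [← LinearMap.mem_ker, ker_prK G hG.smul]
        exact hx
      rw [this]
      exact Submodule.zero_mem _
    · rw [Submodule.smul_le]
      rintro r hr _ ⟨x, hx, rfl⟩
      refine ⟨mulG G hG.smul ⟨r, hr⟩ j x, ?_, rfl⟩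
      rw [SetLike.mem_coe, Submodule.mem_comap, ← mulGrK_prK]
      exact hPb ⟨r, hr⟩ j (Submodule.mem_map_of_mem hx)
  obtain ⟨a, x, b, y, h1, h2, h3, h4⟩ := hPr P hP
  have key : ∀ j, rl (P j) (G j) = Module.length (ResidueField A) (GrK G j ⧸ Pb j) ∧
      rl (G (j + 1)) (P j) = Module.length (ResidueField A) (Pb j) := by
    intro j
    refine corr_lengths hsurj (G j).subtype (prK G j) (prK_surjective G j) ?_ ?_ (hP.le j) _ ?_
    · rw [ker_prK G hG.smul]; rfl
    · exact Submodule.range_subtype _
    · exact Submodule.comap_map_eq_of_injective (Submodule.subtype_injective _) _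
  refine ⟨a, x, b, y, ?_, ?_, h3, h4⟩
  · exact h1.congr (Filter.Eventually.of_forall fun j => (key j).1)
  · exact h2.congr (Filter.Eventually.of_forall fun j => (key j).2)


section baseB
variable {A B : Type*} [CommRing A] [IsLocalRing A] [CommRing B] [IsLocalRing B] [Algebra A B]
  [IsLocalHom (algebraMap A B)]

instance smulComm1 : SMulCommClass (ResidueField A) B (ResidueField B) := ⟨fun r b x => by
  rw [Algebra.smul_def, Algebra.smul_def, Algebra.smul_def, Algebra.smul_def, mul_left_comm]⟩

instance smulComm2 : SMulCommClass (ResidueField A) A (ResidueField B) := ⟨fun r b x => by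
  rw [Algebra.smul_def, Algebra.smul_def, Algebra.smul_def, Algebra.smul_def, mul_left_comm]⟩

variable (B) (G : ℕ → Ideal A)

/-- the multiplication map `B ⊗ G j → B`. -/
noncomputable def fB (j : ℕ) : B ⊗[A] ↥(G j) →ₗ[B] B :=
  (AlgebraTensorModule.rid A B B).toLinearMap ∘ₗ (G j).subtype.baseChange B

lemma fB_tmul (j : ℕ) (b : B) (x : G j) : fB B G j (b ⊗ₜ x) = algebraMap A B x * b := by
  simp [fB, Algebra.smul_def]

lemma range_fB (j : ℕ) : LinearMap.range (fB B G j) = (G j).map (algebraMap A B) := by
  apply le_antisymm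
  · rintro _ ⟨z, rfl⟩
    induction z using TensorProduct.induction_on with
    | zero => rw [map_zero]; exact Submodule.zero_mem _
    | tmul b x =>
      rw [fB_tmul]
      exact Ideal.mul_mem_right _ _ (Ideal.mem_map_of_mem _ x.2)
    | add x y hx hy => rw [map_add]; exact Submodule.add_mem _ hx hy
  · rw [Ideal.map_le_iff_le_comap]
    intro x hx
    exact ⟨1 ⊗ₜ ⟨x, hx⟩, by rw [fB_tmul, mul_one]⟩

lemma fB_injective [Module.Flat A B] (j : ℕ) : Function.Injective (fB B G j) := by
  refine (AlgebraTensorModule.rid A B B).injective.comp ?_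
  exact Module.Flat.lTensor_preserves_injective_linearMap (M := B) (G j).subtype
    (G j).subtype_injective

/-- the projection `B ⊗ G j → l ⊗ E j`. -/
noncomputable def gB (j : ℕ) : B ⊗[A] ↥(G j) →ₗ[B] (ResidueField B ⊗[ResidueField A] GrK G j) :=
  AlgebraTensorModule.lift
    { toFun := fun b =>
        { toFun := fun x => residue B b ⊗ₜ prK G j x
          map_add' := fun x y => by rw [map_add, TensorProduct.tmul_add]
          map_smul' := fun a x => by
            rw [map_smul, RingHom.id_apply]
            rw [← algebraMap_smul (ResidueField A) a (prK G j x), TensorProduct.tmul_smul,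
              TensorProduct.smul_tmul', TensorProduct.smul_tmul', algebraMap_smul] }
      map_add' := fun x y => by
        ext z
        simp [TensorProduct.add_tmul]
      map_smul' := fun b x => by
        ext z
        simp [TensorProduct.smul_tmul', Algebra.smul_def] }

lemma gB_tmul (j : ℕ) (b : B) (x : G j) : gB B G j (b ⊗ₜ x) = residue B b ⊗ₜ prK G j x := rfl

lemma gB_surjective (j : ℕ) : Function.Surjective (gB B G j) := by
  intro z
  induction z using TensorProduct.induction_on with
  | zero => exact ⟨0, map_zero _⟩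
  | tmul c q =>
    obtain ⟨b, rfl⟩ := IsLocalRing.residue_surjective c
    obtain ⟨g, rfl⟩ := prK_surjective G j q
    exact ⟨b ⊗ₜ g, gB_tmul B G j b g⟩
  | add x y hx hy =>
    obtain ⟨x, rfl⟩ := hx
    obtain ⟨y, rfl⟩ := hy
    exact ⟨x + y, map_add _ _ _⟩

/-- the comparison with `l ⊗ Gr`. -/
lemma gB_cancel (j : ℕ) (z : B ⊗[A] ↥(G j)) :
    AlgebraTensorModule.cancelBaseChange A (ResidueField A) (ResidueField B) (ResidueField B)
      (Gr G j) (gB B G j z) =
    TensorProduct.map (Algebra.linearMap B (ResidueField B) |>.restrictScalars A)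
      (Submodule.mkQ ((G (j + 1)).submoduleOf (G j))) z := by
  induction z using TensorProduct.induction_on with
  | zero => simp
  | tmul b x =>
    rw [gB_tmul, TensorProduct.map_tmul, prK, LinearMap.comp_apply, TensorProduct.mk_apply,
      AlgebraTensorModule.cancelBaseChange_tmul, one_smul]
    rfl
  | add x y hx hy => rw [map_add, map_add, map_add, hx, hy]

lemma comap_fB [Module.Flat A B] (hG : ∀ j, maximalIdeal A • G j ≤ G (j + 1))
    (hanti : ∀ j, G (j + 1) ≤ G j) (j : ℕ) :
    Submodule.comap (fB B G j)
      ((G (j + 1)).map (algebraMap A B) ⊔ maximalIdeal B * (G j).map (algebraMap A B)) =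
      LinearMap.ker (gB B G j) := by
  apply le_antisymm
  · -- every element of the left side is the image of an element of the kernel
    have h1 : (G (j + 1)).map (algebraMap A B) ⊔ maximalIdeal B * (G j).map (algebraMap A B) ≤
        (LinearMap.ker (gB B G j)).map (fB B G j) := by
      refine sup_le ?_ ?_
      · rw [Ideal.map_le_iff_le_comap]
        intro x hx
        have hxj : x ∈ G j := hanti j hx
        refine ⟨1 ⊗ₜ ⟨x, hxj⟩, ?_, by rw [fB_tmul, mul_one]⟩
        rw [SetLike.mem_coe, LinearMap.mem_ker, gB_tmul]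
        have : prK G j ⟨x, hxj⟩ = 0 := by
          rw [← LinearMap.mem_ker, ker_prK G hG]
          exact hx
        rw [this, TensorProduct.tmul_zero]
      · rw [Ideal.mul_le]
        intro r hr s hs
        rw [← range_fB] at hs
        obtain ⟨z, rfl⟩ := hs
        refine ⟨r • z, ?_, by rw [map_smul, smul_eq_mul]⟩
        rw [SetLike.mem_coe, LinearMap.mem_ker, map_smul, ← algebraMap_smul (ResidueField B) r]
        have : algebraMap B (ResidueField B) r = 0 := by
          exact (residue_eq_zero_iff r).mpr hr
        rw [this, zero_smul]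
    intro z hz
    obtain ⟨z', hz', he⟩ := h1 (Submodule.mem_comap.mp hz)
    rw [← fB_injective B G j he]
    exact hz'
  · intro z hz
    have hex1 : Function.Exact (Submodule.subtype ((maximalIdeal B).restrictScalars A))
        ((Algebra.linearMap B (ResidueField B)).restrictScalars A) := by
      intro x
      have h1 : ((Algebra.linearMap B (ResidueField B)).restrictScalars A) x = 0 ↔
          x ∈ maximalIdeal B := residue_eq_zero_iff x
      rw [h1]
      constructor
      · intro hx; exact ⟨⟨x, hx⟩, rfl⟩
      · rintro ⟨x, rfl⟩; exact x.2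
    have hex2 : Function.Exact (Submodule.subtype ((G (j + 1)).submoduleOf (G j)))
        (Submodule.mkQ ((G (j + 1)).submoduleOf (G j))) := LinearMap.exact_subtype_mkQ _
    have hz2 : z ∈ LinearMap.ker (TensorProduct.map
        ((Algebra.linearMap B (ResidueField B)).restrictScalars A)
        (Submodule.mkQ ((G (j + 1)).submoduleOf (G j)))) := by
      rw [LinearMap.mem_ker, ← gB_cancel, LinearMap.mem_ker.mp hz, map_zero]
    rw [TensorProduct.map_ker hex1 residue_surjective hex2
      (Submodule.mkQ_surjective _)] at hz2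
    obtain ⟨y1, ⟨y1, rfl⟩, y2, ⟨y2, rfl⟩, rfl⟩ := Submodule.mem_sup.mp hz2
    clear hz hz2
    refine Submodule.add_mem _ (Submodule.mem_comap.mpr (Submodule.mem_sup_left ?_))
      (Submodule.mem_comap.mpr (Submodule.mem_sup_right ?_))
    · induction y1 using TensorProduct.induction_on with
      | zero => rw [map_zero, map_zero]; exact Ideal.zero_mem _
      | tmul a b =>
        rw [LinearMap.lTensor_tmul, fB_tmul]
        exact Ideal.mul_mem_right _ _ (Ideal.mem_map_of_mem _ b.2)
      | add a b ha hb =>
        rw [map_add, map_add]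
        exact Ideal.add_mem _ ha hb
    · induction y2 using TensorProduct.induction_on with
      | zero => rw [map_zero, map_zero]; exact Ideal.zero_mem _
      | tmul a b =>
        rw [LinearMap.rTensor_tmul, fB_tmul]
        rw [mul_comm (algebraMap A B b)]
        exact Ideal.mul_mem_mul a.2 (Ideal.mem_map_of_mem _ b.2)
      | add a b ha hb =>
        rw [map_add, map_add]
        exact Ideal.add_mem _ ha hb

/-- multiplication on `B ⊗ G`. -/
lemma fB_mulG (hG : ∀ j, maximalIdeal A • G j ≤ G (j + 1)) (a : maximalIdeal A) (j : ℕ)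
    (z : B ⊗[A] ↥(G j)) :
    fB B G (j + 1) ((mulG G hG a j).baseChange B z) = algebraMap A B a * fB B G j z := by
  induction z using TensorProduct.induction_on with
  | zero => simp
  | tmul b x =>
    rw [LinearMap.baseChange_tmul, fB_tmul, fB_tmul, mulG_coe, map_mul]
    ring
  | add x y hx hy => rw [map_add, map_add, map_add, hx, hy, mul_add]

lemma gB_mulG (hG : ∀ j, maximalIdeal A • G j ≤ G (j + 1)) (a : maximalIdeal A) (j : ℕ)
    (z : B ⊗[A] ↥(G j)) :
    gB B G (j + 1) ((mulG G hG a j).baseChange B z) =
      (mulGrK G hG a j).baseChange (ResidueField B) (gB B G j z) := by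
  induction z using TensorProduct.induction_on with
  | zero => simp
  | tmul b x =>
    rw [LinearMap.baseChange_tmul, gB_tmul, gB_tmul, LinearMap.baseChange_tmul, mulGrK_prK]
  | add x y hx hy => rw [map_add, map_add, map_add, map_add, hx, hy]

end baseB

/-- TASK G4: translation to ideals. -/
theorem prB_of_pr {A B : Type*} [CommRing A] [IsLocalRing A] [IsNoetherianRing A]
    [CommRing B] [IsLocalRing B] [IsNoetherianRing B] [Algebra A B]
    [IsLocalHom (algebraMap A B)] [Module.Flat A B] (G : ℕ → Ideal A)
    (hG : Fil (maximalIdeal A) G) (hst : ∃ j₀, ∀ j, j₀ ≤ j → G (j + 1) ≤ maximalIdeal A * G j)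
    (lo hi : ℤ) (hPr : Pr (maximalIdeal A) G lo hi) :
    PrB ((maximalIdeal A).map (algebraMap A B)) (maximalIdeal B)
      (fun j => (G j).map (algebraMap A B)) lo hi := by
  intro P hP
  have hsurj : Function.Surjective (algebraMap B (ResidueField B)) :=
    IsLocalRing.residue_surjective
  have hgpr := gpr_of_pr G hG lo hi hPr
  -- the graded subobject
  let Pb : ∀ j, Submodule (ResidueField B) (ResidueField B ⊗[ResidueField A] GrK G j) :=
    fun j => toField hsurj ((Submodule.comap (fB B G j) (P j)).map (gB B G j))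
  have hker : ∀ j, LinearMap.ker (gB B G j) ≤ Submodule.comap (fB B G j) (P j) := by
    intro j
    rw [← comap_fB B G hG.smul hG.anti j]
    exact Submodule.comap_mono (hP.ge j)
  have key : ∀ j, rl (P j) ((G j).map (algebraMap A B)) =
      Module.length (ResidueField B) ((ResidueField B ⊗[ResidueField A] GrK G j) ⧸ Pb j) ∧
      rl ((G (j + 1)).map (algebraMap A B) ⊔ maximalIdeal B * (G j).map (algebraMap A B)) (P j) =
      Module.length (ResidueField B) (Pb j) := by
    intro j
    refine corr_lengths hsurj (fB B G j) (gB B G j) (gB_surjective B G j)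
      (comap_fB B G hG.smul hG.anti j) (range_fB B G j) (hP.le j) (Pb j) ?_
    rw [restrictScalars_toField, Submodule.comap_map_eq, sup_eq_left.mpr (hker j)]
  have hPb : ∀ i j, (Pb j).map ((mulGrK G hG.smul i j).baseChange (ResidueField B)) ≤
      Pb (j + 1) := by
    rintro i j _ ⟨_, ⟨z, hz, rfl⟩, rfl⟩
    refine ⟨(mulG G hG.smul i j).baseChange B z, ?_, gB_mulG B G hG.smul i j z⟩
    rw [SetLike.mem_coe, Submodule.mem_comap, fB_mulG]
    exact hP.smul j (Ideal.mul_mem_mul (Ideal.mem_map_of_mem _ i.2) hz)
  -- stability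
  obtain ⟨j₀, hj₀⟩ := BaseAux.stable_of_le ((maximalIdeal A).map (algebraMap A B))
    (fun j => (G j).map (algebraMap A B)) P (fun j => Ideal.map_mono (hG.anti j))
    (fun j => by
      rw [smul_eq_mul, ← Ideal.map_mul]
      exact Ideal.map_mono (hG.smul j))
    (by
      obtain ⟨b, hb⟩ := hst
      refine ⟨b, fun j hj => ?_⟩
      rw [smul_eq_mul, ← Ideal.map_mul]
      exact Ideal.map_mono (hb j hj))
    (fun j => (hP.le (j + 1)).trans (le_sup_left.trans (hP.ge j)))
    (fun j => hP.smul j) hP.le
  have hfg : ∃ j₀, ∀ j, j₀ ≤ j → Pb (j + 1) ≤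
      ⨆ i, (Pb j).map ((mulGrK G hG.smul i j).baseChange (ResidueField B)) := by
    refine ⟨j₀, fun j hj => ?_⟩
    set N := ⨆ i, (Pb j).map ((mulGrK G hG.smul i j).baseChange (ResidueField B)) with hN
    let D : Ideal B := ((N.restrictScalars B).comap (gB B G (j + 1))).map (fB B G (j + 1))
    have hD : (maximalIdeal A).map (algebraMap A B) • P j ≤ D := by
      rw [smul_eq_mul, Ideal.mul_le]
      intro r hr s hs
      have h1 : (maximalIdeal A).map (algebraMap A B) ≤ col D s := by
        rw [Ideal.map_le_iff_le_comap]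
        intro a ha
        rw [Ideal.mem_comap, mem_col]
        have hs' := hP.le j hs
        rw [← range_fB] at hs'
        obtain ⟨z, rfl⟩ := hs'
        refine ⟨(mulG G hG.smul ⟨a, ha⟩ j).baseChange B z, ?_, fB_mulG B G hG.smul ⟨a, ha⟩ j z⟩
        rw [SetLike.mem_coe, Submodule.mem_comap, gB_mulG]
        refine (le_iSup (fun i => (Pb j).map
          ((mulGrK G hG.smul i j).baseChange (ResidueField B))) ⟨a, ha⟩ : _) ?_
        exact Submodule.mem_map_of_mem ⟨z, hs, rfl⟩
      exact mem_col.mp (h1 hr)
    rintro _ ⟨z, hz, rfl⟩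
    obtain ⟨z', hz', he⟩ := hD (hj₀ j hj hz)
    rw [← fB_injective B G (j + 1) he]
    exact hz'
  obtain ⟨a, x, b, y, h1, h2, h3, h4⟩ := gpr_fg (l := ResidueField B) (GrK G)
    (mulGrK G hG.smul) lo hi hgpr Pb hPb hfg
  refine ⟨a, x, b, y, ?_, ?_, h3, h4⟩
  · exact h1.congr (Filter.Eventually.of_forall fun j => ((key j).1).symm)
  · exact h2.congr (Filter.Eventually.of_forall fun j => ((key j).2).symm)

end Vale.Agent.P202
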