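import Vale.Agent.P202.SL2S
import Vale.Agent.P202.GprIdeal

/-!
Version of SL2 with lengths over `S`, for arbitrary residue field extensions.
-/

namespace Vale.Agent.P202

open IsLocalRing

/-- colengths of products of powers of `I` and an ideal. -/
lemma rl_pow_mul_ne_top' {A : Type*} [CommRing A] {V : Type*} [AddCommGroup V] [Module A V]
    [IsNoetherianRing A] {I : Ideal A}
    (hV : rl (I • (⊤ : Submodule A V)) ⊤ ≠ ⊤) (C : Ideal A) (n : ℕ) :
    rl ((I ^ n * C) • (⊤ : Submodule A V)) (C • (⊤ : Submodule A V)) ≠ ⊤ := by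
  induction n with
  | zero => simp
  | succ n ih =>
    have h1 : (I ^ (n + 1) * C) ≤ (I ^ n * C) :=
      Ideal.mul_mono_left (Ideal.pow_le_pow_right (Nat.le_succ n))
    have h2 : (I ^ n * C) ≤ C := Ideal.mul_le_right
    rw [rl_add (Submodule.smul_mono_left h1) (Submodule.smul_mono_left h2)]
    intro h
    rcases WithTop.add_eq_top.mp h with h3 | h3
    · refine rl_smul_ne_top hV (IsNoetherian.noetherian (I ^ n * C)) _ ?_ h3
      rw [← Submodule.mul_smul]
      refine Submodule.smul_mono_left ?_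
      rw [pow_succ, mul_assoc, mul_assoc, mul_comm C]
    · exact ih h3

theorem SL2G {D S : Type*} [CommRing D] [IsLocalRing D] [IsNoetherianRing D]
    [CommRing S] [IsLocalRing S] [IsNoetherianRing S] [Algebra D S]
    [IsLocalHom (algebraMap D S)] [Module.Flat D S]
    (hT : Module.length S (S ⧸ (maximalIdeal D).map (algebraMap D S)) ≠ ⊤)
    (C : Ideal D) (x1 x2 : D) (hx1 : x1 ∈ maximalIdeal D) (hx2 : x2 ∈ maximalIdeal D)
    (r1 : ∀ v ∈ C, x1 * v = 0 → v = 0)
    (r2 : ∀ v ∈ C, ∀ w ∈ C, x2 * v = x1 * w → ∃ u ∈ C, v = x1 * u)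
    (r : ℕ) (hr : maximalIdeal D ^ (r + 1) ≤ Ideal.span {x1, x2} * maximalIdeal D ^ r)
    (y1 y2 : S) (hy1 : y1 ∈ maximalIdeal S) (hy2 : y2 ∈ maximalIdeal S)
    (hfin : Module.length S (S ⧸ Ideal.span {y1, y2}) ≠ ⊤) (c : ℕ)
    (hc : Module.length S (S ⧸ ((maximalIdeal D).map (algebraMap D S) ⊔ Ideal.span {y1, y2}))
      = (c : ℕ∞)) :
    (c : ℕ∞) * rl (Ideal.span {x1, x2} * C) C ≤
      rl (Ideal.span {y1, y2} * C.map (algebraMap D S)) (C.map (algebraMap D S)) := by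
  set q : Ideal D := Ideal.span {x1, x2} with hq
  set m : Ideal D := maximalIdeal D with hm
  have hqm : q ≤ m := by
    rw [hq, Ideal.span_le]
    rintro x (rfl | hx)
    · exact hx1
    · rw [Set.mem_singleton_iff] at hx; rw [hx]; exact hx2
  -- Step 0: the module `C`
  have r1' : ∀ v : C, x1 • v = 0 → v = 0 := by
    intro v hv
    exact Subtype.ext (r1 v v.2 (congrArg Subtype.val hv))
  have r2' : ∀ v w : C, x2 • v = x1 • w → ∃ u : C, v = x1 • u := by
    intro v w hvw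
    obtain ⟨u, hu, huv⟩ := r2 v v.2 w w.2 (congrArg Subtype.val hvw)
    exact ⟨⟨u, hu⟩, Subtype.ext huv⟩
  obtain ⟨F, F1, F2, F3, F4, F5, F6, F7⟩ := init_fil (M := C) x1 x2 hx1 hx2 r1' r2' r hr
  obtain ⟨hFil, ⟨lo, hi, hPr⟩, e, c0, he⟩ := base_pr F x1 x2 hx1 hx2 F1 F2 F3 F4 F5
  obtain ⟨G, t, l, c', hG, hGF, hFG, hPrG, heG⟩ := exists_balanced hFil hPr he
  have hinj : Function.Injective C.subtype := Submodule.subtype_injective C
  -- stability
  obtain ⟨j₁, hj₁⟩ := BaseAux.stable_of_le m F G F1 F2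
    (by
      obtain ⟨b, hb⟩ := F4
      exact ⟨b, fun j hj => (hb j hj).trans (Submodule.smul_mono_left hqm)⟩)
    hG.anti hG.smul hGF
  -- the ideals
  let G' : ℕ → Ideal D := fun j => (G j).map C.subtype
  have hG' : Fil m G' := hG.mapInj C.subtype hinj
  have hPrG' : Pr m G' l (l + 1) := hPrG.mapInj C.subtype hinj
  have heG' : EvLin (fun j => rl (G' (j + 1)) (G' j)) e c' :=
    heG.congrB 0 (fun j _ => (rl_map_of_injective C.subtype hinj _ _).symm)
  have hstG' : ∃ j₀, ∀ j, j₀ ≤ j → G' (j + 1) ≤ m * G' j := by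
    refine ⟨j₁, fun j hj => ?_⟩
    have h1 : (G (j + 1)).map C.subtype ≤ (m • G j).map C.subtype := Submodule.map_mono (hj₁ j hj)
    rw [Submodule.map_smul''] at h1
    exact h1
  have hmapC : ∀ I : Ideal D, (I • (⊤ : Submodule D C)).map C.subtype = I * C := by
    intro I
    rw [Submodule.map_smul'', Submodule.map_top, Submodule.range_subtype, smul_eq_mul]
  have ha : ∀ j, G' j ≤ q ^ j * C := by
    intro j
    rw [← hmapC]
    exact Submodule.map_mono ((hGF j).trans (F6 j))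
  have hb : ∀ j, q ^ (j + t + r) * C ≤ G' j := by
    intro j
    rw [← hmapC]
    exact Submodule.map_mono ((F7 (j + t)).trans (hFG j))
  -- the ideals of `S`
  let φ : D →+* S := algebraMap D S
  let n : Ideal S := maximalIdeal S
  let M : Ideal S := m.map φ
  let Q : Ideal S := q.map φ
  let H : ℕ → Ideal S := fun j => (G' j).map φ
  let W : Ideal S := C.map φ
  have hMn : M ≤ n := map_maximalIdeal_le
  have hQn : Q ≤ n := (Ideal.map_mono hqm).trans hMn
  have htop : ∀ I : Ideal S, I • (⊤ : Submodule S S) = I := by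
    intro I
    rw [smul_eq_mul, Ideal.mul_top]
  have ha' : ∀ j, H j ≤ Q ^ j * W := by
    intro j
    have := Ideal.map_mono (f := φ) (ha j)
    rwa [Ideal.map_mul, Ideal.map_pow] at this
  have hb' : ∀ j, Q ^ (j + t + r) * W ≤ H j := by
    intro j
    have := Ideal.map_mono (f := φ) (hb j)
    rwa [Ideal.map_mul, Ideal.map_pow] at this
  have hGC : ∀ j, G' j ≤ C := fun j => (ha j).trans Ideal.mul_le_right
  have hNW : ∀ j, H j ≤ W := fun j => Ideal.map_mono (hGC j)
  -- multiplication maps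
  let Y1 : S →ₗ[S] S := LinearMap.mulLeft S y1
  let Y2 : S →ₗ[S] S := LinearMap.mulLeft S y2
  let J : Ideal S := Ideal.span {y1, y2}
  have hJ : rl J ⊤ ≠ ⊤ := by
    rw [rl_top]
    exact hfin
  obtain ⟨p, hp⟩ := exists_pow_smul_le_of_rl J hJ
  rw [htop] at hp
  -- `I J` is contained in the sum of the images
  have hIJ : ∀ I : Ideal S, I • J ≤ Submodule.map Y1 I ⊔ Submodule.map Y2 I := by
    intro I
    rw [Submodule.smul_le]
    intro g hg u hu
    obtain ⟨a, b, rfl⟩ := Ideal.mem_span_pair.mp (show u ∈ Ideal.span {y1, y2} from hu)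
    rw [smul_add]
    refine Submodule.add_mem_sup ?_ ?_
    · exact ⟨g * a, Ideal.mul_mem_right _ _ hg, by
        simp only [Y1, LinearMap.mulLeft_apply, smul_eq_mul]
        ring⟩
    · exact ⟨g * b, Ideal.mul_mem_right _ _ hg, by
        simp only [Y2, LinearMap.mulLeft_apply, smul_eq_mul]
        ring⟩
  -- Step 7
  let s : ℕ := t + r + p
  have S1 : ∀ j, H (j + s) • (⊤ : Submodule S S) ≤
      Submodule.map Y1 (H j • ⊤) ⊔ Submodule.map Y2 (H j • ⊤) := by
    intro j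
    rw [htop, htop]
    refine le_trans ?_ (hIJ (H j))
    refine (ha' (j + s)).trans ?_
    have h1 : Q ^ (j + s) = Q ^ p * Q ^ (j + t + r) := by
      rw [← pow_add]; congr 1; simp only [s]; omega
    rw [h1, mul_assoc]
    calc Q ^ p * (Q ^ (j + t + r) * W) ≤ n ^ p * H j :=
          Ideal.mul_mono (Ideal.pow_right_mono hQn p) (hb' j)
      _ = H j * n ^ p := mul_comm _ _
      _ ≤ H j * J := Ideal.mul_mono_right hp
  -- regularity on `W`
  have hWD : ∀ v : S, v ∈ C • (⊤ : Submodule D S) ↔ v ∈ W := by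
    intro v
    rw [Ideal.smul_top_eq_map]
    exact Iff.rfl
  have w1 : ∀ v ∈ W, φ x1 • v = 0 → v = 0 := by
    intro v hv h
    refine flat_r1 r1 v ((hWD v).mpr hv) ?_
    rw [← algebraMap_smul S x1 v]
    exact h
  have w2 : ∀ v ∈ W, ∀ w ∈ W, φ x2 • v = φ x1 • w → ∃ u ∈ W, v = φ x1 • u := by
    intro v hv w hw h
    obtain ⟨u, hu, huv⟩ := flat_r2 r2 v ((hWD v).mpr hv) w ((hWD w).mpr hw) (by
      rw [← algebraMap_smul S x2 v, ← algebraMap_smul S x1 w]
      exact h)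
    refine ⟨u, (hWD u).mp hu, ?_⟩
    rw [huv, ← algebraMap_smul S x1 u]
  have hQspan : Q = Ideal.span {φ x1, φ x2} := by
    simp only [Q, hq]
    rw [Ideal.map_span, Set.image_pair]
  -- Step 8
  let X : ℕ → Submodule S S := fun j =>
    W ⊓ Submodule.comap Y1 (H j • ⊤) ⊓ Submodule.comap Y2 (H j • ⊤)
  have S2 : ∀ j, X (j + s) ≤ H j • (⊤ : Submodule S S) := by
    intro j v hv
    obtain ⟨⟨hvW, hv1⟩, hv2⟩ := hv
    rw [htop] at hv1 hv2 ⊢
    have hv1' : y1 * v ∈ H (j + s) := hv1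
    have hv2' : y2 * v ∈ H (j + s) := hv2
    have h1 : φ x1 ^ p ∈ J :=
      hp (Ideal.pow_mem_pow (hMn (Ideal.mem_map_of_mem φ hx1)) p)
    obtain ⟨a, b, hab⟩ := Ideal.mem_span_pair.mp
      (show φ x1 ^ p ∈ Ideal.span {y1, y2} from h1)
    have h2 : φ x1 ^ p • v = a * (y1 * v) + b * (y2 * v) := by
      rw [smul_eq_mul, ← hab]; ring
    have h3 : φ x1 ^ p • v ∈ H (j + s) := by
      rw [h2]
      exact Ideal.add_mem _ (Ideal.mul_mem_left _ _ hv1') (Ideal.mul_mem_left _ _ hv2')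
    have h4 := ha' (j + s) h3
    have h5 : Q ^ (j + s) = Q ^ ((j + t + r) + p) := by
      congr 1; simp only [s]; omega
    rw [h5, hQspan] at h4
    have h6 := mem_pow_smul_of_pow_smul W w1 w2 p _ hvW h4
    rw [← hQspan] at h6
    exact hb' j h6
  -- finiteness
  have hTm : rl (M • (⊤ : Submodule S S)) ⊤ ≠ ⊤ := by
    rw [htop, rl_top]; exact hT
  have hfinN : ∀ j, rl (H j) W ≠ ⊤ := by
    intro j
    have h1 := rl_pow_mul_ne_top' hTm W (r + (j + t + r))
    rw [htop, htop] at h1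
    have h2 : M ^ (r + (j + t + r)) * W ≤ H j := by
      have h3 : (m ^ (r + (j + t + r)) * C) ≤ G' j :=
        (Ideal.mul_mono_left (pow_add_le_pow hr _)).trans (hb j)
      have := Ideal.map_mono (f := φ) h3
      rwa [Ideal.map_mul, Ideal.map_pow] at this
    intro h3
    exact h1 (top_le_iff.mp (h3 ▸ rl_anti_left h2))
  have hI1 : ∀ I : Ideal S, Submodule.map Y1 I ≤ I := by
    rintro I _ ⟨v, hv, rfl⟩
    exact Ideal.mul_mem_left _ _ hv
  have hI2 : ∀ I : Ideal S, Submodule.map Y2 I ≤ I := by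
    rintro I _ ⟨v, hv, rfl⟩
    exact Ideal.mul_mem_left _ _ hv
  have hΘfin : rl (Submodule.map Y1 W ⊔ Submodule.map Y2 W) W ≠ ⊤ := by
    have h := rl_smul_ne_top (V := S) hJ (IsNoetherian.noetherian W) _ (hIJ W)
    rwa [htop] at h
  obtain ⟨Θ, hΘ⟩ := ENat.ne_top_iff_exists.mp hΘfin
  -- Step 11: `y1, y2` is regular on `W`
  have hreg := regular_of_finite_length (S := S) (N := W) (φ x1) (φ x2)
    (hMn (Ideal.mem_map_of_mem φ hx1)) (hMn (Ideal.mem_map_of_mem φ hx2))
    (by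
      intro v hv
      exact Subtype.ext (w1 v v.2 (congrArg Subtype.val hv)))
    (by
      intro v w hvw
      obtain ⟨u, hu, huv⟩ := w2 v v.2 w w.2 (congrArg Subtype.val hvw)
      exact ⟨⟨u, hu⟩, Subtype.ext huv⟩)
    y1 y2 hy1 hy2 (length_quotient_smul_ne_top J hfin)
  obtain ⟨g1, g2⟩ := hreg
  have k1 : ∀ v ∈ W, Y1 v = 0 → v = 0 := by
    intro v hv h
    exact congrArg Subtype.val (g1 ⟨v, hv⟩ (Subtype.ext h))
  have k2 : ∀ v ∈ W, ∀ w ∈ W, Y2 v = Y1 w → ∃ u ∈ W, v = Y1 u := by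
    intro v hv w hw h
    obtain ⟨u, hu⟩ := g2 ⟨v, hv⟩ ⟨w, hw⟩ (Subtype.ext h)
    exact ⟨u, u.2, congrArg Subtype.val hu⟩
  have hYY : Y1 ∘ₗ Y2 = Y2 ∘ₗ Y1 := by
    ext
    simp only [Y1, Y2, LinearMap.comp_apply, LinearMap.mulLeft_apply]
    ring
  have S3 : ∀ j, rl (Submodule.map Y1 (H j • ⊤) ⊔ Submodule.map Y2 (H j • ⊤))
      (H j • (⊤ : Submodule S S)) = (Θ : ℕ∞) + rl (H j • (⊤ : Submodule S S)) (X j) := by
    intro j
    have h := koszul_identity Y1 Y2 hYY W (H j) (hNW j) (hfinN j) (hI1 W) (hI2 W)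
      (hI1 _) (hI2 _) k1 k2 hΘfin
    simp only [X, htop]
    rw [h, ← hΘ]
  -- Step 12
  have hcc : Module.length S (S ⧸ ((M • (⊤ : Submodule S S)) ⊔
      (LinearMap.range Y1 ⊔ LinearMap.range Y2))) = (c : ℕ∞) := by
    rw [← hc]
    have h1 : ((M • (⊤ : Submodule S S)) ⊔ (LinearMap.range Y1 ⊔ LinearMap.range Y2)) =
        (m.map (algebraMap D S) ⊔ Ideal.span {y1, y2}) := by
      rw [htop]
      congr 1
      ext v
      simp only [Submodule.mem_sup, LinearMap.mem_range]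
      constructor
      · rintro ⟨_, ⟨b, rfl⟩, _, ⟨d, rfl⟩, rfl⟩
        refine Ideal.mem_span_pair.mpr ⟨b, d, ?_⟩
        simp only [Y1, Y2, LinearMap.mulLeft_apply]
        ring
      · intro hz
        obtain ⟨b, d, rfl⟩ := Ideal.mem_span_pair.mp hz
        refine ⟨_, ⟨b, rfl⟩, _, ⟨d, rfl⟩, ?_⟩
        simp only [Y1, Y2, LinearMap.mulLeft_apply]
        ring
    rw [h1]
  have hPrB : PrB M n H l (l + 1) := prB_of_pr G' hG' hstG' l (l + 1) hPrG'
  have heH : EvLin (fun j => rl (H (j + 1) ⊔ n * H j) (H j)) e c' := by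
    obtain ⟨j₀, hj₀⟩ := heG'
    refine ⟨j₀, fun j hj => ?_⟩
    obtain ⟨N, hN, hN'⟩ := hj₀ j hj
    exact ⟨N, rl_map_eq (hG'.anti j) (hG'.smul j) N hN, hN'⟩
  have := flat_prod (A := D) (V := S)
  have hcore := coreB (B := S) (V := S) M
    (by rw [htop]; exact hT)
    Y1 Y2 H (fun j => Ideal.map_mono (hG'.anti j))
    (fun j => by
      have h := Ideal.map_mono (f := φ) (hG'.smul j)
      rw [smul_eq_mul, Ideal.map_mul] at h
      exact h)
    (fun j => flatLike_of_flat m n hMn (hG'.anti j))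
    (fun j => flatLike_of_flat m n hMn (hG'.anti j))
    l e c' hPrB heH W (by rw [htop]; exact hNW 0) X
    (fun j => rfl) s (Filter.Eventually.of_forall S1) (Filter.Eventually.of_forall S2) Θ
    (Filter.Eventually.of_forall S3) c hcc
  -- Step 13
  have hfinC : ∀ n : ℕ, rl (m ^ n • (⊤ : Submodule D C)) ⊤ ≠ ⊤ := by
    intro n
    induction n with
    | zero => simp
    | succ n ih =>
      rw [rl_add (L := m ^ n • (⊤ : Submodule D C))
        (Submodule.smul_mono_left (Ideal.pow_le_pow_right (Nat.le_succ n))) le_top]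
      intro h
      rcases WithTop.add_eq_top.mp h with h3 | h3
      · refine BaseAux.rl_ne_top_of_smul_le ?_ h3
        rw [← Submodule.mul_smul, ← pow_succ']
      · exact ih h3
  have hfinF : ∀ j, rl (F j) ⊤ ≠ ⊤ := by
    intro j h
    refine hfinC (r + (j + r)) (top_le_iff.mp (h ▸ rl_anti_left ?_))
    exact (Submodule.smul_mono_left (pow_add_le_pow hr _)).trans (F7 j)
  have hL0 : rl (qPow q C 1) ⊤ = rl (q * C) C := by
    rw [← rl_map_of_injective C.subtype hinj, qPow, pow_one, hmapC, Submodule.map_top,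
      Submodule.range_subtype]
  have hLfin : rl (qPow q C 1) ⊤ ≠ ⊤ := by
    intro h
    refine hfinC (r + 1) (top_le_iff.mp (h ▸ rl_anti_left ?_))
    exact Submodule.smul_mono_left (pow_add_le_pow hr _)
  obtain ⟨L, hL⟩ := ENat.ne_top_iff_exists.mp hLfin
  have hLe : (L : ℤ) ≤ e := le_slope r1' r2' L hL.symm F1 he hfinF F6
  -- Step 14
  have hfinal : (c : ℤ) * L ≤ Θ :=
    (mul_le_mul_of_nonneg_left hLe (Int.natCast_nonneg c)).trans hcore
  have hfinal' : c * L ≤ Θ := by exact_mod_cast hfinal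
  have hlast : rl (Ideal.span {y1, y2} * C.map (algebraMap D S)) (C.map (algebraMap D S)) =
      (Θ : ℕ∞) := by
    rw [hΘ]
    congr 1
    ext v
    constructor
    · intro hv
      have hv' : v ∈ Ideal.span {y1, y2} * W := hv
      rw [← smul_eq_mul] at hv'
      obtain ⟨a, ha, b, hb, rfl⟩ := exists_of_mem_span_pair_smul hv'
      exact Submodule.add_mem_sup ⟨a, ha, rfl⟩ ⟨b, hb, rfl⟩
    · intro hv
      obtain ⟨_, ⟨a, ha, rfl⟩, _, ⟨b, hb, rfl⟩, rfl⟩ := Submodule.mem_sup.mp hv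
      exact Ideal.add_mem _
        (Ideal.mul_mem_mul (Ideal.subset_span (by simp)) ha)
        (Ideal.mul_mem_mul (Ideal.subset_span (by simp)) hb)
  rw [hlast, ← hL0, ← hL]
  exact_mod_cast hfinal'

end Vale.Agent.P202
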