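import Vale.Agent.P202.SL2
import Mathlib.RingTheory.LocalRing.Length

/-!
Version of SL2 with lengths over `S` (finite residue field extension).
-/

namespace Vale.Agent.P202

open IsLocalRing

lemma rl_restrictScalars {D S : Type*} [CommRing D] [IsLocalRing D] [CommRing S] [IsLocalRing S]
    [Algebra D S] [IsLocalHom (algebraMap D S)] {M : Type*} [AddCommGroup M] [Module D M]
    [Module S M] [IsScalarTower D S M] (K N : Submodule S M) :
    rl (K.restrictScalars D) (N.restrictScalars D) =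
      rl K N * Module.length (ResidueField D) (ResidueField S) := by
  have h := IsLocalRing.length_restrictScalars D S (↥N ⧸ K.submoduleOf N)
  rw [← rl] at h
  rw [← h]
  have e : (↥(N.restrictScalars D) ⧸ (K.restrictScalars D).submoduleOf (N.restrictScalars D))
      ≃ₗ[D] (↥N ⧸ K.submoduleOf N) := by
    exact (Submodule.Quotient.restrictScalarsEquiv D (K.submoduleOf N))
  exact e.length_eq

theorem SL2S {D S : Type*} [CommRing D] [IsLocalRing D] [IsNoetherianRing D]
    [CommRing S] [IsLocalRing S] [IsNoetherianRing S] [Algebra D S]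
    [IsLocalHom (algebraMap D S)] [Module.Flat D S]
    (hres : Module.length (ResidueField D) (ResidueField S) ≠ ⊤)
    (hT : Module.length S (S ⧸ (maximalIdeal D).map (algebraMap D S)) ≠ ⊤)
    (C : Ideal D) (x1 x2 : D) (hx1 : x1 ∈ maximalIdeal D) (hx2 : x2 ∈ maximalIdeal D)
    (r1 : ∀ v ∈ C, x1 * v = 0 → v = 0)
    (r2 : ∀ v ∈ C, ∀ w ∈ C, x2 * v = x1 * w → ∃ u ∈ C, v = x1 * u)
    (r : ℕ) (hr : maximalIdeal D ^ (r + 1) ≤ Ideal.span {x1, x2} * maximalIdeal D ^ r)
    (y1 y2 : S) (hy1 : y1 ∈ maximalIdeal S) (hy2 : y2 ∈ maximalIdeal S)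
    (hfin : Module.length S (S ⧸ Ideal.span {y1, y2}) ≠ ⊤) (c : ℕ)
    (hc : Module.length S (S ⧸ ((maximalIdeal D).map (algebraMap D S) ⊔ Ideal.span {y1, y2}))
      = (c : ℕ∞)) :
    (c : ℕ∞) * rl (Ideal.span {x1, x2} * C) C ≤
      rl (Ideal.span {y1, y2} * C.map (algebraMap D S)) (C.map (algebraMap D S)) := by
  obtain ⟨f, hf⟩ := ENat.ne_top_iff_exists.mp hres
  have hf0 : f ≠ 0 := by
    rintro rfl
    have : 0 < Module.length (ResidueField D) (ResidueField S) := Module.length_pos
    rw [← hf] at this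
    simp at this
  have hT' : Module.length D (S ⧸ (maximalIdeal D • (⊤ : Submodule D S))) ≠ ⊤ := by
    have e : (S ⧸ (maximalIdeal D • (⊤ : Submodule D S))) ≃ₗ[D]
        (S ⧸ (maximalIdeal D).map (algebraMap D S)) :=
      (Submodule.quotEquivOfEq _ (((maximalIdeal D).map (algebraMap D S)).restrictScalars D)
        (by rw [← Ideal.smul_top_eq_map])).trans (Submodule.Quotient.restrictScalarsEquiv D _)
    rw [e.length_eq, IsLocalRing.length_restrictScalars D S, ← hf]
    exact WithTop.mul_ne_top hT (ENat.natCast_ne_top f)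
  have hfin' : Module.length D (S ⧸ Ideal.span {y1, y2}) ≠ ⊤ := by
    rw [IsLocalRing.length_restrictScalars D S, ← hf]
    exact WithTop.mul_ne_top hfin (ENat.natCast_ne_top f)
  have hc' : Module.length D
      (S ⧸ ((maximalIdeal D).map (algebraMap D S) ⊔ Ideal.span {y1, y2})) =
      ((c * f : ℕ) : ℕ∞) := by
    rw [IsLocalRing.length_restrictScalars D S, ← hf, hc]
    push_cast
    rfl
  have h := SL2 hT' C x1 x2 hx1 hx2 r1 r2 r hr y1 y2 hy1 hy2 hfin' (c * f) hc'
  rw [rl_restrictScalars, ← hf] at h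
  have h2 : ((c : ℕ∞) * rl (Ideal.span {x1, x2} * C) C) * (f : ℕ∞) ≤
      rl (Ideal.span {y1, y2} * C.map (algebraMap D S)) (C.map (algebraMap D S)) * (f : ℕ∞) := by
    refine le_trans (le_of_eq ?_) h
    push_cast
    ring
  have hf0' : (f : ℕ∞) ≠ 0 := by exact_mod_cast hf0
  have hft : (f : ℕ∞) ≠ ⊤ := by simp
  exact (ENat.mul_le_mul_right_iff hf0' hft).mp h2

end Vale.Agent.P202
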