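import Vale.Agent.P202.ChiLemmas
import Vale.Agent.P202.SL2S
import Vale.Agent.P202.Mcm
import Vale.Agent.P202.Koszul
import Mathlib.RingTheory.AdicCompletion.Noetherian
import Mathlib.RingTheory.AdicCompletion.Completeness
import Mathlib.RingTheory.AdicCompletion.Exactness
import Mathlib.RingTheory.TensorProduct.Quotient

/-!
The two-dimensional inequality for a complete local ring.
-/

set_option linter.unusedSectionVars false

namespace Vale.Agent.P202

open IsLocalRing TensorProduct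

namespace TwoDim

section domain

/-- growth of a local ring with one parameter. -/
lemma linear_growth {D : Type*} [CommRing D] [IsLocalRing D] [IsNoetherianRing D] (x : D)
    (hx : x ∈ maximalIdeal D) {s : ℕ} (hs : maximalIdeal D ^ s ≤ Ideal.span {x}) :
    ∃ K : ℕ, ∀ j : ℕ, ell (maximalIdeal D ^ j) ≤ (K : ℕ∞) * ((j : ℕ∞) + 1) := by
  obtain ⟨e, he⟩ := ENat.ne_top_iff_exists.mp (ell_ne_top_of_pow_le hs)
  have h1 : ∀ j : ℕ, ell (Ideal.span {x ^ j}) ≤ (j : ℕ∞) * e := by
    intro j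
    induction j with
    | zero =>
      rw [pow_zero, Ideal.span_singleton_one, ell_top]
      exact zero_le
    | succ j ih =>
      have h2 : Ideal.span {x ^ (j + 1)} ≤ Ideal.span {x ^ j} := by
        rw [Ideal.span_singleton_le_span_singleton, pow_succ]
        exact Dvd.intro _ rfl
      have h3 : rl (Ideal.span {x ^ (j + 1)}) (Ideal.span {x ^ j}) ≤ e := by
        have h4 := Mcm.rl_span_mul_le (x ^ j) (Ideal.span {x}) ⊤
        rw [Ideal.mul_top, Ideal.span_singleton_mul_span_singleton, ← pow_succ, rl_top] at h4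
        rw [he]
        exact h4
      have h5 : ell (Ideal.span {x ^ (j + 1)}) =
          rl (Ideal.span {x ^ (j + 1)}) (Ideal.span {x ^ j}) + ell (Ideal.span {x ^ j}) := by
        have := rl_add h2 (le_top (a := Ideal.span {x ^ j}))
        rw [rl_top, rl_top] at this
        exact this
      rw [h5]
      refine (add_le_add h3 ih).trans (le_of_eq ?_)
      push_cast; ring
  refine ⟨e, fun j => ?_⟩
  have h2 : ell (maximalIdeal D ^ j) ≤ ell (Ideal.span {x ^ j}) := by
    refine ell_mono ?_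
    rw [Ideal.span_singleton_le_iff_mem]
    exact Ideal.pow_mem_pow hx j
  refine (h2.trans (h1 j)).trans ?_
  rw [mul_comm]
  exact mul_le_mul_right le_self_add _

/-- relative length of `J * C` in `C`. -/
lemma rl_mul_eq {T : Type*} [CommRing T] (J C : Ideal T) :
    rl (J * C) C = Module.length T (C ⧸ (J • (⊤ : Submodule T C))) := by
  unfold rl
  have : (J * C).submoduleOf C = J • (⊤ : Submodule T C) := by
    apply Submodule.map_injective_of_injective (Submodule.injective_subtype C)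
    rw [Submodule.map_smul'', Submodule.map_top, Submodule.range_subtype, Submodule.submoduleOf,
      Submodule.map_comap_eq, Submodule.range_subtype, smul_eq_mul]
    exact inf_eq_right.mpr Ideal.mul_le_right
  rw [this]

/-- the inequality for a complete local domain. -/
theorem domain_bound {A S : Type*} [CommRing A] [IsDomain A] [IsLocalRing A] [IsNoetherianRing A]
    [IsAdicComplete (maximalIdeal A) A]
    [CommRing S] [IsLocalRing S] [IsNoetherianRing S] [Algebra A S]
    [IsLocalHom (algebraMap A S)] [Module.Flat A S]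
    (hres : Module.length (ResidueField A) (ResidueField S) ≠ ⊤)
    (hT : Module.length S (S ⧸ (maximalIdeal A).map (algebraMap A S)) ≠ ⊤)
    (x1 x2 : A) (hx1 : x1 ∈ maximalIdeal A) (hx2 : x2 ∈ maximalIdeal A)
    (r : ℕ) (hr : maximalIdeal A ^ (r + 1) ≤ Ideal.span {x1, x2} * maximalIdeal A ^ r)
    (y1 y2 : S) (hy1 : y1 ∈ maximalIdeal S) (hy2 : y2 ∈ maximalIdeal S)
    (hfin : Module.length S (S ⧸ Ideal.span {y1, y2}) ≠ ⊤) (c : ℕ)
    (hc : Module.length S (S ⧸ ((maximalIdeal A).map (algebraMap A S) ⊔ Ideal.span {y1, y2}))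
      = (c : ℕ∞)) :
    ∃ K : ℕ, ∀ j : ℕ, (c : ℕ∞) * (2 * ell (maximalIdeal A ^ j)) ≤
      ((chi2 y1 y2 S).toNat : ℕ∞) * (j : ℕ∞) ^ 2 + (K : ℕ∞) * ((j : ℕ∞) + 1) := by
  have hs : maximalIdeal A ^ (r + 1) ≤ Ideal.span {x1, x2} := hr.trans Ideal.mul_le_left
  -- the case of linear growth
  have hlin : ∀ x ∈ maximalIdeal A, ∀ s : ℕ, maximalIdeal A ^ s ≤ Ideal.span {x} →
      ∃ K : ℕ, ∀ j : ℕ, (c : ℕ∞) * (2 * ell (maximalIdeal A ^ j)) ≤
      ((chi2 y1 y2 S).toNat : ℕ∞) * (j : ℕ∞) ^ 2 + (K : ℕ∞) * ((j : ℕ∞) + 1) := by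
    intro x hx s hxs
    obtain ⟨K, hK⟩ := linear_growth x hx hxs
    refine ⟨c * (2 * K), fun j => ?_⟩
    refine le_trans ?_ le_add_self
    calc (c : ℕ∞) * (2 * ell (maximalIdeal A ^ j)) ≤ (c : ℕ∞) * (2 * ((K : ℕ∞) * ((j : ℕ∞) + 1))) :=
          mul_le_mul_right (mul_le_mul_right (hK j) _) _
      _ = _ := by push_cast; ring
  by_cases hx10 : x1 = 0
  · subst hx10
    refine hlin x2 hx2 (r + 1) (hs.trans ?_)
    rw [Ideal.span_le]
    rintro z hz
    simp only [Set.mem_insert_iff, Set.mem_singleton_iff] at hz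
    rcases hz with rfl | rfl
    · exact Ideal.zero_mem _
    · exact Ideal.mem_span_singleton_self _
  by_cases hrad : x2 ∈ (Ideal.span {x1}).radical
  · obtain ⟨n, hn⟩ := hrad
    refine hlin x1 hx1 ((r + 1) * (1 + n)) ?_
    rw [pow_mul]
    refine (Ideal.pow_right_mono hs _).trans ?_
    have h2 : Ideal.span {x1, x2} = Ideal.span {x1} ⊔ Ideal.span {x2} := by
      rw [← Ideal.span_union]; rfl
    rw [h2]
    refine (Ideal.sup_pow_add_le_pow_sup_pow).trans ?_
    rw [pow_one, Ideal.span_singleton_pow]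
    exact sup_le le_rfl ((Ideal.span_singleton_le_iff_mem _).mpr hn)
  obtain ⟨C, hC, r1, r2⟩ := exists_mcm_ideal' x1 x2 hx10 hrad hs
  have hfinA : Module.length A (A ⧸ Ideal.span {x1, x2}) ≠ ⊤ := ell_ne_top_of_pow_le hs
  obtain ⟨K, hK⟩ := growth_le x1 x2 hx1 hx2 hfinA C hC
  have hSL := SL2S hres hT C x1 x2 hx1 hx2 r1 r2 r hr y1 y2 hy1 hy2 hfin c hc
  set CT : Ideal S := C.map (algebraMap A S) with hCT
  -- the pair `y1, y2` is regular on `CT`
  have hmem : ∀ v : S, v ∈ CT ↔ v ∈ C • (⊤ : Submodule A S) := by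
    intro v
    rw [Ideal.smul_top_eq_map, Submodule.restrictScalars_mem]
  have f1 : ∀ v : CT, algebraMap A S x1 • v = 0 → v = 0 := by
    intro v hv
    apply Subtype.ext
    refine flat_r1 (V := S) r1 v.1 ((hmem _).mp v.2) ?_
    have := congrArg Subtype.val hv
    rw [Algebra.smul_def]
    exact this
  have f2 : ∀ v w : CT, algebraMap A S x2 • v = algebraMap A S x1 • w →
      ∃ u : CT, v = algebraMap A S x1 • u := by
    intro v w hvw
    have h1 := congrArg Subtype.val hvw
    obtain ⟨u, hu, hvu⟩ := flat_r2 (V := S) r2 v.1 ((hmem _).mp v.2) w.1 ((hmem _).mp w.2) (by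
      rw [Algebra.smul_def, Algebra.smul_def]; exact h1)
    refine ⟨⟨u, (hmem u).mpr hu⟩, Subtype.ext ?_⟩
    rw [hvu, Algebra.smul_def]
    rfl
  have hx1S : algebraMap A S x1 ∈ maximalIdeal S := by
    rw [mem_maximalIdeal, mem_nonunits_iff] at hx1 ⊢
    intro h
    exact hx1 (isUnit_of_map_unit (algebraMap A S) x1 h)
  have hx2S : algebraMap A S x2 ∈ maximalIdeal S := by
    rw [mem_maximalIdeal, mem_nonunits_iff] at hx2 ⊢
    intro h
    exact hx2 (isUnit_of_map_unit (algebraMap A S) x2 h)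
  have hfinC : Module.length S (CT ⧸ (Ideal.span {y1, y2} • (⊤ : Submodule S CT))) ≠ ⊤ :=
    length_quotient_smul_ne_top _ hfin
  obtain ⟨g1, g2⟩ := regular_of_finite_length (algebraMap A S x1) (algebraMap A S x2) hx1S hx2S
    f1 f2 y1 y2 hy1 hy2 hfinC
  have hchiC := chi2_of_regular y1 y2 CT g1 g2
  have hadd := chi2_add y1 y2 hy1 hy2 hfin CT.subtype CT.mkQ (Submodule.injective_subtype _)
    (Submodule.mkQ_surjective _) (by
      rw [LinearMap.exact_iff, Submodule.ker_mkQ, Submodule.range_subtype])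
  have hnn := chi2_nonneg y1 y2 hy1 hy2 hfin (S ⧸ CT)
  have hle : (rl (Ideal.span {y1, y2} * CT) CT) ≤ ((chi2 y1 y2 S).toNat : ℕ∞) := by
    rw [rl_mul_eq]
    obtain ⟨n, hn⟩ := ENat.ne_top_iff_exists.mp hfinC
    rw [← hn] at hchiC ⊢
    rw [ENat.toNat_natCast] at hchiC
    have : (n : ℤ) ≤ chi2 y1 y2 S := by rw [hadd, hchiC]; omega
    have : n ≤ (chi2 y1 y2 S).toNat := by omega
    exact_mod_cast this
  refine ⟨c * K, fun j => ?_⟩
  calc (c : ℕ∞) * (2 * ell (maximalIdeal A ^ j))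
      ≤ (c : ℕ∞) * (rl (Ideal.span {x1, x2} * C) C * (j : ℕ∞) ^ 2 + (K : ℕ∞) * ((j : ℕ∞) + 1)) :=
        mul_le_mul_right (hK j) _
    _ = ((c : ℕ∞) * rl (Ideal.span {x1, x2} * C) C) * (j : ℕ∞) ^ 2 +
        ((c * K : ℕ) : ℕ∞) * ((j : ℕ∞) + 1) := by push_cast; ring
    _ ≤ _ := add_le_add (mul_le_mul_left (hSL.trans hle) _) le_rfl

end domain

section quotient

lemma isPrecomplete_of_surjective' {R : Type*} [CommRing R] (I : Ideal R)
    {M N : Type*} [AddCommGroup M] [Module R M]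
    [AddCommGroup N] [Module R N] [IsPrecomplete I M] (f : M →ₗ[R] N)
    (hf : Function.Surjective f) : IsPrecomplete I N := by
  rw [← AdicCompletion.of_surjective_iff]
  intro y
  obtain ⟨x, rfl⟩ := AdicCompletion.map_surjective I hf y
  obtain ⟨z, rfl⟩ := AdicCompletion.of_surjective I M x
  exact ⟨f z, (AdicCompletion.map_of ..).symm⟩

lemma map_maximalIdeal_quotient {A : Type*} [CommRing A] [IsLocalRing A] (P : Ideal A)
    (hP : P ≠ ⊤) [IsLocalRing (A ⧸ P)] :
    (maximalIdeal A).map (Ideal.Quotient.mk P) = maximalIdeal (A ⧸ P) := by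
  apply eq_maximalIdeal
  refine Ideal.IsMaximal.map_of_surjective_of_ker_le Ideal.Quotient.mk_surjective ?_
  rw [Ideal.mk_ker]
  exact IsLocalRing.le_maximalIdeal hP

/-- A nonzero quotient of a complete local ring is complete. -/
lemma isAdicComplete_quotient' {S : Type*} [CommRing S] [IsLocalRing S] [IsNoetherianRing S]
    [IsAdicComplete (maximalIdeal S) S] (Q : Ideal S) (hQ : Q ≠ ⊤) [IsLocalRing (S ⧸ Q)] :
    IsAdicComplete (maximalIdeal (S ⧸ Q)) (S ⧸ Q) := by
  have h1 : IsPrecomplete (maximalIdeal (S ⧸ Q)) (S ⧸ Q) := by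
    have h1 : IsPrecomplete (maximalIdeal S) (S ⧸ Q) :=
      isPrecomplete_of_surjective' (maximalIdeal S) Q.mkQ Q.mkQ_surjective
    have h2 : IsPrecomplete ((maximalIdeal S).map (Ideal.Quotient.mk Q)) (S ⧸ Q) :=
      IsPrecomplete.map_algebraMap_iff.mpr h1
    rwa [map_maximalIdeal_quotient Q hQ] at h2
  have h3 : IsHausdorff (maximalIdeal (S ⧸ Q)) (S ⧸ Q) :=
    IsHausdorff.of_le_jacobson _ _ (by rw [IsLocalRing.jacobson_eq_maximalIdeal ⊥ bot_ne_top])
  exact { h1, h3 with }

lemma flat_quotient {A S : Type*} [CommRing A] [CommRing S] [Algebra A S] [Module.Flat A S]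
    (P : Ideal A) : Module.Flat (A ⧸ P) (S ⧸ P.map (algebraMap A S)) := by
  have e1 : ((A ⧸ P) ⊗[A] S) ≃ₗ[A] (S ⧸ (P • (⊤ : Submodule A S))) :=
    TensorProduct.quotTensorEquivQuotSMul S P
  have e2 : (S ⧸ (P • (⊤ : Submodule A S))) ≃ₗ[A] (S ⧸ P.map (algebraMap A S)) :=
    (Submodule.quotEquivOfEq _ ((P.map (algebraMap A S)).restrictScalars A)
        (by rw [← Ideal.smul_top_eq_map])).trans (Submodule.Quotient.restrictScalarsEquiv A _)
  have e3 : ((A ⧸ P) ⊗[A] S) ≃ₗ[A ⧸ P] (S ⧸ P.map (algebraMap A S)) :=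
    LinearEquiv.extendScalarsOfSurjective (Ideal.Quotient.mk_surjective) (e1.trans e2)
  exact Module.Flat.of_linearEquiv e3.symm

/-- lengths over `S` and over a quotient of `S`. -/
lemma chi1_restrict {S T : Type*} [CommRing S] [CommRing T] [Algebra S T]
    (hST : Function.Surjective (algebraMap S T)) (y : S) (N : Type*) [AddCommGroup N]
    [Module S N] [Module T N] [IsScalarTower S T N] :
    chi1 y N = chi1 (algebraMap S T y) N := by
  have h1 : Module.length S (N ⧸ LinearMap.range (LinearMap.lsmul S N y)) =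
      Module.length T (N ⧸ LinearMap.range (LinearMap.lsmul T N (algebraMap S T y))) := by
    rw [← Module.length_eq_of_surjective (S := S) hST]
    have e : (N ⧸ (LinearMap.range (LinearMap.lsmul T N (algebraMap S T y))).restrictScalars S)
        ≃ₗ[S] (N ⧸ LinearMap.range (LinearMap.lsmul T N (algebraMap S T y))) :=
      Submodule.Quotient.restrictScalarsEquiv S _
    rw [← e.length_eq]
    refine (Submodule.quotEquivOfEq _ _ ?_).length_eq
    ext v
    simp only [LinearMap.mem_range, Submodule.restrictScalars_mem, LinearMap.lsmul_apply,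
      algebraMap_smul]
  have h2 : Module.length S (LinearMap.ker (LinearMap.lsmul S N y)) =
      Module.length T (LinearMap.ker (LinearMap.lsmul T N (algebraMap S T y))) := by
    rw [← Module.length_eq_of_surjective (S := S) hST]
    have e : (LinearMap.ker (LinearMap.lsmul S N y)) ≃ₗ[S]
        ((LinearMap.ker (LinearMap.lsmul T N (algebraMap S T y))).restrictScalars S) :=
      LinearEquiv.ofEq _ _ (by
        ext v
        simp only [LinearMap.mem_ker, Submodule.restrictScalars_mem, LinearMap.lsmul_apply,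
          algebraMap_smul])
    exact e.length_eq
  unfold chi1
  rw [h1, h2]

lemma chi2_restrict {S T : Type*} [CommRing S] [CommRing T] [Algebra S T]
    (hST : Function.Surjective (algebraMap S T)) (y1 y2 : S) (N : Type*) [AddCommGroup N]
    [Module S N] [Module T N] [IsScalarTower S T N] :
    chi2 y1 y2 N = chi2 (algebraMap S T y1) (algebraMap S T y2) N := by
  unfold chi2
  rw [← chi1_restrict hST, ← chi1_restrict hST]
  congr 1
  · refine chi1_congr y2 ?_
    have e : (N ⧸ (LinearMap.range (LinearMap.lsmul T N (algebraMap S T y1))).restrictScalars S)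
        ≃ₗ[S] (N ⧸ LinearMap.range (LinearMap.lsmul T N (algebraMap S T y1))) :=
      Submodule.Quotient.restrictScalarsEquiv S _
    refine LinearEquiv.trans (Submodule.quotEquivOfEq _ _ ?_) e
    ext v
    simp only [LinearMap.mem_range, Submodule.restrictScalars_mem, LinearMap.lsmul_apply,
      algebraMap_smul]
  · refine chi1_congr y2 ?_
    have e : (LinearMap.ker (LinearMap.lsmul S N y1)) ≃ₗ[S]
        ((LinearMap.ker (LinearMap.lsmul T N (algebraMap S T y1))).restrictScalars S) :=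
      LinearEquiv.ofEq _ _ (by
        ext v
        simp only [LinearMap.mem_ker, Submodule.restrictScalars_mem, LinearMap.lsmul_apply,
          algebraMap_smul])
    exact e

end quotient

section induction

/-- growth function of a module. -/
noncomputable def gr (A : Type*) [CommRing A] [IsLocalRing A] (N : Type*) [AddCommGroup N]
    [Module A N] (j : ℕ) : ℕ∞ :=
  Module.length A (N ⧸ (maximalIdeal A ^ j • (⊤ : Submodule A N)))

lemma gr_congr {A : Type*} [CommRing A] [IsLocalRing A] {N N' : Type*} [AddCommGroup N]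
    [Module A N] [AddCommGroup N'] [Module A N'] (e : N ≃ₗ[A] N') (j : ℕ) : gr A N j = gr A N' j := by
  refine (Submodule.Quotient.equiv _ _ e ?_).length_eq
  rw [Submodule.map_smul'', Submodule.map_top]
  congr 1
  exact e.range

lemma gr_self (A : Type*) [CommRing A] [IsLocalRing A] (j : ℕ) :
    gr A A j = ell (maximalIdeal A ^ j) := by
  unfold gr ell
  rw [smul_eq_mul, Ideal.mul_top]

lemma gr_quotient {A : Type*} [CommRing A] [IsLocalRing A] (P : Ideal A) (hP : P ≠ ⊤)
    [IsLocalRing (A ⧸ P)] (j : ℕ) : gr A (A ⧸ P) j = ell (maximalIdeal (A ⧸ P) ^ j) := by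
  unfold gr
  rw [← map_maximalIdeal_quotient P hP, ← Ideal.map_pow]
  have e : ((A ⧸ P) ⧸ (maximalIdeal A ^ j • (⊤ : Submodule A (A ⧸ P)))) ≃ₗ[A]
      ((A ⧸ P) ⧸ (maximalIdeal A ^ j).map (Ideal.Quotient.mk P)) :=
    (Submodule.quotEquivOfEq _ (((maximalIdeal A ^ j).map
      (algebraMap A (A ⧸ P))).restrictScalars A)
        (by rw [← Ideal.smul_top_eq_map])).trans (Submodule.Quotient.restrictScalarsEquiv A _)
  rw [e.length_eq, Module.length_eq_of_surjective (R := A ⧸ P) Ideal.Quotient.mk_surjective]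
  rfl

lemma gr_le_add {A : Type*} [CommRing A] [IsLocalRing A] {N₁ N₂ N₃ : Type*} [AddCommGroup N₁]
    [Module A N₁] [AddCommGroup N₂] [Module A N₂] [AddCommGroup N₃] [Module A N₃]
    (f : N₁ →ₗ[A] N₂) (g : N₂ →ₗ[A] N₃) (hg : Function.Surjective g)
    (hfg : Function.Exact f g) (j : ℕ) : gr A N₂ j ≤ gr A N₁ j + gr A N₃ j := by
  unfold gr
  rw [← rl_top, ← rl_top, ← rl_top]
  set I := maximalIdeal A ^ j with hI
  have h1 : rl (I • (⊤ : Submodule A N₂)) (LinearMap.range f) ≤
      rl (I • (⊤ : Submodule A N₁)) ⊤ := by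
    have h2 := rl_map_le f (I • (⊤ : Submodule A N₁)) ⊤
    rw [Submodule.map_smul'', Submodule.map_top] at h2
    exact (rl_anti_left (Submodule.smul_mono le_rfl le_top)).trans h2
  have h3 : rl (I • (⊤ : Submodule A N₃)) ⊤ =
      rl (I • (⊤ : Submodule A N₂) ⊔ LinearMap.range f) ⊤ := by
    have h4 := rl_map g (I • (⊤ : Submodule A N₂)) ⊤
    rw [Submodule.map_smul'', Submodule.map_top, LinearMap.range_eq_top.mpr hg,
      (LinearMap.exact_iff.mp hfg)] at h4
    exact h4
  rw [h3, rl_add (K := I • (⊤ : Submodule A N₂)) le_sup_left le_top, rl_sup_right]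
  exact add_le_add h1 le_rfl

lemma isLocalHom_mk {S : Type*} [CommRing S] [IsLocalRing S] (J : Ideal S) (hJ : J ≠ ⊤) :
    IsLocalHom (Ideal.Quotient.mk J) := by
  have : Nontrivial (S ⧸ J) := Ideal.Quotient.nontrivial_iff.mpr hJ
  exact IsLocalHom.of_surjective _ Ideal.Quotient.mk_surjective

/-- the inequality for the quotient by a prime ideal. -/
theorem quotient_bound {A S : Type*} [CommRing A] [IsLocalRing A] [IsNoetherianRing A]
    [IsAdicComplete (maximalIdeal A) A]
    [CommRing S] [IsLocalRing S] [IsNoetherianRing S] [Algebra A S]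
    [IsLocalHom (algebraMap A S)] [Module.Flat A S]
    (hres : Module.length (ResidueField A) (ResidueField S) ≠ ⊤)
    (hT : Module.length S (S ⧸ (maximalIdeal A).map (algebraMap A S)) ≠ ⊤)
    (x1 x2 : A) (hx1 : x1 ∈ maximalIdeal A) (hx2 : x2 ∈ maximalIdeal A)
    (r : ℕ) (hr : maximalIdeal A ^ (r + 1) ≤ Ideal.span {x1, x2} * maximalIdeal A ^ r)
    (y1 y2 : S) (hy1 : y1 ∈ maximalIdeal S) (hy2 : y2 ∈ maximalIdeal S)
    (hfin : Module.length S (S ⧸ Ideal.span {y1, y2}) ≠ ⊤) (c : ℕ)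
    (hc : Module.length S (S ⧸ ((maximalIdeal A).map (algebraMap A S) ⊔ Ideal.span {y1, y2}))
      = (c : ℕ∞)) (P : Ideal A) [hP : P.IsPrime] :
    ∃ K : ℕ, ∀ j : ℕ, (c : ℕ∞) * (2 * gr A (A ⧸ P) j) ≤
      ((chi2 y1 y2 (S ⧸ P.map (algebraMap A S))).toNat : ℕ∞) * (j : ℕ∞) ^ 2 +
        (K : ℕ∞) * ((j : ℕ∞) + 1) := by
  have hPtop : P ≠ ⊤ := hP.ne_top
  have hPm : P ≤ maximalIdeal A := le_maximalIdeal hPtop
  set J : Ideal S := P.map (algebraMap A S) with hJ
  have hmS : (maximalIdeal A).map (algebraMap A S) ≤ maximalIdeal S :=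
    ((IsLocalRing.local_hom_TFAE (algebraMap A S)).out 0 2 rfl rfl).mp inferInstance
  have hJm : J ≤ maximalIdeal S := (Ideal.map_mono hPm).trans hmS
  have hJtop : J ≠ ⊤ := fun h => by
    rw [h, top_le_iff] at hJm
    exact (Ideal.IsPrime.ne_top (inferInstance : (maximalIdeal S).IsPrime)) hJm
  have : Nontrivial (S ⧸ J) := Ideal.Quotient.nontrivial_iff.mpr hJtop
  have : IsLocalRing (A ⧸ P) :=
    IsLocalRing.of_surjective' (Ideal.Quotient.mk P) Ideal.Quotient.mk_surjective
  have : IsLocalRing (S ⧸ J) :=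
    IsLocalRing.of_surjective' (Ideal.Quotient.mk J) Ideal.Quotient.mk_surjective
  have hlA := isLocalHom_mk P hPtop
  have hlS := isLocalHom_mk J hJtop
  have hmap : ∀ a : A, algebraMap (A ⧸ P) (S ⧸ J) (Ideal.Quotient.mk P a) =
      Ideal.Quotient.mk J (algebraMap A S a) := fun a => rfl
  have hcomp : (algebraMap (A ⧸ P) (S ⧸ J)).comp (Ideal.Quotient.mk P) =
      (Ideal.Quotient.mk J).comp (algebraMap A S) := RingHom.ext hmap
  have hloc : IsLocalHom (algebraMap (A ⧸ P) (S ⧸ J)) := by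
    constructor
    intro a ha
    obtain ⟨a, rfl⟩ := Ideal.Quotient.mk_surjective a
    rw [hmap] at ha
    have h1 := isUnit_of_map_unit (Ideal.Quotient.mk J) _ ha
    have h2 := isUnit_of_map_unit (algebraMap A S) _ h1
    exact h2.map _
  have hflat : Module.Flat (A ⧸ P) (S ⧸ J) := flat_quotient P
  have hcompl : IsAdicComplete (maximalIdeal (A ⧸ P)) (A ⧸ P) := isAdicComplete_quotient' P hPtop
  have hxm : ∀ x ∈ maximalIdeal A, Ideal.Quotient.mk P x ∈ maximalIdeal (A ⧸ P) := by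
    intro x hx
    rw [← map_maximalIdeal_quotient P hPtop]
    exact Ideal.mem_map_of_mem _ hx
  have hym : ∀ y ∈ maximalIdeal S, Ideal.Quotient.mk J y ∈ maximalIdeal (S ⧸ J) := by
    intro y hy
    rw [← map_maximalIdeal_quotient J hJtop]
    exact Ideal.mem_map_of_mem _ hy
  have hmT : (maximalIdeal (A ⧸ P)).map (algebraMap (A ⧸ P) (S ⧸ J)) =
      ((maximalIdeal A).map (algebraMap A S)).map (Ideal.Quotient.mk J) := by
    rw [← map_maximalIdeal_quotient P hPtop, Ideal.map_map, hcomp, ← Ideal.map_map]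
  have hJmA : J ≤ (maximalIdeal A).map (algebraMap A S) := Ideal.map_mono hPm
  have hspan : Ideal.span {Ideal.Quotient.mk J y1, Ideal.Quotient.mk J y2} =
      (Ideal.span {y1, y2}).map (Ideal.Quotient.mk J) := by
    rw [Ideal.map_span, Set.image_pair]
  have hspanx : Ideal.span {Ideal.Quotient.mk P x1, Ideal.Quotient.mk P x2} =
      (Ideal.span {x1, x2}).map (Ideal.Quotient.mk P) := by
    rw [Ideal.map_span, Set.image_pair]
  have hresT : Module.length (ResidueField (A ⧸ P)) (ResidueField (S ⧸ J)) ≠ ⊤ := by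
    have h1 : Module.length A (ResidueField (S ⧸ J)) =
        Module.length (ResidueField (A ⧸ P)) (ResidueField (S ⧸ J)) := by
      rw [← Module.length_eq_of_surjective (S := A ⧸ P) (R := ResidueField (A ⧸ P))
        residue_surjective]
      exact Module.length_eq_of_surjective Ideal.Quotient.mk_surjective
    have h2 : Module.length A (ResidueField S) =
        Module.length (ResidueField A) (ResidueField S) :=
      Module.length_eq_of_surjective residue_surjective
    have h3 : Module.length A (ResidueField (S ⧸ J)) ≤ Module.length A (ResidueField S) := by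
      have hl : IsLocalHom (Ideal.Quotient.mkₐ A J) := ⟨fun a ha => hlS.map_nonunit a ha⟩
      refine Module.length_le_of_surjective
        (ResidueField.mapAlgHom (Ideal.Quotient.mkₐ A J)).toLinearMap ?_
      intro z
      obtain ⟨t, rfl⟩ := residue_surjective z
      obtain ⟨t, rfl⟩ := Ideal.Quotient.mk_surjective t
      exact ⟨residue S t, rfl⟩
    rw [← h1]
    exact ne_top_of_le_ne_top hres (h2 ▸ h3)
  obtain ⟨K, hK⟩ := domain_bound (A := A ⧸ P) (S := S ⧸ J) hresT (by
      rw [hmT]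
      change ell (((maximalIdeal A).map (algebraMap A S)).map (Ideal.Quotient.mk J)) ≠ ⊤
      rw [ell_map_mk, sup_eq_left.mpr hJmA]
      exact hT)
    (Ideal.Quotient.mk P x1) (Ideal.Quotient.mk P x2) (hxm _ hx1) (hxm _ hx2) r (by
      rw [hspanx, ← map_maximalIdeal_quotient P hPtop, ← Ideal.map_pow, ← Ideal.map_pow,
        ← Ideal.map_mul]
      exact Ideal.map_mono hr)
    (Ideal.Quotient.mk J y1) (Ideal.Quotient.mk J y2) (hym _ hy1) (hym _ hy2) (by
      rw [hspan]
      change ell ((Ideal.span {y1, y2}).map (Ideal.Quotient.mk J)) ≠ ⊤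
      rw [ell_map_mk]
      exact ne_top_of_le_ne_top hfin (ell_mono le_sup_left)) c (by
      rw [hspan, hmT, ← Ideal.map_sup]
      change ell (((maximalIdeal A).map (algebraMap A S) ⊔ Ideal.span {y1, y2}).map
        (Ideal.Quotient.mk J)) = _
      rw [ell_map_mk, sup_eq_left.mpr (hJmA.trans le_sup_left)]
      exact hc)
  refine ⟨K, fun j => ?_⟩
  have h1 := hK j
  rw [← gr_quotient P hPtop] at h1
  have h2 : chi2 y1 y2 (S ⧸ J) = chi2 (Ideal.Quotient.mk J y1) (Ideal.Quotient.mk J y2) (S ⧸ J) :=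
    chi2_restrict (S := S) (T := S ⧸ J) Ideal.Quotient.mk_surjective y1 y2 (S ⧸ J)
  rw [h2]
  exact h1

end induction

end TwoDim

open TwoDim in
/-- two-dimensional inequality for a complete local ring `A`. -/
theorem two_dim_bound {A S : Type*} [CommRing A] [IsLocalRing A] [IsNoetherianRing A]
    [IsAdicComplete (maximalIdeal A) A]
    [CommRing S] [IsLocalRing S] [IsNoetherianRing S] [Algebra A S]
    [IsLocalHom (algebraMap A S)] [Module.Flat A S]
    (hres : Module.length (ResidueField A) (ResidueField S) ≠ ⊤)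
    (hT : Module.length S (S ⧸ (maximalIdeal A).map (algebraMap A S)) ≠ ⊤)
    (x1 x2 : A) (hx1 : x1 ∈ maximalIdeal A) (hx2 : x2 ∈ maximalIdeal A)
    (r : ℕ) (hr : maximalIdeal A ^ (r + 1) ≤ Ideal.span {x1, x2} * maximalIdeal A ^ r)
    (y1 y2 : S) (hy1 : y1 ∈ maximalIdeal S) (hy2 : y2 ∈ maximalIdeal S)
    (hfin : Module.length S (S ⧸ Ideal.span {y1, y2}) ≠ ⊤) (c : ℕ)
    (hc : Module.length S (S ⧸ ((maximalIdeal A).map (algebraMap A S) ⊔ Ideal.span {y1, y2}))
      = (c : ℕ∞)) :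
    ∃ K : ℕ, ∀ j : ℕ, (c : ℕ∞) * (2 * ell (maximalIdeal A ^ j)) ≤
      ((chi2 y1 y2 S).toNat : ℕ∞) * (j : ℕ∞) ^ 2 + (K : ℕ∞) * ((j : ℕ∞) + 1) := by
  have key : ∃ K : ℕ, ∀ j : ℕ, (c : ℕ∞) * (2 * gr A A j) ≤
      ((chi2 y1 y2 (S ⊗[A] A)).toNat : ℕ∞) * (j : ℕ∞) ^ 2 + (K : ℕ∞) * ((j : ℕ∞) + 1) := by
    refine IsNoetherianRing.induction_on_isQuotientEquivQuotientPrime A
      (M := A) (inferInstance : Module.Finite A A)
      (motive := fun N _ _ _ => ∃ K : ℕ, ∀ j : ℕ, (c : ℕ∞) * (2 * gr A N j) ≤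
        ((chi2 y1 y2 (S ⊗[A] N)).toNat : ℕ∞) * (j : ℕ∞) ^ 2 + (K : ℕ∞) * ((j : ℕ∞) + 1))
      ?_ ?_ ?_
    · intro N _ _ _ _
      refine ⟨0, fun j => ?_⟩
      have : gr A N j = 0 := by
        unfold gr
        have : Subsingleton (N ⧸ (maximalIdeal A ^ j • (⊤ : Submodule A N))) := inferInstance
        exact Module.length_eq_zero
      rw [this]
      simp
    · intro N _ _ _ P e
      have hPp : P.1.IsPrime := P.2
      obtain ⟨K, hK⟩ := quotient_bound hres hT x1 x2 hx1 hx2 r hr y1 y2 hy1 hy2 hfin c hc P.1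
      refine ⟨K, fun j => ?_⟩
      rw [gr_congr e j]
      have h1 : chi2 y1 y2 (S ⊗[A] N) = chi2 y1 y2 (S ⧸ P.1.map (algebraMap A S)) := by
        refine chi2_congr y1 y2 ?_
        exact (TensorProduct.AlgebraTensorModule.congr (LinearEquiv.refl S S) e).trans
          (Algebra.TensorProduct.quotIdealMapEquivTensorQuot S P.1).symm.toLinearEquiv
      rw [h1]
      exact hK j
    · intro N₁ _ _ _ N₂ _ _ _ N₃ _ _ _ f g hf hg hfg h1 h3
      obtain ⟨K₁, hK₁⟩ := h1
      obtain ⟨K₃, hK₃⟩ := h3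
      refine ⟨K₁ + K₃, fun j => ?_⟩
      have hadd := chi2_add y1 y2 hy1 hy2 hfin (f.baseChange S) (g.baseChange S)
        (Module.Flat.lTensor_preserves_injective_linearMap f hf)
        (LinearMap.lTensor_surjective S hg) (lTensor_exact S hfg hg)
      have hn1 := chi2_nonneg y1 y2 hy1 hy2 hfin (S ⊗[A] N₁)
      have hn3 := chi2_nonneg y1 y2 hy1 hy2 hfin (S ⊗[A] N₃)
      have h4 : (chi2 y1 y2 (S ⊗[A] N₂)).toNat =
          (chi2 y1 y2 (S ⊗[A] N₁)).toNat + (chi2 y1 y2 (S ⊗[A] N₃)).toNat := by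
        rw [hadd]; omega
      rw [h4]
      calc (c : ℕ∞) * (2 * gr A N₂ j) ≤ (c : ℕ∞) * (2 * (gr A N₁ j + gr A N₃ j)) :=
            mul_le_mul_right (mul_le_mul_right (gr_le_add f g hg hfg j) _) _
        _ = (c : ℕ∞) * (2 * gr A N₁ j) + (c : ℕ∞) * (2 * gr A N₃ j) := by ring
        _ ≤ _ := add_le_add (hK₁ j) (hK₃ j)
        _ = _ := by push_cast; ring
  obtain ⟨K, hK⟩ := key
  refine ⟨K, fun j => ?_⟩
  have h1 : chi2 y1 y2 (S ⊗[A] A) = chi2 y1 y2 S :=
    chi2_congr y1 y2 (TensorProduct.AlgebraTensorModule.rid A S S)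
  have h2 := hK j
  rw [h1, gr_self] at h2
  exact h2

end Vale.Agent.P202
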