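import Vale.Agent.P202.ChiLemmas
import Vale.Agent.P202.SL2G
import Vale.Agent.P202.TwoDim
import Vale.Agent.P202.Mcm
import Vale.Agent.P202.Koszul
import Mathlib.RingTheory.AdicCompletion.Noetherian
import Mathlib.RingTheory.AdicCompletion.Completeness
import Mathlib.RingTheory.AdicCompletion.Exactness
import Mathlib.RingTheory.TensorProduct.Quotient

/-!
The two-dimensional inequality for a complete local ring.
-/

set_option linter.unusedSectionVars false

namespace Vale.Agent.P202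

open IsLocalRing TensorProduct

namespace TwoDim

section domain

/-- the inequality for a complete local domain. -/
theorem domain_boundG {A S : Type*} [CommRing A] [IsDomain A] [IsLocalRing A] [IsNoetherianRing A]
    [IsAdicComplete (maximalIdeal A) A]
    [CommRing S] [IsLocalRing S] [IsNoetherianRing S] [Algebra A S]
    [IsLocalHom (algebraMap A S)] [Module.Flat A S]
    (hT : Module.length S (S ⧸ (maximalIdeal A).map (algebraMap A S)) ≠ ⊤)
    (x1 x2 : A) (hx1 : x1 ∈ maximalIdeal A) (hx2 : x2 ∈ maximalIdeal A)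
    (r : ℕ) (hr : maximalIdeal A ^ (r + 1) ≤ Ideal.span {x1, x2} * maximalIdeal A ^ r)
    (y1 y2 : S) (hy1 : y1 ∈ maximalIdeal S) (hy2 : y2 ∈ maximalIdeal S)
    (hfin : Module.length S (S ⧸ Ideal.span {y1, y2}) ≠ ⊤) (c : ℕ)
    (hc : Module.length S (S ⧸ ((maximalIdeal A).map (algebraMap A S) ⊔ Ideal.span {y1, y2}))
      = (c : ℕ∞)) :
    ∃ K : ℕ, ∀ j : ℕ, (c : ℕ∞) * (2 * ell (maximalIdeal A ^ j)) ≤
      ((chi2 y1 y2 S).toNat : ℕ∞) * (j : ℕ∞) ^ 2 + (K : ℕ∞) * ((j : ℕ∞) + 1) := by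
  have hs : maximalIdeal A ^ (r + 1) ≤ Ideal.span {x1, x2} := hr.trans Ideal.mul_le_left
  -- the case of linear growth
  have hlin : ∀ x ∈ maximalIdeal A, ∀ s : ℕ, maximalIdeal A ^ s ≤ Ideal.span {x} →
      ∃ K : ℕ, ∀ j : ℕ, (c : ℕ∞) * (2 * ell (maximalIdeal A ^ j)) ≤
      ((chi2 y1 y2 S).toNat : ℕ∞) * (j : ℕ∞) ^ 2 + (K : ℕ∞) * ((j : ℕ∞) + 1) := by
    intro x hx s hxs
    obtain ⟨K, hK⟩ := linear_growth x hx hxs
    refine ⟨c * (2 * K), fun j => ?_⟩
    refine le_trans ?_ le_add_self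
    calc (c : ℕ∞) * (2 * ell (maximalIdeal A ^ j)) ≤ (c : ℕ∞) * (2 * ((K : ℕ∞) * ((j : ℕ∞) + 1))) :=
          mul_le_mul_right (mul_le_mul_right (hK j) _) _
      _ = _ := by push_cast; ring
  by_cases hx10 : x1 = 0
  · subst hx10
    refine hlin x2 hx2 (r + 1) (hs.trans ?_)
    rw [Ideal.span_le]
    rintro z hz
    simp only [Set.mem_insert_iff, Set.mem_singleton_iff] at hz
    rcases hz with rfl | rfl
    · exact Ideal.zero_mem _
    · exact Ideal.mem_span_singleton_self _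
  by_cases hrad : x2 ∈ (Ideal.span {x1}).radical
  · obtain ⟨n, hn⟩ := hrad
    refine hlin x1 hx1 ((r + 1) * (1 + n)) ?_
    rw [pow_mul]
    refine (Ideal.pow_right_mono hs _).trans ?_
    have h2 : Ideal.span {x1, x2} = Ideal.span {x1} ⊔ Ideal.span {x2} := by
      rw [← Ideal.span_union]; rfl
    rw [h2]
    refine (Ideal.sup_pow_add_le_pow_sup_pow).trans ?_
    rw [pow_one, Ideal.span_singleton_pow]
    exact sup_le le_rfl ((Ideal.span_singleton_le_iff_mem _).mpr hn)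
  obtain ⟨C, hC, r1, r2⟩ := exists_mcm_ideal' x1 x2 hx10 hrad hs
  have hfinA : Module.length A (A ⧸ Ideal.span {x1, x2}) ≠ ⊤ := ell_ne_top_of_pow_le hs
  obtain ⟨K, hK⟩ := growth_le x1 x2 hx1 hx2 hfinA C hC
  have hSL := SL2G hT C x1 x2 hx1 hx2 r1 r2 r hr y1 y2 hy1 hy2 hfin c hc
  set CT : Ideal S := C.map (algebraMap A S) with hCT
  -- the pair `y1, y2` is regular on `CT`
  have hmem : ∀ v : S, v ∈ CT ↔ v ∈ C • (⊤ : Submodule A S) := by
    intro v
    rw [Ideal.smul_top_eq_map, Submodule.restrictScalars_mem]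
  have f1 : ∀ v : CT, algebraMap A S x1 • v = 0 → v = 0 := by
    intro v hv
    apply Subtype.ext
    refine flat_r1 (V := S) r1 v.1 ((hmem _).mp v.2) ?_
    have := congrArg Subtype.val hv
    rw [Algebra.smul_def]
    exact this
  have f2 : ∀ v w : CT, algebraMap A S x2 • v = algebraMap A S x1 • w →
      ∃ u : CT, v = algebraMap A S x1 • u := by
    intro v w hvw
    have h1 := congrArg Subtype.val hvw
    obtain ⟨u, hu, hvu⟩ := flat_r2 (V := S) r2 v.1 ((hmem _).mp v.2) w.1 ((hmem _).mp w.2) (by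
      rw [Algebra.smul_def, Algebra.smul_def]; exact h1)
    refine ⟨⟨u, (hmem u).mpr hu⟩, Subtype.ext ?_⟩
    rw [hvu, Algebra.smul_def]
    rfl
  have hx1S : algebraMap A S x1 ∈ maximalIdeal S := by
    rw [mem_maximalIdeal, mem_nonunits_iff] at hx1 ⊢
    intro h
    exact hx1 (isUnit_of_map_unit (algebraMap A S) x1 h)
  have hx2S : algebraMap A S x2 ∈ maximalIdeal S := by
    rw [mem_maximalIdeal, mem_nonunits_iff] at hx2 ⊢
    intro h
    exact hx2 (isUnit_of_map_unit (algebraMap A S) x2 h)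
  have hfinC : Module.length S (CT ⧸ (Ideal.span {y1, y2} • (⊤ : Submodule S CT))) ≠ ⊤ :=
    length_quotient_smul_ne_top _ hfin
  obtain ⟨g1, g2⟩ := regular_of_finite_length (algebraMap A S x1) (algebraMap A S x2) hx1S hx2S
    f1 f2 y1 y2 hy1 hy2 hfinC
  have hchiC := chi2_of_regular y1 y2 CT g1 g2
  have hadd := chi2_add y1 y2 hy1 hy2 hfin CT.subtype CT.mkQ (Submodule.injective_subtype _)
    (Submodule.mkQ_surjective _) (by
      rw [LinearMap.exact_iff, Submodule.ker_mkQ, Submodule.range_subtype])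
  have hnn := chi2_nonneg y1 y2 hy1 hy2 hfin (S ⧸ CT)
  have hle : (rl (Ideal.span {y1, y2} * CT) CT) ≤ ((chi2 y1 y2 S).toNat : ℕ∞) := by
    rw [rl_mul_eq]
    obtain ⟨n, hn⟩ := ENat.ne_top_iff_exists.mp hfinC
    rw [← hn] at hchiC ⊢
    rw [ENat.toNat_natCast] at hchiC
    have : (n : ℤ) ≤ chi2 y1 y2 S := by rw [hadd, hchiC]; omega
    have : n ≤ (chi2 y1 y2 S).toNat := by omega
    exact_mod_cast this
  refine ⟨c * K, fun j => ?_⟩
  calc (c : ℕ∞) * (2 * ell (maximalIdeal A ^ j))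
      ≤ (c : ℕ∞) * (rl (Ideal.span {x1, x2} * C) C * (j : ℕ∞) ^ 2 + (K : ℕ∞) * ((j : ℕ∞) + 1)) :=
        mul_le_mul_right (hK j) _
    _ = ((c : ℕ∞) * rl (Ideal.span {x1, x2} * C) C) * (j : ℕ∞) ^ 2 +
        ((c * K : ℕ) : ℕ∞) * ((j : ℕ∞) + 1) := by push_cast; ring
    _ ≤ _ := add_le_add (mul_le_mul_left (hSL.trans hle) _) le_rfl

end domain

section induction

/-- the inequality for the quotient by a prime ideal. -/
theorem quotient_boundG {A S : Type*} [CommRing A] [IsLocalRing A] [IsNoetherianRing A]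
    [IsAdicComplete (maximalIdeal A) A]
    [CommRing S] [IsLocalRing S] [IsNoetherianRing S] [Algebra A S]
    [IsLocalHom (algebraMap A S)] [Module.Flat A S]
    (hT : Module.length S (S ⧸ (maximalIdeal A).map (algebraMap A S)) ≠ ⊤)
    (x1 x2 : A) (hx1 : x1 ∈ maximalIdeal A) (hx2 : x2 ∈ maximalIdeal A)
    (r : ℕ) (hr : maximalIdeal A ^ (r + 1) ≤ Ideal.span {x1, x2} * maximalIdeal A ^ r)
    (y1 y2 : S) (hy1 : y1 ∈ maximalIdeal S) (hy2 : y2 ∈ maximalIdeal S)
    (hfin : Module.length S (S ⧸ Ideal.span {y1, y2}) ≠ ⊤) (c : ℕ)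
    (hc : Module.length S (S ⧸ ((maximalIdeal A).map (algebraMap A S) ⊔ Ideal.span {y1, y2}))
      = (c : ℕ∞)) (P : Ideal A) [hP : P.IsPrime] :
    ∃ K : ℕ, ∀ j : ℕ, (c : ℕ∞) * (2 * gr A (A ⧸ P) j) ≤
      ((chi2 y1 y2 (S ⧸ P.map (algebraMap A S))).toNat : ℕ∞) * (j : ℕ∞) ^ 2 +
        (K : ℕ∞) * ((j : ℕ∞) + 1) := by
  have hPtop : P ≠ ⊤ := hP.ne_top
  have hPm : P ≤ maximalIdeal A := le_maximalIdeal hPtop
  set J : Ideal S := P.map (algebraMap A S) with hJ
  have hmS : (maximalIdeal A).map (algebraMap A S) ≤ maximalIdeal S :=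
    ((IsLocalRing.local_hom_TFAE (algebraMap A S)).out 0 2 rfl rfl).mp inferInstance
  have hJm : J ≤ maximalIdeal S := (Ideal.map_mono hPm).trans hmS
  have hJtop : J ≠ ⊤ := fun h => by
    rw [h, top_le_iff] at hJm
    exact (Ideal.IsPrime.ne_top (inferInstance : (maximalIdeal S).IsPrime)) hJm
  have : Nontrivial (S ⧸ J) := Ideal.Quotient.nontrivial_iff.mpr hJtop
  have : IsLocalRing (A ⧸ P) :=
    IsLocalRing.of_surjective' (Ideal.Quotient.mk P) Ideal.Quotient.mk_surjective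
  have : IsLocalRing (S ⧸ J) :=
    IsLocalRing.of_surjective' (Ideal.Quotient.mk J) Ideal.Quotient.mk_surjective
  have hlA := isLocalHom_mk P hPtop
  have hlS := isLocalHom_mk J hJtop
  have hmap : ∀ a : A, algebraMap (A ⧸ P) (S ⧸ J) (Ideal.Quotient.mk P a) =
      Ideal.Quotient.mk J (algebraMap A S a) := fun a => rfl
  have hcomp : (algebraMap (A ⧸ P) (S ⧸ J)).comp (Ideal.Quotient.mk P) =
      (Ideal.Quotient.mk J).comp (algebraMap A S) := RingHom.ext hmap
  have hloc : IsLocalHom (algebraMap (A ⧸ P) (S ⧸ J)) := by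
    constructor
    intro a ha
    obtain ⟨a, rfl⟩ := Ideal.Quotient.mk_surjective a
    rw [hmap] at ha
    have h1 := isUnit_of_map_unit (Ideal.Quotient.mk J) _ ha
    have h2 := isUnit_of_map_unit (algebraMap A S) _ h1
    exact h2.map _
  have hflat : Module.Flat (A ⧸ P) (S ⧸ J) := flat_quotient P
  have hcompl : IsAdicComplete (maximalIdeal (A ⧸ P)) (A ⧸ P) := isAdicComplete_quotient' P hPtop
  have hxm : ∀ x ∈ maximalIdeal A, Ideal.Quotient.mk P x ∈ maximalIdeal (A ⧸ P) := by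
    intro x hx
    rw [← map_maximalIdeal_quotient P hPtop]
    exact Ideal.mem_map_of_mem _ hx
  have hym : ∀ y ∈ maximalIdeal S, Ideal.Quotient.mk J y ∈ maximalIdeal (S ⧸ J) := by
    intro y hy
    rw [← map_maximalIdeal_quotient J hJtop]
    exact Ideal.mem_map_of_mem _ hy
  have hmT : (maximalIdeal (A ⧸ P)).map (algebraMap (A ⧸ P) (S ⧸ J)) =
      ((maximalIdeal A).map (algebraMap A S)).map (Ideal.Quotient.mk J) := by
    rw [← map_maximalIdeal_quotient P hPtop, Ideal.map_map, hcomp, ← Ideal.map_map]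
  have hJmA : J ≤ (maximalIdeal A).map (algebraMap A S) := Ideal.map_mono hPm
  have hspan : Ideal.span {Ideal.Quotient.mk J y1, Ideal.Quotient.mk J y2} =
      (Ideal.span {y1, y2}).map (Ideal.Quotient.mk J) := by
    rw [Ideal.map_span, Set.image_pair]
  have hspanx : Ideal.span {Ideal.Quotient.mk P x1, Ideal.Quotient.mk P x2} =
      (Ideal.span {x1, x2}).map (Ideal.Quotient.mk P) := by
    rw [Ideal.map_span, Set.image_pair]
  obtain ⟨K, hK⟩ := domain_boundG (A := A ⧸ P) (S := S ⧸ J) (by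
      rw [hmT]
      change ell (((maximalIdeal A).map (algebraMap A S)).map (Ideal.Quotient.mk J)) ≠ ⊤
      rw [ell_map_mk, sup_eq_left.mpr hJmA]
      exact hT)
    (Ideal.Quotient.mk P x1) (Ideal.Quotient.mk P x2) (hxm _ hx1) (hxm _ hx2) r (by
      rw [hspanx, ← map_maximalIdeal_quotient P hPtop, ← Ideal.map_pow, ← Ideal.map_pow,
        ← Ideal.map_mul]
      exact Ideal.map_mono hr)
    (Ideal.Quotient.mk J y1) (Ideal.Quotient.mk J y2) (hym _ hy1) (hym _ hy2) (by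
      rw [hspan]
      change ell ((Ideal.span {y1, y2}).map (Ideal.Quotient.mk J)) ≠ ⊤
      rw [ell_map_mk]
      exact ne_top_of_le_ne_top hfin (ell_mono le_sup_left)) c (by
      rw [hspan, hmT, ← Ideal.map_sup]
      change ell (((maximalIdeal A).map (algebraMap A S) ⊔ Ideal.span {y1, y2}).map
        (Ideal.Quotient.mk J)) = _
      rw [ell_map_mk, sup_eq_left.mpr (hJmA.trans le_sup_left)]
      exact hc)
  refine ⟨K, fun j => ?_⟩
  have h1 := hK j
  rw [← gr_quotient P hPtop] at h1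
  have h2 : chi2 y1 y2 (S ⧸ J) = chi2 (Ideal.Quotient.mk J y1) (Ideal.Quotient.mk J y2) (S ⧸ J) :=
    chi2_restrict (S := S) (T := S ⧸ J) Ideal.Quotient.mk_surjective y1 y2 (S ⧸ J)
  rw [h2]
  exact h1

end induction

end TwoDim

open TwoDim in
/-- two-dimensional inequality for a complete local ring `A`. -/
theorem two_dim_boundG {A S : Type*} [CommRing A] [IsLocalRing A] [IsNoetherianRing A]
    [IsAdicComplete (maximalIdeal A) A]
    [CommRing S] [IsLocalRing S] [IsNoetherianRing S] [Algebra A S]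
    [IsLocalHom (algebraMap A S)] [Module.Flat A S]
    (hT : Module.length S (S ⧸ (maximalIdeal A).map (algebraMap A S)) ≠ ⊤)
    (x1 x2 : A) (hx1 : x1 ∈ maximalIdeal A) (hx2 : x2 ∈ maximalIdeal A)
    (r : ℕ) (hr : maximalIdeal A ^ (r + 1) ≤ Ideal.span {x1, x2} * maximalIdeal A ^ r)
    (y1 y2 : S) (hy1 : y1 ∈ maximalIdeal S) (hy2 : y2 ∈ maximalIdeal S)
    (hfin : Module.length S (S ⧸ Ideal.span {y1, y2}) ≠ ⊤) (c : ℕ)
    (hc : Module.length S (S ⧸ ((maximalIdeal A).map (algebraMap A S) ⊔ Ideal.span {y1, y2}))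
      = (c : ℕ∞)) :
    ∃ K : ℕ, ∀ j : ℕ, (c : ℕ∞) * (2 * ell (maximalIdeal A ^ j)) ≤
      ((chi2 y1 y2 S).toNat : ℕ∞) * (j : ℕ∞) ^ 2 + (K : ℕ∞) * ((j : ℕ∞) + 1) := by
  have key : ∃ K : ℕ, ∀ j : ℕ, (c : ℕ∞) * (2 * gr A A j) ≤
      ((chi2 y1 y2 (S ⊗[A] A)).toNat : ℕ∞) * (j : ℕ∞) ^ 2 + (K : ℕ∞) * ((j : ℕ∞) + 1) := by
    refine IsNoetherianRing.induction_on_isQuotientEquivQuotientPrime A
      (M := A) (inferInstance : Module.Finite A A)
      (motive := fun N _ _ _ => ∃ K : ℕ, ∀ j : ℕ, (c : ℕ∞) * (2 * gr A N j) ≤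
        ((chi2 y1 y2 (S ⊗[A] N)).toNat : ℕ∞) * (j : ℕ∞) ^ 2 + (K : ℕ∞) * ((j : ℕ∞) + 1))
      ?_ ?_ ?_
    · intro N _ _ _ _
      refine ⟨0, fun j => ?_⟩
      have : gr A N j = 0 := by
        unfold gr
        have : Subsingleton (N ⧸ (maximalIdeal A ^ j • (⊤ : Submodule A N))) := inferInstance
        exact Module.length_eq_zero
      rw [this]
      simp
    · intro N _ _ _ P e
      have hPp : P.1.IsPrime := P.2
      obtain ⟨K, hK⟩ := quotient_boundG hT x1 x2 hx1 hx2 r hr y1 y2 hy1 hy2 hfin c hc P.1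
      refine ⟨K, fun j => ?_⟩
      rw [gr_congr e j]
      have h1 : chi2 y1 y2 (S ⊗[A] N) = chi2 y1 y2 (S ⧸ P.1.map (algebraMap A S)) := by
        refine chi2_congr y1 y2 ?_
        exact (TensorProduct.AlgebraTensorModule.congr (LinearEquiv.refl S S) e).trans
          (Algebra.TensorProduct.quotIdealMapEquivTensorQuot S P.1).symm.toLinearEquiv
      rw [h1]
      exact hK j
    · intro N₁ _ _ _ N₂ _ _ _ N₃ _ _ _ f g hf hg hfg h1 h3
      obtain ⟨K₁, hK₁⟩ := h1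
      obtain ⟨K₃, hK₃⟩ := h3
      refine ⟨K₁ + K₃, fun j => ?_⟩
      have hadd := chi2_add y1 y2 hy1 hy2 hfin (f.baseChange S) (g.baseChange S)
        (Module.Flat.lTensor_preserves_injective_linearMap f hf)
        (LinearMap.lTensor_surjective S hg) (lTensor_exact S hfg hg)
      have hn1 := chi2_nonneg y1 y2 hy1 hy2 hfin (S ⊗[A] N₁)
      have hn3 := chi2_nonneg y1 y2 hy1 hy2 hfin (S ⊗[A] N₃)
      have h4 : (chi2 y1 y2 (S ⊗[A] N₂)).toNat =
          (chi2 y1 y2 (S ⊗[A] N₁)).toNat + (chi2 y1 y2 (S ⊗[A] N₃)).toNat := by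
        rw [hadd]; omega
      rw [h4]
      calc (c : ℕ∞) * (2 * gr A N₂ j) ≤ (c : ℕ∞) * (2 * (gr A N₁ j + gr A N₃ j)) :=
            mul_le_mul_right (mul_le_mul_right (gr_le_add f g hg hfg j) _) _
        _ = (c : ℕ∞) * (2 * gr A N₁ j) + (c : ℕ∞) * (2 * gr A N₃ j) := by ring
        _ ≤ _ := add_le_add (hK₁ j) (hK₃ j)
        _ = _ := by push_cast; ring
  obtain ⟨K, hK⟩ := key
  refine ⟨K, fun j => ?_⟩
  have h1 : chi2 y1 y2 (S ⊗[A] A) = chi2 y1 y2 S :=
    chi2_congr y1 y2 (TensorProduct.AlgebraTensorModule.rid A S S)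
  have h2 := hK j
  rw [h1, gr_self] at h2
  exact h2

end Vale.Agent.P202
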