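import Vale.Agent.P202.ClsAssembly
import Vale.Agent.P202.FinD

/-!
P202: the case `dim R = 0`, and the existence of the multiplicities in all dimensions.
-/

set_option linter.unusedSectionVars false

namespace Vale.Agent.P202

open Ideal IsLocalRing Finset Filter Topology

universe u

theorem ell_le_ell_map_zd {R S : Type*} [CommRing R] [IsLocalRing R] [IsNoetherianRing R]
    [CommRing S] [IsLocalRing S] [IsNoetherianRing S] [Algebra R S]
    [IsLocalHom (algebraMap R S)] [Module.Flat R S] (J : Ideal R) :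
    ell J ≤ ell (J.map (algebraMap R S)) := by
  have h0 : ell (J.map (algebraMap R S)) =
      ell J * ell ((maximalIdeal R).map (algebraMap R S)) := by
    unfold ell
    rw [← IsLocalRing.length_baseChange,
      (Algebra.TensorProduct.quotIdealMapEquivTensorQuot S J).toLinearEquiv.length_eq]
  rw [h0]
  have h1 : 1 ≤ ell ((maximalIdeal R).map (algebraMap R S)) :=
    one_le_ell (map_maximalIdeal_lt_top (algebraMap R S)).ne
  calc ell J = ell J * 1 := (mul_one _).symm
    _ ≤ _ := by gcongr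

theorem exists_pow_eq_bot {A : Type*} [CommRing A] [IsLocalRing A] [IsNoetherianRing A]
    (hA : ringKrullDim A = (0 : ℕ)) : ∃ n, maximalIdeal A ^ n = ⊥ := by
  have h1 : Ring.KrullDimLE 0 A := by
    rw [Ring.KrullDimLE, Order.krullDimLE_iff]
    exact hA.le
  have : IsArtinianRing A := IsNoetherianRing.isArtinianRing_of_krullDimLE_zero
  have h2 := IsArtinianRing.isNilpotent_jacobson_bot (R := A)
  rw [IsLocalRing.jacobson_eq_maximalIdeal ⊥ bot_ne_top] at h2
  exact h2

theorem tendsto_zero_dim {A : Type u} [CommRing A] [IsLocalRing A] {n : ℕ}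
    (h : maximalIdeal A ^ n = ⊥) :
    Tendsto (hsSeq A 0) atTop (𝓝 (((Module.length A (A ⧸ (⊥ : Ideal A))).toNat : ℕ) : ℝ)) := by
  refine tendsto_const_nhds.congr' ?_
  filter_upwards [eventually_ge_atTop n] with N hN
  have h1 : maximalIdeal A ^ N = ⊥ := by
    rw [eq_bot_iff, ← h]
    exact Ideal.pow_le_pow_right hN
  simp only [hsSeq, Nat.factorial_zero, Nat.cast_one, one_mul, pow_zero, div_one]
  rw [h1]

theorem exists_mult_all {A : Type u} [CommRing A] [IsLocalRing A] [IsNoetherianRing A] {d : ℕ}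
    (hdim : ringKrullDim A = d) : ∃ e : ℕ, Tendsto (hsSeq A d) atTop (𝓝 (e : ℝ)) := by
  rcases Nat.eq_zero_or_pos d with rfl | hd
  · obtain ⟨n, hn⟩ := exists_pow_eq_bot hdim
    exact ⟨_, tendsto_zero_dim hn⟩
  · exact exists_mult hd hdim

/-- Lech's inequality for Artinian base rings. -/
theorem lech_zero_aux (n : ℕ) : ∀ {R S : Type u}
    [CommRing R] [IsLocalRing R] [IsNoetherianRing R]
    [CommRing S] [IsLocalRing S] [IsNoetherianRing S] [Algebra R S]
    [IsLocalHom (algebraMap R S)] [Module.Flat R S]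
    (_ : ringKrullDim R = (0 : ℕ)) (_ : ringKrullDim S = (n : ℕ)) (eR eS : ℕ)
    (_ : Tendsto (hsSeq R 0) atTop (𝓝 (eR : ℝ)))
    (_ : Tendsto (hsSeq S n) atTop (𝓝 (eS : ℝ))), eR ≤ eS := by
  induction n with
  | zero =>
    intro R S _ _ _ _ _ _ _ _ _ hR hS eR eS heR heS
    obtain ⟨a, ha⟩ := exists_pow_eq_bot hR
    obtain ⟨b, hb⟩ := exists_pow_eq_bot hS
    have h1 := tendsto_nhds_unique heR (tendsto_zero_dim ha)
    have h2 := tendsto_nhds_unique heS (tendsto_zero_dim hb)
    have h1' : eR = (Module.length R (R ⧸ (⊥ : Ideal R))).toNat := by exact_mod_cast h1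
    have h2' : eS = (Module.length S (S ⧸ (⊥ : Ideal S))).toNat := by exact_mod_cast h2
    rw [h1', h2']
    have hfin : ell (⊥ : Ideal S) ≠ ⊤ := ell_ne_top_of_pow_le (s := b) hb.le
    refine ENat.toNat_le_toNat ?_ hfin
    have h3 := ell_le_ell_map_zd (R := R) (S := S) (⊥ : Ideal R)
    rw [Ideal.map_bot] at h3
    exact h3
  | succ n ih =>
    intro R S _ _ _ _ _ _ _ _ _ hR hS eR eS heR heS
    obtain ⟨R2, S2, _, _, _, _, _, _, _, _, _, _, _, hlR2, hlS2, hdR2, hdS2, -⟩ :=
      exists_completion_cls (C := fun _ _ _ _ => True) ⟨fun _ _ _ _ _ _ => trivial,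
        fun _ _ _ _ _ => trivial⟩ (R := R) (S := S) trivial
    have hR2 : ringKrullDim R2 = (0 : ℕ) := hdR2.trans hR
    have hS2 : ringKrullDim S2 = (n : ℕ) + 1 := by
      rw [hdS2, hS]
      push_cast
      rfl
    obtain ⟨Q, _, hmQ, hQ1, hQs⟩ := exists_prime_dim_one (R := R2) (S := S2) n hS2 (by
      rw [hR2, hS2]
      have : ((0 : ℕ) : WithBot ℕ∞) < ((n + 1 : ℕ) : WithBot ℕ∞) := by
        exact_mod_cast (by omega : 0 < n + 1)
      refine this.trans_le (le_of_eq ?_)
      push_cast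
      rfl)
    have heR2 : Tendsto (hsSeq R2 0) atTop (𝓝 (eR : ℝ)) := by
      have : hsSeq R2 0 = hsSeq R 0 := by
        funext N
        simp only [hsSeq, hlR2]
      rw [this]; exact heR
    have heS2 : Tendsto (hsSeq S2 (n + 1)) atTop (𝓝 (eS : ℝ)) := by
      have : hsSeq S2 (n + 1) = hsSeq S (n + 1) := by
        funext N
        simp only [hsSeq, hlS2]
      rw [this]; exact heS
    have hflat : Module.Flat R2 (Localization.AtPrime Q) := Module.Flat.trans R2 S2 _
    have hloc : IsLocalHom (algebraMap R2 (Localization.AtPrime Q)) := by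
      refine ⟨fun a ha => ?_⟩
      by_contra hna
      have h1 : algebraMap R2 S2 a ∈ Q :=
        hmQ (Ideal.mem_map_of_mem _ ((IsLocalRing.mem_maximalIdeal _).mpr hna))
      rw [IsScalarTower.algebraMap_apply R2 S2 (Localization.AtPrime Q),
        IsLocalization.AtPrime.isUnit_to_map_iff (Localization.AtPrime Q) Q] at ha
      exact ha h1
    obtain ⟨eQ, heQ⟩ := exists_mult_all (A := Localization.AtPrime Q) (d := n) hQs
    have h1 : eR ≤ eQ :=
      ih (R := R2) (S := Localization.AtPrime Q) hR2 hQs eR eQ heR2 heQ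
    have h2 : eQ ≤ eS := mult_localization Q hQ1 heQ heS2
    exact h1.trans h2

/-- The dimension of a Noetherian local ring is a natural number. -/
theorem exists_dim (S : Type u) [CommRing S] [IsLocalRing S] [IsNoetherianRing S] :
    ∃ s : ℕ, ringKrullDim S = s := by
  have h1 := IsLocalRing.maximalIdeal_height_eq_ringKrullDim (R := S)
  have h2 : (maximalIdeal S).height ≠ ⊤ := Ideal.height_ne_top_of_isPrime
  obtain ⟨s, hs⟩ := ENat.ne_top_iff_exists.mp h2
  exact ⟨s, by rw [← h1, ← hs]; rfl⟩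

/-- Packaging: everything exists, and it is enough to know the inequality for `d > 0`. -/
theorem lech_pack {R S : Type u} [CommRing R] [IsLocalRing R] [IsNoetherianRing R]
    [CommRing S] [IsLocalRing S] [IsNoetherianRing S] [Algebra R S]
    [IsLocalHom (algebraMap R S)] [Module.Flat R S]
    (H : ∀ d s : ℕ, 0 < d → ringKrullDim R = d → ringKrullDim S = s → ∀ eR eS : ℕ,
      Tendsto (hsSeq R d) atTop (𝓝 (eR : ℝ)) → Tendsto (hsSeq S s) atTop (𝓝 (eS : ℝ)) →
      eR ≤ eS) :
    ∃ d s eR eS : ℕ, ringKrullDim R = d ∧ ringKrullDim S = s ∧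
      Tendsto (hsSeq R d) atTop (𝓝 (eR : ℝ)) ∧ Tendsto (hsSeq S s) atTop (𝓝 (eS : ℝ)) ∧
      eR ≤ eS := by
  obtain ⟨d, hd⟩ := exists_dim R
  obtain ⟨s, hs⟩ := exists_dim S
  obtain ⟨eR, heR⟩ := exists_mult_all hd
  obtain ⟨eS, heS⟩ := exists_mult_all hs
  refine ⟨d, s, eR, eS, hd, hs, heR, heS, ?_⟩
  rcases Nat.eq_zero_or_pos d with rfl | hd0
  · exact lech_zero_aux s hd hs eR eS heR heS
  · exact H d s hd0 hd hs eR eS heR heS

end Vale.Agent.P202
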