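import Vale.Agent.P202.EqChar
import Vale.Agent.P202.ZeroDim
import Vale.Agent.P202.FinD
import Vale.Agent.P202.TwoDimG

/-!
P202: packaging of the results for the hand-in, from Theorem B.
-/

namespace Vale.Agent.P202

open IsLocalRing Filter Topology

universe u

/-- all flat local homomorphisms, `dim R = d ≥ 3`, every characteristic. -/
theorem all_flat {R S : Type u} [CommRing R] [IsLocalRing R] [IsNoetherianRing R]
    [CommRing S] [IsLocalRing S] [IsNoetherianRing S]
    [Algebra R S] [IsLocalHom (algebraMap R S)] [Module.Flat R S]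
    {d s : ℕ} (hd : 3 ≤ d) (hR : ringKrullDim R = d) (hS : ringKrullDim S = s) (eR eS : ℕ)
    (heR : Tendsto (hsSeq R d) atTop (𝓝 (eR : ℝ)))
    (heS : Tendsto (hsSeq S s) atTop (𝓝 (eS : ℝ))) : eR ≤ (d - 2).factorial * eS := by
  obtain ⟨δ, rfl⟩ : ∃ δ, d = δ + 2 := ⟨d - 2, by omega⟩
  have H : TwoDimBound.{u} False :=
    fun A S _ _ _ _ _ _ _ _ _ _ _ hT x1 x2 hx1 hx2 r h y1 y2 hy1 hy2 hf c hc =>
      two_dim_boundG hT x1 x2 hx1 hx2 r h y1 y2 hy1 hy2 hf c hc
  have HL : LocCase.{u} := by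
    intro S _ _ _ _ Q _ s h1 h2 h3 eQ eS h4 h5
    exact mult_localization Q h1 h4 h5
  have HD : DimCase.{u} := by
    intro R S _ _ _ _ _ _ _ _ _ s h1 h2
    exact exists_prime_dim_one s h1 h2
  obtain ⟨s', eR', eS', h1, h2, h3, h4⟩ := lech_final (R := R) (S := S) (by omega)
    (completeCase_of_twoDim H (by omega)) HL HD hR
  have hs : s = s' := by
    have h5 : ((s : ℕ) : WithBot ℕ∞) = ((s' : ℕ) : WithBot ℕ∞) := hS.symm.trans h1
    exact_mod_cast h5
  subst hs
  have e1 : (eR : ℝ) = eR' := tendsto_nhds_unique heR h2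
  have e2 : (eS : ℝ) = eS' := tendsto_nhds_unique heS h3
  have e1' : eR = eR' := by exact_mod_cast e1
  have e2' : eS = eS' := by exact_mod_cast e2
  rw [e1', e2']
  exact h4

/-- characteristic `p`, `F`-finite residue field, from Theorem B. -/
theorem lech_char_p_of_theoremB (p : ℕ) [Fact p.Prime] (HB : CharP.TheoremB.{u} p)
    {R S : Type u} [CommRing R] [IsLocalRing R] [IsNoetherianRing R]
    [CommRing S] [IsLocalRing S] [IsNoetherianRing S]
    [Algebra R S] [IsLocalHom (algebraMap R S)] [Module.Flat R S]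
    [_root_.CharP R p] [_root_.CharP (ResidueField R) p]
    (hF : (frobenius (ResidueField R) p).Finite)
    {d s : ℕ} (hd : 0 < d) (hR : ringKrullDim R = d) (hS : ringKrullDim S = s) (eR eS : ℕ)
    (heR : Tendsto (hsSeq R d) atTop (𝓝 (eR : ℝ)))
    (heS : Tendsto (hsSeq S s) atTop (𝓝 (eS : ℝ))) : eR ≤ eS := by
  obtain ⟨s', eR', eS', h1, h2, h3, h4⟩ :=
    CharP.lech_charp_of_theoremB p HB hF hd hR (S := S)
  have hs : s = s' := by
    have h5 : ((s : ℕ) : WithBot ℕ∞) = ((s' : ℕ) : WithBot ℕ∞) := hS.symm.trans h1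
    exact_mod_cast h5
  subst hs
  have e1 : (eR : ℝ) = eR' := tendsto_nhds_unique heR h2
  have e2 : (eS : ℝ) = eS' := tendsto_nhds_unique heS h3
  have e1' : eR = eR' := by exact_mod_cast e1
  have e2' : eS = eS' := by exact_mod_cast e2
  rw [e1', e2']
  exact h4

/-- The hand-in, from Theorem B. -/
theorem hand_eq (HB : ∀ (p : ℕ) [Fact p.Prime], CharP.TheoremB.{u} p)
    {R S : Type u} [CommRing R] [IsLocalRing R] [IsNoetherianRing R]
    [CommRing S] [IsLocalRing S] [IsNoetherianRing S]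
    [Algebra R S] [IsLocalHom (algebraMap R S)] [Module.Flat R S] :
    ∃ d s eR eS : ℕ, ringKrullDim R = d ∧ ringKrullDim S = s ∧
      Tendsto (fun N : ℕ => (d.factorial : ℝ) *
        ((Module.length R (R ⧸ maximalIdeal R ^ N)).toNat : ℝ) / (N : ℝ) ^ d) atTop
        (𝓝 (eR : ℝ)) ∧
      Tendsto (fun N : ℕ => (s.factorial : ℝ) *
        ((Module.length S (S ⧸ maximalIdeal S ^ N)).toNat : ℝ) / (N : ℝ) ^ s) atTop
        (𝓝 (eS : ℝ)) ∧
      (3 ≤ d → eR ≤ (d - 2).factorial * eS) ∧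
      (∀ (p : ℕ) [Fact p.Prime] [_root_.CharP R p] [_root_.CharP (ResidueField R) p],
        (frobenius (ResidueField R) p).Finite → eR ≤ eS) ∧
      (Nonempty (Algebra ℚ R) → eR ≤ eS) := by
  obtain ⟨d, hd⟩ := exists_dim R
  obtain ⟨s, hs⟩ := exists_dim S
  obtain ⟨eR, heR⟩ := exists_mult_all hd
  obtain ⟨eS, heS⟩ := exists_mult_all hs
  refine ⟨d, s, eR, eS, hd, hs, heR, heS, fun h3 => all_flat h3 hd hs eR eS heR heS, ?_, ?_⟩
  · intro p _ _ _ hF
    rcases Nat.eq_zero_or_pos d with rfl | hd0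
    · exact lech_zero_aux s hd hs eR eS heR heS
    · exact lech_char_p_of_theoremB p (HB p) hF hd0 hd hs eR eS heR heS
  · rintro ⟨hQ⟩
    rcases Nat.eq_zero_or_pos d with rfl | hd0
    · exact lech_zero_aux s hd hs eR eS heR heS
    · exact lech_char_zero_of_theoremB HB hd0 hd hs eR eS heR heS

end Vale.Agent.P202
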