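import Vale.Agent.P202.Fil

/-!
Euler characteristics of one and two elements (definitions).
-/

namespace Vale.Agent.P202

/-- `χ(y; N)`, the length of `N / y N` minus the length of `0 :_N y`. -/
noncomputable def chi1 {S : Type*} [CommRing S] (y : S) (N : Type*) [AddCommGroup N]
    [Module S N] : ℤ :=
  ((Module.length S (N ⧸ LinearMap.range (LinearMap.lsmul S N y))).toNat : ℤ) -
    ((Module.length S (LinearMap.ker (LinearMap.lsmul S N y))).toNat : ℤ)

/-- `χ(y1, y2; N)`. -/
noncomputable def chi2 {S : Type*} [CommRing S] (y1 y2 : S) (N : Type*) [AddCommGroup N]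
    [Module S N] : ℤ :=
  chi1 y2 (N ⧸ LinearMap.range (LinearMap.lsmul S N y1)) -
    chi1 y2 (LinearMap.ker (LinearMap.lsmul S N y1))

end Vale.Agent.P202
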