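import Vale.Agent.P202.Assembly
import Vale.Agent.P202.BaseChange
import Vale.Agent.P202.LocFinal
import Vale.Agent.P202.DimOne

/-!
Assembly relative to a class of base rings: from the inequality for complete rings of the class
with infinite residue field and equal dimensions to all flat local maps with base in the class.
-/

set_option linter.unusedSectionVars false

namespace Vale.Agent.P202

open Ideal IsLocalRing Finset Filter Topology Polynomial

universe u

/-- A class of Noetherian local rings. -/
abbrev RCls : Type (u + 1) :=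
  ∀ (R : Type u) [CommRing R] [IsLocalRing R] [IsNoetherianRing R], Prop

/-- The class is stable under completion and under enlarging the residue field. -/
structure RStable (C : RCls.{u}) : Prop where
  compl : ∀ (R : Type u) [CommRing R] [IsLocalRing R] [IsNoetherianRing R]
    [IsNoetherianRing (AdicCompletion (maximalIdeal R) R)],
    C R → C (AdicCompletion (maximalIdeal R) R)
  nag : ∀ (R : Type u) [CommRing R] [IsLocalRing R] [IsNoetherianRing R], C R → C (Nag R)

/-- Enlarging the residue field, for a stable class. -/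
theorem exists_infinite_residue_cls {C : RCls.{u}} (hC : RStable C) {R S : Type u} [CommRing R]
    [IsLocalRing R] [IsNoetherianRing R]
    [CommRing S] [IsLocalRing S] [IsNoetherianRing S] [Algebra R S]
    [IsLocalHom (algebraMap R S)] [Module.Flat R S] (hR : C R) :
    ∃ (R' S' : Type u) (_ : CommRing R') (_ : IsLocalRing R') (_ : IsNoetherianRing R')
      (_ : CommRing S') (_ : IsLocalRing S') (_ : IsNoetherianRing S') (_ : Algebra R' S')
      (_ : IsLocalHom (algebraMap R' S')) (_ : Module.Flat R' S')
      (_ : Infinite (ResidueField R')),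
      (∀ j, Module.length R' (R' ⧸ maximalIdeal R' ^ j) =
        Module.length R (R ⧸ maximalIdeal R ^ j)) ∧
      (∀ j, Module.length S' (S' ⧸ maximalIdeal S' ^ j) =
        Module.length S (S ⧸ maximalIdeal S ^ j)) ∧
      ringKrullDim R' = ringKrullDim R ∧ ringKrullDim S' = ringKrullDim S ∧ C R' := by
  let a0 : Algebra R[X] S[X] := Polynomial.algebra R S
  have : (mX S).LiesOver (mX R) := liesOver_mX R S
  have : Module.Flat R[X] S[X] := flat_polynomial R S
  let a1 : Algebra (Nag R) (Nag S) := Localization.AtPrime.algebraOfLiesOver (mX R) (mX S)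
  have h1 : Localization.AtPrime.IsLiesOverAlgebra (mX R) (mX S) := ⟨rfl⟩
  exact ⟨Nag R, Nag S, inferInstance, inferInstance, inferInstance, inferInstance, inferInstance,
    inferInstance, a1, inferInstance, inferInstance, infinite_nag R, length_nag_pow R,
    length_nag_pow S, ringKrullDim_nag R, ringKrullDim_nag S, hC.nag R hR⟩

/-- Completion of a flat local homomorphism, for a stable class. -/
theorem exists_completion_cls {C : RCls.{u}} (hC : RStable C) {R S : Type u} [CommRing R]
    [IsLocalRing R] [IsNoetherianRing R]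
    [CommRing S] [IsLocalRing S] [IsNoetherianRing S] [Algebra R S]
    [IsLocalHom (algebraMap R S)] [Module.Flat R S] (hR : C R) :
    ∃ (R' S' : Type u) (_ : CommRing R') (_ : IsLocalRing R') (_ : IsNoetherianRing R')
      (_ : CommRing S') (_ : IsLocalRing S') (_ : IsNoetherianRing S') (_ : Algebra R' S')
      (_ : IsLocalHom (algebraMap R' S')) (_ : Module.Flat R' S')
      (_ : IsAdicComplete (maximalIdeal R') R') (_ : IsAdicComplete (maximalIdeal S') S'),
      (∀ j, Module.length R' (R' ⧸ maximalIdeal R' ^ j) =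
        Module.length R (R ⧸ maximalIdeal R ^ j)) ∧
      (∀ j, Module.length S' (S' ⧸ maximalIdeal S' ^ j) =
        Module.length S (S ⧸ maximalIdeal S ^ j)) ∧
      ringKrullDim R' = ringKrullDim R ∧ ringKrullDim S' = ringKrullDim S ∧
      (Infinite (ResidueField R) → Infinite (ResidueField R')) ∧ C R' := by
  have nR : IsNoetherianRing (AdicCompletion (maximalIdeal R) R) :=
    isNoetherianRing_adicCompletion _
  have nS : IsNoetherianRing (AdicCompletion (maximalIdeal S) S) :=
    isNoetherianRing_adicCompletion _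
  have hRS : (maximalIdeal R).map (algebraMap R S) ≤ maximalIdeal S :=
    (((IsLocalRing.local_hom_TFAE (algebraMap R S)).out 0 2) :
      IsLocalHom (algebraMap R S) ↔ _).mp inferInstance
  obtain ⟨Φ, hΦ⟩ := exists_complHom (algebraMap R S) hRS
  let algR'S' : Algebra (AdicCompletion (maximalIdeal R) R) (AdicCompletion (maximalIdeal S) S) :=
    Φ.toAlgebra
  have st1 : IsScalarTower R (AdicCompletion (maximalIdeal R) R)
      (AdicCompletion (maximalIdeal S) S) := IsScalarTower.of_algebraMap_eq fun x => by
    rw [IsScalarTower.algebraMap_apply R S (AdicCompletion (maximalIdeal S) S)]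
    exact (hΦ x).symm
  obtain ⟨loc, fl, hp1, hp2, hp3, hp4, -, hp6, -⟩ := completion_package (R := R) (S := S)
    (R' := AdicCompletion (maximalIdeal R) R) (S' := AdicCompletion (maximalIdeal S) S)
    AdicCompletion.maximalIdeal_eq_map AdicCompletion.maximalIdeal_eq_map adicCompletion_dense
    (AdicCompletion.residueField_map_bijective R) (AdicCompletion.residueField_map_bijective S)
  exact ⟨_, _, inferInstance, inferInstance, nR, inferInstance, inferInstance, nS, algR'S',
    loc, fl, inferInstance, inferInstance, hp1, hp2, hp3, hp4, hp6, hC.compl R hR⟩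

/-- The statement for complete rings of the class and equal dimensions. -/
def CompleteCaseCls (C : RCls.{u}) (d κ : ℕ) : Prop :=
  ∀ (R S : Type u) [CommRing R] [IsLocalRing R] [IsNoetherianRing R]
    [IsAdicComplete (maximalIdeal R) R] [Infinite (ResidueField R)]
    [CommRing S] [IsLocalRing S] [IsNoetherianRing S] [Algebra R S]
    [IsLocalHom (algebraMap R S)] [Module.Flat R S],
    C R → ringKrullDim R = d → ringKrullDim S = d →
    ∃ c K : ℕ, ∀ N : ℕ, (d.factorial : ℕ∞) * ell (maximalIdeal R ^ N) ≤
      (κ : ℕ∞) * ((d.factorial : ℕ∞) * ell (maximalIdeal S ^ (N + c))) +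
        (K : ℕ∞) * ((N : ℕ∞) + 1) ^ (d - 1)

/-- Equal dimensions. -/
theorem lech_equal_dim_cls {C : RCls.{u}} (hC : RStable C) {d κ : ℕ} (hd : 0 < d)
    (H : CompleteCaseCls.{u} C d κ) {R S : Type u}
    [CommRing R] [IsLocalRing R] [IsNoetherianRing R]
    [CommRing S] [IsLocalRing S] [IsNoetherianRing S] [Algebra R S]
    [IsLocalHom (algebraMap R S)] [Module.Flat R S] (hCR : C R)
    (hR : ringKrullDim R = d) (hS : ringKrullDim S = d) (eR eS : ℝ)
    (heR : Tendsto (hsSeq R d) atTop (𝓝 eR)) (heS : Tendsto (hsSeq S d) atTop (𝓝 eS)) :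
    eR ≤ κ * eS := by
  obtain ⟨R1, S1, _, _, _, _, _, _, _, _, _, hinf, hlR, hlS, hdR, hdS, hC1⟩ :=
    exists_infinite_residue_cls (R := R) (S := S) hC hCR
  obtain ⟨R2, S2, _, _, _, _, _, _, _, _, _, _, _, hlR2, hlS2, hdR2, hdS2, hinf2, hC2⟩ :=
    exists_completion_cls (R := R1) (S := S1) hC hC1
  have := hinf2 hinf
  obtain ⟨c, K, hN⟩ := H R2 S2 hC2 (hdR2.trans (hdR.trans hR)) (hdS2.trans (hdS.trans hS))
  refine le_of_growth hd κ c K (fun N => (Module.length R2 (R2 ⧸ maximalIdeal R2 ^ N)).toNat)
    (fun N => (Module.length S2 (S2 ⧸ maximalIdeal S2 ^ N)).toNat)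
    (fun N => growth_toNat d κ c K N (hN N)) eR eS ?_ ?_
  · simp only [hlR2, hlR]
    exact heR
  · simp only [hlS2, hlS]
    exact heS

/-- All flat local homomorphisms. -/
theorem lech_all_cls {C : RCls.{u}} (hC : RStable C) {d κ : ℕ} (hd : 0 < d)
    (H : CompleteCaseCls.{u} C d κ) (n : ℕ) : ∀ {R S : Type u}
    [CommRing R] [IsLocalRing R] [IsNoetherianRing R]
    [CommRing S] [IsLocalRing S] [IsNoetherianRing S] [Algebra R S]
    [IsLocalHom (algebraMap R S)] [Module.Flat R S] (_ : C R)
    (_ : ringKrullDim R = d) (_ : ringKrullDim S = (d + n : ℕ)) (eR eS : ℕ)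
    (_ : Tendsto (hsSeq R d) atTop (𝓝 (eR : ℝ)))
    (_ : Tendsto (hsSeq S (d + n)) atTop (𝓝 (eS : ℝ))),
    eR ≤ κ * eS := by
  induction n with
  | zero =>
    intro R S _ _ _ _ _ _ _ _ _ hCR hR hS eR eS heR heS
    have := lech_equal_dim_cls hC hd H hCR hR (by simpa using hS) eR eS heR (by simpa using heS)
    exact_mod_cast this
  | succ n ih =>
    intro R S _ _ _ _ _ _ _ _ _ hCR hR hS eR eS heR heS
    obtain ⟨R2, S2, _, _, _, _, _, _, _, _, _, _, _, hlR2, hlS2, hdR2, hdS2, -, hC2⟩ :=
      exists_completion_cls (R := R) (S := S) hC hCR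
    have hR2 : ringKrullDim R2 = d := hdR2.trans hR
    have hS2 : ringKrullDim S2 = (d + n : ℕ) + 1 := by
      rw [hdS2, hS]
      push_cast
      rw [add_assoc]
    obtain ⟨Q, _, hmQ, hQ1, hQs⟩ := exists_prime_dim_one (R := R2) (S := S2) (d + n) hS2 (by
      rw [hR2, hS2]
      have : (d : WithBot ℕ∞) < ((d + n + 1 : ℕ) : WithBot ℕ∞) := by
        exact_mod_cast (by omega : d < d + n + 1)
      refine this.trans_le (le_of_eq ?_)
      push_cast
      rfl)
    have heR2 : Tendsto (hsSeq R2 d) atTop (𝓝 (eR : ℝ)) := by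
      have : hsSeq R2 d = hsSeq R d := by
        funext N
        simp only [hsSeq, hlR2]
      rw [this]; exact heR
    have heS2 : Tendsto (hsSeq S2 (d + n + 1)) atTop (𝓝 (eS : ℝ)) := by
      have : hsSeq S2 (d + n + 1) = hsSeq S (d + (n + 1)) := by
        funext N
        simp only [hsSeq, hlS2, add_assoc]
      rw [this]; exact heS
    have hflat : Module.Flat R2 (Localization.AtPrime Q) := Module.Flat.trans R2 S2 _
    have hloc : IsLocalHom (algebraMap R2 (Localization.AtPrime Q)) := by
      refine ⟨fun a ha => ?_⟩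
      by_contra hna
      have h1 : algebraMap R2 S2 a ∈ Q :=
        hmQ (Ideal.mem_map_of_mem _ ((IsLocalRing.mem_maximalIdeal _).mpr hna))
      rw [IsScalarTower.algebraMap_apply R2 S2 (Localization.AtPrime Q),
        IsLocalization.AtPrime.isUnit_to_map_iff (Localization.AtPrime Q) Q] at ha
      exact ha h1
    obtain ⟨eQ, heQ⟩ := exists_mult (A := Localization.AtPrime Q) (d := d + n) (by omega) hQs
    have h1 : eR ≤ κ * eQ :=
      ih (R := R2) (S := Localization.AtPrime Q) hC2 hR2 hQs eR eQ heR2 heQ
    have h2 : eQ ≤ eS := mult_localization Q hQ1 heQ heS2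
    exact h1.trans (Nat.mul_le_mul_left _ h2)

/-- The final form: everything exists, and the inequality holds. -/
theorem lech_final_cls {C : RCls.{u}} (hC : RStable C) {d κ : ℕ} (hd : 0 < d)
    (H : CompleteCaseCls.{u} C d κ) {R S : Type u}
    [CommRing R] [IsLocalRing R] [IsNoetherianRing R]
    [CommRing S] [IsLocalRing S] [IsNoetherianRing S] [Algebra R S]
    [IsLocalHom (algebraMap R S)] [Module.Flat R S] (hCR : C R) (hR : ringKrullDim R = d) :
    ∃ s eR eS : ℕ, ringKrullDim S = s ∧ Tendsto (hsSeq R d) atTop (𝓝 (eR : ℝ)) ∧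
      Tendsto (hsSeq S s) atTop (𝓝 (eS : ℝ)) ∧ eR ≤ κ * eS := by
  obtain ⟨s, hs⟩ : ∃ s : ℕ, ringKrullDim S = s := by
    have h1 := IsLocalRing.maximalIdeal_height_eq_ringKrullDim (R := S)
    have h2 : (maximalIdeal S).height ≠ ⊤ := Ideal.height_ne_top_of_isPrime
    obtain ⟨s, hs⟩ := ENat.ne_top_iff_exists.mp h2
    exact ⟨s, by rw [← h1, ← hs]; rfl⟩
  have hle : d ≤ s := by
    have h1 := Ideal.height_eq_height_add_of_liesOver_of_hasGoingDown (maximalIdeal R)
      (maximalIdeal S)
    have h2 : (maximalIdeal R).height ≤ (maximalIdeal S).height := by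
      rw [h1]; exact le_self_add
    rw [← IsLocalRing.maximalIdeal_height_eq_ringKrullDim] at hR hs
    have h3 : (maximalIdeal R).height = d := by exact_mod_cast hR
    have h4 : (maximalIdeal S).height = s := by exact_mod_cast hs
    rw [h3, h4] at h2
    exact_mod_cast h2
  obtain ⟨n, rfl⟩ := Nat.exists_eq_add_of_le hle
  obtain ⟨eR, heR⟩ := exists_mult (A := R) hd hR
  obtain ⟨eS, heS⟩ := exists_mult (A := S) (d := d + n) (by omega) hs
  exact ⟨d + n, eR, eS, hs, heR, heS, lech_all_cls hC hd H n hCR hR hs eR eS heR heS⟩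

end Vale.Agent.P202
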