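import Vale.Agent.P202.Chain

/-!
The core inequality.
-/

namespace Vale.Agent.P202

open Submodule IsLocalRing

section
variable {A : Type*} [CommRing A] {V : Type*} [AddCommGroup V] [Module A V]

lemma smul_span_singleton_eq (I : Ideal A) (u : V) :
    I • span A {u} = Submodule.map (LinearMap.toSpanSingleton A V u) I := by
  rw [← LinearMap.range_toSpanSingleton, LinearMap.range_eq_map, ← Submodule.map_smul'']
  congr 1
  simp

/-- exact count for a flat module. -/
theorem rl_smul_chain [Module.Flat A V] (m : Ideal A) [m.IsMaximal] {I I' : Ideal A}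
    (hII : I ≤ I') (hm : m * I' ≤ I) {W : Submodule A V} (hW : m • (⊤ : Submodule A V) ≤ W) :
    ∀ (n : ℕ) (V' : Submodule A V), W ≤ V' → rl W V' = (n : ℕ∞) →
      rl (I' • W ⊔ I • (⊤ : Submodule A V)) (I' • V' ⊔ I • (⊤ : Submodule A V)) =
        (n : ℕ∞) * rl I I' := by
  refine chain_induction m hW (P := fun n V' =>
    rl (I' • W ⊔ I • (⊤ : Submodule A V)) (I' • V' ⊔ I • (⊤ : Submodule A V)) =
        (n : ℕ∞) * rl I I') ?_ ?_
  · simp
  · intro n V'' u hWV'' hu ih
    have hle1 : I' • W ⊔ I • (⊤ : Submodule A V) ≤ I' • V'' ⊔ I • (⊤ : Submodule A V) :=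
      sup_le_sup_right (Submodule.smul_mono le_rfl hWV'') _
    have hle2 : I' • V'' ⊔ I • (⊤ : Submodule A V) ≤
        I' • (V'' ⊔ span A {u}) ⊔ I • (⊤ : Submodule A V) :=
      sup_le_sup_right (Submodule.smul_mono le_rfl le_sup_left) _
    rw [rl_add hle1 hle2, ih]
    push_cast
    rw [add_mul, one_mul]
    congr 1
    have e := rl_eq_of_corr (E := ↥I')
      ((LinearMap.toSpanSingleton A V u).comp I'.subtype) I'.subtype
      (K₁ := I' • V'' ⊔ I • (⊤ : Submodule A V))
      (N₁ := I' • (V'' ⊔ span A {u}) ⊔ I • (⊤ : Submodule A V))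
      (K₂ := I) (N₂ := I') ?_ ?_ ?_
    · exact e
    · ext z
      simp only [Submodule.mem_comap, LinearMap.comp_apply, Submodule.subtype_apply,
        LinearMap.toSpanSingleton_apply]
      constructor
      · intro h
        exact mem_of_smul_mem m hII hm V'' (hW.trans hWV'') hu z.2 h
      · intro h
        exact Submodule.mem_sup_right (Submodule.smul_mem_smul h Submodule.mem_top)
    · rw [LinearMap.range_comp, Submodule.range_subtype, ← smul_span_singleton_eq,
        Submodule.smul_sup]
      apply le_antisymm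
      · refine sup_le le_sup_left (sup_le (sup_le ?_ le_sup_right) ?_)
        · exact le_sup_of_le_left le_sup_left
        · exact le_sup_of_le_left le_sup_right
      · refine sup_le le_sup_left ?_
        exact le_sup_of_le_right (le_sup_of_le_left le_sup_right)
    · rw [Submodule.range_subtype]

lemma mem_smul_top_prod {I : Ideal A} {a b : V} (ha : a ∈ I • (⊤ : Submodule A V))
    (hb : b ∈ I • (⊤ : Submodule A V)) : (a, b) ∈ I • (⊤ : Submodule A (V × V)) := by
  have h1 : LinearMap.inl A V V a ∈ I • (⊤ : Submodule A (V × V)) := by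
    have : LinearMap.inl A V V a ∈ Submodule.map (LinearMap.inl A V V) (I • ⊤) :=
      Submodule.mem_map_of_mem ha
    rw [Submodule.map_smul''] at this
    exact Submodule.smul_mono le_rfl le_top this
  have h2 : LinearMap.inr A V V b ∈ I • (⊤ : Submodule A (V × V)) := by
    have : LinearMap.inr A V V b ∈ Submodule.map (LinearMap.inr A V V) (I • ⊤) :=
      Submodule.mem_map_of_mem hb
    rw [Submodule.map_smul''] at this
    exact Submodule.smul_mono le_rfl le_top this
  have h3 := Submodule.add_mem _ h1 h2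
  simpa using h3

lemma fst_mem_smul_top {I : Ideal A} {z : V × V} (h : z ∈ I • (⊤ : Submodule A (V × V))) :
    z.1 ∈ I • (⊤ : Submodule A V) := by
  have : LinearMap.fst A V V z ∈ Submodule.map (LinearMap.fst A V V) (I • ⊤) :=
    Submodule.mem_map_of_mem h
  rw [Submodule.map_smul''] at this
  exact Submodule.smul_mono le_rfl le_top this

lemma snd_mem_smul_top {I : Ideal A} {z : V × V} (h : z ∈ I • (⊤ : Submodule A (V × V))) :
    z.2 ∈ I • (⊤ : Submodule A V) := by
  have : LinearMap.snd A V V z ∈ Submodule.map (LinearMap.snd A V V) (I • ⊤) :=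
    Submodule.mem_map_of_mem h
  rw [Submodule.map_smul''] at this
  exact Submodule.smul_mono le_rfl le_top this

/-- the preimage of the annihilator of `y1, y2` in `V / m V`. -/
def annPart (m : Ideal A) (y1 y2 : V →ₗ[A] V) : Submodule A V :=
  Submodule.comap y1 (m • ⊤) ⊓ Submodule.comap y2 (m • ⊤)

lemma smul_top_le_annPart (m : Ideal A) (y1 y2 : V →ₗ[A] V) :
    m • (⊤ : Submodule A V) ≤ annPart m y1 y2 := by
  refine le_inf ?_ ?_
  · rw [← Submodule.map_le_iff_le_comap, Submodule.map_smul'']
    exact Submodule.smul_mono le_rfl le_top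
  · rw [← Submodule.map_le_iff_le_comap, Submodule.map_smul'']
    exact Submodule.smul_mono le_rfl le_top

lemma flat_prod [Module.Flat A V] : Module.Flat A (V × V) :=
  Module.Flat.of_linearEquiv
    ((LinearEquiv.finTwoArrow A V).symm.trans
      (DirectSum.linearEquivFunOnFintype A (Fin 2) (fun _ => V)).symm)

/-- kernels of `y1, y2` on `I' V / I V`. -/
theorem ker_layer [Module.Flat A V] (m : Ideal A) [m.IsMaximal] {I I' : Ideal A}
    (hII : I ≤ I') (hm : m * I' ≤ I) (y1 y2 : V →ₗ[A] V)
    (hfin : rl (annPart m y1 y2) ⊤ ≠ ⊤) {v : V} (hv : v ∈ I' • (⊤ : Submodule A V))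
    (h1 : y1 v ∈ I • (⊤ : Submodule A V)) (h2 : y2 v ∈ I • (⊤ : Submodule A V)) :
    v ∈ I' • annPart m y1 y2 ⊔ I • (⊤ : Submodule A V) := by
  obtain ⟨n, hn⟩ := ENat.ne_top_iff_exists.mp hfin
  have key := chain_induction m (smul_top_le_annPart m y1 y2) (P := fun _ V' =>
    ∀ v ∈ I' • V' ⊔ I • (⊤ : Submodule A V), y1 v ∈ I • (⊤ : Submodule A V) →
      y2 v ∈ I • (⊤ : Submodule A V) → v ∈ I' • annPart m y1 y2 ⊔ I • (⊤ : Submodule A V))
    (fun v hv _ _ => hv) ?_ n ⊤ le_top hn.symm
  · exact key v (Submodule.mem_sup_left hv) h1 h2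
  · intro n V'' u hWV'' hu ih v hv h1 h2
    rw [Submodule.smul_sup, sup_right_comm] at hv
    obtain ⟨v'', hv'', q, hq, hpq⟩ := Submodule.mem_sup.mp hv
    rw [smul_span_singleton_eq] at hq
    obtain ⟨w, hw, rfl⟩ := hq
    rw [LinearMap.toSpanSingleton_apply] at hpq
    let Y : V →ₗ[A] V × V := y1.prod y2
    have hYv : Y v ∈ I • (⊤ : Submodule A (V × V)) := mem_smul_top_prod h1 h2
    have hYv'' : Y v'' ∈ I' • Submodule.map Y V'' ⊔ I • (⊤ : Submodule A (V × V)) := by
      obtain ⟨p, hp, r, hr, rfl⟩ := Submodule.mem_sup.mp hv''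
      rw [map_add]
      refine Submodule.add_mem _ (Submodule.mem_sup_left ?_) (Submodule.mem_sup_right ?_)
      · rw [← Submodule.map_smul'']
        exact Submodule.mem_map_of_mem hp
      · have : Y r ∈ Submodule.map Y (I • ⊤) := Submodule.mem_map_of_mem hr
        rw [Submodule.map_smul''] at this
        exact Submodule.smul_mono le_rfl le_top this
    have hYu : Y u ∉ Submodule.map Y V'' ⊔ m • (⊤ : Submodule A (V × V)) := by
      intro hmem
      obtain ⟨p, hp, r, hr, hpr⟩ := Submodule.mem_sup.mp hmem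
      obtain ⟨v₀, hv₀, rfl⟩ := hp
      have h3 : Y (u - v₀) = r := by rw [map_sub, ← hpr]; abel
      have h4 : u - v₀ ∈ annPart m y1 y2 := by
        refine ⟨?_, ?_⟩
        · have := fst_mem_smul_top hr
          rw [← h3] at this
          exact this
        · have := snd_mem_smul_top hr
          rw [← h3] at this
          exact this
      apply hu
      have h5 := Submodule.add_mem _ (hWV'' h4) hv₀
      simpa using h5
    have hw' : w ∈ I := by
      have := flat_prod (A := A) (V := V)
      refine mem_of_smul_mem (V := V × V) m hII hm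
        (Submodule.map Y V'' ⊔ m • (⊤ : Submodule A (V × V))) le_sup_right hYu hw ?_
      have h6 : w • Y u = Y v - Y v'' := by
        rw [← hpq, map_add, map_smul]; abel
      rw [h6]
      refine Submodule.sub_mem _ (Submodule.mem_sup_right hYv) ?_
      have h7 : I' • Submodule.map Y V'' ⊔ I • (⊤ : Submodule A (V × V)) ≤
          I' • (Submodule.map Y V'' ⊔ m • (⊤ : Submodule A (V × V))) ⊔ I • ⊤ :=
        sup_le_sup_right (Submodule.smul_mono le_rfl le_sup_left) _
      exact h7 hYv''
    apply ih v _ h1 h2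
    rw [← hpq]
    exact Submodule.add_mem _ hv'' (Submodule.mem_sup_right
      (Submodule.smul_mem_smul hw' Submodule.mem_top))

/-- telescoping. -/
lemma rl_telescope (U : ℕ → Submodule A V) (hU : ∀ i, U (i + 1) ≤ U i) (s : ℕ) :
    rl (U s) (U 0) = ∑ i ∈ Finset.range s, rl (U (i + 1)) (U i) := by
  induction s with
  | zero => simp
  | succ s ih =>
    have hanti : Antitone U := antitone_nat_of_succ_le hU
    rw [Finset.sum_range_succ, ← ih]
    exact (rl_add (hU s) (hanti (Nat.zero_le s))).trans (add_comm _ _)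

end

/-- final arithmetic. -/
lemma core_arith {c a e ch l A1 A2 Θ XA XB s : ℤ} (he : 0 ≤ e)
    (hA1 : 0 ≤ A1) (hA2 : 0 ≤ A2) (h1 : l * e ≤ ch) (h2 : ch ≤ (l + 1) * e)
    (hslope : c * e + A1 = a * e + A2)
    (hXA : c * ch + (l + 1) * A1 ≤ XA) (hXB : XB ≤ a * ch + a * e * (s - 1) + (l + s - 1) * A2)
    (hΘ : XA + (c * e + A1) * s = Θ + XB) : c * e ≤ Θ := by
  have key : (c - a) * (ch - (l - 1) * e) + a * e + 2 * A1 ≤ Θ := by
    have hA2' : A2 = c * e + A1 - a * e := by linarith
    have h3 : c * ch + (l + 1) * A1 + (c * e + A1) * s -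
        (a * ch + a * e * (s - 1) + (l + s - 1) * A2) =
        (c - a) * (ch - (l - 1) * e) + a * e + 2 * A1 := by rw [hA2']; ring
    linarith
  rcases le_total a c with hac | hac
  · have h3 : 0 ≤ (c - a) * (ch - (l - 1) * e - e) :=
      mul_nonneg (by linarith) (by linarith)
    linarith
  · have h3 : 0 ≤ (a - c) * (2 * e - (ch - (l - 1) * e)) :=
      mul_nonneg (by linarith) (by linarith)
    have h5 : 0 ≤ (a - c) * e := mul_nonneg (by linarith) he
    linarith

end Vale.Agent.P202
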