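import Vale.Agent.P202.ChainB
import Vale.Agent.P202.CoreMain

/-!
Proof of the core inequality, with lengths over the larger ring.
-/

namespace Vale.Agent.P202

open Submodule IsLocalRing Filter

section
variable {B : Type*} [CommRing B] [IsLocalRing B] {V : Type*} [AddCommGroup V] [Module B V]

/-- the first term. -/
theorem first_termB (m : Ideal B)
    (y1 y2 : V →ₗ[B] V) (H : ℕ → Ideal B) (hanti : ∀ j, H (j + 1) ≤ H j)
    (hmH : ∀ j, m * H j ≤ H (j + 1)) (hfl : ∀ j, FlatLike m (maximalIdeal B) V (H (j + 1)) (H j))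
    (l hi e ch : ℤ) (hPr : PrB m (maximalIdeal B) H l hi)
    (he : EvLin (fun j => rl (H (j + 1) ⊔ maximalIdeal B * H j) (H j)) e ch) (s : ℕ)
    (S1 : ∀ᶠ j in atTop, H (j + (s + 1)) • (⊤ : Submodule B V) ≤
      Submodule.map y1 (H j • ⊤) ⊔ Submodule.map y2 (H j • ⊤))
    (c : ℕ)
    (hc : Module.length B (V ⧸ ((m • (⊤ : Submodule B V)) ⊔
      (LinearMap.range y1 ⊔ LinearMap.range y2))) = (c : ℕ∞)) :
    ∃ A1 XA : ℤ, 0 ≤ A1 ∧ (c : ℤ) * ch + (l + 1) * A1 ≤ XA ∧
      EvLin (fun j => rl (Submodule.map y1 (H j • ⊤) ⊔ Submodule.map y2 (H j • ⊤))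
        (H j • (⊤ : Submodule B V))) (c * e + A1) XA := by
  classical
  set JV : Submodule B V := LinearMap.range y1 ⊔ LinearMap.range y2 with hJV
  set W : Submodule B V := m • (⊤ : Submodule B V) ⊔ JV with hW
  have hJG : ∀ j, Submodule.map y1 (H j • ⊤) ⊔ Submodule.map y2 (H j • ⊤) = H j • JV := by
    intro j
    rw [Submodule.map_smul'', Submodule.map_smul'', ← LinearMap.range_eq_map,
      ← LinearMap.range_eq_map, hJV, Submodule.smul_sup]
  simp only [hJG] at S1 ⊢
  have hHanti : Antitone H := antitone_nat_of_succ_le hanti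
  -- the layers
  let K : ℕ → ℕ → Submodule B V := fun i j => H (j - i) • JV
  let f : ℕ → ℕ → ℕ∞ := fun i j => rl (H (j + 1) • (⊤ : Submodule B V) ⊔ K i j)
        (H j • (⊤ : Submodule B V) ⊔ (H (j + 1) • (⊤ : Submodule B V) ⊔ K i j))
  have hW1 : m • (⊤ : Submodule B V) ≤ W := le_sup_left
  have hWtop : rl W ⊤ = (c : ℕ∞) := by rw [rl_top]; exact hc
  have hK : ∀ i j, m • K i j ≤ K i (j + 1) := by
    intro i j
    simp only [K]
    rw [← Submodule.mul_smul]
    refine Submodule.smul_mono_left ?_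
    rcases Nat.lt_or_ge j i with h | h
    · have e1 : j - i = 0 := by omega
      have e2 : j + 1 - i = 0 := by omega
      rw [e1, e2]
      exact Ideal.mul_le_right
    · have e1 : j + 1 - i = j - i + 1 := by omega
      rw [e1]
      exact hmH _
  have hGW : ∀ i j, H j • W ≤ H (j + 1) • (⊤ : Submodule B V) ⊔ K i j := by
    intro i j
    rw [hW, Submodule.smul_sup]
    refine sup_le_sup ?_ ?_
    · rw [← Submodule.mul_smul, mul_comm]
      exact Submodule.smul_mono_left (hmH j)
    · exact Submodule.smul_mono_left (hHanti (Nat.sub_le j i))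
  have hlayer : ∀ i, ∃ a x : ℤ, EvLin (f i) a x ∧ l * a ≤ x := fun i =>
    quot_layerB m hanti hmH hPr (K i) (hK i) (hGW i) c ⊤ le_top hWtop
  choose a x hax hlax using hlayer
  -- the zeroth layer
  have h0 : EvLin (f 0) (c * e) (c * ch) := by
    refine (he.const_mul c).congr (Filter.Eventually.of_forall fun j => ?_)
    have h1 := rl_smul_chainB (V := V) m (hfl j) hW1 c ⊤ le_top hWtop
    have h2 : H j • W ⊔ H (j + 1) • (⊤ : Submodule B V) =
        H (j + 1) • (⊤ : Submodule B V) ⊔ K 0 j := by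
      apply le_antisymm
      · exact sup_le (hGW 0 j) le_sup_left
      · refine sup_le le_sup_right (le_sup_of_le_left ?_)
        exact Submodule.smul_mono le_rfl le_sup_right
    have h3 : H j • (⊤ : Submodule B V) ⊔ H (j + 1) • (⊤ : Submodule B V) =
        H j • (⊤ : Submodule B V) ⊔ (H (j + 1) • (⊤ : Submodule B V) ⊔ K 0 j) := by
      have e1 : H (j + 1) • (⊤ : Submodule B V) ≤ H j • (⊤ : Submodule B V) :=
        Submodule.smul_mono_left (hanti j)
      have e2 : K 0 j ≤ H j • (⊤ : Submodule B V) := by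
        simp only [K, Nat.sub_zero]
        exact Submodule.smul_mono le_rfl le_top
      rw [sup_eq_left.mpr e1, sup_eq_left.mpr (sup_le e1 e2)]
    rw [h2, h3] at h1
    exact h1.symm
  obtain ⟨ha0, hx0⟩ := (hax 0).unique h0
  -- telescoping
  have htel : ∀ᶠ j in atTop, rl (H j • JV) (H j • (⊤ : Submodule B V)) =
      ∑ i ∈ Finset.range (s + 1), f i (j + i) := by
    filter_upwards [S1] with j hj
    let U : ℕ → Submodule B V := fun i => H (j + i) • (⊤ : Submodule B V) ⊔ H j • JV
    have hU : ∀ i, U (i + 1) ≤ U i := fun i =>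
      sup_le_sup_right (Submodule.smul_mono_left (hanti (j + i))) _
    have hU0 : U 0 = H j • (⊤ : Submodule B V) := by
      simp only [U, Nat.add_zero]
      exact sup_eq_left.mpr (Submodule.smul_mono le_rfl le_top)
    have hUs : U (s + 1) = H j • JV := sup_eq_right.mpr hj
    have h1 := rl_telescope U hU (s + 1)
    rw [hU0, hUs] at h1
    rw [h1]
    refine Finset.sum_congr rfl fun i _ => ?_
    simp only [f, K, U]
    have e1 : j + i - i = j := by omega
    have e2 : j + (i + 1) = j + i + 1 := by omega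
    rw [e1, e2]
    congr 1
    rw [← sup_assoc, sup_eq_left.mpr (Submodule.smul_mono_left (hanti (j + i)) :
      H (j + i + 1) • (⊤ : Submodule B V) ≤ H (j + i) • ⊤)]
  have hsum : EvLin (fun j => ∑ i ∈ Finset.range (s + 1), f i (j + i))
      (∑ i ∈ Finset.range (s + 1), a i) (∑ i ∈ Finset.range (s + 1), (x i + a i * i)) :=
    EvLin.sum _ (fun i _ => (hax i).shift i)
  have hfinal := hsum.congr (htel.mono fun j hj => hj.symm)
  refine ⟨∑ i ∈ Finset.range s, a (i + 1), ∑ i ∈ Finset.range (s + 1), (x i + a i * i), ?_, ?_, ?_⟩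
  · exact Finset.sum_nonneg fun i _ => (hax (i + 1)).slope_nonneg
  · rw [Finset.sum_range_succ', hx0, Finset.mul_sum]
    have : ∑ i ∈ Finset.range s, (l + 1) * a (i + 1) ≤
        ∑ i ∈ Finset.range s, (x (i + 1) + a (i + 1) * ((i + 1 : ℕ) : ℤ)) := by
      refine Finset.sum_le_sum fun i _ => ?_
      have h1 := hlax (i + 1)
      have h2 := (hax (i + 1)).slope_nonneg
      push_cast
      nlinarith [mul_nonneg h2 (Int.natCast_nonneg i)]
    push_cast at this ⊢
    linarith
  · have h1 : ∑ i ∈ Finset.range (s + 1), a i = c * e + ∑ i ∈ Finset.range s, a (i + 1) := by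
      rw [Finset.sum_range_succ', ha0, add_comm]
    rw [← h1]
    exact hfinal

/-- the second term. -/
theorem second_termB (m : Ideal B)
    (hV : Module.length B (V ⧸ (m • (⊤ : Submodule B V))) ≠ ⊤)
    (y1 y2 : V →ₗ[B] V) (H : ℕ → Ideal B) (hanti : ∀ j, H (j + 1) ≤ H j)
    (hmH : ∀ j, m * H j ≤ H (j + 1)) (hfl : ∀ j, FlatLike m (maximalIdeal B) V (H (j + 1)) (H j))
    (hfl2 : ∀ j, FlatLike m (maximalIdeal B) (V × V) (H (j + 1)) (H j))
    (l e ch : ℤ) (hPr : PrB m (maximalIdeal B) H l (l + 1))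
    (he : EvLin (fun j => rl (H (j + 1) ⊔ maximalIdeal B * H j) (H j)) e ch)
    (N0 : Submodule B V) (hN0 : H 0 • (⊤ : Submodule B V) ≤ N0)
    (X : ℕ → Submodule B V)
    (hX : ∀ j, X j = N0 ⊓ Submodule.comap y1 (H j • ⊤) ⊓ Submodule.comap y2 (H j • ⊤)) (s : ℕ)
    (S2 : ∀ᶠ j in atTop, X (j + (s + 1)) ≤ H j • (⊤ : Submodule B V)) :
    ∃ a A2 XB : ℤ, 0 ≤ a ∧ 0 ≤ A2 ∧ XB ≤ a * ch + a * e * s + (l + s) * A2 ∧
      EvLin (fun j => rl (H (j + (s + 1)) • (⊤ : Submodule B V)) (X (j + (s + 1))))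
        (a * e + A2) XB := by
  classical
  have hHanti : Antitone H := antitone_nat_of_succ_le hanti
  set Va : Submodule B V := annPart m y1 y2 with hVa
  have hmVa : m • (⊤ : Submodule B V) ≤ Va := smul_top_le_annPart m y1 y2
  have hVtop : rl (m • (⊤ : Submodule B V)) ⊤ ≠ ⊤ := by rw [rl_top]; exact hV
  have hsplit := rl_add hmVa (le_top : Va ≤ ⊤)
  have hfin1 : rl (m • (⊤ : Submodule B V)) Va ≠ ⊤ := by
    intro h
    rw [hsplit, h, top_add] at hVtop
    exact hVtop rfl
  have hfin2 : rl Va ⊤ ≠ ⊤ := by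
    intro h
    rw [hsplit, h, add_top] at hVtop
    exact hVtop rfl
  obtain ⟨a, ha⟩ := ENat.ne_top_iff_exists.mp hfin1
  -- monotonicity of `X`
  have hXanti : ∀ j, X (j + 1) ≤ X j := by
    intro j
    rw [hX, hX]
    refine inf_le_inf (inf_le_inf le_rfl ?_) ?_
    · exact Submodule.comap_mono (Submodule.smul_mono_left (hanti j))
    · exact Submodule.comap_mono (Submodule.smul_mono_left (hanti j))
  have hGX : ∀ j, H j • (⊤ : Submodule B V) ≤ X j := by
    intro j
    rw [hX]
    refine le_inf (le_inf ?_ ?_) ?_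
    · exact (Submodule.smul_mono_left (hHanti (Nat.zero_le j))).trans hN0
    · rw [← Submodule.map_le_iff_le_comap, Submodule.map_smul'']
      exact Submodule.smul_mono le_rfl le_top
    · rw [← Submodule.map_le_iff_le_comap, Submodule.map_smul'']
      exact Submodule.smul_mono le_rfl le_top
  have hmX : ∀ j, m • X j ≤ X (j + 1) := by
    intro j
    rw [Submodule.smul_le]
    intro r hr v hv
    rw [hX] at hv ⊢
    obtain ⟨⟨h1, h2⟩, h3⟩ := hv
    refine ⟨⟨N0.smul_mem r h1, ?_⟩, ?_⟩
    · have h4 : r • y1 v ∈ m • (H j • (⊤ : Submodule B V)) := Submodule.smul_mem_smul hr h2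
      rw [← Submodule.mul_smul] at h4
      have h5 := Submodule.smul_mono_left (N := (⊤ : Submodule B V)) (hmH j) h4
      rw [SetLike.mem_coe, Submodule.mem_comap, map_smul]
      exact h5
    · have h4 : r • y2 v ∈ m • (H j • (⊤ : Submodule B V)) := Submodule.smul_mem_smul hr h3
      rw [← Submodule.mul_smul] at h4
      have h5 := Submodule.smul_mono_left (N := (⊤ : Submodule B V)) (hmH j) h4
      rw [SetLike.mem_coe, Submodule.mem_comap, map_smul]
      exact h5
  -- the layers `Y t j`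
  let Y : ℕ → ℕ → Submodule B V := fun t j =>
    (X (j + (t + 1)) ⊓ H j • (⊤ : Submodule B V)) ⊔ H (j + 1) • (⊤ : Submodule B V)
  have hYle : ∀ t j, Y t j ≤ H j • Va ⊔ H (j + 1) • (⊤ : Submodule B V) := by
    intro t j
    refine sup_le ?_ le_sup_right
    rintro v ⟨hv1, hv2⟩
    rw [SetLike.mem_coe, hX] at hv1
    obtain ⟨⟨-, h2⟩, h3⟩ := hv1
    have hle : H (j + (t + 1)) • (⊤ : Submodule B V) ≤ H (j + 1) • (⊤ : Submodule B V) :=
      Submodule.smul_mono_left (hHanti (by omega))
    exact ker_layerB m (hfl2 j) y1 y2 hfin2 hv2 (hle h2) (hle h3)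
  have hmY : ∀ t j, m • Y t j ≤ Y t (j + 1) := by
    intro t j
    simp only [Y, Submodule.smul_sup]
    refine sup_le_sup (le_inf ?_ ?_) ?_
    · refine (Submodule.smul_mono le_rfl inf_le_left).trans ((hmX _).trans ?_)
      have : j + (t + 1) + 1 = j + 1 + (t + 1) := by omega
      rw [this]
    · refine (Submodule.smul_mono le_rfl inf_le_right).trans ?_
      rw [← Submodule.mul_smul]
      exact Submodule.smul_mono_left (hmH j)
    · rw [← Submodule.mul_smul]
      exact Submodule.smul_mono_left (hmH (j + 1))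
  have hlayer : ∀ t, ∃ b y : ℤ, EvLin (fun j => rl (H (j + 1) • (⊤ : Submodule B V)) (Y t j)) b y ∧
      y ≤ (l + 1) * b := by
    intro t
    obtain ⟨b, y, h1, h2⟩ := sub_layerB m hanti hmH hfl hPr (Y t) (hmY t) (fun j => le_sup_right)
      a Va hmVa ha.symm
    refine ⟨b, y, h1.congr (Filter.Eventually.of_forall fun j => ?_), h2⟩
    rw [inf_eq_left.mpr (hYle t j)]
  choose b y hby hlby using hlayer
  -- the zeroth layer
  have h0 : EvLin (fun j => rl (H (j + 1) • (⊤ : Submodule B V)) (Y 0 j)) (a * e) (a * ch) := by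
    refine (he.const_mul a).congr (Filter.Eventually.of_forall fun j => ?_)
    have h1 := rl_smul_chainB (V := V) m (hfl j) le_rfl a Va hmVa ha.symm
    have h2 : H j • (m • (⊤ : Submodule B V)) ⊔ H (j + 1) • (⊤ : Submodule B V) =
        H (j + 1) • (⊤ : Submodule B V) := by
      rw [sup_eq_right, ← Submodule.mul_smul, mul_comm]
      exact Submodule.smul_mono_left (hmH j)
    have h3 : H j • Va ⊔ H (j + 1) • (⊤ : Submodule B V) = Y 0 j := by
      refine le_antisymm (sup_le (le_sup_of_le_left (le_inf ?_ ?_)) le_sup_right) (hYle 0 j)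
      · rw [hX]
        refine le_inf (le_inf ?_ ?_) ?_
        · exact (Submodule.smul_mono (hHanti (Nat.zero_le j)) le_top).trans hN0
        · rw [← Submodule.map_le_iff_le_comap, Submodule.map_smul'']
          have : Submodule.map y1 Va ≤ m • ⊤ := by
            rw [Submodule.map_le_iff_le_comap]; exact inf_le_left
          refine (Submodule.smul_mono le_rfl this).trans ?_
          rw [← Submodule.mul_smul, mul_comm]
          exact Submodule.smul_mono_left (hmH j)
        · rw [← Submodule.map_le_iff_le_comap, Submodule.map_smul'']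
          have : Submodule.map y2 Va ≤ m • ⊤ := by
            rw [Submodule.map_le_iff_le_comap]; exact inf_le_right
          refine (Submodule.smul_mono le_rfl this).trans ?_
          rw [← Submodule.mul_smul, mul_comm]
          exact Submodule.smul_mono_left (hmH j)
      · exact Submodule.smul_mono le_rfl le_top
    rw [h2, h3] at h1
    exact h1.symm
  obtain ⟨hb0, hy0⟩ := (hby 0).unique h0
  -- telescoping
  have htel : ∀ᶠ j in atTop, rl (H (j + (s + 1)) • (⊤ : Submodule B V)) (X (j + (s + 1))) =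
      ∑ i ∈ Finset.range (s + 1), rl (H (j + i + 1) • (⊤ : Submodule B V)) (Y (s - i) (j + i)) := by
    filter_upwards [S2] with j hj
    let U : ℕ → Submodule B V := fun i => X (j + (s + 1)) ⊓ H (j + i) • (⊤ : Submodule B V)
    have hU : ∀ i, U (i + 1) ≤ U i := fun i =>
      inf_le_inf_left _ (Submodule.smul_mono_left (hanti (j + i)))
    have hU0 : U 0 = X (j + (s + 1)) := inf_eq_left.mpr hj
    have hUs : U (s + 1) = H (j + (s + 1)) • (⊤ : Submodule B V) := inf_eq_right.mpr (hGX _)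
    have h1 := rl_telescope U hU (s + 1)
    rw [hU0, hUs] at h1
    rw [h1]
    refine Finset.sum_congr rfl fun i hi => ?_
    have hi' : i < s + 1 := Finset.mem_range.mp hi
    simp only [U, Y]
    have e1 : j + i + (s - i + 1) = j + (s + 1) := by omega
    have e2 : j + (i + 1) = j + i + 1 := by omega
    rw [e1, e2, sup_comm, rl_sup_right]
    have e3 : X (j + (s + 1)) ⊓ H (j + i + 1) • (⊤ : Submodule B V) =
        H (j + i + 1) • (⊤ : Submodule B V) ⊓ (X (j + (s + 1)) ⊓ H (j + i) • ⊤) := by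
      have e4 : H (j + i + 1) • (⊤ : Submodule B V) ≤ H (j + i) • ⊤ :=
        Submodule.smul_mono_left (hanti (j + i))
      apply le_antisymm
      · exact le_inf inf_le_right (le_inf inf_le_left (inf_le_right.trans e4))
      · exact le_inf (inf_le_right.trans inf_le_left) inf_le_left
    rw [e3, rl_inf_left]
  have hsum : EvLin (fun j => ∑ i ∈ Finset.range (s + 1),
      rl (H (j + i + 1) • (⊤ : Submodule B V)) (Y (s - i) (j + i)))
      (∑ i ∈ Finset.range (s + 1), b (s - i))
      (∑ i ∈ Finset.range (s + 1), (y (s - i) + b (s - i) * i)) :=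
    EvLin.sum _ (fun i _ => (hby (s - i)).shift i)
  have hfinal := hsum.congr (htel.mono fun j hj => hj.symm)
  have e1 : ∑ i ∈ Finset.range (s + 1), b (s - i) =
      ∑ i ∈ Finset.range s, b (s - i) + a * e := by
    rw [Finset.sum_range_succ, Nat.sub_self, hb0]
  have e2 : ∑ i ∈ Finset.range (s + 1), (y (s - i) + b (s - i) * i) =
      ∑ i ∈ Finset.range s, (y (s - i) + b (s - i) * i) + (a * ch + a * e * s) := by
    rw [Finset.sum_range_succ, Nat.sub_self, hb0, hy0]
  refine ⟨a, ∑ i ∈ Finset.range s, b (s - i),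
    ∑ i ∈ Finset.range (s + 1), (y (s - i) + b (s - i) * i), by positivity, ?_, ?_, ?_⟩
  · exact Finset.sum_nonneg fun i _ => (hby (s - i)).slope_nonneg
  · rw [e2, Finset.mul_sum]
    have : ∑ i ∈ Finset.range s, (y (s - i) + b (s - i) * (i : ℤ)) ≤
        ∑ i ∈ Finset.range s, (l + s) * b (s - i) := by
      refine Finset.sum_le_sum fun i hi => ?_
      have hi' : i < s := Finset.mem_range.mp hi
      have h1 := hlby (s - i)
      have h2 := (hby (s - i)).slope_nonneg
      have h3 : ((i : ℤ) + 1) ≤ s := by exact_mod_cast hi'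
      nlinarith [mul_nonneg h2 (by linarith : (0 : ℤ) ≤ s - i - 1)]
    linarith
  · have e3 : ∑ i ∈ Finset.range (s + 1), b (s - i) =
        a * e + ∑ i ∈ Finset.range s, b (s - i) := by rw [e1]; ring
    rw [e3] at hfinal
    exact hfinal

end

/-- the core inequality with lengths over the larger ring. -/
theorem coreB {B : Type*} [CommRing B] [IsLocalRing B]
    {V : Type*} [AddCommGroup V] [Module B V] (m : Ideal B)
    (hV : Module.length B (V ⧸ (m • (⊤ : Submodule B V))) ≠ ⊤)
    (y1 y2 : V →ₗ[B] V) (H : ℕ → Ideal B) (hanti : ∀ j, H (j + 1) ≤ H j)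
    (hmH : ∀ j, m * H j ≤ H (j + 1)) (hfl : ∀ j, FlatLike m (maximalIdeal B) V (H (j + 1)) (H j))
    (hfl2 : ∀ j, FlatLike m (maximalIdeal B) (V × V) (H (j + 1)) (H j))
    (l e ch : ℤ) (hPr : PrB m (maximalIdeal B) H l (l + 1))
    (he : EvLin (fun j => rl (H (j + 1) ⊔ maximalIdeal B * H j) (H j)) e ch)
    (N0 : Submodule B V) (hN0 : H 0 • (⊤ : Submodule B V) ≤ N0)
    (X : ℕ → Submodule B V)
    (hX : ∀ j, X j = N0 ⊓ Submodule.comap y1 (H j • ⊤) ⊓ Submodule.comap y2 (H j • ⊤))
    (s : ℕ)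
    (S1 : ∀ᶠ j in Filter.atTop, H (j + s) • (⊤ : Submodule B V) ≤
      Submodule.map y1 (H j • ⊤) ⊔ Submodule.map y2 (H j • ⊤))
    (S2 : ∀ᶠ j in Filter.atTop, X (j + s) ≤ H j • (⊤ : Submodule B V))
    (Θ : ℕ)
    (S3 : ∀ᶠ j in Filter.atTop,
      rl (Submodule.map y1 (H j • ⊤) ⊔ Submodule.map y2 (H j • ⊤)) (H j • (⊤ : Submodule B V))
        = (Θ : ℕ∞) + rl (H j • (⊤ : Submodule B V)) (X j))
    (c : ℕ)
    (hc : Module.length B (V ⧸ ((m • (⊤ : Submodule B V)) ⊔
      (LinearMap.range y1 ⊔ LinearMap.range y2))) = (c : ℕ∞)) :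
    (c : ℤ) * e ≤ (Θ : ℤ) := by
  have hHanti : Antitone H := antitone_nat_of_succ_le hanti
  have S1' : ∀ᶠ j in atTop, H (j + (s + 1)) • (⊤ : Submodule B V) ≤
      Submodule.map y1 (H j • ⊤) ⊔ Submodule.map y2 (H j • ⊤) := by
    filter_upwards [S1] with j hj
    exact (Submodule.smul_mono_left (hHanti (by omega))).trans hj
  have S2' : ∀ᶠ j in atTop, X (j + (s + 1)) ≤ H j • (⊤ : Submodule B V) := by
    filter_upwards [S2] with j hj
    refine le_trans ?_ hj
    have h1 : j + (s + 1) = j + s + 1 := by omega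
    rw [h1, hX, hX]
    refine inf_le_inf (inf_le_inf le_rfl ?_) ?_
    · exact Submodule.comap_mono (Submodule.smul_mono_left (hanti _))
    · exact Submodule.comap_mono (Submodule.smul_mono_left (hanti _))
  obtain ⟨A1, XA, hA1, hXA, hA⟩ := first_termB m y1 y2 H hanti hmH hfl l (l + 1) e ch hPr he s
    S1' c hc
  obtain ⟨a, A2, XB, ha, hA2, hXB, hB⟩ := second_termB m hV y1 y2 H hanti hmH hfl hfl2 l e ch hPr he
    N0 hN0 X hX s S2'
  have hle1 : ∀ j, H (j + 1) ⊔ maximalIdeal B * H j ≤ H j := fun j =>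
    sup_le (hanti j) Ideal.mul_le_right
  -- slope bounds for the whole filtration
  have hch1 : l * e ≤ ch := by
    have hsf : SubFilB m (maximalIdeal B) H (fun j => H (j + 1) ⊔ maximalIdeal B * H j) := by
      refine ⟨hle1, fun j => le_rfl, fun j => ?_⟩
      rw [Ideal.mul_sup]
      refine sup_le_sup (hmH (j + 1)) ?_
      rw [mul_left_comm]
      exact Ideal.mul_mono_right (hmH j)
    obtain ⟨a', x', -, -, h1, -, h2, -⟩ := hPr _ hsf
    obtain ⟨rfl, rfl⟩ := h1.unique he
    exact h2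
  have hch2 : ch ≤ (l + 1) * e := by
    obtain ⟨-, -, b', y', -, h1, -, h2⟩ := hPr H ⟨fun j => le_rfl, hle1, hmH⟩
    obtain ⟨rfl, rfl⟩ := h1.unique he
    exact h2
  -- combine
  have hshift := hA.shift (s + 1)
  have hcomb : EvLin (fun j => rl (Submodule.map y1 (H (j + (s + 1)) • ⊤) ⊔
      Submodule.map y2 (H (j + (s + 1)) • ⊤)) (H (j + (s + 1)) • (⊤ : Submodule B V)))
      (0 + (a * e + A2)) ((Θ : ℤ) + XB) := by
    refine ((evLin_const Θ).add hB).congr ?_
    have h1 : ∀ᶠ j in atTop, rl (Submodule.map y1 (H (j + (s + 1)) • ⊤) ⊔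
      Submodule.map y2 (H (j + (s + 1)) • ⊤)) (H (j + (s + 1)) • (⊤ : Submodule B V)) =
      (Θ : ℕ∞) + rl (H (j + (s + 1)) • (⊤ : Submodule B V)) (X (j + (s + 1))) :=
      (Filter.tendsto_add_atTop_nat (s + 1)).eventually S3
    filter_upwards [h1] with j hj
    exact hj.symm
  obtain ⟨h1, h2⟩ := hshift.unique hcomb
  refine core_arith (a := a) (s := (s : ℤ) + 1) (l := l) (ch := ch) (A1 := A1) (A2 := A2)
    (XA := XA) (XB := XB) he.slope_nonneg hA1 hA2 hch1 hch2 ?_ hXA ?_ ?_
  · linarith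
  · have e1 : a * ch + a * e * ((s : ℤ) + 1 - 1) + (l + ((s : ℤ) + 1) - 1) * A2 =
        a * ch + a * e * s + (l + s) * A2 := by ring
    rw [e1]
    exact hXB
  · push_cast at h2
    linarith

end Vale.Agent.P202
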