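import Vale.Agent.P202.Mono
import Mathlib.Algebra.Order.Antidiag.FinsuppEquiv
import Mathlib.Data.Nat.Choose.Basic

/-!
Counting estimates for the monomial filtration.
-/

set_option linter.unusedSectionVars false

namespace Vale.Agent.P202

open Ideal Finset

variable {A : Type*} [CommRing A] {σ : Type*} [Fintype σ] [LinearOrder σ]

/-- exponents with all coordinates less than `t`. -/
noncomputable def box (σ : Type*) [Fintype σ] [LinearOrder σ] (t : ℕ) : Finset (σ →₀ ℕ) :=
  (Fintype.piFinset (fun _ : σ => Finset.range t)).map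
    (Finsupp.equivFunOnFinite : (σ →₀ ℕ) ≃ (σ → ℕ)).symm.toEmbedding

lemma mem_box {t : ℕ} {u : σ →₀ ℕ} : u ∈ box σ t ↔ ∀ i, u i < t := by
  simp only [box, Finset.mem_map_equiv, Equiv.symm_symm, Fintype.mem_piFinset, Finset.mem_range]
  rfl

lemma card_box (t : ℕ) : (box σ t).card = t ^ Fintype.card σ := by
  simp [box, Fintype.card_piFinset]

/-- exponents of degree less than `n`. -/
noncomputable def tri (σ : Type*) [Fintype σ] [LinearOrder σ] (n : ℕ) : Finset (σ →₀ ℕ) :=
  (Finsupp.finite_of_degree_lt (σ := σ) n).toFinset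

lemma mem_tri {n : ℕ} {u : σ →₀ ℕ} : u ∈ tri σ n ↔ u.degree < n := by
  simp [tri]

lemma tri_initial (n : ℕ) : ∀ u ∈ tri σ n, ∀ w, dle w u → w ∈ tri σ n := by
  intro u hu w hw
  rw [mem_tri] at hu ⊢
  exact lt_of_le_of_lt (degree_le_of_dle hw) hu

lemma card_tri_succ (n : ℕ) : (tri σ (n + 1)).card = (Fintype.card σ + 1).multichoose n := by
  induction n with
  | zero =>
    rw [Nat.multichoose_zero_right, Finset.card_eq_one]
    refine ⟨0, ?_⟩
    ext u
    rw [mem_tri, Finset.mem_singleton, Nat.lt_one_iff, Finsupp.degree_eq_zero_iff]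
  | succ n ih =>
    have h1 : tri σ (n + 1 + 1) = tri σ (n + 1) ∪ (Finset.univ : Finset σ).finsuppAntidiag (n + 1) := by
      ext u
      rw [mem_tri, Finset.mem_union, mem_tri, Finset.mem_finsuppAntidiag]
      have : (Finset.univ : Finset σ).sum u = u.degree := (Finsupp.degree_eq_sum u).symm
      rw [this]
      simp only [Finset.subset_univ, and_true]
      omega
    have h2 : Disjoint (tri σ (n + 1)) ((Finset.univ : Finset σ).finsuppAntidiag (n + 1)) := by
      rw [Finset.disjoint_left]
      intro u hu hu'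
      rw [mem_tri] at hu
      rw [Finset.mem_finsuppAntidiag] at hu'
      have : (Finset.univ : Finset σ).sum u = u.degree := (Finsupp.degree_eq_sum u).symm
      omega
    rw [h1, Finset.card_union_of_disjoint h2, ih, Finset.card_finsuppAntidiag_nat_eq_multichoose,
      Finset.card_univ, Nat.multichoose_succ_succ, add_comm]

lemma factorial_mul_card_tri (n : ℕ) :
    (Fintype.card σ).factorial * (tri σ (n + 1)).card = (n + 1).ascFactorial (Fintype.card σ) := by
  rw [card_tri_succ, Nat.multichoose_eq, Nat.ascFactorial_eq_factorial_mul_choose]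
  have : Fintype.card σ + 1 + n - 1 = n + Fintype.card σ := by omega
  rw [this, Nat.choose_symm_add]

lemma pow_le_factorial_mul_card_tri (n : ℕ) (hn : 0 < n) :
    n ^ Fintype.card σ ≤ (Fintype.card σ).factorial * (tri σ n).card := by
  obtain ⟨n, rfl⟩ : ∃ m, n = m + 1 := ⟨n - 1, by omega⟩
  rw [factorial_mul_card_tri]
  exact Nat.pow_succ_le_ascFactorial (n + 1) _

lemma factorial_mul_card_tri_le (n : ℕ) :
    (Fintype.card σ).factorial * (tri σ n).card ≤ (n + Fintype.card σ) ^ Fintype.card σ := by
  rcases n with _ | n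
  · have : tri σ 0 = ∅ := by ext u; simp [mem_tri]
    rw [this]; simp
  · rw [factorial_mul_card_tri]
    refine (Nat.ascFactorial_le_pow_add n _).trans ?_
    exact Nat.pow_le_pow_left (by omega) _

end Vale.Agent.P202
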