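import Vale.Agent.P202.Fil

/-!
Calculus of eventually linear functions.
-/

namespace Vale.Agent.P202

open Filter

lemma evLin_iff {f : ℕ → ℕ∞} {a x : ℤ} :
    EvLin f a x ↔ ∀ᶠ j : ℕ in atTop, ∃ n : ℕ, f j = (n : ℕ∞) ∧ (n : ℤ) = a * j + x := by
  rw [EvLin, eventually_atTop]

lemma EvLin.congr {f g : ℕ → ℕ∞} {a x : ℤ} (h : EvLin f a x)
    (h' : ∀ᶠ j : ℕ in atTop, f j = g j) : EvLin g a x := by
  rw [evLin_iff] at h ⊢
  filter_upwards [h, h'] with j h1 h2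
  rw [← h2]; exact h1

lemma EvLin.shift {f : ℕ → ℕ∞} {a x : ℤ} (h : EvLin f a x) (i : ℕ) :
    EvLin (fun j => f (j + i)) a (x + a * i) := by
  obtain ⟨j₀, hj⟩ := h
  refine ⟨j₀, fun j hj' => ?_⟩
  obtain ⟨n, h1, h2⟩ := hj (j + i) (by omega)
  exact ⟨n, h1, by rw [h2]; push_cast; ring⟩

lemma EvLin.unshift {f : ℕ → ℕ∞} {a x : ℤ} (i : ℕ) (h : EvLin (fun j => f (j + i)) a x) :
    EvLin f a (x - a * i) := by
  obtain ⟨j₀, hj⟩ := h
  refine ⟨j₀ + i, fun j hj' => ?_⟩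
  obtain ⟨k, rfl⟩ : ∃ k, j = k + i := ⟨j - i, by omega⟩
  obtain ⟨n, h1, h2⟩ := hj k (by omega)
  exact ⟨n, h1, by rw [h2]; push_cast; ring⟩

lemma EvLin.add {f g : ℕ → ℕ∞} {a x b y : ℤ} (h : EvLin f a x) (h' : EvLin g b y) :
    EvLin (fun j => f j + g j) (a + b) (x + y) := by
  rw [evLin_iff] at *
  filter_upwards [h, h'] with j h1 h2
  obtain ⟨n, h3, h4⟩ := h1
  obtain ⟨k, h5, h6⟩ := h2
  refine ⟨n + k, by rw [h3, h5]; push_cast; rfl, ?_⟩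
  push_cast
  rw [h4, h6]; ring

lemma evLin_zero : EvLin (fun _ => 0) 0 0 := ⟨0, fun j _ => ⟨0, by simp, by simp⟩⟩

lemma evLin_const (n : ℕ) : EvLin (fun _ => (n : ℕ∞)) 0 n :=
  ⟨0, fun j _ => ⟨n, rfl, by simp⟩⟩

lemma EvLin.sum {ι : Type*} (s : Finset ι) {f : ι → ℕ → ℕ∞} {a x : ι → ℤ}
    (h : ∀ i ∈ s, EvLin (f i) (a i) (x i)) :
    EvLin (fun j => ∑ i ∈ s, f i j) (∑ i ∈ s, a i) (∑ i ∈ s, x i) := by
  classical
  induction s using Finset.induction_on with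
  | empty => simpa using evLin_zero
  | insert i s hi ih =>
    simp only [Finset.sum_insert hi]
    exact (h i (Finset.mem_insert_self i s)).add
      (ih fun k hk => h k (Finset.mem_insert_of_mem hk))

lemma EvLin.const_mul {f : ℕ → ℕ∞} {a x : ℤ} (n : ℕ) (h : EvLin f a x) :
    EvLin (fun j => (n : ℕ∞) * f j) (n * a) (n * x) := by
  rw [evLin_iff] at *
  filter_upwards [h] with j h1
  obtain ⟨k, h3, h4⟩ := h1
  refine ⟨n * k, by rw [h3]; push_cast; rfl, ?_⟩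
  push_cast
  rw [h4]; ring

lemma EvLin.unique {f : ℕ → ℕ∞} {a x b y : ℤ} (h : EvLin f a x) (h' : EvLin f b y) :
    a = b ∧ x = y := by
  obtain ⟨j₀, hj⟩ := h
  obtain ⟨k₀, hk⟩ := h'
  have key : ∀ j, max j₀ k₀ ≤ j → a * j + x = b * j + y := by
    intro j hj'
    obtain ⟨n, h1, h2⟩ := hj j (le_trans (le_max_left _ _) hj')
    obtain ⟨n', h1', h2'⟩ := hk j (le_trans (le_max_right _ _) hj')
    rw [h1] at h1'
    have : n = n' := by exact_mod_cast h1'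
    rw [← h2, ← h2', this]
  have e1 := key _ le_rfl
  have e2 := key (max j₀ k₀ + 1) (by omega)
  push_cast at e1 e2
  constructor
  · linarith
  · have : a = b := by linarith
    subst this
    linarith

lemma EvLin.sub_eq {f g h : ℕ → ℕ∞} {a x b y : ℤ} (hf : EvLin f a x) (hg : EvLin g b y)
    (e : ∀ᶠ j : ℕ in atTop, f j = g j + h j) : EvLin h (a - b) (x - y) := by
  rw [evLin_iff] at *
  filter_upwards [hf, hg, e] with j h1 h2 h3
  obtain ⟨n, h4, h5⟩ := h1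
  obtain ⟨k, h6, h7⟩ := h2
  rw [h4, h6] at h3
  have hne : h j ≠ ⊤ := by
    intro h'
    rw [h'] at h3
    simp at h3
  obtain ⟨p, hp⟩ := ENat.ne_top_iff_exists.mp hne
  refine ⟨p, hp.symm, ?_⟩
  rw [← hp] at h3
  have : n = k + p := by exact_mod_cast h3
  have h8 : (n : ℤ) = k + p := by exact_mod_cast this
  rw [h5, h7] at h8
  linarith

lemma EvLin.slope_nonneg {f : ℕ → ℕ∞} {a x : ℤ} (h : EvLin f a x) : 0 ≤ a := by
  obtain ⟨j₀, hj⟩ := h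
  by_contra hneg
  push Not at hneg
  obtain ⟨n, -, h2⟩ := hj (max j₀ (x.natAbs + 1)) (le_max_left _ _)
  have h3 : ((x.natAbs : ℤ) + 1) ≤ ((max j₀ (x.natAbs + 1) : ℕ) : ℤ) := by
    have := le_max_right j₀ (x.natAbs + 1)
    exact_mod_cast this
  have h4 : x ≤ x.natAbs := by omega
  have h5 : (0 : ℤ) ≤ n := by positivity
  nlinarith

/-- if the slope is zero the constant is nonnegative. -/
lemma EvLin.const_nonneg {f : ℕ → ℕ∞} {x : ℤ} (h : EvLin f 0 x) : 0 ≤ x := by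
  obtain ⟨j₀, hj⟩ := h
  obtain ⟨n, -, h2⟩ := hj j₀ le_rfl
  simp only [zero_mul, zero_add] at h2
  rw [← h2]; positivity

lemma EvLin.slope_mono {f g : ℕ → ℕ∞} {a x b y : ℤ} (hf : EvLin f a x) (hg : EvLin g b y)
    (h : ∀ᶠ j : ℕ in atTop, f j ≤ g j) : a ≤ b := by
  obtain ⟨k₀, hk⟩ := eventually_atTop.mp h
  obtain ⟨j₀, hj⟩ := hf
  obtain ⟨j₁, hj'⟩ := hg
  by_contra hlt
  push Not at hlt
  set N : ℕ := max (max j₀ j₁) (max k₀ ((y - x).natAbs + 1)) with hN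
  obtain ⟨n, h1, h2⟩ := hj N (by omega)
  obtain ⟨n', h1', h2'⟩ := hj' N (by omega)
  have h3 := hk N (by omega)
  rw [h1, h1'] at h3
  have h4 : n ≤ n' := by exact_mod_cast h3
  have h5 : (n : ℤ) ≤ n' := by exact_mod_cast h4
  rw [h2, h2'] at h5
  have h6 : ((y - x).natAbs : ℤ) + 1 ≤ (N : ℤ) := by
    have : (y - x).natAbs + 1 ≤ N := by omega
    exact_mod_cast this
  have h7 : y - x ≤ (y - x).natAbs := by omega
  nlinarith

/-- comparison of constants for equal slopes. -/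
lemma EvLin.const_mono {f g : ℕ → ℕ∞} {a x y : ℤ} (hf : EvLin f a x) (hg : EvLin g a y)
    (h : ∀ᶠ j : ℕ in atTop, f j ≤ g j) : x ≤ y := by
  obtain ⟨k₀, hk⟩ := eventually_atTop.mp h
  obtain ⟨j₀, hj⟩ := hf
  obtain ⟨j₁, hj'⟩ := hg
  set N : ℕ := max (max j₀ j₁) k₀ with hN
  obtain ⟨n, h1, h2⟩ := hj N (by omega)
  obtain ⟨n', h1', h2'⟩ := hj' N (by omega)
  have h3 := hk N (by omega)
  rw [h1, h1'] at h3
  have h4 : n ≤ n' := by exact_mod_cast h3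
  have h5 : (n : ℤ) ≤ n' := by exact_mod_cast h4
  rw [h2, h2'] at h5
  linarith

/-- an eventually nonincreasing finite function is eventually constant. -/
lemma exists_const_of_antitone {d : ℕ → ℕ∞} {j₀ : ℕ} (hfin : d j₀ ≠ ⊤)
    (h : ∀ j, j₀ ≤ j → d (j + 1) ≤ d j) : ∃ (n : ℕ) (j₁ : ℕ), j₀ ≤ j₁ ∧
      (∀ j, j₁ ≤ j → d j = (n : ℕ∞)) ∧ ∀ j, j₀ ≤ j → (n : ℕ∞) ≤ d j := by
  have hanti : ∀ j k, j₀ ≤ j → j ≤ k → d k ≤ d j := by
    intro j k hj hk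
    induction k, hk using Nat.le_induction with
    | base => exact le_rfl
    | succ k hk ih => exact (h k (le_trans hj hk)).trans ih
  have hex : ∃ n : ℕ, ∃ j, j₀ ≤ j ∧ d j = (n : ℕ∞) := by
    obtain ⟨p, hp⟩ := ENat.ne_top_iff_exists.mp hfin
    exact ⟨p, j₀, le_rfl, hp.symm⟩
  classical
  obtain ⟨j₁, hj₁, hd⟩ := Nat.find_spec hex
  have hmin : ∀ j, j₀ ≤ j → ((Nat.find hex : ℕ) : ℕ∞) ≤ d j := by
    intro j hj
    by_contra hlt
    push Not at hlt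
    have hne : d j ≠ ⊤ := ne_top_of_lt hlt
    obtain ⟨p, hp⟩ := ENat.ne_top_iff_exists.mp hne
    rw [← hp] at hlt
    have : p < Nat.find hex := by exact_mod_cast hlt
    exact Nat.find_min hex this ⟨j, hj, hp.symm⟩
  refine ⟨Nat.find hex, j₁, hj₁, fun j hj => ?_, hmin⟩
  exact le_antisymm ((hanti _ _ hj₁ hj).trans hd.le) (hmin j (hj₁.trans hj))

/-- a function with eventually constant finite differences is eventually linear. -/
lemma evLin_of_diff {n d : ℕ → ℕ∞} {j₀ : ℕ} {p : ℕ} (hfin : n j₀ ≠ ⊤)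
    (h : ∀ j, j₀ ≤ j → n (j + 1) = n j + d (j + 1)) (hd : ∀ j, j₀ ≤ j → d (j + 1) = (p : ℕ∞)) :
    ∃ x : ℤ, EvLin n p x := by
  obtain ⟨q, hq⟩ := ENat.ne_top_iff_exists.mp hfin
  refine ⟨(q : ℤ) - p * j₀, j₀, fun j hj => ?_⟩
  induction j, hj using Nat.le_induction with
  | base => exact ⟨q, hq.symm, by ring⟩
  | succ k hk ih =>
    obtain ⟨t, h1, h2⟩ := ih
    refine ⟨t + p, ?_, ?_⟩
    · rw [h k hk, h1, hd k hk]; push_cast; rfl
    · push_cast; rw [h2]; ring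

end Vale.Agent.P202
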