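import Vale.Agent.P202.RL

/-!
Filtrations, eventually linear functions, and the slope property.
-/

namespace Vale.Agent.P202

/-- `f j = a * j + x` for all large `j`. -/
def EvLin (f : ℕ → ℕ∞) (a x : ℤ) : Prop :=
  ∃ j₀ : ℕ, ∀ j : ℕ, j₀ ≤ j → ∃ n : ℕ, f j = (n : ℕ∞) ∧ (n : ℤ) = a * j + x

section
variable {A : Type*} [CommRing A] {M : Type*} [AddCommGroup M] [Module A M]

/-- a decreasing `m`-filtration with quotients of finite length. -/
structure Fil (m : Ideal A) (F : ℕ → Submodule A M) : Prop where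
  anti : ∀ j, F (j + 1) ≤ F j
  smul : ∀ j, m • F j ≤ F (j + 1)
  fin : ∀ j, rl (F (j + 1)) (F j) ≠ ⊤

/-- `P` is an `m`-filtration between `F (· + 1)` and `F`. -/
structure SubFil (m : Ideal A) (F P : ℕ → Submodule A M) : Prop where
  le : ∀ j, P j ≤ F j
  ge : ∀ j, F (j + 1) ≤ P j
  smul : ∀ j, m • P j ≤ P (j + 1)

/-- slope bounds: quotients of the associated graded module have slope at least `lo`,
submodules have slope at most `hi`. -/
def Pr (m : Ideal A) (F : ℕ → Submodule A M) (lo hi : ℤ) : Prop :=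
  ∀ P : ℕ → Submodule A M, SubFil m F P → ∃ a x b y : ℤ,
    EvLin (fun j => rl (P j) (F j)) a x ∧ EvLin (fun j => rl (F (j + 1)) (P j)) b y ∧
    lo * a ≤ x ∧ y ≤ hi * b

end

end Vale.Agent.P202
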