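import Vale.Agent.P202.ChainB

/-!
Slope bounds of graded vector spaces: definition.
-/

namespace Vale.Agent.P202

open IsLocalRing TensorProduct

/-- slope bounds for a graded vector space `E` with degree-one maps `x i`. -/
def GPr (k : Type*) [Field k] {ι : Type*} (E : ℕ → Type*) [∀ j, AddCommGroup (E j)]
    [∀ j, Module k (E j)] (x : ι → ∀ j, E j →ₗ[k] E (j + 1)) (lo hi : ℤ) : Prop :=
  ∀ P : ∀ j, Submodule k (E j), (∀ i j, (P j).map (x i j) ≤ P (j + 1)) → ∃ a x' b y : ℤ,
    EvLin (fun j => Module.length k (E j ⧸ P j)) a x' ∧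
    EvLin (fun j => Module.length k (P j)) b y ∧ lo * a ≤ x' ∧ y ≤ hi * b

end Vale.Agent.P202
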