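import Vale.Agent.P202.GPrDef
import Vale.Agent.P202.EvLin

/-!
Slope bounds of graded vector spaces: finite extensions of the base field.
-/

namespace Vale.Agent.P202

open IsLocalRing TensorProduct Filter

/-- Division of an eventually linear function by a positive integer. -/
lemma EvLin.of_const_mul {f : ℕ → ℕ∞} {a x : ℤ} {n : ℕ} (hn : 0 < n)
    (h : EvLin (fun j => (n : ℕ∞) * f j) a x) :
    ∃ a' x' : ℤ, a = n * a' ∧ x = n * x' ∧ EvLin f a' x' := by
  obtain ⟨j₀, hj⟩ := h
  have hp : ∀ j, j₀ ≤ j → ∃ p : ℕ, f j = (p : ℕ∞) ∧ (n : ℤ) * p = a * j + x := by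
    intro j hj'
    obtain ⟨q, h1, h2⟩ := hj j hj'
    dsimp only at h1
    have hne : f j ≠ ⊤ := by
      intro h3
      rw [h3, ENat.mul_top (by exact_mod_cast hn.ne')] at h1
      exact absurd h1 (by simp)
    obtain ⟨p, hp⟩ := ENat.ne_top_iff_exists.mp hne
    refine ⟨p, hp.symm, ?_⟩
    rw [← hp] at h1
    have h4 : n * p = q := by exact_mod_cast h1
    rw [← h2, ← h4]
    push_cast
    rfl
  obtain ⟨p, hp1, hp2⟩ := hp j₀ le_rfl
  obtain ⟨q, hq1, hq2⟩ := hp (j₀ + 1) (Nat.le_succ _)
  have hn' : (n : ℤ) ≠ 0 := by exact_mod_cast hn.ne'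
  have ha : a = n * ((q : ℤ) - p) := by
    push_cast at hq2
    linarith
  refine ⟨(q : ℤ) - p, p - ((q : ℤ) - p) * j₀, ha, ?_, j₀, ?_⟩
  · have e : x = n * p - a * j₀ := by linarith
    rw [e, ha]
    ring
  · intro j hj'
    obtain ⟨u, hu1, hu2⟩ := hp j hj'
    refine ⟨u, hu1, ?_⟩
    refine mul_left_cancel₀ hn' ?_
    rw [hu2]
    have e : x = n * p - a * j₀ := by linarith
    rw [e, ha]
    ring

section GPrLemmas

variable {k : Type*} [Field k] {ι : Type*}

/-- Transport along compatible linear equivalences. -/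
lemma GPr.congrFin {E E' : ℕ → Type*} [∀ j, AddCommGroup (E j)] [∀ j, Module k (E j)]
    [∀ j, AddCommGroup (E' j)] [∀ j, Module k (E' j)] {x : ι → ∀ j, E j →ₗ[k] E (j + 1)}
    {x' : ι → ∀ j, E' j →ₗ[k] E' (j + 1)} {lo hi : ℤ} (e : ∀ j, E j ≃ₗ[k] E' j)
    (he : ∀ i j v, e (j + 1) (x i j v) = x' i j (e j v)) (h : GPr k E x lo hi) :
    GPr k E' x' lo hi := by
  intro P hP
  obtain ⟨a, y, b, z, h1, h2, h3, h4⟩ := h (fun j => (P j).comap (e j : E j →ₗ[k] E' j)) (by
    intro i j
    rw [Submodule.map_le_iff_le_comap]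
    intro v hv
    change e (j + 1) (x i j v) ∈ P (j + 1)
    rw [he]
    exact hP i j ⟨_, hv, rfl⟩)
  refine ⟨a, y, b, z, h1.congr (Eventually.of_forall fun j => ?_),
    h2.congr (Eventually.of_forall fun j => ?_), h3, h4⟩
  · exact (Submodule.Quotient.equiv _ (P j) (e j) (by
      rw [Submodule.map_comap_eq_of_surjective (e j).surjective])).length_eq
  · have e1 : ((P j).comap (e j : E j →ₗ[k] E' j)) ≃ₗ[k] P j :=
      (e j).submoduleMap _ ≪≫ₗ LinearEquiv.ofEq _ _ (by
        rw [Submodule.map_comap_eq_of_surjective (e j).surjective])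
    exact e1.length_eq

/-- Products. -/
lemma GPr.prod {E E' : ℕ → Type*} [∀ j, AddCommGroup (E j)] [∀ j, Module k (E j)]
    [∀ j, AddCommGroup (E' j)] [∀ j, Module k (E' j)] {x : ι → ∀ j, E j →ₗ[k] E (j + 1)}
    {x' : ι → ∀ j, E' j →ₗ[k] E' (j + 1)} {lo hi : ℤ} (h : GPr k E x lo hi)
    (h' : GPr k E' x' lo hi) :
    GPr k (fun j => E j × E' j) (fun i j => (x i j).prodMap (x' i j)) lo hi := by
  intro P hP
  obtain ⟨a, y, b, z, h1, h2, h3, h4⟩ := h (fun j => (P j).comap (LinearMap.inl k (E j) (E' j)))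
    (by
      intro i j
      rw [Submodule.map_le_iff_le_comap]
      intro v hv
      have := hP i j ⟨_, hv, rfl⟩
      simpa using this)
  obtain ⟨a', y', b', z', h1', h2', h3', h4'⟩ := h'
    (fun j => (P j).map (LinearMap.snd k (E j) (E' j))) (by
      intro i j
      rw [Submodule.map_le_iff_le_comap]
      rintro _ ⟨v, hv, rfl⟩
      exact ⟨_, hP i j ⟨_, hv, rfl⟩, rfl⟩)
  refine ⟨a + a', y + y', b + b', z + z', (h1.add h1').congr (Eventually.of_forall fun j => ?_),
    (h2.add h2').congr (Eventually.of_forall fun j => ?_), by linarith, by linarith⟩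
  · -- quotients
    symm
    refine Module.length_eq_add_of_exact
      (Submodule.mapQ ((P j).comap (LinearMap.inl k (E j) (E' j))) (P j)
        (LinearMap.inl k (E j) (E' j)) le_rfl)
      (Submodule.mapQ (P j) ((P j).map (LinearMap.snd k (E j) (E' j)))
        (LinearMap.snd k (E j) (E' j)) (Submodule.le_comap_map _ _)) ?_ ?_ ?_
    · rw [← LinearMap.ker_eq_bot, LinearMap.ker_eq_bot']
      intro u hu
      obtain ⟨u, rfl⟩ := Submodule.Quotient.mk_surjective _ u
      rw [Submodule.mapQ_apply, Submodule.Quotient.mk_eq_zero] at hu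
      rw [Submodule.Quotient.mk_eq_zero]
      exact hu
    · intro u
      obtain ⟨u, rfl⟩ := Submodule.Quotient.mk_surjective _ u
      exact ⟨Submodule.Quotient.mk (0, u), rfl⟩
    · intro u
      obtain ⟨⟨u, v⟩, rfl⟩ := Submodule.Quotient.mk_surjective _ u
      rw [Submodule.mapQ_apply, Submodule.Quotient.mk_eq_zero]
      constructor
      · rintro ⟨⟨u', v'⟩, hm, hv⟩
        change v' = v at hv
        subst hv
        refine ⟨Submodule.Quotient.mk (u - u'), ?_⟩
        rw [Submodule.mapQ_apply, Submodule.Quotient.eq]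
        have := (P j).neg_mem hm
        convert! this using 1
        ext <;> simp
      · rintro ⟨w, hw⟩
        obtain ⟨w, rfl⟩ := Submodule.Quotient.mk_surjective _ w
        rw [Submodule.mapQ_apply, Submodule.Quotient.eq] at hw
        refine ⟨(u, v) - LinearMap.inl k (E j) (E' j) w, ?_, by simp⟩
        have := (P j).neg_mem hw
        simpa using this
  · -- submodules
    symm
    refine Module.length_eq_add_of_exact
      (LinearMap.restrict (LinearMap.inl k (E j) (E' j))
        (p := (P j).comap (LinearMap.inl k (E j) (E' j))) (q := P j) (fun v hv => hv))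
      ((LinearMap.snd k (E j) (E' j)).submoduleMap (P j)) ?_ ?_ ?_
    · intro u v huv
      have := congrArg (fun w : P j => (w : E j × E' j).1) huv
      exact Subtype.ext this
    · exact LinearMap.submoduleMap_surjective _ _
    · rintro ⟨⟨u, v⟩, huv⟩
      constructor
      · intro h0
        have h1 : v = 0 := congrArg Subtype.val h0
        subst h1
        exact ⟨⟨u, huv⟩, rfl⟩
      · rintro ⟨w, hw⟩
        have h1 : (0 : E' j) = v := congrArg (fun w : P j => (w : E j × E' j).2) hw
        exact Subtype.ext h1.symm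

lemma gpr_subsingleton {E : ℕ → Type*} [∀ j, AddCommGroup (E j)] [∀ j, Module k (E j)]
    [∀ j, Subsingleton (E j)] (x : ι → ∀ j, E j →ₗ[k] E (j + 1)) (lo hi : ℤ) :
    GPr k E x lo hi := by
  intro P hP
  refine ⟨0, 0, 0, 0, evLin_zero.congr (Eventually.of_forall fun j => ?_),
    evLin_zero.congr (Eventually.of_forall fun j => ?_), by simp, by simp⟩
  · exact (Module.length_eq_zero (M := E j ⧸ P j)).symm
  · exact (Module.length_eq_zero (M := P j)).symm

/-- Finite powers. -/
lemma GPr.pi {E : ℕ → Type*} [∀ j, AddCommGroup (E j)] [∀ j, Module k (E j)]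
    {x : ι → ∀ j, E j →ₗ[k] E (j + 1)} {lo hi : ℤ} (h : GPr k E x lo hi) (n : ℕ) :
    GPr k (fun j => Fin n → E j) (fun i j => (x i j).compLeft (Fin n)) lo hi := by
  induction n with
  | zero => exact gpr_subsingleton _ lo hi
  | succ n ih =>
    refine (h.prod ih).congrFin (fun j => Fin.consLinearEquiv k (fun _ : Fin (n + 1) => E j)) ?_
    intro i j v
    ext l
    refine Fin.cases ?_ (fun l => ?_) l
    · rfl
    · rfl

end GPrLemmas

lemma length_restrict_field (k K M : Type*) [Field k] [Field K] [Algebra k K]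
    [FiniteDimensional k K] [AddCommGroup M] [Module k M] [Module K M] [IsScalarTower k K M]
    [Module.Finite K M] :
    Module.length k M = (Module.finrank k K : ℕ∞) * Module.length K M := by
  have : Module.Finite k M := Module.Finite.trans K M
  rw [Module.length_eq_finrank k M, Module.length_eq_finrank K M,
    ← Module.finrank_mul_finrank k K M]
  push_cast
  rfl

/-- Finite extensions. -/
theorem gpr_finite {k K : Type*} [Field k] [Field K] [Algebra k K] [FiniteDimensional k K]
    {ι : Type*} (E : ℕ → Type*) [∀ j, AddCommGroup (E j)] [∀ j, Module k (E j)]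
    [∀ j, FiniteDimensional k (E j)] (x : ι → ∀ j, E j →ₗ[k] E (j + 1)) (lo hi : ℤ)
    (h : GPr k E x lo hi) :
    GPr K (fun j => K ⊗[k] E j) (fun i j => (x i j).baseChange K) lo hi := by
  intro P hP
  let bas := Module.finBasis k K
  let n := Module.finrank k K
  have hn : 0 < n := Module.finrank_pos
  let e : ∀ j, (Fin n → E j) ≃ₗ[k] K ⊗[k] E j := fun j =>
    ((TensorProduct.equivFinsuppOfBasisLeft bas) ≪≫ₗ
      (Finsupp.linearEquivFunOnFinite k (E j) (Fin n))).symm
  have key : GPr k (fun j => K ⊗[k] E j)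
      (fun i j => ((x i j).baseChange K).restrictScalars k) lo hi := by
    refine (h.pi n).congrFin e ?_
    intro i j v
    have h0 : ∀ t : K ⊗[k] E j, (e (j + 1)).symm ((x i j).baseChange K t) =
        (x i j).compLeft (Fin n) ((e j).symm t) := by
      intro t
      induction t with
      | zero => simp
      | add s t hs ht => rw [map_add, map_add, map_add, map_add, hs, ht]
      | tmul c u =>
        ext l
        simp only [e, LinearEquiv.symm_symm, LinearMap.baseChange_tmul, LinearEquiv.trans_apply,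
          LinearMap.compLeft_apply, Function.comp_apply, Finsupp.linearEquivFunOnFinite_apply,
          TensorProduct.equivFinsuppOfBasisLeft_apply_tmul_apply, map_smul]
    have h1 := h0 (e j v)
    rw [LinearEquiv.symm_apply_apply, LinearEquiv.symm_apply_eq] at h1
    exact h1.symm
  obtain ⟨a, y, b, z, h1, h2, h3, h4⟩ := key (fun j => (P j).restrictScalars k) (by
    intro i j
    rw [Submodule.map_le_iff_le_comap]
    intro v hv
    exact hP i j ⟨v, hv, rfl⟩)
  have hq : ∀ j, Module.length k ((K ⊗[k] E j) ⧸ (P j).restrictScalars k) =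
      (n : ℕ∞) * Module.length K ((K ⊗[k] E j) ⧸ P j) := by
    intro j
    rw [(Submodule.Quotient.restrictScalarsEquiv k (P j)).length_eq]
    exact length_restrict_field k K _
  have hs : ∀ j, Module.length k ((P j).restrictScalars k) =
      (n : ℕ∞) * Module.length K (P j) := by
    intro j
    exact length_restrict_field k K (P j)
  obtain ⟨a', y', ha, hy, h5⟩ := (h1.congr (Eventually.of_forall hq)).of_const_mul hn
  obtain ⟨b', z', hb, hz, h6⟩ := (h2.congr (Eventually.of_forall hs)).of_const_mul hn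
  have hn' : (0 : ℤ) < n := by exact_mod_cast hn
  refine ⟨a', y', b', z', h5, h6, ?_, ?_⟩
  · rw [ha, hy] at h3
    nlinarith
  · rw [hb, hz] at h4
    nlinarith

end Vale.Agent.P202
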