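import Vale.Agent.P202.GprTrans
import Vale.Agent.P202.GprFinite

/-!
Slope bounds over arbitrary extension fields, for finitely generated subobjects.
-/

namespace Vale.Agent.P202

open TensorProduct Module

/-- transport of `GPr` along linear equivalences. -/
lemma GPr.congr {k : Type*} [Field k] {ι : Type*} {E E' : ℕ → Type*} [∀ j, AddCommGroup (E j)]
    [∀ j, Module k (E j)] [∀ j, AddCommGroup (E' j)] [∀ j, Module k (E' j)]
    {x : ι → ∀ j, E j →ₗ[k] E (j + 1)} {x' : ι → ∀ j, E' j →ₗ[k] E' (j + 1)} {lo hi : ℤ}
    (h : GPr k E x lo hi) (e : ∀ j, E j ≃ₗ[k] E' j)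
    (he : ∀ i j v, e (j + 1) (x i j v) = x' i j (e j v)) : GPr k E' x' lo hi := by
  intro P hP
  have hsub : ∀ i j, ((P j).comap (e j).toLinearMap).map (x i j) ≤
      (P (j + 1)).comap (e (j + 1)).toLinearMap := by
    intro i j
    rw [Submodule.map_le_iff_le_comap]
    intro v hv
    rw [Submodule.mem_comap, Submodule.mem_comap]
    change e (j + 1) (x i j v) ∈ P (j + 1)
    rw [he]
    exact hP i j (Submodule.mem_map_of_mem hv)
  obtain ⟨a, x', b, y, h1, h2, h3, h4⟩ := h (fun j => (P j).comap (e j).toLinearMap) hsub
  refine ⟨a, x', b, y, ?_, ?_, h3, h4⟩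
  · refine h1.congr (Filter.Eventually.of_forall fun j => ?_)
    refine LinearEquiv.length_eq (Submodule.Quotient.equiv _ _ (e j) ?_)
    exact Submodule.map_comap_eq_of_surjective (e j).surjective _
  · refine h2.congr (Filter.Eventually.of_forall fun j => ?_)
    refine LinearEquiv.length_eq ?_
    exact (e j).ofSubmodule' (P j)

/-- one step of the tower. -/
lemma GPr.tower {k K L : Type*} [Field k] [Field K] [Field L] [Algebra k K] [Algebra K L]
    [Algebra k L] [IsScalarTower k K L]
    {ι : Type*} {E : ℕ → Type*} [∀ j, AddCommGroup (E j)] [∀ j, Module k (E j)]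
    {x : ι → ∀ j, E j →ₗ[k] E (j + 1)} {lo hi : ℤ}
    (h : GPr L (fun j => L ⊗[K] (K ⊗[k] E j)) (fun i j => ((x i j).baseChange K).baseChange L)
      lo hi) :
    GPr L (fun j => L ⊗[k] E j) (fun i j => (x i j).baseChange L) lo hi := by
  refine h.congr (fun j => AlgebraTensorModule.cancelBaseChange k K L L (E j)) ?_
  intro i j v
  induction v using TensorProduct.induction_on with
  | zero => simp
  | tmul a b =>
    induction b using TensorProduct.induction_on with
    | zero => simp
    | tmul b c => simp [LinearMap.baseChange_tmul]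
    | add b c hb hc =>
      rw [TensorProduct.tmul_add, map_add, map_add, map_add, hb, hc, map_add]
  | add a b ha hb => rw [map_add, map_add, map_add, ha, hb, map_add]

universe u

/-- finitely many elements of `l` are contained in a field over which the slope bounds hold. -/
theorem exists_gpr_field {k : Type*} {l : Type u} [Field k] [Field l] [Algebra k l]
    {ι : Type*} (E : ℕ → Type*) [∀ j, AddCommGroup (E j)] [∀ j, Module k (E j)]
    [∀ j, FiniteDimensional k (E j)] (x : ι → ∀ j, E j →ₗ[k] E (j + 1)) (lo hi : ℤ)
    (h : GPr k E x lo hi) (s : Finset l) :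
    ∃ (K : Type u) (_ : Field K) (_ : Algebra k K) (_ : Algebra K l) (_ : IsScalarTower k K l),
      (∀ w ∈ s, w ∈ Set.range (algebraMap K l)) ∧
      GPr K (fun j => K ⊗[k] E j) (fun i j => (x i j).baseChange K) lo hi := by
  classical
  induction s using Finset.induction_on with
  | empty =>
    refine ⟨(⊥ : IntermediateField k l), inferInstance, inferInstance, inferInstance,
      inferInstance, by simp, ?_⟩
    have : FiniteDimensional k (⊥ : IntermediateField k l) := by
      infer_instance
    exact gpr_finite E x lo hi h
  | insert w s hws ih =>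
    obtain ⟨K, _, _, _, _, hs, hK⟩ := ih
    by_cases hw : IsIntegral K w
    · have : FiniteDimensional K (IntermediateField.adjoin K {w}) :=
        IntermediateField.adjoin.finiteDimensional hw
      have htow : IsScalarTower k (IntermediateField.adjoin K {w}) l := by
        refine IsScalarTower.of_algebraMap_eq fun a => ?_
        rw [IsScalarTower.algebraMap_apply k K l,
          IsScalarTower.algebraMap_apply k K (IntermediateField.adjoin K {w}),
          ← IsScalarTower.algebraMap_apply K (IntermediateField.adjoin K {w}) l]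
      refine ⟨IntermediateField.adjoin K {w}, inferInstance, inferInstance, inferInstance,
        htow, ?_, ?_⟩
      · intro v hv
        rw [Finset.mem_insert] at hv
        rcases hv with rfl | hv
        · exact ⟨⟨v, IntermediateField.mem_adjoin_simple_self K v⟩, rfl⟩
        · obtain ⟨z, rfl⟩ := hs v hv
          exact ⟨algebraMap K _ z, rfl⟩
      · exact GPr.tower (gpr_finite _ _ lo hi hK)
    · have hinj : Function.Injective (Polynomial.aeval (R := K) w) := by
        rw [← transcendental_iff_injective]
        exact fun h => hw h.isIntegral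
      let φ : FractionRing (Polynomial K) →+* l :=
        IsFractionRing.lift (A := Polynomial K) (K := FractionRing (Polynomial K)) (L := l)
          (g := (Polynomial.aeval (R := K) w).toRingHom) hinj
      let _ : Algebra (FractionRing (Polynomial K)) l := φ.toAlgebra
      have hφ : ∀ p : Polynomial K, φ (algebraMap (Polynomial K) _ p) = Polynomial.aeval w p :=
        fun p => IsFractionRing.lift_algebraMap hinj p
      have htow : IsScalarTower k (FractionRing (Polynomial K)) l := by
        refine IsScalarTower.of_algebraMap_eq fun a => ?_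
        change algebraMap k l a = φ (algebraMap k (FractionRing (Polynomial K)) a)
        rw [IsScalarTower.algebraMap_apply k K (FractionRing (Polynomial K)), IsScalarTower.algebraMap_apply K (Polynomial K) (FractionRing (Polynomial K)), hφ,
          IsScalarTower.algebraMap_apply k K l, Polynomial.algebraMap_eq, Polynomial.aeval_C]
      refine ⟨FractionRing (Polynomial K), inferInstance, inferInstance, inferInstance,
        htow, ?_, ?_⟩
      · intro v hv
        rw [Finset.mem_insert] at hv
        rcases hv with rfl | hv
        · refine ⟨algebraMap (Polynomial K) _ Polynomial.X, ?_⟩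
          change φ _ = _
          rw [hφ, Polynomial.aeval_X]
        · obtain ⟨z, rfl⟩ := hs v hv
          refine ⟨algebraMap (Polynomial K) _ (Polynomial.C z), ?_⟩
          change φ _ = _
          rw [hφ, Polynomial.aeval_C]
      · exact GPr.tower (gpr_transcendental _ _ lo hi hK)

section descent
variable {k K l : Type*} [Field k] [Field K] [Field l] [Algebra k l] [Algebra k K] [Algebra K l]
  [IsScalarTower k K l] {E : Type*} [AddCommGroup E] [Module k E] [FiniteDimensional k E]

variable (k K l E) in
/-- the map from `K ⊗ E` to `l ⊗ E`. -/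
noncomputable def descMap : (K ⊗[k] E) →ₗ[K] (l ⊗[k] E) :=
  AlgebraTensorModule.map (Algebra.linearMap K l) LinearMap.id

omit [FiniteDimensional k E] in
lemma descMap_tmul (a : K) (v : E) : descMap k K l E (a ⊗ₜ v) = algebraMap K l a ⊗ₜ v := rfl

omit [FiniteDimensional k E] in
lemma cancel_tmul (z : K ⊗[k] E) :
    AlgebraTensorModule.cancelBaseChange k K l l E ((1 : l) ⊗ₜ[K] z) = descMap k K l E z := by
  induction z using TensorProduct.induction_on with
  | zero => simp
  | tmul a b =>
    rw [AlgebraTensorModule.cancelBaseChange_tmul, descMap_tmul, Algebra.smul_def, mul_one]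
  | add a b ha hb => rw [TensorProduct.tmul_add, map_add, map_add, ha, hb]

/-- lengths for subspaces defined over `K`. -/
lemma length_desc (P : Submodule l (l ⊗[k] E)) (Q : Submodule K (K ⊗[k] E))
    (h1 : Q.map (descMap k K l E) ≤ P.restrictScalars K)
    (h2 : P ≤ Submodule.span l (descMap k K l E '' Q)) :
    Module.length l P = Module.length K Q ∧
      Module.length l ((l ⊗[k] E) ⧸ P) = Module.length K ((K ⊗[k] E) ⧸ Q) := by
  have hP : P = (Q.baseChange l).map
      (AlgebraTensorModule.cancelBaseChange k K l l E).toLinearMap := by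
    apply le_antisymm
    · refine h2.trans (Submodule.span_le.mpr ?_)
      rintro _ ⟨z, hz, rfl⟩
      refine ⟨(1 : l) ⊗ₜ[K] z, Submodule.tmul_mem_baseChange_of_mem _ hz, ?_⟩
      exact cancel_tmul z
    · rw [Submodule.map_le_iff_le_comap, Submodule.baseChange]
      rintro _ ⟨w, rfl⟩
      induction w using TensorProduct.induction_on with
      | zero => simp
      | tmul a b =>
        rw [LinearMap.baseChange_tmul, Submodule.mem_comap]
        have e1 : a ⊗ₜ[K] (Q.subtype b) = a • ((1 : l) ⊗ₜ[K] (b : K ⊗[k] E)) := by
          rw [TensorProduct.smul_tmul', smul_eq_mul, mul_one]; rfl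
        rw [e1, map_smul]
        refine P.smul_mem _ ?_
        change AlgebraTensorModule.cancelBaseChange k K l l E ((1 : l) ⊗ₜ[K] (b : K ⊗[k] E)) ∈ P
        rw [cancel_tmul]
        exact h1 (Submodule.mem_map_of_mem b.2)
      | add a b ha hb => rw [map_add]; exact Submodule.add_mem _ ha hb
  have hfin : Module.finrank l P = Module.finrank K Q := by
    have e1 : Module.finrank l (Q.baseChange l) = Module.finrank K Q := by
      have hinj : Function.Injective (Q.subtype.baseChange l) := by
        have := Module.Flat.lTensor_preserves_injective_linearMap (M := l) Q.subtype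
          Q.subtype_injective
        exact this
      have : Module.Free K Q := Module.Free.of_divisionRing K Q
      rw [Submodule.baseChange, LinearMap.finrank_range_of_inj hinj, Module.finrank_baseChange]
    rw [hP, ← e1]
    exact LinearEquiv.finrank_map_eq _ _
  refine ⟨?_, ?_⟩
  · rw [Module.length_eq_finrank, Module.length_eq_finrank, hfin]
  · rw [Module.length_eq_finrank, Module.length_eq_finrank]
    have e1 := Submodule.finrank_quotient_add_finrank P
    have e2 := Submodule.finrank_quotient_add_finrank Q
    rw [Module.finrank_baseChange] at e1 e2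
    have : Module.finrank l ((l ⊗[k] E) ⧸ P) = Module.finrank K ((K ⊗[k] E) ⧸ Q) := by omega
    rw [this]

end descent

/-- every element of `l ⊗ E` is defined over a finitely generated subfield. -/
lemma exists_finset_desc {k : Type*} {l : Type u} [Field k] [Field l] [Algebra k l]
    {E : Type*} [AddCommGroup E] [Module k E] (g : l ⊗[k] E) :
    ∃ s : Finset l, ∀ (K : Type u) [Field K] [Algebra k K] [Algebra K l] [IsScalarTower k K l],
      (∀ w ∈ s, w ∈ Set.range (algebraMap K l)) → g ∈ LinearMap.range (descMap k K l E) := by
  classical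
  induction g using TensorProduct.induction_on with
  | zero => exact ⟨∅, fun K _ _ _ _ _ => Submodule.zero_mem _⟩
  | tmul a b =>
    refine ⟨{a}, fun K _ _ _ _ h => ?_⟩
    obtain ⟨z, hz⟩ := h a (Finset.mem_singleton_self a)
    exact ⟨z ⊗ₜ b, by rw [descMap_tmul, hz]⟩
  | add a b ha hb =>
    obtain ⟨s, hs⟩ := ha
    obtain ⟨t, ht⟩ := hb
    refine ⟨s ∪ t, fun K _ _ _ _ h => ?_⟩
    exact Submodule.add_mem _ (hs K fun w hw => h w (Finset.mem_union_left _ hw))
      (ht K fun w hw => h w (Finset.mem_union_right _ hw))

/-- TASK G3: arbitrary extensions and finitely generated subobjects. -/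
theorem gpr_fg {k l : Type*} [Field k] [Field l] [Algebra k l]
    {ι : Type*} (E : ℕ → Type*) [∀ j, AddCommGroup (E j)] [∀ j, Module k (E j)]
    [∀ j, FiniteDimensional k (E j)] (x : ι → ∀ j, E j →ₗ[k] E (j + 1)) (lo hi : ℤ)
    (h : GPr k E x lo hi) (P : ∀ j, Submodule l (l ⊗[k] E j))
    (hP : ∀ i j, (P j).map ((x i j).baseChange l) ≤ P (j + 1))
    (hfg : ∃ j₀, ∀ j, j₀ ≤ j → P (j + 1) ≤ ⨆ i, (P j).map ((x i j).baseChange l)) :
    ∃ a x' b y : ℤ, EvLin (fun j => Module.length l ((l ⊗[k] E j) ⧸ P j)) a x' ∧
      EvLin (fun j => Module.length l (P j)) b y ∧ lo * a ≤ x' ∧ y ≤ hi * b := by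
  classical
  obtain ⟨j₀, hfg⟩ := hfg
  have hfin : ∀ j, ∃ t : Finset (l ⊗[k] E j), Submodule.span l (t : Set (l ⊗[k] E j)) = P j :=
    fun j => IsNoetherian.noetherian (P j)
  choose t ht using hfin
  choose sg hsg using fun (j : ℕ) (g : l ⊗[k] E j) => exists_finset_desc g
  obtain ⟨K, _, _, _, _, hs, hK⟩ := exists_gpr_field E x lo hi h
    ((Finset.range (j₀ + 1)).biUnion fun j => (t j).biUnion (sg j))
  let Q : ∀ j, Submodule K (K ⊗[k] E j) := fun j =>
    ((P j).restrictScalars K).comap (descMap k K l (E j))
  have hcomm : ∀ i j v, descMap k K l (E (j + 1)) ((x i j).baseChange K v) =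
      (x i j).baseChange l (descMap k K l (E j) v) := by
    intro i j v
    induction v using TensorProduct.induction_on with
    | zero => simp
    | tmul a b => rfl
    | add a b ha hb => rw [map_add, map_add, map_add, map_add, ha, hb]
  have hQ : ∀ i j, (Q j).map ((x i j).baseChange K) ≤ Q (j + 1) := by
    intro i j
    rw [Submodule.map_le_iff_le_comap]
    intro v hv
    change descMap k K l (E (j + 1)) ((x i j).baseChange K v) ∈ P (j + 1)
    rw [hcomm]
    exact hP i j (Submodule.mem_map_of_mem hv)
  have h1 : ∀ j, (Q j).map (descMap k K l (E j)) ≤ (P j).restrictScalars K := fun j =>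
    Submodule.map_comap_le _ _
  have h2 : ∀ j, P j ≤ Submodule.span l (descMap k K l (E j) '' Q j) := by
    have hsmall : ∀ j, j ≤ j₀ → P j ≤ Submodule.span l (descMap k K l (E j) '' Q j) := by
      intro j hj
      rw [← ht j, Submodule.span_le]
      intro g hg
      obtain ⟨z, hz⟩ := hsg j g K fun w hw => hs w (Finset.mem_biUnion.mpr
        ⟨j, Finset.mem_range.mpr (by omega), Finset.mem_biUnion.mpr ⟨g, hg, hw⟩⟩)
      refine Submodule.subset_span ⟨z, ?_, hz⟩
      change descMap k K l (E j) z ∈ P j
      rw [hz, ← ht j]
      exact Submodule.subset_span hg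
    intro j
    induction j with
    | zero => exact hsmall 0 (Nat.zero_le _)
    | succ j ih =>
      rcases Nat.lt_or_ge j j₀ with hj | hj
      · exact hsmall (j + 1) hj
      · refine (hfg j hj).trans (iSup_le fun i => ?_)
        refine (Submodule.map_mono ih).trans ?_
        rw [Submodule.map_span, Submodule.span_le]
        rintro _ ⟨_, ⟨z, hz, rfl⟩, rfl⟩
        refine Submodule.subset_span ⟨(x i j).baseChange K z, ?_, hcomm i j z⟩
        exact hQ i j (Submodule.mem_map_of_mem hz)
  obtain ⟨a, x', b, y, h3, h4, h5, h6⟩ := hK Q hQ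
  refine ⟨a, x', b, y, ?_, ?_, h5, h6⟩
  · exact h3.congr (Filter.Eventually.of_forall fun j => ((length_desc _ _ (h1 j) (h2 j)).2).symm)
  · exact h4.congr (Filter.Eventually.of_forall fun j => ((length_desc _ _ (h1 j) (h2 j)).1).symm)

end Vale.Agent.P202
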