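import Vale.Agent.P202.GPrDef
import Vale.Agent.P202.EvLin

/-!
Slope bounds of graded vector spaces: extension to the rational function field.
-/

namespace Vale.Agent.P202

open IsLocalRing TensorProduct Filter Polynomial

section

variable {k K : Type*} [Field k] [Field K] [Algebra k K]
    [Algebra (Polynomial k) K] [IsScalarTower k (Polynomial k) K]
    (E : Type*) [AddCommGroup E] [Module k E]

/-- `k[X] ⊗ E → K ⊗ E`. -/
noncomputable def gtI (k K : Type*) [Field k] [Field K] [Algebra k K]
    [Algebra (Polynomial k) K] [IsScalarTower k (Polynomial k) K]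
    (E : Type*) [AddCommGroup E] [Module k E] : (k[X] ⊗[k] E) →ₗ[k[X]] (K ⊗[k] E) :=
  AlgebraTensorModule.map (Algebra.linearMap k[X] K) (LinearMap.id : E →ₗ[k] E)

@[simp] lemma gtI_tmul (f : k[X]) (v : E) :
    gtI k K E (f ⊗ₜ v) = algebraMap k[X] K f ⊗ₜ v := rfl

lemma gtI_baseChange [IsFractionRing (Polynomial k) K] : IsBaseChange K (gtI k K E) := by
  refine IsBaseChange.of_comp (TensorProduct.isBaseChange k E k[X]) ?_
  have h : (gtI k K E).restrictScalars k ∘ₗ TensorProduct.mk k k[X] E 1 =
      TensorProduct.mk k K E 1 := by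
    ext v
    simp
  rw [h]
  exact TensorProduct.isBaseChange k E K

/-- evaluation at `0`. -/
noncomputable def gtE (k : Type*) [Field k] (E : Type*) [AddCommGroup E] [Module k E] :
    (k[X] ⊗[k] E) →ₗ[k] E :=
  (TensorProduct.lid k E).toLinearMap ∘ₗ
    LinearMap.rTensor E (Polynomial.aeval (0 : k) : k[X] →ₐ[k] k).toLinearMap

@[simp] lemma gtE_tmul (f : k[X]) (v : E) : gtE k E (f ⊗ₜ v) = f.eval 0 • v := by
  simp [gtE, Polynomial.aeval_def, Polynomial.eval₂_eq_eval_map]

lemma gtE_smul (f : k[X]) (v : k[X] ⊗[k] E) : gtE k E (f • v) = f.eval 0 • gtE k E v := by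
  induction v with
  | zero => simp
  | add v w hv hw => rw [smul_add, map_add, map_add, hv, hw, smul_add]
  | tmul g v => rw [TensorProduct.smul_tmul', gtE_tmul, gtE_tmul, smul_eq_mul,
      Polynomial.eval_mul, mul_smul]

lemma gtE_ker (v : k[X] ⊗[k] E) (hv : gtE k E v = 0) : ∃ w, v = (X : k[X]) • w := by
  have hex : Function.Exact (LinearMap.mulLeft k (X : k[X]))
      (Polynomial.aeval (0 : k) : k[X] →ₐ[k] k).toLinearMap := by
    intro f
    have h1 : (Polynomial.aeval (0 : k) : k[X] →ₐ[k] k).toLinearMap f = f.coeff 0 := by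
      simp [Polynomial.coeff_zero_eq_eval_zero, Polynomial.aeval_def,
        Polynomial.eval₂_eq_eval_map]
    rw [h1, ← Polynomial.X_dvd_iff]
    constructor
    · rintro ⟨g, rfl⟩
      exact ⟨g, rfl⟩
    · rintro ⟨g, rfl⟩
      exact ⟨g, rfl⟩
  have hsurj : Function.Surjective (Polynomial.aeval (0 : k) : k[X] →ₐ[k] k).toLinearMap :=
    fun c => ⟨Polynomial.C c, by simp⟩
  have h2 := rTensor_exact E hex hsurj
  have h3 : LinearMap.rTensor E (Polynomial.aeval (0 : k) : k[X] →ₐ[k] k).toLinearMap v = 0 :=
    (TensorProduct.lid k E).injective (by simpa [gtE] using hv)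
  obtain ⟨w, hw⟩ := (h2 v).mp h3
  refine ⟨w, ?_⟩
  rw [← hw]
  clear hw h3 h2 hv
  induction w with
  | zero => simp
  | add a b ha hb => rw [map_add, smul_add, ha, hb]
  | tmul f e => simp [TensorProduct.smul_tmul']

variable [FiniteDimensional k E]

/-- the specialization of a subspace of `K ⊗ E`. -/
noncomputable def gtP (P : Submodule K (K ⊗[k] E)) : Submodule k E :=
  (((P.restrictScalars k[X]).comap (gtI k K E)).restrictScalars k).map (gtE k E)

lemma gtP_finrank [IsFractionRing (Polynomial k) K] (P : Submodule K (K ⊗[k] E)) :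
    Module.finrank k (gtP E P) = Module.finrank K P := by
  set L : Submodule k[X] (k[X] ⊗[k] E) := (P.restrictScalars k[X]).comap (gtI k K E) with hL
  have hloc : IsLocalizedModule (nonZeroDivisors k[X]) (gtI k K E) :=
    (isLocalizedModule_iff_isBaseChange (nonZeroDivisors k[X]) K _).mpr (gtI_baseChange E)
  obtain ⟨n, ⟨b⟩⟩ := Submodule.nonempty_basis_of_pid
    (Algebra.TensorProduct.basis k[X] (Module.finBasis k E)) L
  -- finrank of `P`
  have h1 : Module.finrank K P = n := by
    have hP : L.localized' K (nonZeroDivisors k[X]) (gtI k K E) = P := by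
      ext v
      constructor
      · rintro ⟨m, hm, s, rfl⟩
        have h2 : (algebraMap k[X] K s) • IsLocalizedModule.mk' (gtI k K E) m s ∈ P := by
          rw [algebraMap_smul]
          have := IsLocalizedModule.mk'_cancel' (gtI k K E) m s
          change (s : k[X]) • IsLocalizedModule.mk' (gtI k K E) m s = _ at this
          rw [this]
          exact hm
        have h3 : algebraMap k[X] K s ≠ 0 :=
          IsFractionRing.to_map_ne_zero_of_mem_nonZeroDivisors s.2
        have h4 := P.smul_mem (algebraMap k[X] K s)⁻¹ h2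
        rwa [smul_smul, inv_mul_cancel₀ h3, one_smul] at h4
      · intro hv
        obtain ⟨⟨m, s⟩, hm⟩ := IsLocalizedModule.surj (nonZeroDivisors k[X]) (gtI k K E) v
        refine ⟨m, ?_, s, ?_⟩
        · change gtI k K E m ∈ P
          rw [← hm]
          change (s : k[X]) • v ∈ P
          rw [← algebraMap_smul K]
          exact P.smul_mem _ hv
        · rw [IsLocalizedModule.mk'_eq_iff]
          exact hm.symm
    have hb := b.ofIsLocalizedModule K (nonZeroDivisors k[X])
      (L.toLocalized' K (nonZeroDivisors k[X]) (gtI k K E))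
    have h5 := Module.finrank_eq_card_basis hb
    rw [← hP, h5]
    simp
  rw [h1]
  have hb : LinearIndependent k (fun i => gtE k E (b i : k[X] ⊗[k] E)) := by
    rw [Fintype.linearIndependent_iff]
    intro c hc
    have h2 : gtE k E (∑ i, (C (c i)) • (b i : k[X] ⊗[k] E)) = 0 := by
      rw [map_sum]
      simpa [gtE_smul] using hc
    obtain ⟨w, hw⟩ := gtE_ker E _ h2
    have hwL : w ∈ L := by
      have h3 : (X : k[X]) • w ∈ L := by
        rw [← hw]
        exact L.sum_mem fun i _ => L.smul_mem _ (b i).2
      change gtI k K E w ∈ P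
      have h4 : algebraMap k[X] K X • gtI k K E w ∈ P := by
        rw [algebraMap_smul, ← map_smul]
        exact h3
      have h5 : algebraMap k[X] K X ≠ 0 := by
        rw [Ne, IsFractionRing.to_map_eq_zero_iff]
        exact X_ne_zero
      have h6 := P.smul_mem (algebraMap k[X] K X)⁻¹ h4
      rwa [smul_smul, inv_mul_cancel₀ h5, one_smul] at h6
    have h7 : ∑ i, (C (c i)) • b i = (X : k[X]) • (⟨w, hwL⟩ : L) := by
      apply Subtype.ext
      simpa using hw
    intro i
    have h8 := congrArg (fun z => (b.repr z i).coeff 0) h7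
    simp only [map_sum, map_smul, Module.Basis.repr_self, Finsupp.coe_finsetSum,
      Finset.sum_apply, Finsupp.smul_single, smul_eq_mul, mul_one, Finsupp.single_apply,
      Finset.sum_ite_eq', Finset.mem_univ, if_true, Finsupp.smul_apply,
      Polynomial.coeff_C_zero, Polynomial.mul_coeff_zero, Polynomial.coeff_X_zero, zero_mul]
      at h8
    exact h8
  have hspan : Submodule.span k (Set.range (fun i => gtE k E (b i : k[X] ⊗[k] E))) = gtP E P := by
    apply le_antisymm
    · rw [Submodule.span_le]
      rintro _ ⟨i, rfl⟩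
      exact ⟨b i, (b i).2, rfl⟩
    · rintro _ ⟨v, hv, rfl⟩
      have hv' : v ∈ L := hv
      have h2 : v = ∑ i, (b.repr ⟨v, hv'⟩ i) • (b i : k[X] ⊗[k] E) := by
        have h3 := congrArg (L.subtype) (b.sum_repr ⟨v, hv'⟩)
        rw [map_sum] at h3
        exact h3.symm
      rw [h2, map_sum]
      refine Submodule.sum_mem _ fun i _ => ?_
      rw [gtE_smul]
      exact Submodule.smul_mem _ _ (Submodule.subset_span ⟨i, rfl⟩)
  rw [← hspan, finrank_span_eq_card hb]
  simp

lemma gtP_length [IsFractionRing (Polynomial k) K] (P : Submodule K (K ⊗[k] E)) :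
    Module.length k (gtP E P) = Module.length K P := by
  rw [Module.length_eq_finrank, Module.length_eq_finrank, gtP_finrank]

lemma gtP_length_quot [IsFractionRing (Polynomial k) K] (P : Submodule K (K ⊗[k] E)) :
    Module.length k (E ⧸ gtP E P) = Module.length K ((K ⊗[k] E) ⧸ P) := by
  rw [Module.length_eq_finrank, Module.length_eq_finrank]
  have h1 := Submodule.finrank_quotient_add_finrank (gtP E P)
  have h2 := Submodule.finrank_quotient_add_finrank P
  rw [gtP_finrank] at h1
  rw [Module.finrank_baseChange] at h2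
  congr 1
  omega

end

lemma gtP_map {k K : Type*} [Field k] [Field K] [Algebra k K]
    [Algebra (Polynomial k) K] [IsScalarTower k (Polynomial k) K]
    {E E' : Type*} [AddCommGroup E] [Module k E] [AddCommGroup E'] [Module k E']
    [FiniteDimensional k E] [FiniteDimensional k E'] (x : E →ₗ[k] E')
    (P : Submodule K (K ⊗[k] E)) (P' : Submodule K (K ⊗[k] E'))
    (h : P.map (x.baseChange K) ≤ P') : (gtP E P).map x ≤ gtP E' P' := by
  rintro _ ⟨_, ⟨v, hv, rfl⟩, rfl⟩
  refine ⟨x.baseChange k[X] v, ?_, ?_⟩
  · change gtI k K E' (x.baseChange k[X] v) ∈ P'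
    have h1 : gtI k K E' (x.baseChange k[X] v) = x.baseChange K (gtI k K E v) := by
      clear hv
      induction v with
      | zero => simp
      | add a b ha hb => rw [map_add, map_add, map_add, map_add, ha, hb]
      | tmul f e => simp
    rw [h1]
    exact h ⟨_, hv, rfl⟩
  · clear hv
    induction v with
    | zero => simp
    | add a b ha hb => rw [map_add, map_add, map_add, map_add, ha, hb]
    | tmul f e => simp

/-- The rational function field. -/
theorem gpr_transcendental {k K : Type*} [Field k] [Field K] [Algebra k K]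
    [Algebra (Polynomial k) K] [IsScalarTower k (Polynomial k) K]
    [IsFractionRing (Polynomial k) K]
    {ι : Type*} (E : ℕ → Type*) [∀ j, AddCommGroup (E j)] [∀ j, Module k (E j)]
    [∀ j, FiniteDimensional k (E j)] (x : ι → ∀ j, E j →ₗ[k] E (j + 1)) (lo hi : ℤ)
    (h : GPr k E x lo hi) :
    GPr K (fun j => K ⊗[k] E j) (fun i j => (x i j).baseChange K) lo hi := by
  intro P hP
  obtain ⟨a, y, b, z, h1, h2, h3, h4⟩ := h (fun j => gtP (E j) (P j))
    (fun i j => gtP_map (x i j) (P j) (P (j + 1)) (hP i j))
  exact ⟨a, y, b, z, h1.congr (Eventually.of_forall fun j => gtP_length_quot (E j) (P j)),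
    h2.congr (Eventually.of_forall fun j => gtP_length (E j) (P j)), h3, h4⟩

end Vale.Agent.P202
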