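import Vale.Agent.P202.Fil

/-!
TASK I: the initial filtration on a module with regular sequence `x1, x2`.
-/

namespace Vale.Agent.P202

open IsLocalRing Pointwise

section
variable {A : Type*} [CommRing A] {M : Type*} [AddCommGroup M] [Module A M]

/-- the submodules `q^n M`. -/
def qPow (q : Ideal A) (M : Type*) [AddCommGroup M] [Module A M] (n : ℕ) : Submodule A M :=
  q ^ n • (⊤ : Submodule A M)

lemma qPow_zero (q : Ideal A) : qPow q M 0 = ⊤ := by
  rw [qPow, pow_zero, Ideal.one_eq_top, Submodule.top_smul]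

lemma qPow_succ (q : Ideal A) (n : ℕ) : qPow q M (n + 1) = q • qPow q M n := by
  rw [qPow, qPow, pow_succ', Submodule.mul_smul]

lemma pow_smul_qPow (q : Ideal A) (k n : ℕ) : q ^ k • qPow q M n = qPow q M (n + k) := by
  rw [qPow, qPow, ← Submodule.mul_smul, ← pow_add, add_comm]

lemma qPow_succ_le (q : Ideal A) (n : ℕ) : qPow q M (n + 1) ≤ qPow q M n := by
  rw [qPow_succ]; exact Submodule.smul_le_right

lemma qPow_anti (q : Ideal A) {m n : ℕ} (h : m ≤ n) : qPow q M n ≤ qPow q M m :=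
  antitone_nat_of_succ_le (qPow_succ_le q) h

lemma smul_mem_qPow {q : Ideal A} {x : A} (hx : x ∈ q) {n : ℕ} {v : M} (hv : v ∈ qPow q M n) :
    x • v ∈ qPow q M (n + 1) := by
  rw [qPow_succ]; exact Submodule.smul_mem_smul hx hv

lemma pow_smul_mem_qPow {q : Ideal A} {k : ℕ} {x : A} (hx : x ∈ q ^ k) {n : ℕ} {v : M}
    (hv : v ∈ qPow q M n) : x • v ∈ qPow q M (n + k) := by
  rw [← pow_smul_qPow]; exact Submodule.smul_mem_smul hx hv

variable {x1 x2 : A}

lemma mem_span_pair_left : x1 ∈ Ideal.span {x1, x2} := Ideal.subset_span (by simp)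

lemma mem_span_pair_right : x2 ∈ Ideal.span {x1, x2} := Ideal.subset_span (by simp)

lemma exists_of_mem_span_pair_smul {N : Submodule A M} {v : M}
    (hv : v ∈ Ideal.span {x1, x2} • N) : ∃ a ∈ N, ∃ b ∈ N, v = x1 • a + x2 • b := by
  refine Submodule.smul_induction_on hv ?_ ?_
  · intro r hr n hn
    obtain ⟨s, t, rfl⟩ := Ideal.mem_span_pair.1 hr
    refine ⟨s • n, N.smul_mem _ hn, t • n, N.smul_mem _ hn, ?_⟩
    rw [add_smul, smul_smul, smul_smul, mul_comm x1, mul_comm x2]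
  · rintro v w ⟨a, ha, b, hb, rfl⟩ ⟨a', ha', b', hb', rfl⟩
    refine ⟨a + a', N.add_mem ha ha', b + b', N.add_mem hb hb', ?_⟩
    rw [smul_add, smul_add]; abel

lemma exists_of_mem_qPow (n : ℕ) : ∀ v : M, v ∈ qPow (Ideal.span {x1, x2}) M (n + 1) →
    ∃ w ∈ qPow (Ideal.span {x1, x2}) M n, ∃ u : M, v = x1 • w + x2 ^ (n + 1) • u := by
  induction n with
  | zero =>
    intro v hv
    rw [qPow_succ] at hv
    obtain ⟨a, ha, b, hb, rfl⟩ := exists_of_mem_span_pair_smul hv
    exact ⟨a, ha, b, by simp⟩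
  | succ n ih =>
    intro v hv
    rw [qPow_succ] at hv
    obtain ⟨a, ha, b, hb, rfl⟩ := exists_of_mem_span_pair_smul hv
    obtain ⟨w, hw, u, rfl⟩ := ih b hb
    refine ⟨a + x2 • w, Submodule.add_mem _ ha (smul_mem_qPow mem_span_pair_right hw), u, ?_⟩
    rw [smul_add, smul_add, smul_smul x2 (x2 ^ (n + 1)), ← pow_succ', smul_comm x2 x1 w]
    abel

/-- `x2 ^ t` is regular modulo `x1`. -/
lemma pow_regular_mod (r2 : ∀ v w : M, x2 • v = x1 • w → ∃ u : M, v = x1 • u) (t : ℕ) :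
    ∀ v w : M, x2 ^ t • v = x1 • w → ∃ u : M, v = x1 • u := by
  induction t with
  | zero => intro v w h; exact ⟨w, by simpa using h⟩
  | succ t ih =>
    intro v w h
    rw [pow_succ', mul_smul] at h
    obtain ⟨u, hu⟩ := r2 _ _ h
    exact ih v u hu

/-- `x1` is a nonzerodivisor on the associated graded module. -/
lemma mem_qPow_of_x1_smul (r1 : ∀ v : M, x1 • v = 0 → v = 0)
    (r2 : ∀ v w : M, x2 • v = x1 • w → ∃ u : M, v = x1 • u) {n : ℕ} {u : M}
    (h : x1 • u ∈ qPow (Ideal.span {x1, x2}) M (n + 1)) :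
    u ∈ qPow (Ideal.span {x1, x2}) M n := by
  obtain ⟨w, hw, u', hu'⟩ := exists_of_mem_qPow n _ h
  have h1 : x2 ^ (n + 1) • u' = x1 • (u - w) := by
    rw [smul_sub, hu']; abel
  obtain ⟨u'', rfl⟩ := pow_regular_mod r2 (n + 1) _ _ h1
  have h2 : x1 • (u - w - x2 ^ (n + 1) • u'') = 0 := by
    rw [smul_sub, ← h1, smul_comm x1, sub_self]
  have h3 := r1 _ h2
  have h4 : u = w + x2 ^ (n + 1) • u'' := by
    rw [sub_eq_zero, sub_eq_iff_eq_add] at h3
    rw [h3]; abel
  rw [h4]
  refine Submodule.add_mem _ hw ?_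
  have h5 : x2 ^ (n + 1) • u'' ∈ qPow (Ideal.span {x1, x2}) M (0 + (n + 1)) :=
    pow_smul_mem_qPow (Ideal.pow_mem_pow mem_span_pair_right _) (by rw [qPow_zero]; trivial)
  exact qPow_anti _ (by omega) h5

/-- a form monic in `x2` is a nonzerodivisor on the associated graded module. -/
lemma mem_qPow_of_form_smul (r1 : ∀ v : M, x1 • v = 0 → v = 0)
    (r2 : ∀ v w : M, x2 • v = x1 • w → ∃ u : M, v = x1 • u) {t : ℕ} {g : A}
    (hg : ∀ (k : ℕ) (v : M), v ∈ qPow (Ideal.span {x1, x2}) M (k + 1) →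
      g • v ∈ qPow (Ideal.span {x1, x2}) M (k + t)) (n : ℕ) :
    ∀ u : M, (x2 ^ t + x1 * g) • u ∈ qPow (Ideal.span {x1, x2}) M (n + t) →
      u ∈ qPow (Ideal.span {x1, x2}) M n := by
  induction n with
  | zero => intro u _; rw [qPow_zero]; trivial
  | succ k ih =>
    intro u hu
    have hk : k + 1 + t = k + t + 1 := by ring
    rw [hk] at hu
    obtain ⟨w0, hw0, u1, hu1⟩ := exists_of_mem_qPow (k + t) _ hu
    set u' : M := x2 ^ (k + 1) • u1 with hu'
    have hu'Q : u' ∈ qPow (Ideal.span {x1, x2}) M (k + 1) := by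
      have h5 : x2 ^ (k + 1) • u1 ∈ qPow (Ideal.span {x1, x2}) M (0 + (k + 1)) :=
        pow_smul_mem_qPow (Ideal.pow_mem_pow mem_span_pair_right _) (by rw [qPow_zero]; trivial)
      rwa [zero_add] at h5
    have h1 : x2 ^ (k + t + 1) • u1 = x2 ^ t • u' := by
      rw [hu', smul_smul, ← pow_add]; congr 2; ring
    set w : M := w0 - g • u' with hw
    have hwQ : w ∈ qPow (Ideal.span {x1, x2}) M (k + t) := Submodule.sub_mem _ hw0 (hg k u' hu'Q)
    have h2 : (x2 ^ t + x1 * g) • (u - u') = x1 • w := by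
      rw [smul_sub, hu1, h1, hw, smul_sub, add_smul, mul_smul]; abel
    have h3 : x2 ^ t • (u - u') = x1 • (w - g • (u - u')) := by
      rw [smul_sub x1, ← h2, add_smul, mul_smul]; abel
    obtain ⟨u'', hu''⟩ := pow_regular_mod r2 t _ _ h3
    have h4 : x1 • ((x2 ^ t + x1 * g) • u'' - w) = 0 := by
      rw [smul_sub, ← h2, hu'', smul_comm x1, sub_self]
    have h5 : (x2 ^ t + x1 * g) • u'' = w := sub_eq_zero.1 (r1 _ h4)
    have h6 : u'' ∈ qPow (Ideal.span {x1, x2}) M k := ih u'' (by rw [h5]; exact hwQ)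
    have h7 : u = u' + x1 • u'' := by rw [← hu'']; abel
    rw [h7]
    exact Submodule.add_mem _ hu'Q (smul_mem_qPow mem_span_pair_left h6)

/-- the initial filtration -/
def initF (m q : Ideal A) (M : Type*) [AddCommGroup M] [Module A M] (j : ℕ) : Submodule A M where
  carrier := {v | ∀ i : ℕ, ∀ a ∈ m ^ i, a • v ∈ qPow q M (i + j)}
  add_mem' := by
    intro v w hv hw i a ha
    rw [smul_add]; exact Submodule.add_mem _ (hv i a ha) (hw i a ha)
  zero_mem' := by intro i a _; simp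
  smul_mem' := by
    intro c v hv i a ha
    rw [smul_comm]; exact Submodule.smul_mem _ _ (hv i a ha)

lemma mem_initF {m q : Ideal A} {j : ℕ} {v : M} :
    v ∈ initF m q M j ↔ ∀ i : ℕ, ∀ a ∈ m ^ i, a • v ∈ qPow q M (i + j) := Iff.rfl

lemma initF_anti (m q : Ideal A) (j : ℕ) : initF m q M (j + 1) ≤ initF m q M j := by
  intro v hv i a ha
  exact qPow_anti q (by omega) (hv i a ha)

lemma smul_initF (m q : Ideal A) (j : ℕ) : m • initF m q M j ≤ initF m q M (j + 1) := by
  rw [Submodule.smul_le]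
  intro b hb v hv i a ha
  have h : a * b ∈ m ^ (i + 1) := by
    rw [pow_succ]; exact Ideal.mul_mem_mul ha hb
  have := hv (i + 1) (a * b) h
  rw [smul_smul]
  have h2 : i + (j + 1) = i + 1 + j := by ring
  rw [h2]; exact this

lemma initF_le (m q : Ideal A) (j : ℕ) : initF m q M j ≤ qPow q M j := by
  intro v hv
  have := hv 0 1 (by simp)
  simpa using this

lemma le_initF {m q : Ideal A} {r : ℕ} (_hqm : q ≤ m) (hr : m ^ (r + 1) ≤ q * m ^ r) (j : ℕ) :
    qPow q M (j + r) ≤ initF m q M j := by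
  have h1 : ∀ s : ℕ, m ^ (r + s) ≤ q ^ s * m ^ r := by
    intro s
    induction s with
    | zero => simp
    | succ s ih =>
      calc m ^ (r + (s + 1)) = m ^ (r + s) * m := by rw [← add_assoc, pow_succ]
        _ ≤ (q ^ s * m ^ r) * m := Ideal.mul_mono_left ih
        _ = q ^ s * m ^ (r + 1) := by rw [mul_assoc, ← pow_succ]
        _ ≤ q ^ s * (q * m ^ r) := Ideal.mul_mono_right hr
        _ = q ^ (s + 1) * m ^ r := by rw [← mul_assoc, ← pow_succ]
  have h2 : ∀ i : ℕ, m ^ i * q ^ r ≤ q ^ i := by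
    intro i
    rcases le_total i r with h | h
    · exact Ideal.mul_le_right.trans (Ideal.pow_le_pow_right h)
    · obtain ⟨s, rfl⟩ := Nat.exists_eq_add_of_le h
      calc m ^ (r + s) * q ^ r ≤ (q ^ s * m ^ r) * q ^ r := Ideal.mul_mono_left (h1 s)
        _ ≤ q ^ s * q ^ r := Ideal.mul_mono_left Ideal.mul_le_left
        _ = q ^ (r + s) := by rw [← pow_add, add_comm]
  intro v hv i a ha
  have h3 : a • v ∈ (m ^ i * q ^ r) • qPow q M j := by
    rw [Submodule.mul_smul, pow_smul_qPow]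
    exact Submodule.smul_mem_smul ha hv
  have h4 := Submodule.smul_mono_left (N := qPow q M j) (h2 i) h3
  rw [pow_smul_qPow, add_comm] at h4
  exact h4

end

/-- TASK I (initial filtration on a module with regular sequence `x1, x2`). -/
theorem init_fil {A : Type*} [CommRing A] [IsLocalRing A] [IsNoetherianRing A]
    {M : Type*} [AddCommGroup M] [Module A M] [Module.Finite A M]
    (x1 x2 : A) (hx1 : x1 ∈ maximalIdeal A) (hx2 : x2 ∈ maximalIdeal A)
    (r1 : ∀ v : M, x1 • v = 0 → v = 0)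
    (r2 : ∀ v w : M, x2 • v = x1 • w → ∃ u : M, v = x1 • u)
    (r : ℕ) (hr : maximalIdeal A ^ (r + 1) ≤ Ideal.span {x1, x2} * maximalIdeal A ^ r) :
    ∃ F : ℕ → Submodule A M, (∀ j, F (j + 1) ≤ F j) ∧
      (∀ j, maximalIdeal A • F j ≤ F (j + 1)) ∧
      (∀ (j : ℕ) (v : M), x1 • v ∈ F (j + 1) → v ∈ F j) ∧
      (∃ b : ℕ, ∀ j, b ≤ j → F (j + 1) ≤ Ideal.span {x1, x2} • F j) ∧
      (∀ (t : ℕ) (c : ℕ → A) (j : ℕ) (v : M), v ∈ F j →
        (x2 ^ t + ∑ i ∈ Finset.range t, c i * x1 ^ (t - i) * x2 ^ i) • v ∈ F (j + t + 1) →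
        v ∈ F (j + 1)) ∧
      (∀ j, F j ≤ Ideal.span {x1, x2} ^ j • (⊤ : Submodule A M)) ∧
      (∀ j, Ideal.span {x1, x2} ^ (j + r) • (⊤ : Submodule A M) ≤ F j) := by
  have hqm : Ideal.span {x1, x2} ≤ maximalIdeal A := by
    rw [Ideal.span_le]
    rintro x (rfl | rfl)
    · exact hx1
    · exact hx2
  set q : Ideal A := Ideal.span {x1, x2} with hq
  refine ⟨initF (maximalIdeal A) q M, initF_anti _ _, smul_initF _ _, ?_, ?_, ?_, initF_le _ _,
    le_initF hqm hr⟩
  · intro j v hv i a ha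
    refine mem_qPow_of_x1_smul r1 r2 ?_
    rw [smul_comm]
    exact hv i a ha
  · let F : q.Filtration M :=
      { N := initF (maximalIdeal A) q M
        mono := initF_anti _ _
        smul_le := fun j => (Submodule.smul_mono_left hqm).trans (smul_initF _ _ j) }
    have hF : F.Stable := (q.stableFiltration_stable (⊤ : Submodule A M)).of_le (F' := F)
      (fun j => initF_le _ _ j)
    obtain ⟨b, hb⟩ := hF
    exact ⟨b, fun j hj => (hb j hj).ge⟩
  · intro t c j v _ hfv i a ha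
    have hfg : (x2 ^ t + ∑ i ∈ Finset.range t, c i * x1 ^ (t - i) * x2 ^ i) =
        x2 ^ t + x1 * ∑ i ∈ Finset.range t, c i * x1 ^ (t - 1 - i) * x2 ^ i := by
      rw [Finset.mul_sum]
      congr 1
      refine Finset.sum_congr rfl fun i hi => ?_
      have h : t - i = (t - 1 - i) + 1 := by have := Finset.mem_range.1 hi; omega
      rw [h, pow_succ]; ring
    rw [hfg] at hfv
    refine mem_qPow_of_form_smul (t := t) r1 r2 ?_ (i + (j + 1)) _ ?_
      (g := ∑ i ∈ Finset.range t, c i * x1 ^ (t - 1 - i) * x2 ^ i)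
    · intro k w hw
      rw [Finset.sum_smul]
      refine Submodule.sum_mem _ fun i hi => ?_
      have hi' := Finset.mem_range.1 hi
      have hmem : c i * x1 ^ (t - 1 - i) * x2 ^ i ∈ q ^ (t - 1) := by
        have h : t - 1 = (t - 1 - i) + i := by omega
        rw [h, pow_add, mul_assoc]
        refine Ideal.mul_mem_left _ _ (Ideal.mul_mem_mul ?_ ?_)
        · rw [show t - 1 - i + i - i = t - 1 - i by omega]
          exact Ideal.pow_mem_pow mem_span_pair_left _
        · exact Ideal.pow_mem_pow mem_span_pair_right _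
      have h2 := pow_smul_mem_qPow hmem hw
      exact qPow_anti _ (by omega) h2
    · rw [smul_comm]
      have := hfv i a ha
      have h3 : i + (j + t + 1) = i + (j + 1) + t := by ring
      rw [h3] at this
      exact this

end Vale.Agent.P202
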