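import Vale.Agent.P202.Flat
import Vale.Agent.P202.FinLen

/-!
The inequality obtained by comparing kernel and cokernel of multiplication by one element.
-/

set_option linter.unusedSectionVars false

namespace Vale.Agent.P202

open Ideal IsLocalRing

variable {R S : Type*} [CommRing R] [IsLocalRing R] [IsNoetherianRing R] [CommRing S]
  [Algebra R S] [Module.Flat R S]

lemma col_eq_maximalIdeal {J : Ideal R} {w : R} (h : ∀ a ∈ maximalIdeal R, a * w ∈ J)
    (hw : w ∉ J) : col J w = maximalIdeal R := by
  refine ((IsLocalRing.maximalIdeal.isMaximal R).eq_of_le ?_ ?_).symm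
  · intro h'
    exact hw (col_eq_top_iff.mp h')
  · intro a ha
    rw [mem_col]
    exact h a ha

lemma kernel_chain (l : S) (I I' : Ideal R) (hm : maximalIdeal R * I' ≤ I)
    (hI' : ell I' ≠ ⊤) (n : ℕ) : ∀ J : Ideal R, I ≤ J → J ≤ I' → ell J = ell I' + n →
    n * ell ((maximalIdeal R).map (algebraMap R S) ⊔ Ideal.span {l}) +
      ell (I'.map (algebraMap R S)) ≤
      ell (J.map (algebraMap R S) ⊔ Ideal.span {l} * I'.map (algebraMap R S)) := by
  induction n with
  | zero =>
    intro J hIJ hJI' hJ
    rw [Nat.cast_zero, zero_mul, zero_add]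
    exact ell_mono (sup_le (Ideal.map_mono hJI') Ideal.mul_le_right)
  | succ n ih =>
    intro J hIJ hJI' hJ
    obtain ⟨L, hL⟩ := ENat.ne_top_iff_exists.mp hI'
    have hne : J ≠ I' := by
      rintro rfl
      rw [← hL] at hJ
      norm_cast at hJ
      omega
    obtain ⟨w, hwI', hwJ⟩ := SetLike.exists_of_lt (lt_of_le_of_ne hJI' hne)
    have hcol : col J w = maximalIdeal R := by
      refine col_eq_maximalIdeal (fun a ha => ?_) hwJ
      exact hIJ (hm (Ideal.mul_mem_mul ha hwI'))
    have h1 := ell_eq_add J w
    rw [hcol, ell_maximalIdeal, hJ] at h1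
    have h2 : ell (J ⊔ Ideal.span {w}) = ell I' + n := by
      have h3 : ell (J ⊔ Ideal.span {w}) ≠ ⊤ := by
        intro h
        rw [h, ← hL] at h1
        norm_cast at h1
      obtain ⟨L', hL'⟩ := ENat.ne_top_iff_exists.mp h3
      rw [← hL, ← hL'] at h1 ⊢
      norm_cast at h1 ⊢
      omega
    have h4 := ih (J ⊔ Ideal.span {w}) (hIJ.trans le_sup_left)
      (sup_le hJI' ((Ideal.span_singleton_le_iff_mem _).mpr hwI')) h2
    set K := J.map (algebraMap R S) ⊔ Ideal.span {l} * I'.map (algebraMap R S) with hK
    have h5 := ell_eq_add K (algebraMap R S w)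
    have h6 : K ⊔ Ideal.span {algebraMap R S w} = (J ⊔ Ideal.span {w}).map (algebraMap R S) ⊔
        Ideal.span {l} * I'.map (algebraMap R S) := by
      rw [hK, Ideal.map_sup, Ideal.map_span, Set.image_singleton, sup_right_comm]
    have h7 : col K (algebraMap R S w) ≤
        (maximalIdeal R).map (algebraMap R S) ⊔ Ideal.span {l} := by
      intro u hu
      by_contra hnot
      rw [mem_col] at hu
      let W : Submodule R S :=
        ((maximalIdeal R).map (algebraMap R S) ⊔ Ideal.span {l}).restrictScalars R
      have hW : ∀ x : S, x ∈ W ↔ x ∈ (maximalIdeal R).map (algebraMap R S) ⊔ Ideal.span {l} :=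
        fun x => Iff.rfl
      have hmW : (maximalIdeal R) • (⊤ : Submodule R S) ≤ W := by
        rw [Submodule.smul_le]
        intro r hr s _
        rw [Algebra.smul_def, hW]
        exact Ideal.mem_sup_left (Ideal.mul_mem_right _ _ (Ideal.mem_map_of_mem _ hr))
      have hgoal : w • u ∈ I' • W ⊔ J • (⊤ : Submodule R S) := by
        have hwu : w • u = u * algebraMap R S w := by rw [Algebra.smul_def, mul_comm]
        obtain ⟨a, ha, b, hb, hab⟩ := Submodule.mem_sup.mp hu
        rw [hwu, ← hab]
        refine Submodule.add_mem _ (Submodule.mem_sup_right ?_) (Submodule.mem_sup_left ?_)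
        · rw [Ideal.smul_top_eq_map]
          exact ha
        · obtain ⟨c, hc, rfl⟩ := Ideal.mem_span_singleton_mul.mp hb
          have hc' : c ∈ I' • (⊤ : Submodule R S) := by
            rw [Ideal.smul_top_eq_map]
            exact hc
          refine Submodule.smul_induction_on (p := fun c => l * c ∈ I' • W) hc' ?_ ?_
          · intro r hr s _
            rw [mul_smul_comm]
            refine Submodule.smul_mem_smul hr ?_
            rw [hW]
            exact Ideal.mem_sup_right (Ideal.mul_mem_right _ _ (Ideal.mem_span_singleton_self l))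
          · intro x y hx hy
            rw [mul_add]
            exact Submodule.add_mem _ hx hy
      exact hwJ (mem_of_smul_mem (maximalIdeal R) hJI' (hm.trans hIJ) W hmW
        (u := u) hnot hwI' hgoal)
    calc ((n + 1 : ℕ) : ℕ∞) * ell ((maximalIdeal R).map (algebraMap R S) ⊔ Ideal.span {l}) +
          ell (I'.map (algebraMap R S))
        = ell ((maximalIdeal R).map (algebraMap R S) ⊔ Ideal.span {l}) +
          (n * ell ((maximalIdeal R).map (algebraMap R S) ⊔ Ideal.span {l}) +
            ell (I'.map (algebraMap R S))) := by push_cast; ring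
      _ ≤ ell (col K (algebraMap R S w)) + ell (K ⊔ Ideal.span {algebraMap R S w}) := by
          rw [h6]
          exact add_le_add (ell_mono h7) h4
      _ = ell K := h5.symm

/-- The kernel trick. -/
theorem kernel_ineq (l : S) (I I' : Ideal R) (hII : I ≤ I') (hm : maximalIdeal R * I' ≤ I)
    (hI' : ell I' ≠ ⊤) (hIS : ell (I'.map (algebraMap R S)) ≠ ⊤) (n : ℕ)
    (hn : ell I = ell I' + n) :
    n * ell ((maximalIdeal R).map (algebraMap R S) ⊔ Ideal.span {l}) ≤
      ell (I.map (algebraMap R S) ⊔ Ideal.span {l}) := by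
  have h1 := kernel_chain (S := S) l I I' hm hI' n I le_rfl hII hn
  set K := I.map (algebraMap R S) ⊔ Ideal.span {l} * I'.map (algebraMap R S) with hK
  have h2 := ell_eq_add K l
  have h3 : I'.map (algebraMap R S) ≤ col K l := by
    intro a ha
    rw [mem_col, mul_comm]
    exact Ideal.mem_sup_right (Ideal.mul_mem_mul (Ideal.mem_span_singleton_self l) ha)
  have h4 : K ⊔ Ideal.span {l} = I.map (algebraMap R S) ⊔ Ideal.span {l} := by
    rw [hK, sup_assoc]
    congr 1
    exact sup_eq_right.mpr Ideal.mul_le_left
  rw [h4] at h2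
  have h5 : n * ell ((maximalIdeal R).map (algebraMap R S) ⊔ Ideal.span {l}) +
      ell (I'.map (algebraMap R S)) ≤
      ell (I.map (algebraMap R S) ⊔ Ideal.span {l}) + ell (I'.map (algebraMap R S)) := by
    refine h1.trans ?_
    rw [h2, add_comm]
    exact add_le_add le_rfl (ell_mono h3)
  exact (ENat.add_le_add_iff_right hIS).mp h5

end Vale.Agent.P202
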