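import Vale.Agent.P202.Fil
import Vale.Agent.P202.EvLin

/-!
Langton's algorithm: from a filtration with slope bounds to a balanced filtration.
-/

namespace Vale.Agent.P202

namespace EvLin

variable {f g h : ℕ → ℕ∞} {a b x y : ℤ}

theorem addL (hf : EvLin f a x) (hg : EvLin g b y) : EvLin (fun j => f j + g j) (a + b) (x + y) := by
  obtain ⟨j₁, h₁⟩ := hf
  obtain ⟨j₂, h₂⟩ := hg
  refine ⟨max j₁ j₂, fun j hj => ?_⟩
  obtain ⟨n₁, e₁, e₁'⟩ := h₁ j (le_trans (le_max_left _ _) hj)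
  obtain ⟨n₂, e₂, e₂'⟩ := h₂ j (le_trans (le_max_right _ _) hj)
  refine ⟨n₁ + n₂, by simp only [e₁, e₂]; push_cast; rfl, ?_⟩
  push_cast
  rw [e₁', e₂']; ring

theorem congrL (hf : EvLin f a x) (h : ∀ j, g j = f j) : EvLin g a x := by
  have : g = f := funext h
  rw [this]; exact hf

theorem congrL' (hf : EvLin f a x) (ha : a = b) (hx : x = y) : EvLin f b y := by
  subst ha; subst hx; exact hf

theorem subL (hf : EvLin f a x) (hg : EvLin g b y) (hh : ∀ j, f j = g j + h j) :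
    EvLin h (a - b) (x - y) := by
  obtain ⟨j₁, h₁⟩ := hf
  obtain ⟨j₂, h₂⟩ := hg
  refine ⟨max j₁ j₂, fun j hj => ?_⟩
  obtain ⟨n₁, e₁, e₁'⟩ := h₁ j (le_trans (le_max_left _ _) hj)
  obtain ⟨n₂, e₂, e₂'⟩ := h₂ j (le_trans (le_max_right _ _) hj)
  have h3 := hh j
  rw [e₁, e₂] at h3
  have hne : h j ≠ ⊤ := by
    intro ht
    rw [ht] at h3
    simp at h3
  obtain ⟨n, hn⟩ := ENat.ne_top_iff_exists.1 hne
  rw [← hn] at h3
  have h4 : n₁ = n₂ + n := by exact_mod_cast h3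
  refine ⟨n, hn.symm, ?_⟩
  have h5 : (n₁ : ℤ) = n₂ + n := by exact_mod_cast h4
  rw [e₁', e₂'] at h5
  linear_combination -h5

theorem shiftL (hf : EvLin f a x) : EvLin (fun j => f (j + 1)) a (x + a) := by
  obtain ⟨j₁, h₁⟩ := hf
  refine ⟨j₁, fun j hj => ?_⟩
  obtain ⟨n, e, e'⟩ := h₁ (j + 1) (by omega)
  refine ⟨n, e, ?_⟩
  rw [e']; push_cast; ring

theorem unshiftL (hf : EvLin (fun j => f (j + 1)) a x) : EvLin f a (x - a) := by
  obtain ⟨j₁, h₁⟩ := hf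
  refine ⟨j₁ + 1, fun j hj => ?_⟩
  obtain ⟨k, rfl⟩ : ∃ k, j = k + 1 := ⟨j - 1, by omega⟩
  obtain ⟨n, e, e'⟩ := h₁ k (by omega)
  refine ⟨n, e, ?_⟩
  rw [e']; push_cast; ring

theorem uniqueL (hf : EvLin f a x) (hg : EvLin f b y) : a = b ∧ x = y := by
  obtain ⟨j₁, h₁⟩ := hf
  obtain ⟨j₂, h₂⟩ := hg
  set j := max j₁ j₂
  obtain ⟨n₁, e₁, e₁'⟩ := h₁ j (le_max_left _ _)
  obtain ⟨n₂, e₂, e₂'⟩ := h₂ j (le_max_right _ _)
  obtain ⟨n₃, e₃, e₃'⟩ := h₁ (j + 1) (le_trans (le_max_left _ _) (Nat.le_succ _))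
  obtain ⟨n₄, e₄, e₄'⟩ := h₂ (j + 1) (le_trans (le_max_right _ _) (Nat.le_succ _))
  have h5 : n₁ = n₂ := by
    have : (n₁ : ℕ∞) = n₂ := e₁.symm.trans e₂
    exact_mod_cast this
  have h6 : n₃ = n₄ := by
    have : (n₃ : ℕ∞) = n₄ := e₃.symm.trans e₄
    exact_mod_cast this
  rw [h5] at e₁'
  rw [h6] at e₃'
  push_cast at e₃' e₄'
  have h7 : a * j + x = b * j + y := by rw [← e₁', ← e₂']
  have h8 : a * (j + 1) + x = b * (j + 1) + y := by rw [← e₃', ← e₄']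
  have h9 : a = b := by linear_combination h8 - h7
  refine ⟨h9, ?_⟩
  rw [h9] at h7
  linarith

theorem nonnegL (hf : EvLin f a x) : 0 ≤ a := by
  by_contra hneg
  push Not at hneg
  obtain ⟨j₁, h₁⟩ := hf
  obtain ⟨n, -, e'⟩ := h₁ (j₁ + x.natAbs + 1) (by omega)
  have h2 : (0 : ℤ) ≤ n := Int.natCast_nonneg n
  rw [e'] at h2
  push_cast at h2
  have h3 : a ≤ -1 := by omega
  have h4 : a * ((j₁ : ℤ) + |x| + 1) ≤ -1 * ((j₁ : ℤ) + |x| + 1) :=
    mul_le_mul_of_nonneg_right h3 (by positivity)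
  have h5 : x ≤ |x| := le_abs_self x
  have h6 : (0 : ℤ) ≤ j₁ := Int.natCast_nonneg _
  linarith

end EvLin

section
variable {A : Type*} [CommRing A] {M : Type*} [AddCommGroup M] [Module A M]
  {m : Ideal A} {F : ℕ → Submodule A M}

/-- One step of Langton's algorithm. -/
theorem langton_step (hF : Fil m F) {lo hi e c : ℤ} (hlohi : lo + 1 ≤ hi - 1)
    (h : Pr m F lo hi) (he : EvLin (fun j => rl (F (j + 1)) (F j)) e c) :
    ∃ (P : ℕ → Submodule A M) (c' : ℤ), SubFil m F P ∧ Fil m P ∧ Pr m P (lo + 1) hi ∧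
      EvLin (fun j => rl (P (j + 1)) (P j)) e c' := by
  set lam : ℤ := hi - 1 with hlam
  have hadd : ∀ P, SubFil m F P → ∀ j,
      rl (F (j + 1)) (F j) = rl (F (j + 1)) (P j) + rl (P j) (F j) :=
    fun P hP j => rl_add (hP.ge j) (hP.le j)
  -- values of the functional
  let S : Set ℤ := {z | ∃ P : ℕ → Submodule A M, SubFil m F P ∧ ∃ b y : ℤ,
    EvLin (fun j => rl (F (j + 1)) (P j)) b y ∧ z = y - lam * b}
  have hbd : ∀ z ∈ S, z ≤ e := by
    rintro z ⟨P, hP, b, y, hb, rfl⟩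
    obtain ⟨a, x, b', y', h1, h2, h3, h4⟩ := h P hP
    obtain ⟨rfl, rfl⟩ := hb.uniqueL h2
    have h5 : EvLin (fun j => rl (F (j + 1)) (F j)) (b + a) (y + x) :=
      (h2.addL h1).congrL (hadd P hP)
    obtain ⟨h6, -⟩ := he.uniqueL h5
    have h7 := h1.nonnegL
    rw [hlam]
    linarith
  have hne : ∃ z, z ∈ S := by
    refine ⟨0 - lam * 0, fun j => F (j + 1), ⟨hF.anti, fun j => le_rfl, fun j => hF.smul (j + 1)⟩,
      0, 0, ?_, rfl⟩
    refine ⟨0, fun j _ => ⟨0, ?_, by ring⟩⟩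
    simp
  obtain ⟨z₀, ⟨P, hP, b, y, hb, rfl⟩, hmax⟩ :=
    Int.exists_greatest_of_bdd (P := fun z => z ∈ S) ⟨e, hbd⟩ hne
  obtain ⟨a, x, b', y', ha, hb', hlo, hhi⟩ := h P hP
  obtain ⟨rfl, rfl⟩ := hb.uniqueL hb'
  have hmax' : ∀ P', SubFil m F P' → ∀ b₂ y₂ : ℤ,
      EvLin (fun j => rl (F (j + 1)) (P' j)) b₂ y₂ → y₂ - lam * b₂ ≤ y - lam * b :=
    fun P' hP' b₂ y₂ h2 => hmax _ ⟨P', hP', b₂, y₂, h2, rfl⟩
  have hPanti : ∀ j, P (j + 1) ≤ P j := fun j => (hP.le (j + 1)).trans (hP.ge j)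
  have hPrl : ∀ j, rl (P (j + 1)) (P j) = rl (P (j + 1)) (F (j + 1)) + rl (F (j + 1)) (P j) :=
    fun j => rl_add (hP.le (j + 1)) (hP.ge j)
  have hfin1 : ∀ j, rl (F (j + 1)) (P j) ≠ ⊤ := fun j ht => by
    apply hF.fin j
    rw [hadd P hP j, ht, top_add]
  have hfin2 : ∀ j, rl (P j) (F j) ≠ ⊤ := fun j ht => by
    apply hF.fin j
    rw [hadd P hP j, ht, add_top]
  refine ⟨P, a + x + y, hP, ⟨hPanti, hP.smul, fun j => ?_⟩, ?_, ?_⟩
  · rw [hPrl]
    exact WithTop.add_ne_top.2 ⟨hfin2 _, hfin1 _⟩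
  · -- the slope property
    intro Q hQ
    -- `P'' = Q ⊔ F (· + 1)`
    have hP2 : SubFil m F (fun j => Q j ⊔ F (j + 1)) := by
      refine ⟨fun j => sup_le ((hQ.le j).trans (hP.le j)) (hF.anti j), fun j => le_sup_right,
        fun j => ?_⟩
      rw [Submodule.smul_sup]
      exact sup_le_sup (hQ.smul j) (hF.smul (j + 1))
    -- `P''' (j+1) = F (j+1) ⊓ Q j`
    let R : ℕ → Submodule A M := fun j => Nat.casesOn j (F 1) (fun i => F (i + 1) ⊓ Q i)
    have hR1 : ∀ j, R (j + 1) = F (j + 1) ⊓ Q j := fun j => rfl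
    have hR0 : R 0 = F 1 := rfl
    have hFQ : ∀ j, F (j + 2) ≤ Q j := fun j => (hP.ge (j + 1)).trans (hQ.ge j)
    have hP3 : SubFil m F R := by
      refine ⟨fun j => ?_, fun j => ?_, fun j => ?_⟩
      · rcases j with _ | j
        · exact hF.anti 0
        · exact inf_le_left
      · rcases j with _ | j
        · exact le_rfl
        · rw [hR1]
          exact le_inf (hF.anti (j + 1)) (hFQ j)
      · rcases j with _ | j
        · rw [hR0, hR1]
          exact le_inf ((hF.smul 1).trans (hF.anti 1)) ((hF.smul 1).trans (hFQ 0))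
        · rw [hR1, hR1]
          refine le_inf ?_ ?_
          · exact (smul_mono_right _ inf_le_left).trans (hF.smul (j + 1))
          · exact (smul_mono_right _ inf_le_right).trans (hQ.smul j)
    obtain ⟨a2, x2, b2, y2, ea2, eb2, hlo2, hhi2⟩ := h _ hP2
    obtain ⟨a3, x3, b3, y3, ea3, eb3, hlo3, hhi3⟩ := h _ hP3
    have m2 := hmax' _ hP2 b2 y2 eb2
    have m3 := hmax' _ hP3 b3 y3 eb3
    -- quotient
    have q1 : ∀ j, rl (Q j) (P j) = rl (Q j ⊔ F (j + 1)) (P j) + rl (R (j + 1)) (F (j + 1)) := by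
      intro j
      have e1 : rl (Q j) (P j) = rl (Q j) (Q j ⊔ F (j + 1)) + rl (Q j ⊔ F (j + 1)) (P j) :=
        rl_add le_sup_left (sup_le (hQ.le j) (hP.ge j))
      rw [e1, rl_sup_right, add_comm, hR1, inf_comm, rl_inf_left]
    have q2 : ∀ j, rl (F (j + 1)) (P j) =
        rl (F (j + 1)) (Q j ⊔ F (j + 1)) + rl (Q j ⊔ F (j + 1)) (P j) := fun j =>
      rl_add le_sup_right (sup_le (hQ.le j) (hP.ge j))
    have q3 : EvLin (fun j => rl (Q j ⊔ F (j + 1)) (P j)) (b - b2) (y - y2) := hb.subL eb2 q2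
    have q4 : EvLin (fun j => rl (R (j + 1)) (F (j + 1))) a3 (x3 + a3) := ea3.shiftL
    have q5 := (q3.addL q4).congrL q1
    -- sub
    have s1 : ∀ j, rl (P (j + 1)) (Q j) =
        rl (P (j + 1)) (R (j + 1)) + rl (F (j + 1)) (Q j ⊔ F (j + 1)) := by
      intro j
      have e1 : rl (P (j + 1)) (Q j) = rl (P (j + 1)) (F (j + 1) ⊓ Q j) + rl (F (j + 1) ⊓ Q j) (Q j) :=
        rl_add (le_inf (hP.le (j + 1)) (hQ.ge j)) inf_le_right
      rw [e1, hR1, rl_sup_inf, sup_comm]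
    have s2 : ∀ j, rl (F (j + 1 + 1)) (R (j + 1)) =
        rl (F (j + 1 + 1)) (P (j + 1)) + rl (P (j + 1)) (R (j + 1)) := fun j =>
      rl_add (hP.ge (j + 1)) (by rw [hR1]; exact le_inf (hP.le (j + 1)) (hQ.ge j))
    have s3 : EvLin (fun j => rl (P (j + 1)) (R (j + 1))) (b3 - b) (y3 + b3 - (y + b)) :=
      eb3.shiftL.subL hb.shiftL s2
    have s4 := (s3.addL eb2).congrL s1
    refine ⟨_, _, _, _, q5, s4, ?_, ?_⟩
    · have n1 := q3.nonnegL
      have n2 := q4.nonnegL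
      have k1 : lam * (b - b2) ≤ y - y2 := by linarith
      have k2 : (lo + 1) * (b - b2) ≤ lam * (b - b2) :=
        mul_le_mul_of_nonneg_right hlohi n1
      linarith
    · have n1 := s3.nonnegL
      have k1 : y3 - y ≤ lam * (b3 - b) := by linarith
      rw [hlam] at k1
      linarith
  · have h5 : EvLin (fun j => rl (F (j + 1)) (F j)) (b + a) (y + x) :=
      (hb.addL ha).congrL (hadd P hP)
    obtain ⟨h6, -⟩ := he.uniqueL h5
    have h7 := (ha.shiftL.addL hb).congrL hPrl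
    exact h7.congrL' (by rw [h6]; ring) (by ring)

/-- TASK L (Langton). -/
theorem exists_balanced {A : Type*} [CommRing A] {M : Type*} [AddCommGroup M] [Module A M]
    {m : Ideal A} {F : ℕ → Submodule A M} (hF : Fil m F) {lo hi e c : ℤ}
    (h : Pr m F lo hi) (he : EvLin (fun j => rl (F (j + 1)) (F j)) e c) :
    ∃ (G : ℕ → Submodule A M) (t : ℕ) (l c' : ℤ), Fil m G ∧ (∀ j, G j ≤ F j) ∧
      (∀ j, F (j + t) ≤ G j) ∧ Pr m G l (l + 1) ∧
      EvLin (fun j => rl (G (j + 1)) (G j)) e c' := by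
  obtain ⟨n, hn⟩ : ∃ n : ℕ, hi - lo ≤ n := ⟨(hi - lo).toNat, Int.self_le_toNat _⟩
  induction n generalizing F lo c with
  | zero =>
    refine ⟨F, 0, lo, c, hF, fun j => le_rfl, fun j => le_rfl, ?_, he⟩
    intro P hP
    obtain ⟨a, x, b, y, h1, h2, h3, h4⟩ := h P hP
    refine ⟨a, x, b, y, h1, h2, h3, h4.trans ?_⟩
    have h5 := h2.nonnegL
    exact mul_le_mul_of_nonneg_right (by push_cast at hn; linarith) h5
  | succ n ih =>
    by_cases hc : lo + 1 ≤ hi - 1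
    · obtain ⟨P, c₁, hP, hPF, hPr, hPe⟩ := langton_step hF hc h he
      obtain ⟨G, t, l, c', hG, hle, hge, hGPr, hGe⟩ := ih hPF hPr hPe (by push_cast at hn; linarith)
      refine ⟨G, t + 1, l, c', hG, fun j => (hle j).trans (hP.le j), fun j => ?_, hGPr, hGe⟩
      exact le_trans (hP.ge (j + t)) (hge j)
    · refine ⟨F, 0, lo, c, hF, fun j => le_rfl, fun j => le_rfl, ?_, he⟩
      intro P hP
      obtain ⟨a, x, b, y, h1, h2, h3, h4⟩ := h P hP
      refine ⟨a, x, b, y, h1, h2, h3, h4.trans ?_⟩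
      have h5 := h2.nonnegL
      exact mul_le_mul_of_nonneg_right (by linarith) h5

end

end Vale.Agent.P202
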