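import Vale.Agent.P202.Sumf
import Vale.Agent.P202.RL
import Vale.Agent.P202.Base
import Mathlib

/-!
Localization inequality at a prime with regular one-dimensional quotient.
-/

namespace Vale.Agent.P202

open IsLocalRing

section chain

variable {A : Type*} [CommRing A] {M : Type*} [AddCommGroup M] [Module A M]

/-- a function on submodules that drops by `m` along strict inclusions. -/
lemma locDvr_chain {m : ℕ∞} {ψ : Submodule A M → ℕ∞} (h : ∀ L L', L < L' → m + ψ L' ≤ ψ L)
    (hfin : Module.length A M ≠ ⊤) : Module.length A M * m + ψ ⊤ ≤ ψ ⊥ := by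
  obtain ⟨n, hn⟩ := ENat.ne_top_iff_exists.mp hfin
  rw [Module.length_eq_height] at hn
  obtain ⟨p, hp1, rfl⟩ := Order.exists_series_of_height_eq_coe (⊤ : Submodule A M) hn.symm
  have hanti : ∀ L L', L ≤ L' → ψ L' ≤ ψ L := by
    intro L L' hL
    rcases hL.eq_or_lt with rfl | hlt
    · exact le_rfl
    · exact le_trans le_add_self (h L L' hlt)
  have key : ∀ i : Fin (p.length + 1), (i.val : ℕ∞) * m + ψ (p i) ≤ ψ (p 0) := by
    intro i
    induction i using Fin.induction with
    | zero => simp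
    | succ i ih =>
      have h1 := h _ _ (p.strictMono i.castSucc_lt_succ)
      have e : ((i.succ.val : ℕ) : ℕ∞) * m = ((i.castSucc.val : ℕ) : ℕ∞) * m + m := by
        rw [Fin.val_succ, Fin.val_castSucc]
        push_cast
        rw [add_mul, one_mul]
      calc ((i.succ.val : ℕ) : ℕ∞) * m + ψ (p i.succ)
          = ((i.castSucc.val : ℕ) : ℕ∞) * m + (m + ψ (p i.succ)) := by rw [e, add_assoc]
        _ ≤ ((i.castSucc.val : ℕ) : ℕ∞) * m + ψ (p i.castSucc) := by gcongr
        _ ≤ ψ (p 0) := ih
  have h1 := key (Fin.last _)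
  have h2 : p (Fin.last _) = ⊤ := hp1
  rw [h2, Fin.val_last] at h1
  rw [Module.length_eq_height, ← hn]
  exact h1.trans (hanti _ _ bot_le)

lemma locDvr_rl {m : ℕ∞} {K N : Submodule A M} (hKN : K ≤ N) {ψ : Submodule A M → ℕ∞}
    (h : ∀ L L', K ≤ L → L < L' → L' ≤ N → m + ψ L' ≤ ψ L) (hfin : rl K N ≠ ⊤) :
    rl K N * m + ψ N ≤ ψ K := by
  have h1 := locDvr_chain (A := A) (M := ↥N ⧸ K.submoduleOf N) (m := m)
    (ψ := fun X => ψ ((X.comap (K.submoduleOf N).mkQ).map N.subtype)) ?_ hfin
  · have e1 : (((⊤ : Submodule A (↥N ⧸ K.submoduleOf N)).comap (K.submoduleOf N).mkQ).map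
        N.subtype) = N := by
      rw [Submodule.comap_top, Submodule.map_subtype_top]
    have e2 : (((⊥ : Submodule A (↥N ⧸ K.submoduleOf N)).comap (K.submoduleOf N).mkQ).map
        N.subtype) = K := by
      rw [← LinearMap.ker, Submodule.ker_mkQ, Submodule.submoduleOf, Submodule.map_comap_subtype,
        inf_eq_right.2 hKN]
    simp only [e1, e2] at h1
    exact h1
  · intro L L' hL
    refine h _ _ ?_ ?_ ?_
    · intro x hx
      refine ⟨⟨x, hKN hx⟩, ?_, rfl⟩
      rw [SetLike.mem_coe, Submodule.mem_comap, Submodule.mkQ_apply,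
        (Submodule.Quotient.mk_eq_zero _).2]
      · exact L.zero_mem
      · exact hx
    · refine Submodule.map_lt_map_iff_of_injective ?_ |>.2 ?_
      · exact N.subtype_injective
      · refine lt_of_le_of_ne (Submodule.comap_mono hL.le) ?_
        intro h2
        exact hL.ne (Submodule.comap_injective_of_surjective (Submodule.mkQ_surjective _) h2)
    · exact Submodule.map_subtype_le _ _

end chain

section main

variable {S : Type*} [CommRing S] [IsLocalRing S] [IsNoetherianRing S] (Q : Ideal S)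
    [Q.IsPrime]

/-- binomial bound -/
lemma locDvr_pow {S : Type*} [CommSemiring S] (Q T : Ideal S) (a b : ℕ) :
    (Q ⊔ T) ^ (a + b) ≤ Q ^ (a + 1) ⊔ T ^ b := by
  rw [← Ideal.add_eq_sup, add_pow]
  refine Finset.sum_induction _ (· ≤ Q ^ (a + 1) + T ^ b) (fun x y hx hy => ?_) ?_ ?_
  · rw [Ideal.add_eq_sup]; exact sup_le hx hy
  · exact bot_le
  · intro i hi
    refine le_trans Ideal.mul_le_left ?_
    rw [Ideal.add_eq_sup]
    by_cases h : a + 1 ≤ i
    · exact le_trans (Ideal.mul_le_left.trans (Ideal.pow_le_pow_right h)) le_sup_left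
    · exact le_trans (Ideal.mul_le_right.trans (Ideal.pow_le_pow_right (by omega))) le_sup_right

/-- one step of the chain. -/
lemma locDvr_step (t : S) (htQ : t ∉ Q) (ht : t ∈ maximalIdeal S)
    (hmax : maximalIdeal S ≤ Q ⊔ Ideal.span {t}) {i j : ℕ} (hij : i < j)
    {I₁ I₂ : Ideal (Localization.AtPrime Q)}
    (hI : maximalIdeal (Localization.AtPrime Q) ^ (i + 1) ≤ I₁) (hlt : I₁ < I₂) :
    ((j - i : ℕ) : ℕ∞) + ell (I₂.comap (algebraMap S (Localization.AtPrime Q)) ⊔
      maximalIdeal S ^ j) ≤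
      ell (I₁.comap (algebraMap S (Localization.AtPrime Q)) ⊔ maximalIdeal S ^ j) := by
  set f := algebraMap S (Localization.AtPrime Q) with hf
  set J₁ := I₁.comap f with hJ₁
  set J₂ := I₂.comap f with hJ₂
  have hJ : J₁ ≤ J₂ := Ideal.comap_mono hlt.le
  have htu : IsUnit (f t) := IsLocalization.map_units (Localization.AtPrime Q)
    (⟨t, htQ⟩ : Q.primeCompl)
  have hreg : ∀ (I : Ideal (Localization.AtPrime Q)) (a : ℕ) (x : S),
      t ^ a * x ∈ I.comap f → x ∈ I.comap f := by
    intro I a x hx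
    rw [Ideal.mem_comap, map_mul, map_pow] at hx
    rw [Ideal.mem_comap]
    exact (Ideal.unit_mul_mem_iff_mem _ (htu.pow a)).1 hx
  have hQ1 : Q ^ (i + 1) ≤ J₁ := by
    have h1 : Q ≤ (maximalIdeal (Localization.AtPrime Q)).comap f := by
      intro x hx
      rw [Ideal.mem_comap]
      exact (IsLocalization.AtPrime.to_map_mem_maximal_iff (Localization.AtPrime Q) Q x).2 hx
    calc Q ^ (i + 1) ≤ ((maximalIdeal (Localization.AtPrime Q)).comap f) ^ (i + 1) :=
          Ideal.pow_right_mono h1 _
      _ ≤ (maximalIdeal (Localization.AtPrime Q) ^ (i + 1)).comap f := Ideal.le_comap_pow f _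
      _ ≤ J₁ := Ideal.comap_mono hI
  let L : ℕ → Ideal S := fun a => J₁ ⊔ maximalIdeal S ^ j ⊔ Ideal.span {t ^ a} * J₂
  have hLanti : ∀ a, L (a + 1) ≤ L a := by
    intro a
    refine sup_le_sup_left (Ideal.mul_mono_left ?_) _
    rw [Ideal.span_singleton_le_iff_mem, pow_succ]
    exact Ideal.mul_mem_right _ _ (Ideal.mem_span_singleton_self _)
  have hLne : ∀ a < j - i, ¬ L a ≤ L (a + 1) := by
    intro a ha hle
    have hsub : J₂ ≤ J₁ ⊔ Ideal.span {t} * J₂ := by
      intro z hz
      have h1 : t ^ a * z ∈ L (a + 1) := hle (Ideal.mem_sup_right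
        (Ideal.mul_mem_mul (Ideal.mem_span_singleton_self _) hz))
      obtain ⟨y, hy, w', hw', he⟩ := Submodule.mem_sup.1 h1
      obtain ⟨z₁, hz₁, w, hw, rfl⟩ := Submodule.mem_sup.1 hy
      obtain ⟨z₂, hz₂, rfl⟩ := Ideal.mem_span_singleton_mul.1 hw'
      have hw2 : w ∈ Q ^ (i + 1) ⊔ Ideal.span {t} ^ (j - i) := by
        refine locDvr_pow Q (Ideal.span {t}) i (j - i) ?_
        rw [show i + (j - i) = j by omega]
        exact Ideal.pow_right_mono hmax j hw
      obtain ⟨u, hu, v', hv', rfl⟩ := Submodule.mem_sup.1 hw2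
      rw [Ideal.span_singleton_pow] at hv'
      obtain ⟨v, rfl⟩ := Ideal.mem_span_singleton'.1 hv'
      have hv2 : v ∈ J₂ := by
        refine hreg I₂ (j - i) v ?_
        have e1 : t ^ (j - i) * v = t ^ a * z - z₁ - u - t ^ (a + 1) * z₂ := by
          rw [← he]; ring
        rw [e1]
        refine sub_mem (sub_mem (sub_mem (Ideal.mul_mem_left _ _ hz) (hJ hz₁)) (hJ (hQ1 hu)))
          (Ideal.mul_mem_left _ _ hz₂)
      have h2 : t ^ a * (z - t * (z₂ + t ^ (j - i - a - 1) * v)) ∈ J₁ := by
        have e2 : t ^ (j - i) = t ^ a * (t * t ^ (j - i - a - 1)) := by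
          rw [← pow_succ', ← pow_add]
          congr 1
          omega
        have e1 : t ^ a * (z - t * (z₂ + t ^ (j - i - a - 1) * v)) = z₁ + u := by
          have : t ^ a * z = z₁ + (u + v * t ^ (j - i)) + t ^ (a + 1) * z₂ := he.symm
          rw [mul_sub, this, e2]
          ring
        rw [e1]
        exact add_mem hz₁ (hQ1 hu)
      have h3 := hreg I₁ a _ h2
      have e3 : z = (z - t * (z₂ + t ^ (j - i - a - 1) * v)) +
          t * (z₂ + t ^ (j - i - a - 1) * v) := by ring
      rw [e3]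
      refine Submodule.add_mem_sup h3 (Ideal.mul_mem_mul (Ideal.mem_span_singleton_self _) ?_)
      exact add_mem hz₂ (Ideal.mul_mem_left _ _ hv2)
    have hnak : J₂ ≤ J₁ := by
      refine Submodule.le_of_le_smul_of_le_jacobson_bot (I := Ideal.span {t})
        (IsNoetherian.noetherian J₂) ?_ hsub
      rw [Ideal.span_singleton_le_iff_mem, IsLocalRing.jacobson_eq_maximalIdeal ⊥ bot_ne_top]
      exact ht
    have h4 : I₂ ≤ I₁ := by
      rw [← IsLocalization.map_under Q.primeCompl (Localization.AtPrime Q) I₂,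
        ← IsLocalization.map_under Q.primeCompl (Localization.AtPrime Q) I₁]
      exact Ideal.map_mono hnak
    exact absurd h4 (not_le_of_gt hlt)
  have key : ∀ a ≤ j - i, (a : ℕ∞) + ell (L 0) ≤ ell (L a) := by
    intro a
    induction a with
    | zero => intro _; simp
    | succ a ih =>
      intro ha
      have h1 := ih (by omega)
      have h2 : ell (L (a + 1)) = rl (L (a + 1)) (L a) + ell (L a) := by
        have := rl_add (hLanti a) (le_top : L a ≤ (⊤ : Ideal S))
        rw [rl_top, rl_top] at this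
        exact this
      have h3 : 1 ≤ rl (L (a + 1)) (L a) := by
        rw [Order.one_le_iff_ne_zero]
        intro h0
        exact hLne a (by omega) (rl_eq_zero_iff.1 h0)
      calc ((a + 1 : ℕ) : ℕ∞) + ell (L 0) = 1 + ((a : ℕ∞) + ell (L 0)) := by
            push_cast; ring
        _ ≤ rl (L (a + 1)) (L a) + ell (L a) := by gcongr
        _ = ell (L (a + 1)) := h2.symm
  have hL0 : L 0 = J₂ ⊔ maximalIdeal S ^ j := by
    change J₁ ⊔ maximalIdeal S ^ j ⊔ Ideal.span {t ^ 0} * J₂ = _
    rw [pow_zero, Ideal.span_singleton_one, Ideal.top_mul, sup_right_comm, sup_eq_right.2 hJ]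
  have h5 := key (j - i) le_rfl
  rw [hL0] at h5
  exact h5.trans (ell_mono le_sup_left)

end main

/-- localization inequality at a prime with regular one-dimensional quotient. -/
theorem loc_dvr {S : Type*} [CommRing S] [IsLocalRing S] [IsNoetherianRing S] (Q : Ideal S)
    [Q.IsPrime] (t : S) (htQ : t ∉ Q) (ht : t ∈ maximalIdeal S)
    (hmax : maximalIdeal S ≤ Q ⊔ Ideal.span {t}) (j : ℕ) :
    sumf (fun i => ell (maximalIdeal (Localization.AtPrime Q) ^ i)) j ≤
      ell (maximalIdeal S ^ j) := by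
  have : IsNoetherianRing (Localization.AtPrime Q) :=
    IsLocalization.isNoetherianRing Q.primeCompl _ inferInstance
  set f := algebraMap S (Localization.AtPrime Q) with hf
  set M := maximalIdeal (Localization.AtPrime Q) with hM
  have hfin : ∀ i, rl (M ^ (i + 1)) (M ^ i) ≠ ⊤ := by
    intro i
    refine BaseAux.rl_ne_top_of_smul_le ?_
    rw [smul_eq_mul, ← pow_succ']
  have hell : ∀ n, ell (M ^ n) = ∑ k ∈ Finset.range n, rl (M ^ (k + 1)) (M ^ k) := by
    intro n
    induction n with
    | zero => simp [Ideal.one_eq_top, ell_top]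
    | succ n ih =>
      rw [Finset.sum_range_succ, ← ih, add_comm (ell (M ^ n))]
      have := rl_add (Ideal.pow_le_pow_right (Nat.le_succ n) : M ^ (n + 1) ≤ M ^ n)
        (le_top : M ^ n ≤ (⊤ : Ideal (Localization.AtPrime Q)))
      rw [rl_top, rl_top] at this
      exact this
  have hsum : ∀ n, sumf (fun i => ell (M ^ i)) n =
      ∑ k ∈ Finset.range n, rl (M ^ (k + 1)) (M ^ k) * ((n - k : ℕ) : ℕ∞) := by
    intro n
    rw [sumf]
    induction n with
    | zero => simp
    | succ n ih =>
      rw [Finset.sum_range_succ, ih, hell (n + 1), Finset.sum_range_succ, Finset.sum_range_succ,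
        ← add_assoc, ← Finset.sum_add_distrib]
      congr 1
      · refine Finset.sum_congr rfl fun k hk => ?_
        have hk' := Finset.mem_range.1 hk
        rw [show n + 1 - k = (n - k) + 1 by omega]
        push_cast
        rw [mul_add, mul_one]
      · rw [show n + 1 - n = 1 by omega]
        simp
  have key : ∀ a ≤ j, ∑ k ∈ Finset.range a, rl (M ^ (k + 1)) (M ^ k) * ((j - k : ℕ) : ℕ∞) ≤
      ell ((M ^ a).comap f ⊔ maximalIdeal S ^ j) := by
    intro a
    induction a with
    | zero => intro _; simp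
    | succ a ih =>
      intro ha
      rw [Finset.sum_range_succ]
      have h1 := locDvr_rl (m := ((j - a : ℕ) : ℕ∞)) (K := M ^ (a + 1)) (N := M ^ a)
        (Ideal.pow_le_pow_right (Nat.le_succ a))
        (ψ := fun I : Ideal (Localization.AtPrime Q) => ell (I.comap f ⊔ maximalIdeal S ^ j))
        (fun I₁ I₂ h1 h2 _ => locDvr_step Q t htQ ht hmax (by omega) h1 h2) (hfin a)
      refine le_trans ?_ h1
      rw [add_comm]
      gcongr
      exact ih (by omega)
  rw [hsum]
  exact (key j le_rfl).trans (ell_mono le_sup_right)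

end Vale.Agent.P202
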