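import Vale.Agent.P202.Sumf
import Vale.Agent.P202.FinLen
import Vale.Agent.P202.Flat

/-!
Lower bound for a flat one-element extension of the maximal ideal.
-/

set_option linter.unusedSectionVars false

namespace Vale.Agent.P202

open IsLocalRing

lemma exists_socle_elt {A : Type*} [CommRing A] [IsLocalRing A] {I : Ideal A} {s : ℕ}
    (hs : maximalIdeal A ^ s ≤ I) (hI : I ≠ ⊤) :
    ∃ x, x ∉ I ∧ ∀ m ∈ maximalIdeal A, m * x ∈ I := by
  classical
  have hex : ∃ t, maximalIdeal A ^ t ≤ I := ⟨s, hs⟩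
  have ht := Nat.find_spec hex
  have ht0 : Nat.find hex ≠ 0 := by
    intro h0
    rw [h0, pow_zero, Ideal.one_eq_top, top_le_iff] at ht
    exact hI ht
  obtain ⟨t, htt⟩ := Nat.exists_eq_succ_of_ne_zero ht0
  have hlt : ¬ maximalIdeal A ^ t ≤ I := Nat.find_min hex (by lia)
  obtain ⟨x, hx, hxI⟩ := Set.not_subset.mp hlt
  refine ⟨x, hxI, fun m hm => ht ?_⟩
  rw [htt, Nat.succ_eq_add_one, pow_succ']
  exact Ideal.mul_mem_mul hm hx

section LowerFlat

variable {A A₁ : Type*} [CommRing A] [IsLocalRing A] [IsNoetherianRing A]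
    [CommRing A₁] [IsLocalRing A₁] [IsNoetherianRing A₁] [Algebra A A₁]
    [IsLocalHom (algebraMap A A₁)] [Module.Flat A A₁]

lemma flat_socle {I : Ideal A} {x : A} (hxI : x ∉ I) (hmx : ∀ m ∈ maximalIdeal A, m * x ∈ I)
    {b : A₁} (hb : algebraMap A A₁ x * b ∈ I.map (algebraMap A A₁)) :
    b ∈ (maximalIdeal A).map (algebraMap A A₁) := by
  by_contra hcon
  have h1 : b ∉ maximalIdeal A • (⊤ : Submodule A A₁) := by
    rw [Ideal.smul_top_eq_map]
    exact hcon
  refine hxI (mem_of_smul_mem (A := A) (V := A₁) (maximalIdeal A) (I := I)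
    (I' := I ⊔ Ideal.span {x}) le_sup_left ?_ (maximalIdeal A • (⊤ : Submodule A A₁)) le_rfl h1
    (Ideal.mem_sup_right (Ideal.mem_span_singleton_self x)) (Submodule.mem_sup_right ?_))
  · rw [Ideal.mul_sup, sup_le_iff]
    refine ⟨Ideal.mul_le_right, ?_⟩
    rw [Ideal.mul_le]
    intro m hm c hc
    obtain ⟨d, rfl⟩ := Ideal.mem_span_singleton'.mp hc
    have := I.mul_mem_left d (hmx m hm)
    rwa [← mul_assoc, mul_comm d m, mul_assoc] at this
  · rw [Ideal.smul_top_eq_map, Algebra.smul_def]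
    exact hb

/-- `h` is regular modulo every extended ideal of finite colength. -/
lemma reg_all {h : A₁} (hreg : ∀ a : A₁, h * a ∈ (maximalIdeal A).map (algebraMap A A₁) →
      a ∈ (maximalIdeal A).map (algebraMap A A₁)) (s : ℕ) (I : Ideal A) :
    maximalIdeal A ^ s ≤ I → ∀ a, h * a ∈ I.map (algebraMap A A₁) →
      a ∈ I.map (algebraMap A A₁) := by
  induction I using IsNoetherian.induction with
  | hgt I' ih =>
  let I : Ideal A := I'
  change maximalIdeal A ^ s ≤ I → ∀ a, h * a ∈ I.map (algebraMap A A₁) →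
      a ∈ I.map (algebraMap A A₁)
  change ∀ J : Ideal A, J > I → maximalIdeal A ^ s ≤ J → ∀ a, h * a ∈ J.map (algebraMap A A₁) →
      a ∈ J.map (algebraMap A A₁) at ih
  clear_value I
  intro hs a ha
  by_cases hI : I = ⊤
  · rw [hI, Ideal.map_top]; exact Submodule.mem_top
  obtain ⟨x, hxI, hmx⟩ := exists_socle_elt hs hI
  have hlt : I < I ⊔ Ideal.span {x} := lt_of_le_of_ne le_sup_left fun h => hxI
    (by rw [h]; exact Ideal.mem_sup_right (Ideal.mem_span_singleton_self x))
  have h1 := ih _ hlt (hs.trans le_sup_left) a (Ideal.map_mono le_sup_left ha)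
  rw [Ideal.map_sup, Ideal.map_span, Set.image_singleton] at h1
  obtain ⟨i, hi, y, hy, rfl⟩ := Submodule.mem_sup.mp h1
  obtain ⟨b, rfl⟩ := Ideal.mem_span_singleton'.mp hy
  have h2 : algebraMap A A₁ x * (h * b) ∈ Ideal.map (algebraMap A A₁) I := by
    have h3 : algebraMap A A₁ x * (h * b) = h * (i + b * algebraMap A A₁ x) - h * i := by ring
    rw [h3]
    exact Ideal.sub_mem _ ha (Ideal.mul_mem_left _ _ hi)
  have h4 := hreg b (flat_socle hxI hmx h2)
  refine Ideal.add_mem _ hi ?_
  have h5 : b * algebraMap A A₁ x ∈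
      (maximalIdeal A).map (algebraMap A A₁) * Ideal.span {algebraMap A A₁ x} :=
    Ideal.mul_mem_mul h4 (Ideal.mem_span_singleton_self _)
  have h6 : (maximalIdeal A).map (algebraMap A A₁) * Ideal.span {algebraMap A A₁ x} ≤
      Ideal.map (algebraMap A A₁) I := by
    rw [← Set.image_singleton, ← Ideal.map_span, ← Ideal.map_mul]
    refine Ideal.map_mono ?_
    rw [Ideal.mul_le]
    intro m hm c hc
    obtain ⟨d, rfl⟩ := Ideal.mem_span_singleton'.mp hc
    have := Ideal.mul_mem_left I d (hmx m hm)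
    rwa [← mul_assoc, mul_comm d m, mul_assoc] at this
  exact h6 h5

/-- lengths do not drop modulo `h`. -/
lemma ell_le_ell_map_sup {h : A₁} (hh : h ∈ maximalIdeal A₁)
    (hreg : ∀ a : A₁, h * a ∈ (maximalIdeal A).map (algebraMap A A₁) →
      a ∈ (maximalIdeal A).map (algebraMap A A₁)) (s : ℕ) (I : Ideal A) :
    maximalIdeal A ^ s ≤ I → ell I ≤ ell (I.map (algebraMap A A₁) ⊔ Ideal.span {h}) := by
  induction I using IsNoetherian.induction with
  | hgt I' ih =>
  let I : Ideal A := I'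
  change maximalIdeal A ^ s ≤ I → ell I ≤ ell (I.map (algebraMap A A₁) ⊔ Ideal.span {h})
  change ∀ J : Ideal A, J > I → maximalIdeal A ^ s ≤ J →
    ell J ≤ ell (J.map (algebraMap A A₁) ⊔ Ideal.span {h}) at ih
  clear_value I
  intro hs
  by_cases hI : I = ⊤
  · rw [hI, ell_top]; exact zero_le
  obtain ⟨x, hxI, hmx⟩ := exists_socle_elt hs hI
  have hlt : I < I ⊔ Ideal.span {x} := lt_of_le_of_ne le_sup_left fun h => hxI
    (by rw [h]; exact Ideal.mem_sup_right (Ideal.mem_span_singleton_self x))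
  have hJs : maximalIdeal A ^ s ≤ I ⊔ Ideal.span {x} := hs.trans le_sup_left
  have h1 := ih _ hlt hJs
  have hcol : col I x = maximalIdeal A := by
    refine le_antisymm (le_maximalIdeal fun h => hxI (col_eq_top_iff.mp h)) fun m hm => ?_
    exact mem_col.mpr (hmx m hm)
  rw [ell_eq_add I x, hcol, ell_maximalIdeal,
    ell_eq_add (Ideal.map (algebraMap A A₁) I ⊔ Ideal.span {h}) (algebraMap A A₁ x)]
  refine add_le_add (one_le_ell fun htop => ?_) (h1.trans (ell_mono ?_))
  · -- `x` is not in `I A₁ + (h)`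
    rw [col_eq_top_iff] at htop
    obtain ⟨i, hi, y, hy, hxy⟩ := Submodule.mem_sup.mp htop
    obtain ⟨b, rfl⟩ := Ideal.mem_span_singleton'.mp hy
    have h2 : h * b ∈ (I ⊔ Ideal.span {x}).map (algebraMap A A₁) := by
      have h3 : h * b = algebraMap A A₁ x - i := by rw [← hxy]; ring
      rw [h3]
      exact Ideal.sub_mem _ (Ideal.mem_map_of_mem _
        (Ideal.mem_sup_right (Ideal.mem_span_singleton_self x))) (Ideal.map_mono le_sup_left hi)
    have h4 := reg_all hreg s _ hJs b h2
    rw [Ideal.map_sup, Ideal.map_span, Set.image_singleton] at h4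
    obtain ⟨i', hi', z, hz, rfl⟩ := Submodule.mem_sup.mp h4
    obtain ⟨c, rfl⟩ := Ideal.mem_span_singleton'.mp hz
    have h5 : algebraMap A A₁ x * (1 - h * c) ∈ Ideal.map (algebraMap A A₁) I := by
      have h6 : algebraMap A A₁ x * (1 - h * c) = i + h * i' := by
        linear_combination -hxy
      rw [h6]
      exact Ideal.add_mem _ hi (Ideal.mul_mem_left _ _ hi')
    have h7 : (1 - h * c) ∈ maximalIdeal A₁ :=
      IsLocalRing.map_maximalIdeal_le (algebraMap A A₁) (flat_socle hxI hmx h5)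
    have h8 : (1 : A₁) ∈ maximalIdeal A₁ := by
      have := Ideal.add_mem _ h7 (Ideal.mul_mem_right c _ hh)
      simpa using this
    exact (Ideal.ne_top_iff_one _).mp (maximalIdeal.isMaximal A₁).ne_top h8
  · rw [Ideal.map_sup, Ideal.map_span, Set.image_singleton]
    exact sup_le (le_sup_left.trans le_sup_left |> fun h => sup_le h le_sup_right)
      (le_sup_right.trans le_sup_left)

end LowerFlat

lemma sup_pow_le_three {R : Type*} [CommRing R] (N H : Ideal R) (j : ℕ) :
    ∀ i k, i + k = j → (N ⊔ H) ^ j ≤ N ^ k * H ^ i ⊔ (N ^ (k + 1) ⊔ H ^ (i + 1)) := by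
  induction j with
  | zero =>
    intro i k hik
    obtain ⟨rfl, rfl⟩ : i = 0 ∧ k = 0 := by lia
    simp
  | succ j ih =>
    intro i k hik
    have hN : N * (N ⊔ H) ^ j ≤ N ^ k * H ^ i ⊔ (N ^ (k + 1) ⊔ H ^ (i + 1)) := by
      rcases k with _ | k
      · have h1 : N * (N ⊔ H) ^ j ≤ N := Ideal.mul_le_left
        have h2 : N ≤ N ^ (0 + 1) := by rw [zero_add, pow_one]
        exact (h1.trans h2).trans (le_sup_left.trans le_sup_right)
      · have h1 : N * (N ⊔ H) ^ j ≤ N * (N ^ k * H ^ i ⊔ (N ^ (k + 1) ⊔ H ^ (i + 1))) :=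
          Ideal.mul_mono le_rfl (ih i k (by lia))
        refine h1.trans ?_
        rw [Ideal.mul_sup, Ideal.mul_sup]
        have h2 : N * (N ^ k * H ^ i) = N ^ (k + 1) * H ^ i := by ring
        have h3 : N * N ^ (k + 1) = N ^ (k + 1 + 1) := by ring
        have h4 : N * H ^ (i + 1) ≤ H ^ (i + 1) := Ideal.mul_le_right
        rw [h2, h3]
        exact sup_le_sup_left (sup_le_sup_left h4 _) _
    have hH : H * (N ⊔ H) ^ j ≤ N ^ k * H ^ i ⊔ (N ^ (k + 1) ⊔ H ^ (i + 1)) := by
      rcases i with _ | i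
      · have h1 : H * (N ⊔ H) ^ j ≤ H := Ideal.mul_le_left
        have h2 : H ≤ H ^ (0 + 1) := by rw [zero_add, pow_one]
        exact (h1.trans h2).trans (le_sup_right.trans le_sup_right)
      · have h1 : H * (N ⊔ H) ^ j ≤ H * (N ^ k * H ^ i ⊔ (N ^ (k + 1) ⊔ H ^ (i + 1))) :=
          Ideal.mul_mono le_rfl (ih i k (by lia))
        refine h1.trans ?_
        rw [Ideal.mul_sup, Ideal.mul_sup]
        have h2 : H * (N ^ k * H ^ i) = N ^ k * H ^ (i + 1) := by ring
        have h3 : H * H ^ (i + 1) = H ^ (i + 1 + 1) := by ring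
        have h4 : H * N ^ (k + 1) ≤ N ^ (k + 1) := Ideal.mul_le_right
        rw [h2, h3]
        exact sup_le_sup_left (sup_le_sup_right h4 _) _
    rw [pow_succ', Ideal.sup_mul]
    exact sup_le hN hH

/-- lower bound for a flat one-element extension of the maximal ideal. -/
theorem sum_lower {A A₁ : Type*} [CommRing A] [IsLocalRing A] [IsNoetherianRing A]
    [CommRing A₁] [IsLocalRing A₁] [IsNoetherianRing A₁] [Algebra A A₁]
    [IsLocalHom (algebraMap A A₁)] [Module.Flat A A₁] (h : A₁)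
    (hmax : maximalIdeal A₁ = (maximalIdeal A).map (algebraMap A A₁) ⊔ Ideal.span {h})
    (hreg : ∀ a : A₁, h * a ∈ (maximalIdeal A).map (algebraMap A A₁) →
      a ∈ (maximalIdeal A).map (algebraMap A A₁)) (j : ℕ) :
    sumf (fun i => ell (maximalIdeal A ^ i)) j ≤ ell (maximalIdeal A₁ ^ j) := by
  have hh : h ∈ maximalIdeal A₁ := by
    rw [hmax]; exact Ideal.mem_sup_right (Ideal.mem_span_singleton_self h)
  have hmapp : ∀ k, (maximalIdeal A ^ k).map (algebraMap A A₁) =
      (maximalIdeal A).map (algebraMap A A₁) ^ k := fun k => Ideal.map_pow _ _ _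
  have hpowreg : ∀ (k i : ℕ) (a : A₁), a * h ^ i ∈ (maximalIdeal A ^ k).map (algebraMap A A₁) →
      a ∈ (maximalIdeal A ^ k).map (algebraMap A A₁) := by
    intro k i
    induction i with
    | zero => intro a ha; simpa using ha
    | succ i ih =>
      intro a ha
      refine ih a (reg_all hreg k _ le_rfl _ ?_)
      have : h * (a * h ^ i) = a * h ^ (i + 1) := by ring
      rw [this]; exact ha
  have hcol : ∀ i k : ℕ, i + k = j → col (maximalIdeal A₁ ^ j ⊔ Ideal.span {h ^ (i + 1)}) (h ^ i) ≤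
      (maximalIdeal A ^ k).map (algebraMap A A₁) ⊔ Ideal.span {h} := by
    intro i k hik a ha
    rw [mem_col] at ha
    have h1 := sup_pow_le_three ((maximalIdeal A).map (algebraMap A A₁)) (Ideal.span {h}) j i k hik
    rw [← hmax, Ideal.span_singleton_pow, Ideal.span_singleton_pow, ← hmapp, ← hmapp] at h1
    have h2 : a * h ^ i ∈ (maximalIdeal A ^ k).map (algebraMap A A₁) * Ideal.span {h ^ i} ⊔
        ((maximalIdeal A ^ (k + 1)).map (algebraMap A A₁) ⊔ Ideal.span {h ^ (i + 1)}) :=
      (sup_le h1 (le_sup_right.trans le_sup_right)) ha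
    obtain ⟨p, hp, q, hq, hpq⟩ := Submodule.mem_sup.mp h2
    obtain ⟨c, hc, rfl⟩ := Ideal.mem_mul_span_singleton.mp hp
    obtain ⟨r, hr, w, hw, rfl⟩ := Submodule.mem_sup.mp hq
    obtain ⟨b, rfl⟩ := Ideal.mem_span_singleton'.mp hw
    have h3 : (a - c - b * h) * h ^ i ∈ (maximalIdeal A ^ (k + 1)).map (algebraMap A A₁) := by
      have : (a - c - b * h) * h ^ i = r := by linear_combination -hpq
      rw [this]; exact hr
    have h4 := hpowreg (k + 1) i _ h3
    have h5 : a = (a - c - b * h + c) + b * h := by ring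
    rw [h5]
    refine Submodule.add_mem_sup (Ideal.add_mem _ ?_ hc)
      (Ideal.mul_mem_left _ _ (Ideal.mem_span_singleton_self h))
    exact Ideal.map_mono (Ideal.pow_le_pow_right (by lia)) h4
  have key : ∀ i, i ≤ j → ∑ t ∈ Finset.range i, ell (maximalIdeal A ^ (j - t)) ≤
      ell (maximalIdeal A₁ ^ j ⊔ Ideal.span {h ^ i}) := by
    intro i
    induction i with
    | zero => intro _; simp
    | succ i ih =>
      intro hi
      rw [Finset.sum_range_succ, ell_eq_add (maximalIdeal A₁ ^ j ⊔ Ideal.span {h ^ (i + 1)}) (h ^ i),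
        add_comm]
      refine add_le_add ?_ ((ih (by lia)).trans (ell_mono ?_))
      · exact (ell_le_ell_map_sup hh hreg (j - i) _ le_rfl).trans
          (ell_mono (hcol i (j - i) (by lia)))
      · refine sup_le (sup_le le_sup_left ?_) le_sup_right
        refine le_trans ?_ le_sup_right
        rw [Ideal.span_singleton_le_span_singleton]
        exact pow_dvd_pow h (by lia)
  have h1 := key j le_rfl
  have h2 : maximalIdeal A₁ ^ j ⊔ Ideal.span {h ^ j} = maximalIdeal A₁ ^ j := by
    refine sup_eq_left.mpr ?_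
    rw [Ideal.span_singleton_le_iff_mem]
    exact Ideal.pow_mem_pow hh j
  rw [h2] at h1
  refine le_trans (le_of_eq ?_) h1
  rw [sumf, ← Finset.sum_range_reflect]
  refine Finset.sum_congr rfl fun t ht => ?_
  rw [Finset.mem_range] at ht
  rw [show j - 1 - t + 1 = j - t by lia]

end Vale.Agent.P202
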