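import Mathlib.Algebra.AffineMonoid.Basic
import Mathlib.Algebra.CharP.MixedCharZero
import Mathlib.Algebra.CharZero.Infinite
import Mathlib.Algebra.Field.ULift
import Mathlib.Algebra.Group.ForwardDiff
import Mathlib.Algebra.GroupWithZero.Action.Pointwise.Finset
import Mathlib.Algebra.GroupWithZero.Submonoid.CancelMulZero
import Mathlib.Algebra.Module.LinearMap.Polynomial
import Mathlib.Algebra.Module.StablyFree.Basic
import Mathlib.Algebra.MvPolynomial.Comap
import Mathlib.Algebra.Order.Antidiag.FinsuppEquiv
import Mathlib.Algebra.Order.Ring.Star
import Mathlib.Algebra.Order.Star.Real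
import Mathlib.Algebra.Ring.Action.Pointwise.Finset
import Mathlib.Analysis.Asymptotics.SpecificAsymptotics
import Mathlib.Analysis.SpecialFunctions.Choose
import Mathlib.Computability.Reduce
import Mathlib.Data.ENat.BigOperators
import Mathlib.Data.Finset.Functor
import Mathlib.Data.Int.Star
import Mathlib.Data.Pi.Interval
import Mathlib.FieldTheory.PerfectClosure
import Mathlib.GroupTheory.CosetCover
import Mathlib.LinearAlgebra.Dimension.LinearMap
import Mathlib.NumberTheory.Dioph
import Mathlib.Order.CompletePartialOrder
import Mathlib.RingTheory.AdicCompletion.LocalRing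
import Mathlib.RingTheory.AdicCompletion.Noetherian
import Mathlib.RingTheory.AdicCompletion.RingHom
import Mathlib.RingTheory.Etale.Weakly
import Mathlib.RingTheory.Flat.Equalizer
import Mathlib.RingTheory.Henselian
import Mathlib.RingTheory.Ideal.AssociatedPrime.Localization
import Mathlib.RingTheory.Ideal.Quotient.HasFiniteQuotients
import Mathlib.RingTheory.KrullDimension.Polynomial
import Mathlib.RingTheory.KrullDimension.Regular
import Mathlib.RingTheory.LocalRing.Length
import Mathlib.RingTheory.LocalRing.Quotient
import Mathlib.RingTheory.LocalRing.Subring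
import Mathlib.RingTheory.MvPolynomial.IrreducibleQuadratic
import Mathlib.RingTheory.OrderOfVanishing.Basic
import Mathlib.RingTheory.PicardGroup
import Mathlib.RingTheory.Polynomial.UniversalFactorizationRing
import Mathlib.RingTheory.PowerSeries.WeierstrassPreparation
import Mathlib.RingTheory.RegularLocalRing.Defs
import Mathlib.RingTheory.SimpleRing.Principal
import Mathlib.RingTheory.Smooth.Field
import Mathlib.RingTheory.TotallySplit
import Mathlib.RingTheory.WittVector.Complete
import Mathlib.Tactic

/-! The part of Mathlib that the development of this folder uses. -/
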