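import Vale.Agent.P202.Basic
import Mathlib.RingTheory.Ideal.Quotient.Operations
import Mathlib.RingTheory.Ideal.Maps

/-!
Comparison of lengths along surjective ring maps and other elementary facts about `ell`.
-/

namespace Vale.Agent.P202

open Ideal

variable {A B : Type*} [CommRing A] [CommRing B]

lemma ell_comap_of_surjective (f : A →+* B) (hf : Function.Surjective f) (J : Ideal B) :
    ell (J.comap f) = ell J := by
  letI := f.toAlgebra
  have h1 : Module.length A (B ⧸ J) = Module.length B (B ⧸ J) := by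
    refine Module.length_eq_of_surjective ?_
    exact hf
  unfold ell
  rw [← h1]
  let g : A →ₗ[A] (B ⧸ J) := (Submodule.mkQ (J.restrictScalars A)).comp (Algebra.linearMap A B)
  have hg : Function.Surjective g := by
    intro z
    obtain ⟨z, rfl⟩ := Submodule.Quotient.mk_surjective _ z
    obtain ⟨a, ha⟩ := hf z
    exact ⟨a, by subst ha; rfl⟩
  have hk : LinearMap.ker g = J.comap f := by
    ext a
    rw [LinearMap.mem_ker, Ideal.mem_comap]
    change Submodule.Quotient.mk (f a) = (0 : B ⧸ J) ↔ _
    rw [Submodule.Quotient.mk_eq_zero]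
  have e : (A ⧸ (J.comap f)) ≃ₗ[A] (B ⧸ J) :=
    (Submodule.quotEquivOfEq _ _ hk.symm).trans (g.quotKerEquivOfSurjective hg)
  exact e.length_eq

lemma ell_map_of_surjective (f : A →+* B) (hf : Function.Surjective f) (I : Ideal A) :
    ell (I.map f) = ell (I ⊔ RingHom.ker f) := by
  rw [← ell_comap_of_surjective f hf, Ideal.comap_map_of_surjective f hf]
  rfl

lemma ell_map_mk (K I : Ideal A) : ell (I.map (Ideal.Quotient.mk K)) = ell (I ⊔ K) := by
  rw [ell_map_of_surjective _ Ideal.Quotient.mk_surjective, Ideal.mk_ker]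

/-- If `K` has finite length as a module, enlarging an ideal by `K` lowers the colength at most by
that length. -/
lemma ell_le_ell_sup_add (I K : Ideal A) : ell I ≤ ell (I ⊔ K) + Module.length A K := by
  have h1 : ell I = Module.length A (↥(I ⊔ K) ⧸ (Submodule.comap (I ⊔ K).subtype I)) +
      ell (I ⊔ K) := by
    let f : (↥(I ⊔ K) ⧸ (Submodule.comap (I ⊔ K).subtype I)) →ₗ[A] (A ⧸ I) :=
      Submodule.mapQ _ I (I ⊔ K).subtype le_rfl
    let g : (A ⧸ I) →ₗ[A] (A ⧸ (I ⊔ K)) := Submodule.factor le_sup_left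
    refine Module.length_eq_add_of_exact f g ?_ (Submodule.factor_surjective _) ?_
    · rw [injective_iff_map_eq_zero]
      intro z
      obtain ⟨z, rfl⟩ := Submodule.Quotient.mk_surjective _ z
      intro hz
      have hz' : (Submodule.Quotient.mk (z : A) : A ⧸ I) = 0 := hz
      rw [Submodule.Quotient.mk_eq_zero] at hz' ⊢
      exact hz'
    · rw [LinearMap.exact_iff]
      ext z
      obtain ⟨z, rfl⟩ := Submodule.Quotient.mk_surjective _ z
      constructor
      · intro hz
        have hz' : z ∈ I ⊔ K := by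
          have : Submodule.Quotient.mk z = (0 : A ⧸ (I ⊔ K)) := hz
          exact (Submodule.Quotient.mk_eq_zero _).mp this
        exact ⟨Submodule.Quotient.mk ⟨z, hz'⟩, rfl⟩
      · rintro ⟨c, hc⟩
        obtain ⟨c, rfl⟩ := Submodule.Quotient.mk_surjective _ c
        rw [← hc]
        change Submodule.Quotient.mk (c : A) = (0 : A ⧸ (I ⊔ K))
        rw [Submodule.Quotient.mk_eq_zero]
        exact c.2
  rw [h1, add_comm]
  refine add_le_add le_rfl ?_
  let h : K →ₗ[A] (↥(I ⊔ K) ⧸ (Submodule.comap (I ⊔ K).subtype I)) :=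
    (Submodule.mkQ _).comp (Submodule.inclusion le_sup_right)
  refine Module.length_le_of_surjective h ?_
  intro z
  obtain ⟨⟨z, hz⟩, rfl⟩ := Submodule.Quotient.mk_surjective _ z
  obtain ⟨a, ha, b, hb, rfl⟩ := Submodule.mem_sup.mp hz
  refine ⟨⟨b, hb⟩, ?_⟩
  change Submodule.Quotient.mk _ = Submodule.Quotient.mk _
  rw [Submodule.Quotient.eq]
  rw [Submodule.mem_comap]
  simpa using ha

end Vale.Agent.P202
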