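import Vale.Agent.P202.Basic
import Mathlib.Data.Finsupp.MonomialOrder.DegLex
import Mathlib.Data.Finsupp.Weight
import Mathlib.Algebra.BigOperators.Finsupp.Basic

/-!
Filtration of a commutative ring by monomials in a finite family of elements, ordered by the
degree-lexicographic order.
-/

set_option linter.unusedSectionVars false

namespace Vale.Agent.P202

open Ideal Finset

variable {A : Type*} [CommRing A] {σ : Type*} [Fintype σ] [LinearOrder σ]

/-- the monomial `y ^ u`. -/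
def mon (y : σ → A) (u : σ →₀ ℕ) : A := ∏ i, y i ^ u i

@[simp] lemma mon_zero (y : σ → A) : mon y 0 = 1 := by simp [mon]

lemma mon_add (y : σ → A) (u v : σ →₀ ℕ) : mon y (u + v) = mon y u * mon y v := by
  simp [mon, pow_add, Finset.prod_mul_distrib]

/-- strict degree-lexicographic order on exponents. -/
def dlt (u w : σ →₀ ℕ) : Prop := toDegLex u < toDegLex w

/-- weak degree-lexicographic order on exponents. -/
def dle (u w : σ →₀ ℕ) : Prop := toDegLex u ≤ toDegLex w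

lemma not_dlt {u w : σ →₀ ℕ} : ¬ dlt u w ↔ dle w u := not_lt
lemma not_dle {u w : σ →₀ ℕ} : ¬ dle u w ↔ dlt w u := not_le

lemma dle_of_le {u w : σ →₀ ℕ} (h : u ≤ w) : dle u w :=
  (MonomialOrder.degLex (σ := σ)).toSyn_monotone h

lemma dlt_add_left {u w : σ →₀ ℕ} (h : dlt u w) (v : σ →₀ ℕ) : dlt (v + u) (v + w) := by
  unfold dlt at *
  rw [toDegLex_add, toDegLex_add]
  exact add_lt_add_right h _

lemma dle_add_left {u w : σ →₀ ℕ} (h : dle u w) (v : σ →₀ ℕ) : dle (v + u) (v + w) := by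
  unfold dle at *
  rw [toDegLex_add, toDegLex_add]
  exact add_le_add_right h _

lemma degree_le_of_dle {u w : σ →₀ ℕ} (h : dle u w) : u.degree ≤ w.degree :=
  Finsupp.DegLex.monotone_degree h

lemma dlt_of_degree_lt {u w : σ →₀ ℕ} (h : u.degree < w.degree) : dlt u w := by
  rw [← not_dle]
  intro h'
  exact absurd (degree_le_of_dle h') (not_le.mpr h)

/-- ideal generated by a set of monomials. -/
def FS (y : σ → A) (P : Set (σ →₀ ℕ)) : Ideal A := Ideal.span (mon y '' P)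

lemma mon_mem_FS {y : σ → A} {P : Set (σ →₀ ℕ)} {u : σ →₀ ℕ} (h : u ∈ P) : mon y u ∈ FS y P :=
  Ideal.subset_span ⟨u, h, rfl⟩

lemma FS_mono {y : σ → A} {P Q : Set (σ →₀ ℕ)} (h : P ⊆ Q) : FS y P ≤ FS y Q :=
  Ideal.span_mono (Set.image_mono h)

lemma FS_union (y : σ → A) (P Q : Set (σ →₀ ℕ)) : FS y (P ∪ Q) = FS y P ⊔ FS y Q := by
  simp only [FS, Set.image_union, Ideal.span_union]

lemma FS_singleton (y : σ → A) (u : σ →₀ ℕ) : FS y {u} = Ideal.span {mon y u} := by
  simp [FS]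

lemma mul_mem_FS {y : σ → A} {P Q R : Set (σ →₀ ℕ)} (h : ∀ u ∈ P, ∀ w ∈ Q, u + w ∈ R)
    {a b : A} (ha : a ∈ FS y P) (hb : b ∈ FS y Q) : a * b ∈ FS y R := by
  have : FS y P * FS y Q ≤ FS y R := by
    unfold FS
    rw [Ideal.span_mul_span', Ideal.span_le]
    rintro _ ⟨_, ⟨u, hu, rfl⟩, _, ⟨w, hw, rfl⟩, rfl⟩
    simp only [SetLike.mem_coe]
    rw [← mon_add]
    exact Ideal.subset_span ⟨_, h u hu w hw, rfl⟩
  exact this (Ideal.mul_mem_mul ha hb)

/-- `Fgt y u` is generated by the monomials bigger than `u`. -/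
def Fgt (y : σ → A) (u : σ →₀ ℕ) : Ideal A := FS y {w | dlt u w}

/-- length of the `u`-th piece of `A/I` for the monomial filtration. -/
noncomputable def piece (y : σ → A) (I : Ideal A) (u : σ →₀ ℕ) : ℕ∞ :=
  ell (col (Fgt y u ⊔ I) (mon y u))

/-- length of the `u`-th graded piece of the monomial filtration of `A`. -/
noncomputable def gp (y : σ → A) (u : σ →₀ ℕ) : ℕ∞ := piece y ⊥ u

lemma piece_mono (y : σ → A) {I J : Ideal A} (h : I ≤ J) (u : σ →₀ ℕ) :
    piece y J u ≤ piece y I u :=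
  ell_mono (col_mono (sup_le_sup_left h _) _)

lemma piece_le_gp (y : σ → A) (I : Ideal A) (u : σ →₀ ℕ) : piece y I u ≤ gp y u :=
  piece_mono y bot_le u

lemma piece_eq_zero_iff {y : σ → A} {I : Ideal A} {u : σ →₀ ℕ} :
    piece y I u = 0 ↔ mon y u ∈ Fgt y u ⊔ I := by
  rw [piece, ell_eq_zero_iff, col_eq_top_iff]

lemma one_le_piece {y : σ → A} {I : Ideal A} {u : σ →₀ ℕ} (h : mon y u ∉ Fgt y u ⊔ I) :
    1 ≤ piece y I u :=
  one_le_ell (fun h' => h (col_eq_top_iff.mp h'))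

lemma gp_antitone (y : σ → A) {u w : σ →₀ ℕ} (h : u ≤ w) : gp y w ≤ gp y u := by
  obtain ⟨v, rfl⟩ := exists_add_of_le h
  refine ell_mono ?_
  intro a ha
  rw [mem_col, sup_bot_eq] at ha ⊢
  rw [mon_add, ← mul_assoc, mul_comm _ (mon y v)]
  have h1 : mon y v ∈ FS y {v} := mon_mem_FS rfl
  refine mul_mem_FS (P := {v}) (Q := {w | dlt u w}) ?_ h1 ha
  rintro _ rfl w hw
  simp only [Set.mem_ofPred_eq] at hw ⊢
  rw [add_comm u]
  exact dlt_add_left hw _

/-- The set `Γ(I)` of exponents which are initial exponents of `I` (with unit coefficient). -/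
def Gam (y : σ → A) (I : Ideal A) : Set (σ →₀ ℕ) := {u | mon y u ∈ Fgt y u ⊔ I}

lemma mem_Gam {y : σ → A} {I : Ideal A} {u : σ →₀ ℕ} :
    u ∈ Gam y I ↔ mon y u ∈ Fgt y u ⊔ I := Iff.rfl

lemma Gam_mono (y : σ → A) {I J : Ideal A} (h : I ≤ J) : Gam y I ⊆ Gam y J := by
  intro u hu
  rw [mem_Gam] at hu ⊢
  exact (sup_le_sup_left h (Fgt y u)) hu

lemma mem_Gam_of_mon_mem {y : σ → A} {I : Ideal A} {u : σ →₀ ℕ} (h : mon y u ∈ I) :
    u ∈ Gam y I := Ideal.mem_sup_right h

lemma Gam_add {y : σ → A} {I : Ideal A} {u : σ →₀ ℕ} (h : u ∈ Gam y I) (v : σ →₀ ℕ) :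
    u + v ∈ Gam y I := by
  rw [mem_Gam] at h ⊢
  obtain ⟨a, ha, b, hb, hab⟩ := Submodule.mem_sup.mp h
  rw [mon_add, ← hab, add_mul]
  refine Ideal.add_mem _ (Ideal.mem_sup_left ?_) (Ideal.mem_sup_right (Ideal.mul_mem_right _ _ hb))
  rw [mul_comm]
  refine mul_mem_FS (P := {v}) (Q := {w | dlt u w}) ?_ (mon_mem_FS rfl) ha
  rintro _ rfl w hw
  simp only [Set.mem_ofPred_eq] at hw ⊢
  rw [add_comm u]
  exact dlt_add_left hw _

lemma Gam_mul {y : σ → A} {I J : Ideal A} {u v : σ →₀ ℕ} (hu : u ∈ Gam y I) (hv : v ∈ Gam y J) :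
    u + v ∈ Gam y (I * J) := by
  rw [mem_Gam] at hu hv ⊢
  obtain ⟨a, ha, b, hb, hab⟩ := Submodule.mem_sup.mp hu
  obtain ⟨a', ha', b', hb', hab'⟩ := Submodule.mem_sup.mp hv
  have key : mon y (u + v) = mon y v * a + mon y u * a' - a * a' + b * b' := by
    rw [mon_add, ← hab, ← hab']; ring
  have h1 : mon y v * a ∈ Fgt y (u + v) := by
    refine mul_mem_FS (P := {v}) (Q := {w | dlt u w}) ?_ (mon_mem_FS rfl) ha
    rintro _ rfl w hw
    simp only [Set.mem_ofPred_eq] at hw ⊢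
    rw [add_comm u]
    exact dlt_add_left hw _
  have h2 : mon y u * a' ∈ Fgt y (u + v) := by
    refine mul_mem_FS (P := {u}) (Q := {w | dlt v w}) ?_ (mon_mem_FS rfl) ha'
    rintro _ rfl w hw
    exact dlt_add_left hw _
  have h3 : a * a' ∈ Fgt y (u + v) := by
    refine mul_mem_FS (P := {w | dlt u w}) (Q := {w | dlt v w}) ?_ ha ha'
    intro w hw w' hw'
    simp only [Set.mem_ofPred_eq] at hw hw' ⊢
    have e1 : dlt (u + v) (u + w') := dlt_add_left hw' _
    have e2 : dlt (w' + u) (w' + w) := dlt_add_left hw _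
    rw [add_comm w', add_comm w'] at e2
    exact lt_trans e1 e2
  rw [key]
  refine Ideal.add_mem _ (Ideal.mem_sup_left ?_) (Ideal.mem_sup_right (Ideal.mul_mem_mul hb hb'))
  exact Ideal.sub_mem _ (Ideal.add_mem _ h1 h2) h3

lemma Gam_pow {y : σ → A} {I : Ideal A} {u : σ →₀ ℕ} (hu : u ∈ Gam y I) (t : ℕ) :
    t • u ∈ Gam y (I ^ t) := by
  induction t with
  | zero => simp only [zero_smul, pow_zero]; exact mem_Gam_of_mon_mem (by simp)
  | succ t ih => rw [succ_nsmul, pow_succ]; exact Gam_mul ih hu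

/-- Additivity of length along the monomial filtration. -/
lemma ell_eq_sum (y : σ → A) (I : Ideal A) (s : Finset (σ →₀ ℕ))
    (hs : ∀ u ∈ s, ∀ w, dle w u → w ∈ s) :
    ell (FS y {w | w ∉ s} ⊔ I) = ∑ u ∈ s, piece y I u := by
  classical
  induction h : s.card generalizing s with
  | zero =>
    rw [Finset.card_eq_zero] at h
    subst h
    have h1 : FS y {w : σ →₀ ℕ | w ∉ (∅ : Finset (σ →₀ ℕ))} ⊔ I = ⊤ := by
      rw [Ideal.eq_top_iff_one, ← mon_zero y]
      exact Ideal.mem_sup_left (mon_mem_FS (by simp))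
    rw [h1, ell_top, Finset.sum_empty]
  | succ n ih =>
    have hne : s.Nonempty := by rw [← Finset.card_pos, h]; omega
    obtain ⟨a, ha, hamax⟩ := Finset.exists_max_image s (fun u => toDegLex u) hne
    have hcompl : {w : σ →₀ ℕ | w ∉ s} = {w | dlt a w} := by
      ext w
      simp only [Set.mem_ofPred_eq]
      constructor
      · intro hw
        by_contra h'
        exact hw (hs a ha w (not_dlt.mp h'))
      · intro hw hws
        exact absurd (hamax w hws) (not_le.mpr hw)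
    have hcompl' : {w : σ →₀ ℕ | w ∉ s.erase a} = {w | dlt a w} ∪ {a} := by
      rw [← hcompl]
      ext w
      simp only [Finset.mem_erase, Set.mem_ofPred_eq, Set.mem_union, Set.mem_singleton_iff]
      tauto
    have hs' : ∀ u ∈ s.erase a, ∀ w, dle w u → w ∈ s.erase a := by
      intro u hu w hw
      rw [Finset.mem_erase] at hu ⊢
      refine ⟨?_, hs u hu.2 w hw⟩
      rintro rfl
      apply hu.1
      have h1 : toDegLex u ≤ toDegLex w := hamax u hu.2
      have h2 : toDegLex w ≤ toDegLex u := hw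
      exact toDegLex_injective (le_antisymm h1 h2)
    have ih' := ih (s.erase a) hs' (by rw [Finset.card_erase_of_mem ha, h]; omega)
    rw [← Finset.add_sum_erase s _ ha, ← ih', hcompl', hcompl, FS_union, FS_singleton,
      ell_eq_add _ (mon y a)]
    have e1 : piece y I a = ell (col (FS y {w | dlt a w} ⊔ I) (mon y a)) := rfl
    rw [e1, sup_right_comm]

end Vale.Agent.P202
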