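import Vale.Agent.P202.Fil
import Vale.Agent.P202.Avoid
import Mathlib.RingTheory.Filtration
import Mathlib.RingTheory.ReesAlgebra
import Mathlib.RingTheory.Ideal.AssociatedPrime.Finiteness
import Mathlib.RingTheory.Ideal.AssociatedPrime.Localization

/-!
Superficial elements, avoidance, and generic elements of the maximal ideal.
-/

set_option linter.unusedSectionVars false

namespace Vale.Agent.P202

open IsLocalRing Polynomial Ideal

section Generic

/-- killing the kernel of multiplication by `t` on `P / (P ⊓ Q)`. -/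
lemma exists_primes_kill {A M : Type*} [CommRing A] [IsNoetherianRing A] [AddCommGroup M]
    [Module A M] (P Q : Submodule A M) (hP : P.FG) :
    ∃ S : Finset (Ideal A), ∀ (t : A) (b : Ideal A), (∀ q ∈ S, t ∈ q → b ≤ q) →
      ∃ s : ℕ, ∀ v ∈ P, t • v ∈ Q → ∀ a ∈ b ^ s, a • v ∈ Q := by
  have hfin : Module.Finite A P := Module.Finite.iff_fg.mpr hP
  have hass : (associatedPrimes A (P ⧸ Q.submoduleOf P)).Finite := associatedPrimes.finite A _
  refine ⟨hass.toFinset, fun t b hb => ?_⟩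
  let K : Submodule A (P ⧸ Q.submoduleOf P) :=
    LinearMap.ker (LinearMap.lsmul A (P ⧸ Q.submoduleOf P) t)
  have hKt : t ∈ Module.annihilator A K := by
    rw [Module.mem_annihilator]
    rintro ⟨k, hk⟩
    apply Subtype.ext
    exact hk
  have hrad : b ≤ (Module.annihilator A K).radical := by
    rw [← Ideal.sInf_minimalPrimes]
    refine le_sInf fun q hq => ?_
    refine hb q ?_ (hq.1.2 hKt)
    rw [Set.Finite.mem_toFinset]
    exact associatedPrimes.subset_of_injective (f := K.subtype) (Submodule.subtype_injective K)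
      (Module.associatedPrimes.minimalPrimes_annihilator_subset_associatedPrimes A K hq)
  obtain ⟨s, hs⟩ := Ideal.exists_pow_le_of_le_radical_of_fg hrad (IsNoetherian.noetherian _)
  refine ⟨s, fun v hv htv a ha => ?_⟩
  have hmem : (Submodule.Quotient.mk ⟨v, hv⟩ : P ⧸ Q.submoduleOf P) ∈ K := by
    rw [LinearMap.mem_ker, LinearMap.lsmul_apply, ← Submodule.Quotient.mk_smul,
      Submodule.Quotient.mk_eq_zero]
    exact htv
  have h0 := Module.mem_annihilator.mp (hs ha) ⟨_, hmem⟩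
  have h1 : a • (Submodule.Quotient.mk ⟨v, hv⟩ : P ⧸ Q.submoduleOf P) = 0 :=
    congrArg Subtype.val h0
  rw [← Submodule.Quotient.mk_smul, Submodule.Quotient.mk_eq_zero] at h1
  exact h1

end Generic

section Sup

variable {B : Type*} [CommRing B]

/-- the ideal of the elements `b` whose degree `n` monomial lies in a given ideal of the Rees
algebra. -/
noncomputable def degN (𝔦 : Ideal B) (n : ℕ) (q : Ideal (reesAlgebra 𝔦)) : Ideal B where
  carrier := {b | ∃ p ∈ q, ((p : reesAlgebra 𝔦) : B[X]) = monomial n b}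
  zero_mem' := ⟨0, q.zero_mem, by simp⟩
  add_mem' := by
    rintro a b ⟨p, hp, hpa⟩ ⟨p', hp', hpb⟩
    exact ⟨p + p', q.add_mem hp hp', by rw [map_add, ← hpa, ← hpb]; rfl⟩
  smul_mem' := by
    rintro c b ⟨p, hp, hpb⟩
    refine ⟨algebraMap B (reesAlgebra 𝔦) c * p, q.mul_mem_left _ hp, ?_⟩
    have : ((algebraMap B (reesAlgebra 𝔦) c * p : reesAlgebra 𝔦) : B[X]) = C c * (p : B[X]) := rfl
    rw [this, hpb, C_mul_monomial, smul_eq_mul]

lemma mem_degN {𝔦 : Ideal B} {n : ℕ} {q : Ideal (reesAlgebra 𝔦)} {b : B} :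
    b ∈ degN 𝔦 n q ↔ ∃ p ∈ q, ((p : reesAlgebra 𝔦) : B[X]) = monomial n b := Iff.rfl

lemma mem_of_mem_degN {𝔦 : Ideal B} {n : ℕ} {q : Ideal (reesAlgebra 𝔦)} {b : B}
    (h : b ∈ degN 𝔦 n q) (p : reesAlgebra 𝔦) (hp : (p : B[X]) = monomial n b) : p ∈ q := by
  obtain ⟨p', hp', hpb⟩ := h
  have : p = p' := Subtype.ext (hp.trans hpb.symm)
  rw [this]; exact hp'

/-- the ideal generated by the degree one part. -/
noncomputable def reesPlus (𝔦 : Ideal B) : Ideal (reesAlgebra 𝔦) :=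
  Ideal.span {p | ∃ b ∈ 𝔦, ((p : reesAlgebra 𝔦) : B[X]) = monomial 1 b}

lemma reesPlus_le {𝔦 : Ideal B} {q : Ideal (reesAlgebra 𝔦)} (h : 𝔦 ≤ degN 𝔦 1 q) :
    reesPlus 𝔦 ≤ q := by
  rw [reesPlus, Ideal.span_le]
  rintro p ⟨b, hb, hp⟩
  exact mem_of_mem_degN (h hb) p hp

lemma pow_le_degN (𝔦 : Ideal B) (s : ℕ) : 𝔦 ^ s ≤ degN 𝔦 s (reesPlus 𝔦 ^ s) := by
  induction s with
  | zero =>
    intro b _
    refine ⟨algebraMap B (reesAlgebra 𝔦) b, by simp, ?_⟩
    rw [monomial_zero_left]; rfl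
  | succ s ih =>
    rw [pow_succ', Ideal.mul_le]
    intro r hr c hc
    obtain ⟨p, hp, hpc⟩ := ih hc
    have h1 : (⟨monomial 1 r, reesAlgebra.monomial_mem.mpr (by rwa [pow_one])⟩ :
        reesAlgebra 𝔦) ∈ reesPlus 𝔦 := Ideal.subset_span ⟨r, hr, rfl⟩
    have h2 := Ideal.mul_mem_mul h1 hp
    rw [← pow_succ'] at h2
    refine ⟨_, h2, ?_⟩
    change monomial 1 r * (p : B[X]) = _
    rw [hpc, monomial_mul_monomial, add_comm]

/-- the shifted adic filtration. -/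
noncomputable def shiftFil (𝔦 : Ideal B) (N : Type*) [AddCommGroup N] [Module B N] (k : ℕ) :
    𝔦.Filtration N where
  N j := 𝔦 ^ (j + k) • (⊤ : Submodule B N)
  mono i := Submodule.smul_mono_left (Ideal.pow_le_pow_right (by lia))
  smul_le i := by
    rw [← mul_smul, ← pow_succ']
    exact Submodule.smul_mono_left (Ideal.pow_le_pow_right (by lia))

lemma shiftFil_N (𝔦 : Ideal B) (N : Type*) [AddCommGroup N] [Module B N] (k j : ℕ) :
    (shiftFil 𝔦 N k).N j = 𝔦 ^ (j + k) • (⊤ : Submodule B N) := rfl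

variable {N : Type*} [AddCommGroup N] [Module B N]

lemma shiftFil_zero_stable (𝔦 : Ideal B) : (shiftFil 𝔦 N 0).Stable := by
  refine ⟨0, fun n _ => ?_⟩
  rw [shiftFil_N, shiftFil_N, ← mul_smul, ← pow_succ', add_zero, add_zero]

lemma shiftFil_zero_submodule_fg [IsNoetherianRing B] [Module.Finite B N] (𝔦 : Ideal B) :
    (shiftFil 𝔦 N 0).submodule.FG :=
  (Ideal.Filtration.submodule_fg_iff_stable _ fun _ => IsNoetherian.noetherian _).mpr
    (shiftFil_zero_stable 𝔦)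

lemma kill_aux [IsNoetherianRing B] [Module.Finite B N] (𝔦 : Ideal B) :
    ∃ S : Finset (Ideal (reesAlgebra 𝔦)), ∀ b ∈ 𝔦, (∀ q ∈ S, b ∈ degN 𝔦 1 q → 𝔦 ≤ degN 𝔦 1 q) →
      ∃ s : ℕ, ∀ n : ℕ, ∀ v ∈ 𝔦 ^ n • (⊤ : Submodule B N),
        b • v ∈ 𝔦 ^ (n + 2) • (⊤ : Submodule B N) →
          ∀ a ∈ 𝔦 ^ s, a • v ∈ 𝔦 ^ (n + s + 1) • (⊤ : Submodule B N) := by
  obtain ⟨S, hS⟩ := exists_primes_kill (shiftFil 𝔦 N 0).submodule (shiftFil 𝔦 N 1).submodule
    (shiftFil_zero_submodule_fg 𝔦)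
  refine ⟨S, fun b hb hq => ?_⟩
  have hbm : monomial 1 b ∈ reesAlgebra 𝔦 := reesAlgebra.monomial_mem.mpr (by rwa [pow_one])
  obtain ⟨s, hs⟩ := hS ⟨monomial 1 b, hbm⟩ (reesPlus 𝔦) (fun q hqS ht =>
    reesPlus_le (hq q hqS ⟨_, ht, rfl⟩))
  refine ⟨s, fun n v hv hbv a ha => ?_⟩
  obtain ⟨p, hp, hpa⟩ := pow_le_degN 𝔦 s ha
  have h1 := hs (PolynomialModule.single B n v) ?_ ?_ p hp
  · have h2 := h1 (n + s)
    rw [Subalgebra.smul_def, hpa, PolynomialModule.monomial_smul_single] at h2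
    rw [PolynomialModule.coeff_single, add_comm s n, Finsupp.single_eq_same, shiftFil_N] at h2
    exact h2
  · intro i
    rw [PolynomialModule.coeff_single, Finsupp.single_apply]
    split_ifs with h
    · subst h; rw [shiftFil_N, add_zero]; exact hv
    · exact zero_mem _
  · rw [Subalgebra.smul_def, PolynomialModule.monomial_smul_single]
    intro i
    rw [PolynomialModule.coeff_single, Finsupp.single_apply]
    split_ifs with h
    · subst h
      rw [shiftFil_N, show 1 + n + 1 = n + 2 by lia]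
      exact hbv
    · exact zero_mem _

/-- the filtration `{v ∈ 𝔦 ^ n N | b v ∈ 𝔦 ^ (n + 2) N}`. -/
noncomputable def colFil (𝔦 : Ideal B) (N : Type*) [AddCommGroup N] [Module B N] (b : B) :
    𝔦.Filtration N where
  N j := 𝔦 ^ j • (⊤ : Submodule B N) ⊓
    Submodule.comap (LinearMap.lsmul B N b) (𝔦 ^ (j + 2) • (⊤ : Submodule B N))
  mono i := inf_le_inf (Submodule.smul_mono_left (Ideal.pow_le_pow_right (by lia)))
    (Submodule.comap_mono (Submodule.smul_mono_left (Ideal.pow_le_pow_right (by lia))))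
  smul_le i := by
    rw [Submodule.smul_le]
    rintro r hr v ⟨hv1, hv2⟩
    refine ⟨?_, ?_⟩
    · have := Submodule.smul_mem_smul hr hv1
      rw [← mul_smul, ← pow_succ'] at this
      exact this
    · have hv3 : b • v ∈ 𝔦 ^ (i + 2) • (⊤ : Submodule B N) := hv2
      have := Submodule.smul_mem_smul hr hv3
      rw [← mul_smul, ← pow_succ', smul_comm, show i + 2 + 1 = i + 1 + 2 by lia] at this
      exact this

lemma mem_colFil {𝔦 : Ideal B} {b : B} {j : ℕ} {v : N} : v ∈ (colFil 𝔦 N b).N j ↔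
    v ∈ 𝔦 ^ j • (⊤ : Submodule B N) ∧ b • v ∈ 𝔦 ^ (j + 2) • (⊤ : Submodule B N) := Iff.rfl

lemma colFil_stable [IsNoetherianRing B] [Module.Finite B N] (𝔦 : Ideal B) (b : B) :
    (colFil 𝔦 N b).Stable := by
  refine (shiftFil_zero_stable (N := N) 𝔦).of_le ?_
  intro j v hv
  exact (mem_colFil.mp hv).1

lemma superficial_of_avoid [IsNoetherianRing B] [Module.Finite B N] (𝔦 : Ideal B) :
    ∃ S : Finset (Ideal (reesAlgebra 𝔦)), ∀ b ∈ 𝔦, (∀ q ∈ S, b ∈ degN 𝔦 1 q → 𝔦 ≤ degN 𝔦 1 q) →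
      ∃ c : ℕ, ∀ j, c ≤ j → ∀ v ∈ 𝔦 ^ c • (⊤ : Submodule B N),
        b • v ∈ 𝔦 ^ (j + 1) • (⊤ : Submodule B N) → v ∈ 𝔦 ^ j • (⊤ : Submodule B N) := by
  obtain ⟨S, hS⟩ := kill_aux (N := N) 𝔦
  refine ⟨S, fun b hb hq => ?_⟩
  obtain ⟨s, hs⟩ := hS b hb hq
  obtain ⟨D, hD⟩ := (colFil_stable (N := N) 𝔦 b).exists_pow_smul_eq
  have step : ∀ n, D + s ≤ n → ∀ v ∈ 𝔦 ^ n • (⊤ : Submodule B N),
      b • v ∈ 𝔦 ^ (n + 2) • (⊤ : Submodule B N) → v ∈ 𝔦 ^ (n + 1) • (⊤ : Submodule B N) := by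
    intro n hn v hv hbv
    obtain ⟨m, rfl⟩ := Nat.exists_eq_add_of_le hn
    have h1 : v ∈ (colFil 𝔦 N b).N (D + (m + s)) := by
      rw [show D + (m + s) = D + s + m by lia]
      exact mem_colFil.mpr ⟨hv, hbv⟩
    rw [hD, pow_add, mul_smul] at h1
    have h2 : 𝔦 ^ s • (colFil 𝔦 N b).N D ≤ 𝔦 ^ (D + s + 1) • (⊤ : Submodule B N) := by
      rw [Submodule.smul_le]
      intro a ha w hw
      obtain ⟨hw1, hw2⟩ := mem_colFil.mp hw
      exact hs D w hw1 hw2 a ha
    have h3 := Submodule.smul_mono le_rfl h2 h1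
    rw [← mul_smul, ← pow_add, show m + (D + s + 1) = D + s + m + 1 by lia] at h3
    exact h3
  refine ⟨D + s, fun j hj => ?_⟩
  induction j, hj using Nat.le_induction with
  | base => exact fun v hv _ => hv
  | succ j hj ih =>
    intro v hv hbv
    refine step j hj v (ih v hv ?_) hbv
    exact Submodule.smul_mono_left (Ideal.pow_le_pow_right (by lia)) hbv

end Sup

/-- superficial elements; the exceptional set is a finite union of ideals `U` of `R`
not containing `I`. -/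
theorem superficial_avoid {R B : Type*} [CommRing R] [CommRing B]
    [IsNoetherianRing B] [Algebra R B] (I : Ideal R) {N : Type*} [AddCommGroup N] [Module B N]
    [Module.Finite B N] :
    ∃ U : Finset (Ideal R), (∀ J ∈ U, ¬ I ≤ J) ∧ ∀ x ∈ I, (∀ J ∈ U, x ∉ J) →
      ∃ c : ℕ, ∀ j, c ≤ j → ∀ v ∈ ((I.map (algebraMap R B)) ^ c • (⊤ : Submodule B N)),
        algebraMap R B x • v ∈ ((I.map (algebraMap R B)) ^ (j + 1) • (⊤ : Submodule B N)) →
        v ∈ ((I.map (algebraMap R B)) ^ j • (⊤ : Submodule B N)) := by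
  classical
  obtain ⟨S, hS⟩ := superficial_of_avoid (N := N) (I.map (algebraMap R B))
  refine ⟨(S.image fun q => (degN (I.map (algebraMap R B)) 1 q).comap (algebraMap R B)).filter
    fun J => ¬ I ≤ J, fun J hJ => (Finset.mem_filter.mp hJ).2, fun x hx hxJ => ?_⟩
  refine hS _ (Ideal.mem_map_of_mem _ hx) fun q hq hxq => ?_
  rw [Ideal.map_le_iff_le_comap]
  by_contra hcon
  exact hxJ _ (Finset.mem_filter.mpr ⟨Finset.mem_image_of_mem _ hq, hcon⟩) hxq

set_option linter.unusedVariables false in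
/-- avoidance over a local ring with infinite residue field. -/
theorem avoid_ideals {R : Type*} [CommRing R] [IsLocalRing R] [Infinite (ResidueField R)]
    (I : Ideal R) (hI : I.FG) (U : Finset (Ideal R)) (hU : ∀ J ∈ U, ¬ I ≤ J) :
    ∃ x ∈ I, ∀ J ∈ U, x ∉ J := by
  classical
  obtain ⟨c, hc⟩ := avoid (R := R) (M := I)
    (U.image fun J => Submodule.comap (Submodule.subtype I) J) (by
      intro W hW htop
      obtain ⟨J, hJ, rfl⟩ := Finset.mem_image.mp hW
      refine hU J hJ fun x hx => ?_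
      have : (⟨x, hx⟩ : I) ∈ Submodule.comap (Submodule.subtype I) J := by
        rw [htop]; exact Submodule.mem_top
      exact this)
  exact ⟨c.1, c.2, fun J hJ hcJ => hc _ (Finset.mem_image_of_mem _ hJ) hcJ⟩

lemma ell_inf_le {A : Type*} [CommRing A] (I J : Ideal A) : ell (I ⊓ J) ≤ ell I + ell J := by
  let f : (A ⧸ (I ⊓ J)) →ₗ[A] (A ⧸ I) × (A ⧸ J) :=
    (Submodule.factor (p := I ⊓ J) (p' := I) inf_le_left).prod
      (Submodule.factor (p := I ⊓ J) (p' := J) inf_le_right)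
  have hf : Function.Injective f := by
    rw [injective_iff_map_eq_zero]
    intro z
    obtain ⟨z, rfl⟩ := Submodule.Quotient.mk_surjective _ z
    intro hz
    have h1 : (Submodule.Quotient.mk z : A ⧸ I) = 0 := congrArg Prod.fst hz
    have h2 : (Submodule.Quotient.mk z : A ⧸ J) = 0 := congrArg Prod.snd hz
    rw [Submodule.Quotient.mk_eq_zero] at h1 h2 ⊢
    exact ⟨h1, h2⟩
  rw [ell, ell, ell, ← Module.length_prod]
  exact Module.length_le_of_injective f hf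

lemma le_of_ell_le {A : Type*} [CommRing A] {I J : Ideal A} (h : I ≤ J) (hfin : ell J ≠ ⊤)
    (hle : ell I ≤ ell J) : J ≤ I := by
  intro z hz
  by_contra hzI
  have h1 := ell_eq_add I z
  have h2 : 1 ≤ ell (col I z) := one_le_ell fun h => hzI (col_eq_top_iff.mp h)
  have h3 : ell J ≤ ell (I ⊔ Ideal.span {z}) :=
    ell_mono (sup_le h (by rwa [Ideal.span_singleton_le_iff_mem]))
  have h4 : 1 + ell J ≤ ell J := (add_le_add h2 h3).trans (h1.symm.le.trans hle)
  generalize ell J = e at *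
  induction e using ENat.recTopCoe with
  | top => exact hfin rfl
  | coe n =>
    have : (1 + n : ℕ) ≤ n := by exact_mod_cast h4
    lia

/-- a numerical lemma: linear growth forces bounded increments along a monotone sequence. -/
lemma exists_eq_succ_of_growth (L B : ℕ → ℕ) (C₀ C₁ K c : ℕ) (hL : ∀ t, L t ≤ C₀ * t + C₁)
    (hB : Monotone B) (h : ∀ j, c ≤ j → B (j + 1) + L j ≤ L (j + 1) + K) :
    ∃ j, B (j + 1) ≤ B j := by
  have hbd : ∀ j, B j ≤ C₀ + K := by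
    intro j₂
    by_contra hcon
    push Not at hcon
    set j₃ := max j₂ c with hj₃
    have h1 : ∀ j, j₃ ≤ j → C₀ + K + 1 ≤ B j := fun j hj =>
      hcon.trans_le (hB ((le_max_left _ _).trans hj))
    have h2 : ∀ n, n * (C₀ + 1) ≤ L (j₃ + n) := by
      intro n
      induction n with
      | zero => simp
      | succ n ih =>
        have h3 := h (j₃ + n) ((le_max_right _ _).trans (Nat.le_add_right _ _))
        have h4 := h1 (j₃ + n + 1) (by lia)
        rw [← add_assoc]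
        nlinarith
    have h5 := h2 (C₀ * j₃ + C₁ + 1)
    have h6 := hL (j₃ + (C₀ * j₃ + C₁ + 1))
    nlinarith
  by_contra hcon
  push Not at hcon
  have h7 : ∀ j, j ≤ B j := by
    intro j
    induction j with
    | zero => exact Nat.zero_le _
    | succ j ih => exact lt_of_le_of_lt ih (hcon j)
  have h8 := h7 (C₀ + K + 1)
  have h9 := hbd (C₀ + K + 1)
  lia

/-- generic `x` in the maximal ideal of `R`, for an `R`-algebra `D₁` of dimension at
most one (linear growth). -/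
theorem exists_generic_x {R D₁ : Type*} [CommRing R] [IsLocalRing R] [IsNoetherianRing R]
    [Infinite (ResidueField R)] [CommRing D₁] [IsLocalRing D₁] [IsNoetherianRing D₁]
    [Algebra R D₁] [IsLocalHom (algebraMap R D₁)]
    (C₀ C₁ : ℕ) (hgrowth : ∀ t : ℕ,
      Module.length D₁ (D₁ ⧸ ((maximalIdeal R).map (algebraMap R D₁)) ^ t) ≤ (C₀ * t + C₁ : ℕ))
    (U : Finset (Ideal R)) (hU : ∀ J ∈ U, ¬ maximalIdeal R ≤ J) :
    ∃ x ∈ maximalIdeal R, (∀ J ∈ U, x ∉ J) ∧ ∃ i₀ : ℕ, ∀ i : ℕ,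
      ((maximalIdeal R).map (algebraMap R D₁)) ^ (i + i₀) ≤
        Ideal.span {algebraMap R D₁ x ^ i} := by
  classical
  obtain ⟨U₁, hU₁, hsup⟩ := superficial_avoid (B := D₁) (maximalIdeal R) (N := D₁)
  obtain ⟨x, hx, hxU⟩ := avoid_ideals (maximalIdeal R) (IsNoetherian.noetherian _) (U ∪ U₁)
    (fun J hJ => (Finset.mem_union.mp hJ).elim (hU J) (hU₁ J))
  refine ⟨x, hx, fun J hJ => hxU J (Finset.mem_union_left _ hJ), ?_⟩
  obtain ⟨c, hc⟩ := hsup x hx fun J hJ => hxU J (Finset.mem_union_right _ hJ)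
  have hnle : (maximalIdeal R).map (algebraMap R D₁) ≤ maximalIdeal D₁ :=
    map_maximalIdeal_le (algebraMap R D₁)
  have hy : algebraMap R D₁ x ∈ (maximalIdeal R).map (algebraMap R D₁) :=
    Ideal.mem_map_of_mem _ hx
  generalize (maximalIdeal R).map (algebraMap R D₁) = 𝔫 at *
  generalize algebraMap R D₁ x = y at *
  have hc' : ∀ j, c ≤ j → ∀ v ∈ 𝔫 ^ c, y * v ∈ 𝔫 ^ (j + 1) → v ∈ 𝔫 ^ j := by
    intro j hj v hv hyv
    have := hc j hj v (by simpa using hv) (by simpa using hyv)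
    simpa using this
  -- lengths
  have hfin : ∀ j, ell (𝔫 ^ j) ≠ ⊤ := fun j h => by
    have := hgrowth j
    rw [← ell, h] at this
    exact ENat.natCast_ne_top _ (top_le_iff.mp this)
  have hfin' : ∀ j, ell (𝔫 ^ j ⊔ Ideal.span {y}) ≠ ⊤ := fun j h => hfin j
    (top_le_iff.mp (h.symm.le.trans (ell_mono le_sup_left)))
  have key : ∀ j, c ≤ j → ell (𝔫 ^ (j + 1) ⊔ Ideal.span {y}) + ell (𝔫 ^ j) ≤
      ell (𝔫 ^ (j + 1)) + ell (𝔫 ^ c) := by
    intro j hj
    have h1 : col (𝔫 ^ (j + 1)) y ⊓ 𝔫 ^ c ≤ 𝔫 ^ j := by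
      rintro v ⟨hv1, hv2⟩
      refine hc' j hj v hv2 ?_
      rw [mul_comm]
      exact mem_col.mp hv1
    have h2 : ell (𝔫 ^ j) ≤ ell (col (𝔫 ^ (j + 1)) y) + ell (𝔫 ^ c) :=
      (ell_mono h1).trans (ell_inf_le _ _)
    rw [ell_eq_add (𝔫 ^ (j + 1)) y]
    calc ell (𝔫 ^ (j + 1) ⊔ Ideal.span {y}) + ell (𝔫 ^ j)
        ≤ ell (𝔫 ^ (j + 1) ⊔ Ideal.span {y}) + (ell (col (𝔫 ^ (j + 1)) y) + ell (𝔫 ^ c)) :=
          add_le_add le_rfl h2
      _ = _ := by ring
  obtain ⟨j₁, hj₁⟩ := exists_eq_succ_of_growth (fun j => (ell (𝔫 ^ j)).toNat)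
    (fun j => (ell (𝔫 ^ j ⊔ Ideal.span {y})).toNat) C₀ C₁ (ell (𝔫 ^ c)).toNat c
    (fun t => ENat.toNat_le_of_le_natCast (hgrowth t))
    (fun i j hij => ENat.toNat_le_toNat
      (ell_mono (sup_le_sup_right (Ideal.pow_le_pow_right hij) _)) (hfin' j))
    (fun j hj => by
      have h1 := key j hj
      rw [← ENat.natCast_toNat (hfin j), ← ENat.natCast_toNat (hfin (j + 1)), ← ENat.natCast_toNat (hfin c),
        ← ENat.natCast_toNat (hfin' (j + 1))] at h1
      exact_mod_cast h1)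
  have hsub : 𝔫 ^ j₁ ≤ 𝔫 ^ (j₁ + 1) ⊔ Ideal.span {y} := by
    refine le_sup_left.trans (le_of_ell_le (J := 𝔫 ^ j₁ ⊔ Ideal.span {y})
      (sup_le_sup_right (Ideal.pow_le_pow_right (by lia)) _) (hfin' j₁) ?_)
    rw [← ENat.natCast_toNat (hfin' j₁), ← ENat.natCast_toNat (hfin' (j₁ + 1))]
    exact_mod_cast hj₁
  have hnak : 𝔫 ^ j₁ ≤ Ideal.span {y} := by
    refine Submodule.le_of_le_smul_of_le_jacobson_bot (I := 𝔫) (IsNoetherian.noetherian _)
      (hnle.trans (maximalIdeal_le_jacobson _)) ?_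
    rw [smul_eq_mul, ← pow_succ', sup_comm]
    exact hsub
  -- Artin-Rees
  obtain ⟨k, hk⟩ := Ideal.exists_pow_inf_eq_pow_smul 𝔫 (Ideal.span {y} : Ideal D₁)
  set n₀ := j₁ + k + c with hn₀
  have hstep : ∀ n, n₀ ≤ n → ∀ w ∈ 𝔫 ^ (n + 1), ∃ v ∈ 𝔫 ^ n, w = y * v := by
    intro n hn w hw
    have h1 : w ∈ 𝔫 ^ (n + 1) • (⊤ : Ideal D₁) ⊓ Ideal.span {y} := by
      refine ⟨by simpa using hw, hnak (Ideal.pow_le_pow_right (by lia) hw)⟩
    rw [hk (n + 1) (by lia)] at h1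
    have h2 : w ∈ 𝔫 ^ (n + 1 - k) • Ideal.span {y} := Submodule.smul_mono le_rfl inf_le_right h1
    rw [smul_eq_mul, Ideal.mem_mul_span_singleton] at h2
    obtain ⟨v, hv, rfl⟩ := h2
    refine ⟨v, hc' n (by lia) v (Ideal.pow_le_pow_right (by lia) hv) ?_, mul_comm _ _⟩
    rw [mul_comm]; exact hw
  have hpow : ∀ i, ∀ w ∈ 𝔫 ^ (i + n₀), ∃ v ∈ 𝔫 ^ n₀, w = y ^ i * v := by
    intro i
    induction i with
    | zero => intro w hw; exact ⟨w, by simpa using hw, by simp⟩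
    | succ i ih =>
      intro w hw
      obtain ⟨v, hv, rfl⟩ := hstep (i + n₀) (by lia) w
        (by rwa [show i + n₀ + 1 = i + 1 + n₀ by lia])
      obtain ⟨u, hu, rfl⟩ := ih v hv
      exact ⟨u, hu, by ring⟩
  refine ⟨n₀, fun i w hw => ?_⟩
  obtain ⟨v, _, rfl⟩ := hpow i w hw
  exact Ideal.mul_mem_right _ _ (Ideal.mem_span_singleton_self _)

end Vale.Agent.P202
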