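import Vale.Agent.P202.Avoid
import Vale.Agent.P202.Sup
import Mathlib.RingTheory.Flat.EquationalCriterion

/-!
Quotients of flat local homomorphisms by an ideal of the base; filter-regular elements.
-/

set_option linter.unusedSectionVars false

namespace Vale.Agent.P202

open Ideal IsLocalRing TensorProduct

section

variable {R S : Type*} [CommRing R] [CommRing S] [Algebra R S]

theorem flat_quot [Module.Flat R S] (I : Ideal R) :
    Module.Flat (R ⧸ I) (S ⧸ I.map (algebraMap R S)) := by
  let e1 : (R ⧸ I) ⊗[R] S ≃ₗ[R] S ⧸ (I • (⊤ : Submodule R S)) :=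
    TensorProduct.quotTensorEquivQuotSMul S I
  have h : (I • (⊤ : Submodule R S)) = (I.map (algebraMap R S)).restrictScalars R :=
    Ideal.smul_top_eq_map I
  let e2 : (S ⧸ (I • (⊤ : Submodule R S))) ≃ₗ[R]
      (S ⧸ (I.map (algebraMap R S)).restrictScalars R) := Submodule.quotEquivOfEq _ _ h
  let e3 : (S ⧸ (I.map (algebraMap R S)).restrictScalars R) ≃ₗ[R]
      (S ⧸ I.map (algebraMap R S)) := Submodule.Quotient.restrictScalarsEquiv R _
  let e : (R ⧸ I) ⊗[R] S ≃ₗ[R ⧸ I] (S ⧸ I.map (algebraMap R S)) :=
    LinearEquiv.extendScalarsOfSurjective (Ideal.Quotient.mk_surjective) ((e1.trans e2).trans e3)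
  exact Module.Flat.of_linearEquiv e.symm

/-- annihilators and flat base change. -/
lemma col_bot_le_map [Module.Flat R S] (x : R) :
    col (⊥ : Ideal S) (algebraMap R S x) ≤ (col (⊥ : Ideal R) x).map (algebraMap R S) := by
  intro s hs
  rw [mem_col, Ideal.mem_bot] at hs
  have h0 : ∑ _i : Unit, x • s = 0 := by
    rw [Finset.sum_const, Finset.card_univ, Fintype.card_unit, one_smul, Algebra.smul_def,
      mul_comm, hs]
  obtain ⟨κ, a, y, hy, ha⟩ := Module.Flat.isTrivialRelation_of_sum_smul_eq_zero
    (f := fun _ : Unit => x) (x := fun _ : Unit => s) h0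
  have hs' : s = ∑ j, a () j • y j := hy ()
  rw [hs']
  refine Ideal.sum_mem _ fun j _ => ?_
  rw [Algebra.smul_def]
  refine Ideal.mul_mem_right _ _ (Ideal.mem_map_of_mem _ ?_)
  rw [mem_col, Ideal.mem_bot, mul_comm]
  have := ha j
  simpa using this

end

section

variable {R S : Type*} [CommRing R] [IsLocalRing R] [IsNoetherianRing R]
  [CommRing S] [IsLocalRing S] [IsNoetherianRing S] [Algebra R S]

/-- a module of finite length over a Noetherian local ring is killed by a power of the maximal
ideal (for ideals). -/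
lemma exists_pow_mul_eq_bot {K : Ideal R} (hK : Module.length R K ≠ ⊤) :
    ∃ s, maximalIdeal R ^ s * K = ⊥ := by
  have hart : IsArtinian R K :=
    ((isFiniteLength_iff_isNoetherian_isArtinian).mp (Module.length_ne_top_iff.mp hK)).2
  -- the decreasing sequence `m ^ s K` stabilizes
  have hanti : Antitone fun s : ℕ => (maximalIdeal R ^ s • (⊤ : Submodule R K)) := by
    intro a b hab
    exact Submodule.smul_mono_left (Ideal.pow_le_pow_right hab)
  obtain ⟨n, hn⟩ := IsArtinian.monotone_stabilizes
    (⟨fun s => OrderDual.toDual (maximalIdeal R ^ s • (⊤ : Submodule R K)), fun a b hab =>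
      hanti hab⟩ : ℕ →o (Submodule R K)ᵒᵈ)
  have h1 : maximalIdeal R ^ n • (⊤ : Submodule R K) =
      maximalIdeal R • (maximalIdeal R ^ n • (⊤ : Submodule R K)) := by
    have h2 : maximalIdeal R ^ n • (⊤ : Submodule R K) =
        maximalIdeal R ^ (n + 1) • (⊤ : Submodule R K) := hn (n + 1) (Nat.le_succ n)
    rw [← Submodule.mul_smul, ← pow_succ']
    exact h2
  have h3 : maximalIdeal R ^ n • (⊤ : Submodule R K) = ⊥ := by
    refine Submodule.eq_bot_of_le_smul_of_le_jacobson_bot (maximalIdeal R) _
      (IsNoetherian.noetherian _) h1.le ?_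
    rw [IsLocalRing.jacobson_eq_maximalIdeal _ bot_ne_top]
  refine ⟨n, ?_⟩
  rw [eq_bot_iff, Ideal.mul_le]
  intro r hr a ha
  have h4 : r • (⟨a, ha⟩ : K) ∈ maximalIdeal R ^ n • (⊤ : Submodule R K) :=
    Submodule.smul_mem_smul hr Submodule.mem_top
  rw [h3, Submodule.mem_bot] at h4
  have := congrArg Subtype.val h4
  simpa using this

/-- filter regularity and flat base change. -/
theorem filter_regular_map [Module.Flat R S]
    (hfib : ell ((maximalIdeal R).map (algebraMap R S)) ≠ ⊤) (x : R)
    (hx : ∀ i, Module.length R (col (⊥ : Ideal R) (x ^ i)) ≠ ⊤) (i : ℕ) :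
    Module.length S (col (⊥ : Ideal S) (algebraMap R S x ^ i)) ≠ ⊤ := by
  obtain ⟨s, hs⟩ := exists_pow_mul_eq_bot (hx i)
  obtain ⟨t, ht⟩ := exists_pow_le_of_ell_ne_top hfib
  rw [← map_pow]
  refine length_ne_top_of_pow_smul (t * s) fun a ha v => ?_
  have h1 : (v : S) ∈ (col (⊥ : Ideal R) (x ^ i)).map (algebraMap R S) :=
    col_bot_le_map _ v.2
  have h2 : a ∈ (maximalIdeal R ^ s).map (algebraMap R S) := by
    rw [Ideal.map_pow]
    rw [pow_mul] at ha
    exact Ideal.pow_right_mono ht s ha
  have h3 := Ideal.mul_mem_mul h2 h1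
  rw [← Ideal.map_mul, hs, Ideal.map_bot, Ideal.mem_bot] at h3
  exact Subtype.ext h3

end

section

variable {R : Type*} [CommRing R] [IsLocalRing R] [IsNoetherianRing R] [Infinite (ResidueField R)]

/-- perturbation of an element by the square of the maximal ideal so that it becomes
filter-regular. -/
theorem exists_perturb (x : R) : ∃ w ∈ maximalIdeal R ^ 2,
    ∀ i, Module.length R (col (⊥ : Ideal R) ((x + w) ^ i)) ≠ ⊤ := by
  classical
  have hass : (associatedPrimes R R).Finite := associatedPrimes.finite R R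
  let U : Finset (Ideal R) := hass.toFinset.erase (maximalIdeal R)
  have hUprime : ∀ P ∈ U, P.IsPrime := by
    intro P hP
    rw [Finset.mem_erase, Set.Finite.mem_toFinset] at hP
    exact IsAssociatedPrime.isPrime hP.2
  obtain ⟨v, hv, hvU⟩ := avoid_ideals (maximalIdeal R ^ 2) (IsNoetherian.noetherian _) U (by
    intro P hP hle
    have hp := hUprime P hP
    rw [Finset.mem_erase] at hP
    have h2 : maximalIdeal R ≤ P := hp.le_of_pow_le hle
    exact hP.1 (((IsLocalRing.maximalIdeal.isMaximal R).eq_of_le hp.ne_top h2).symm))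
  -- choose representatives of the residue classes
  obtain ⟨r, hr⟩ : ∃ r : ResidueField R → R, ∀ a, residue R (r a) = a :=
    ⟨Function.surjInv residue_surjective, Function.surjInv_eq residue_surjective⟩
  have key : ∃ a : ResidueField R, ∀ P ∈ U, x + r a * v ∉ P := by
    by_contra hcon
    push Not at hcon
    choose P hP hmem using hcon
    obtain ⟨a, b, hab, hPab⟩ := Finite.exists_ne_map_eq_of_infinite
      (fun a : ResidueField R => (⟨P a, hP a⟩ : U))
    have hPab' : P a = P b := congrArg Subtype.val hPab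
    have h1 : (r a - r b) * v ∈ P a := by
      have h2 := hmem a
      have h3 := hmem b
      rw [← hPab'] at h3
      have := (P a).sub_mem h2 h3
      rw [sub_mul]
      simpa using this
    have hunit : IsUnit (r a - r b) := by
      by_contra hnu
      have h4 : r a - r b ∈ maximalIdeal R := (mem_maximalIdeal _).mpr hnu
      rw [← residue_eq_zero_iff, map_sub, hr, hr, sub_eq_zero] at h4
      exact hab h4
    exact hvU _ (hP a) ((Ideal.unit_mul_mem_iff_mem _ hunit).mp h1)
  obtain ⟨a, ha⟩ := key
  refine ⟨r a * v, Ideal.mul_mem_left _ _ hv, length_col_ne_top fun P hP hmem => ?_⟩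
  by_contra hne
  exact ha P (Finset.mem_erase.mpr ⟨hne, hass.mem_toFinset.mpr hP⟩) hmem

end

end Vale.Agent.P202
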