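import Vale.Agent.P202.Reduction

/-!
Existence of reductions with few generators (main statement).
-/

set_option linter.unusedSectionVars false

namespace Vale.Agent.P202

open Ideal IsLocalRing Finset

variable {R A : Type*} [CommRing R] [IsLocalRing R] [Infinite (ResidueField R)] [CommRing A]
  [IsLocalRing A] [Algebra R A] [IsLocalHom (algebraMap R A)]

lemma span_range_pad {r d : ℕ} (h : r ≤ d) (x : Fin r → A) :
    Ideal.span (Set.range fun i : Fin d => if h : (i : ℕ) < r then x ⟨i, h⟩ else 0) =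
      Ideal.span (Set.range x) := by
  refine le_antisymm ?_ ?_
  · rw [Ideal.span_le]
    rintro _ ⟨i, rfl⟩
    by_cases hi : (i : ℕ) < r
    · simp only [hi, dif_pos, SetLike.mem_coe]
      exact Ideal.subset_span ⟨_, rfl⟩
    · simp [hi]
  · refine Ideal.span_mono ?_
    rintro _ ⟨i, rfl⟩
    exact ⟨⟨i, i.2.trans_le h⟩, by simp⟩

lemma span_R_le (x0 : Set A) (h : ∀ a ∈ x0, a ∈ maximalIdeal A) {a : A}
    (ha : a ∈ Submodule.span R x0) : a ∈ maximalIdeal A := by
  have : Submodule.span R x0 ≤ (maximalIdeal A).restrictScalars R := by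
    rw [Submodule.span_le]
    intro a ha
    exact h a ha
  exact this ha

lemma span_R_le_ideal (x0 : Set A) {a : A}
    (ha : a ∈ Submodule.span R x0) : a ∈ Ideal.span x0 := by
  have : Submodule.span R x0 ≤ (Ideal.span x0).restrictScalars R := by
    rw [Submodule.span_le]
    intro a ha
    exact Ideal.subset_span ha
  exact this ha

variable (R) in
theorem exists_reduction [IsNoetherianRing A] {s : ℕ} (x0 : Fin s → A)
    (hx0 : ∀ i, x0 i ∈ maximalIdeal A) (d B : ℕ)
    (hB : ∀ n, 0 < n → ell (Ideal.span (Set.range x0) ^ n) ≤ (B * n ^ d : ℕ)) :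
    ∃ x : Fin d → A, (∀ i, x i ∈ Submodule.span R (Set.range x0)) ∧
      IsRed (Ideal.span (Set.range x)) (Ideal.span (Set.range x0)) := by
  classical
  set H := Ideal.span (Set.range x0) with hH
  let P : ℕ → Prop := fun r => ∃ x : Fin r → A, (∀ i, x i ∈ Submodule.span R (Set.range x0)) ∧
      IsRed (Ideal.span (Set.range x)) H
  have hPs : ∃ r, P r := ⟨s, x0, fun i => Submodule.subset_span ⟨i, rfl⟩, IsRed.refl _⟩
  obtain ⟨r, hr, hmin⟩ : ∃ r, P r ∧ ∀ r' < r, ¬ P r' :=
    ⟨Nat.find hPs, Nat.find_spec hPs, fun r' h => Nat.find_min hPs h⟩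
  obtain ⟨x, hx, hred⟩ := hr
  have hx0' : ∀ a ∈ Set.range x0, a ∈ maximalIdeal A := by
    rintro _ ⟨i, rfl⟩; exact hx0 i
  have hxn : ∀ i, x i ∈ maximalIdeal A := fun i => span_R_le (R := R) _ hx0' (hx i)
  have hne : ∀ u, gp x u ≠ 0 := by
    intro u hu
    rcases r with _ | r
    · have hu0 : u = 0 := by ext i; exact i.elim0
      subst hu0
      rw [gp_zero_eq, ell_eq_zero_iff] at hu
      have : Ideal.span (Set.range x) = ⊥ := by
        rw [Ideal.span_eq_bot]
        rintro _ ⟨i, rfl⟩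
        exact i.elim0
      rw [this] at hu
      exact bot_ne_top hu
    · obtain ⟨l, D, hD⟩ := reduction_step (R := R) x hxn u hu
      refine hmin r (Nat.lt_succ_self r)
        ⟨fun i => x i.succ - algebraMap R A (l i) * x 0, fun i => ?_, ?_⟩
      · refine Submodule.sub_mem _ (hx _) ?_
        rw [← Algebra.smul_def]
        exact Submodule.smul_mem _ _ (hx 0)
      · refine IsRed.trans ⟨?_, D, hD⟩ hred
        rw [Ideal.span_le]
        rintro _ ⟨i, rfl⟩
        exact Ideal.sub_mem _ (Ideal.subset_span ⟨_, rfl⟩)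
          (Ideal.mul_mem_left _ _ (Ideal.subset_span ⟨_, rfl⟩))
  obtain ⟨c, hc⟩ := hred.exists_pow_le
  have hem : 1 ≤ emin x := by
    obtain ⟨u, hu⟩ := exists_gp_eq_emin x
    rw [← hu]
    exact Order.one_le_iff_ne_zero.mpr (hne u)
  have hcount : ∀ n, 0 < n → (tri (Fin r) n).card ≤ B * (n + c) ^ d := by
    intro n hn
    have h1 : ((tri (Fin r) n).card : ℕ∞) ≤ (B * (n + c) ^ d : ℕ) := by
      calc ((tri (Fin r) n).card : ℕ∞) ≤ emin x * (tri (Fin r) n).card := by
            conv_lhs => rw [← one_mul ((tri (Fin r) n).card : ℕ∞)]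
            gcongr
        _ ≤ ell (Ideal.span (Set.range x) ^ n) := emin_mul_card_le x n
        _ ≤ ell (H ^ (n + c)) := ell_mono (hc n)
        _ ≤ _ := hB (n + c) (by omega)
    exact_mod_cast h1
  have hrd : r ≤ d := by
    by_contra hlt
    push Not at hlt
    have := le_of_forall_pow_le (d := r) (by omega) 1 0 (r.factorial * B) c fun n hn => by
      have h1 := pow_le_factorial_mul_card_tri (σ := Fin r) n hn
      rw [Fintype.card_fin] at h1
      rw [one_mul, zero_mul, zero_add]
      calc n ^ r ≤ r.factorial * (tri (Fin r) n).card := h1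
        _ ≤ r.factorial * (B * (n + c) ^ d) := Nat.mul_le_mul_left _ (hcount n hn)
        _ ≤ r.factorial * (B * (n + c) ^ (r - 1)) := by
            refine Nat.mul_le_mul_left _ (Nat.mul_le_mul_left _ (Nat.pow_le_pow_right ?_ ?_)) <;>
              omega
        _ = _ := by ring
    omega
  refine ⟨fun i : Fin d => if h : (i : ℕ) < r then x ⟨i, h⟩ else 0, fun i => ?_, ?_⟩
  · by_cases hi : (i : ℕ) < r
    · simp only [hi, dif_pos]; exact hx _
    · simp only [hi, dif_neg, not_false_eq_true]; exact Submodule.zero_mem _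
  · rw [span_range_pad hrd]
    exact hred

/-- polynomial growth of the colengths of the powers of an ideal contained in a `d`-generated
primary situation. -/
lemma exists_growth [IsNoetherianRing A] {d : ℕ} (w : Fin d → A)
    (hw : ∃ s, maximalIdeal A ^ s ≤ Ideal.span (Set.range w)) (I : Ideal A) (D : ℕ)
    (hD : Ideal.span (Set.range w) ^ D ≤ I) (hI : ell I ≠ ⊤) :
    ∃ B : ℕ, ∀ n, 0 < n → ell (I ^ n) ≤ (B * n ^ d : ℕ) := by
  obtain ⟨s, hs⟩ := hw
  have h0 : gp w 0 ≠ ⊤ := by
    rw [gp_zero_eq]; exact ell_ne_top_of_pow_le hs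
  obtain ⟨G, hG⟩ := ENat.ne_top_iff_exists.mp h0
  obtain ⟨e, he⟩ := ENat.ne_top_iff_exists.mp (ne_top_of_le_ne_top h0 (emin_le w 0))
  obtain ⟨L, hL⟩ := ENat.ne_top_iff_exists.mp hI
  refine ⟨L * (e + G * (∑ i, umin w i)), fun n hn => ?_⟩
  refine (ell_pow_le_main w I D hD n hn).trans ?_
  rw [errB, ← hG, ← he, ← hL, Fintype.card_fin]
  have h1 : n ^ (d - 1) ≤ n ^ d := Nat.pow_le_pow_right hn (Nat.sub_le _ _)
  have h2 : L * (n ^ d * e + G * (∑ i, umin w i) * n ^ (d - 1)) ≤
      L * (e + G * (∑ i, umin w i)) * n ^ d := by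
    calc L * (n ^ d * e + G * (∑ i, umin w i) * n ^ (d - 1))
        ≤ L * (n ^ d * e + G * (∑ i, umin w i) * n ^ d) := by gcongr
      _ = _ := by ring
  exact_mod_cast h2

end Vale.Agent.P202
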