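import Vale.Agent.P202.FinLen
import Vale.Agent.P202.FilterReg
import Vale.Agent.P202.AsymNat
import Mathlib.Algebra.MvPolynomial.Funext

/-!
Existence of reductions with few generators.
-/

set_option linter.unusedSectionVars false

namespace Vale.Agent.P202

open Ideal IsLocalRing Finset

section rel

variable {A : Type*} [CommRing A]

lemma mon_single {σ : Type*} [Fintype σ] [LinearOrder σ] (y : σ → A) (i : σ) :
    mon y (Finsupp.single i 1) = y i := by
  rw [mon, Finset.prod_eq_single i]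
  · simp
  · intro j _ hj; simp [Finsupp.single_eq_of_ne hj]
  · simp

lemma mon_sub_mem {σ : Type*} [Fintype σ] [LinearOrder σ] (x a : σ → A) (w : A) (J I : Ideal A)
    (hxI : ∀ i, x i ∈ I) (hwI : w ∈ I) (h : ∀ i, x i - a i * w ∈ J) (D : ℕ) :
    ∀ v : σ →₀ ℕ, v.degree = D + 1 → mon x v - mon a v * w ^ (D + 1) ∈ J * I ^ D := by
  classical
  induction D with
  | zero =>
    intro v hv
    have hv0 : v ≠ 0 := by
      rintro rfl
      simp at hv
    obtain ⟨i, hi⟩ : ∃ i, v i ≠ 0 := by
      by_contra hc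
      push Not at hc
      exact hv0 (Finsupp.ext hc)
    have hle : Finsupp.single i 1 ≤ v := by
      rw [Finsupp.single_le_iff]; omega
    obtain ⟨v', rfl⟩ := exists_add_of_le hle
    rw [map_add, Finsupp.degree_single] at hv
    have hv' : v' = 0 := by
      rw [← Finsupp.degree_eq_zero_iff]; omega
    subst hv'
    rw [add_zero, mon_single, mon_single, pow_zero, Ideal.one_eq_top, Ideal.mul_top, pow_one]
    exact h i
  | succ D ih =>
    intro v hv
    have hv0 : v ≠ 0 := by
      rintro rfl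
      simp at hv
    obtain ⟨i, hi⟩ : ∃ i, v i ≠ 0 := by
      by_contra hc
      push Not at hc
      exact hv0 (Finsupp.ext hc)
    have hle : Finsupp.single i 1 ≤ v := by
      rw [Finsupp.single_le_iff]; omega
    obtain ⟨v', rfl⟩ := exists_add_of_le hle
    rw [map_add, Finsupp.degree_single] at hv
    have hv' : v'.degree = D + 1 := by omega
    rw [mon_add, mon_add, mon_single, mon_single]
    have e : x i * mon x v' - a i * mon a v' * w ^ (D + 1 + 1) =
        (mon x v' - mon a v' * w ^ (D + 1)) * x i +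
          (x i - a i * w) * (mon a v' * w ^ (D + 1)) := by ring
    rw [e]
    refine Ideal.add_mem _ ?_ ?_
    · rw [pow_succ, ← mul_assoc]
      exact Ideal.mul_mem_mul (ih v' hv') (hxI i)
    · exact Ideal.mul_mem_mul (h i) (Ideal.mul_mem_left _ _ (Ideal.pow_mem_pow hwI _))

lemma sup_pow_le (J W : Ideal A) (D : ℕ) :
    (J ⊔ W) ^ (D + 1) ≤ J * (J ⊔ W) ^ D ⊔ W ^ (D + 1) := by
  induction D with
  | zero => simp
  | succ D ih =>
    calc (J ⊔ W) ^ (D + 1 + 1) = (J ⊔ W) ^ (D + 1) * J ⊔ (J ⊔ W) ^ (D + 1) * W := by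
          rw [pow_succ _ (D + 1), Ideal.mul_sup]
      _ ≤ J * (J ⊔ W) ^ (D + 1) ⊔ (J * (J ⊔ W) ^ D ⊔ W ^ (D + 1)) * W := by
          refine sup_le_sup (by rw [mul_comm]) (Ideal.mul_mono_left ih)
      _ = J * (J ⊔ W) ^ (D + 1) ⊔ (J * (J ⊔ W) ^ D * W ⊔ W ^ (D + 1 + 1)) := by
          rw [Ideal.sup_mul, pow_succ W (D + 1)]
      _ ≤ J * (J ⊔ W) ^ (D + 1) ⊔ W ^ (D + 1 + 1) := by
          refine sup_le le_sup_left (sup_le ?_ le_sup_right)
          refine le_trans ?_ le_sup_left
          rw [mul_assoc, pow_succ]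
          exact Ideal.mul_mono_right (Ideal.mul_mono_right le_sup_right)

/-- a vanishing graded piece gives a homogeneous relation with a unit coefficient. -/
lemma exists_relation {σ : Type*} [Fintype σ] [LinearOrder σ] (x : σ → A) (u : σ →₀ ℕ)
    (hu : gp x u = 0) : ∃ (T : Finset (σ →₀ ℕ)) (c : (σ →₀ ℕ) → A),
      (∀ w ∈ T, w.degree = u.degree) ∧ u ∈ T ∧ c u = 1 ∧
      ∑ w ∈ T, c w * mon x w ∈ Ideal.span (Set.range x) ^ (u.degree + 1) := by
  classical
  have h1 := piece_eq_zero_iff.mp hu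
  rw [sup_bot_eq] at h1
  set T' := (tri σ (u.degree + 1)).filter (fun w => w.degree = u.degree ∧ dlt u w) with hT'
  have h2 : Fgt x u ≤ FS x (T' : Set (σ →₀ ℕ)) ⊔ Ideal.span (Set.range x) ^ (u.degree + 1) := by
    rw [Fgt, FS, Ideal.span_le]
    rintro _ ⟨w, hw, rfl⟩
    rw [Set.mem_ofPred_eq] at hw
    have h3 : u.degree ≤ w.degree := by
      refine degree_le_of_dle ?_
      exact le_of_lt hw
    rcases h3.eq_or_lt with h4 | h4
    · refine Ideal.mem_sup_left (mon_mem_FS ?_)
      rw [Finset.mem_coe, hT', Finset.mem_filter, mem_tri]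
      exact ⟨by omega, h4.symm, hw⟩
    · exact Ideal.mem_sup_right (Ideal.pow_le_pow_right h4 (mon_mem_pow x w))
  obtain ⟨b', hb', b, hb, hbb⟩ := Submodule.mem_sup.mp (h2 h1)
  have hb'' : b' ∈ Submodule.span A (mon x '' (T' : Set (σ →₀ ℕ))) := hb'
  rw [Submodule.mem_span_image_finset_iff_exists_fun'] at hb''
  obtain ⟨c, hc⟩ := hb''
  have huT' : u ∉ T' := by
    intro hmem
    rw [hT', Finset.mem_filter] at hmem
    exact lt_irrefl _ hmem.2.2
  refine ⟨insert u T', fun w => if w = u then 1 else - c w, ?_, Finset.mem_insert_self _ _,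
    if_pos rfl, ?_⟩
  · intro w hw
    rw [Finset.mem_insert] at hw
    rcases hw with rfl | hw
    · rfl
    · rw [hT', Finset.mem_filter] at hw; exact hw.2.1
  · rw [Finset.sum_insert huT']
    simp only [if_true, one_mul]
    have h5 : ∑ w ∈ T', (if w = u then 1 else - c w) * mon x w = - b' := by
      rw [← hc, ← Finset.sum_neg_distrib]
      refine Finset.sum_congr rfl fun w hw => ?_
      have : w ≠ u := by rintro rfl; exact huT' hw
      rw [if_neg this, smul_eq_mul, neg_mul]
    rw [h5, ← hbb]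
    have : b' + b + -b' = b := by ring
    rw [this]
    exact hb

end rel

variable {R A : Type*} [CommRing R] [IsLocalRing R] [Infinite (ResidueField R)] [CommRing A]
  [IsLocalRing A] [Algebra R A] [IsLocalHom (algebraMap R A)]

lemma infinite_residue_range :
    (Set.range (fun a : R => residue A (algebraMap R A a))).Infinite := by
  have h1 : Set.range (fun a : R => residue A (algebraMap R A a)) =
      Set.range (ResidueField.map (algebraMap R A)) := by
    ext z
    constructor
    · rintro ⟨a, rfl⟩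
      exact ⟨residue R a, rfl⟩
    · rintro ⟨b, rfl⟩
      obtain ⟨a, rfl⟩ := residue_surjective b
      exact ⟨a, rfl⟩
  rw [h1]
  exact Set.infinite_range_of_injective (RingHom.injective _)

/-- A form with a unit coefficient takes a unit value at some point with coordinates in `R`. -/
lemma exists_point {r : ℕ} (T : Finset (Fin (r + 1) →₀ ℕ)) (c : (Fin (r + 1) →₀ ℕ) → A)
    (u : Fin (r + 1) →₀ ℕ) (huT : u ∈ T) (hcu : c u = 1) :
    ∃ l : Fin (r + 1) → R, IsUnit (∑ w ∈ T, c w * mon (fun i => algebraMap R A (l i)) w) ∧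
      IsUnit (l 0) := by
  classical
  let φ : MvPolynomial (Fin (r + 1)) (ResidueField A) :=
    ∑ w ∈ T, MvPolynomial.monomial w (residue A (c w))
  have hφ : φ ≠ 0 := by
    intro h0
    have : MvPolynomial.coeff u φ = 1 := by
      simp only [φ, MvPolynomial.coeff_sum, MvPolynomial.coeff_monomial]
      rw [Finset.sum_eq_single u]
      · simp [hcu]
      · intro w _ hw; rw [if_neg hw]
      · intro h; exact absurd huT h
    rw [h0, MvPolynomial.coeff_zero] at this
    exact zero_ne_one this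
  have hφ' : MvPolynomial.X 0 * φ ≠ 0 := mul_ne_zero (MvPolynomial.X_ne_zero 0) hφ
  have hex : ∃ x ∈ Set.pi Set.univ
      (fun _ : Fin (r + 1) => Set.range (fun a : R => residue A (algebraMap R A a))),
      MvPolynomial.eval x (MvPolynomial.X 0 * φ) ≠ 0 := by
    by_contra hcon
    push Not at hcon
    refine hφ' (MvPolynomial.funext_set _ (fun _ => infinite_residue_range (R := R) (A := A)) ?_)
    intro x hx
    rw [hcon x hx, map_zero]
  obtain ⟨x, hx, hne⟩ := hex
  have hx' : ∀ i, ∃ a : R, residue A (algebraMap R A a) = x i := fun i => hx i (Set.mem_univ _)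
  choose l hl using hx'
  rw [map_mul, MvPolynomial.eval_X] at hne
  refine ⟨l, ?_, ?_⟩
  · rw [← IsLocalRing.residue_ne_zero_iff_isUnit]
    have : residue A (∑ w ∈ T, c w * mon (fun i => algebraMap R A (l i)) w) =
        MvPolynomial.eval x φ := by
      rw [map_sum, map_sum]
      refine Finset.sum_congr rfl fun w _ => ?_
      rw [MvPolynomial.eval_monomial, map_mul, mon, map_prod,
        Finsupp.prod_fintype _ _ (fun i => pow_zero _)]
      congr 1
      refine Finset.prod_congr rfl fun i _ => ?_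
      rw [map_pow, hl]
    rw [this]
    exact right_ne_zero_of_mul hne
  · have h1 : x 0 ≠ 0 := left_ne_zero_of_mul hne
    rw [← hl 0, IsLocalRing.residue_ne_zero_iff_isUnit] at h1
    exact isUnit_of_map_unit (algebraMap R A) _ h1

lemma mon_mul_const {σ : Type*} [Fintype σ] [LinearOrder σ] (a : σ → A) (s : A) (w : σ →₀ ℕ) :
    mon (fun i => a i * s) w = mon a w * s ^ w.degree := by
  simp only [mon, mul_pow, Finset.prod_mul_distrib, Finsupp.degree_eq_sum]
  rw [Finset.prod_pow_eq_pow_sum]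

lemma reduction_step [IsNoetherianRing A] {r : ℕ} (x : Fin (r + 1) → A)
    (hx : ∀ i, x i ∈ maximalIdeal A) (u : Fin (r + 1) →₀ ℕ) (hu : gp x u = 0) :
    ∃ l : Fin r → R, ∃ D : ℕ,
      Ideal.span (Set.range x) ^ (D + 1) ≤
        Ideal.span (Set.range fun i => x i.succ - algebraMap R A (l i) * x 0) *
          Ideal.span (Set.range x) ^ D := by
  classical
  set I := Ideal.span (Set.range x) with hI
  have hIn : I ≤ maximalIdeal A := by
    rw [hI, Ideal.span_le]
    rintro _ ⟨i, rfl⟩
    exact hx i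
  have hxI : ∀ i, x i ∈ I := fun i => Ideal.subset_span ⟨i, rfl⟩
  obtain ⟨T, c, hT, huT, hcu, hrel⟩ := exists_relation x u hu
  rw [← hI] at hrel
  have hu0 : u.degree ≠ 0 := by
    intro h0
    rw [Finsupp.degree_eq_zero_iff] at h0
    subst h0
    rw [gp_zero_eq, ell_eq_zero_iff] at hu
    rw [hI, hu] at hIn
    exact (IsLocalRing.maximalIdeal.isMaximal A).ne_top (top_le_iff.mp hIn)
  obtain ⟨D, hD⟩ : ∃ D, u.degree = D + 1 := ⟨u.degree - 1, by omega⟩
  rw [hD] at hrel
  obtain ⟨l, hl, hl0⟩ := exists_point (R := R) T c u huT hcu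
  obtain ⟨m0, hm0⟩ := hl0
  set s : R := ((m0⁻¹ : Rˣ) : R) with hs
  have hls : l 0 * s = 1 := by rw [← hm0, hs]; exact m0.mul_inv
  let a : Fin (r + 1) → A := fun i => algebraMap R A (l i) * algebraMap R A s
  have ha0 : a 0 = 1 := by
    change algebraMap R A (l 0) * algebraMap R A s = 1
    rw [← map_mul, hls, map_one]
  have hasum : IsUnit (∑ w ∈ T, c w * mon a w) := by
    have : ∑ w ∈ T, c w * mon a w =
        (∑ w ∈ T, c w * mon (fun i => algebraMap R A (l i)) w) * (algebraMap R A s) ^ (D + 1) := by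
      rw [Finset.sum_mul]
      refine Finset.sum_congr rfl fun w hw => ?_
      rw [mon_mul_const, hT w hw, hD, mul_assoc]
    rw [this]
    refine hl.mul (IsUnit.pow _ ?_)
    rw [hs]
    exact (Units.isUnit _).map (algebraMap R A)
  refine ⟨fun i => l i.succ * s, D, ?_⟩
  set J := Ideal.span (Set.range fun i : Fin r => x i.succ - algebraMap R A (l i.succ * s) * x 0)
    with hJ
  have hJI : J ≤ I := by
    rw [hJ, Ideal.span_le]
    rintro _ ⟨i, rfl⟩
    exact Ideal.sub_mem _ (hxI _) (Ideal.mul_mem_left _ _ (hxI _))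
  have hxa : ∀ i, x i - a i * x 0 ∈ J := by
    intro i
    refine Fin.cases ?_ (fun i => ?_) i
    · rw [ha0, one_mul, sub_self]; exact Submodule.zero_mem _
    · refine Ideal.subset_span ⟨i, ?_⟩
      simp only [a, map_mul]
  have hIJ : I = J ⊔ Ideal.span {x 0} := by
    refine le_antisymm ?_ (sup_le hJI ?_)
    · rw [hI, Ideal.span_le]
      rintro _ ⟨i, rfl⟩
      have : x i = (x i - a i * x 0) + a i * x 0 := by ring
      rw [this]
      exact Ideal.add_mem _ (Ideal.mem_sup_left (hxa i)) (Ideal.mem_sup_right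
        (Ideal.mul_mem_left _ _ (Ideal.mem_span_singleton_self _)))
    · rw [Ideal.span_singleton_le_iff_mem]; exact hxI 0
  have key : x 0 ^ (D + 1) ∈ J * I ^ D ⊔ I ^ (D + 1 + 1) := by
    have h1 : ∑ w ∈ T, c w * (mon x w - mon a w * x 0 ^ (D + 1)) ∈ J * I ^ D := by
      refine Ideal.sum_mem _ fun w hw => Ideal.mul_mem_left _ _ ?_
      exact mon_sub_mem x a (x 0) J I hxI (hxI 0) hxa D w (by rw [hT w hw, hD])
    have h2 : (∑ w ∈ T, c w * mon a w) * x 0 ^ (D + 1) =
        ∑ w ∈ T, c w * mon x w - ∑ w ∈ T, c w * (mon x w - mon a w * x 0 ^ (D + 1)) := by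
      rw [Finset.sum_mul, ← Finset.sum_sub_distrib]
      refine Finset.sum_congr rfl fun w _ => ?_
      ring
    rw [← Ideal.unit_mul_mem_iff_mem _ hasum, h2]
    exact Ideal.sub_mem _ (Ideal.mem_sup_right hrel) (Ideal.mem_sup_left h1)
  have h3 : I ^ (D + 1) ≤ J * I ^ D ⊔ maximalIdeal A • I ^ (D + 1) := by
    calc I ^ (D + 1) ≤ J * I ^ D ⊔ Ideal.span {x 0} ^ (D + 1) := by
          conv_lhs => rw [hIJ]
          refine (sup_pow_le J _ D).trans ?_
          rw [← hIJ]
      _ ≤ J * I ^ D ⊔ (J * I ^ D ⊔ I ^ (D + 1 + 1)) := by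
          refine sup_le_sup_left ?_ _
          rw [Ideal.span_singleton_pow, Ideal.span_singleton_le_iff_mem]
          exact key
      _ ≤ J * I ^ D ⊔ maximalIdeal A • I ^ (D + 1) := by
          refine sup_le le_sup_left (sup_le le_sup_left (le_trans ?_ le_sup_right))
          rw [pow_succ, mul_comm, smul_eq_mul]
          exact Ideal.mul_mono_left hIn
  exact Submodule.le_of_le_smul_of_le_jacobson_bot (IsNoetherian.noetherian _)
    (IsLocalRing.maximalIdeal_le_jacobson _) h3

/-- `J` is a reduction of `H`. -/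
def IsRed (J H : Ideal A) : Prop := J ≤ H ∧ ∃ c, H ^ (c + 1) ≤ J * H ^ c

lemma IsRed.refl (H : Ideal A) : IsRed H H := ⟨le_rfl, 0, by simp⟩

lemma IsRed.trans {K J H : Ideal A} (h1 : IsRed K J) (h2 : IsRed J H) : IsRed K H := by
  obtain ⟨h1, b, hb⟩ := h1
  obtain ⟨h2, c, hc⟩ := h2
  refine ⟨h1.trans h2, c + b, ?_⟩
  have h3 : ∀ n, H ^ (c + n) ≤ J ^ n * H ^ c := by
    intro n
    induction n with
    | zero => simp
    | succ n ih =>
      calc H ^ (c + (n + 1)) = H ^ (c + n) * H := by rw [← pow_succ, add_assoc]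
        _ ≤ (J ^ n * H ^ c) * H := Ideal.mul_mono_left ih
        _ = J ^ n * H ^ (c + 1) := by rw [mul_assoc, pow_succ]
        _ ≤ J ^ n * (J * H ^ c) := Ideal.mul_mono_right hc
        _ = J ^ (n + 1) * H ^ c := by rw [← mul_assoc, pow_succ]
  calc H ^ (c + b + 1) = H ^ (c + (b + 1)) := by rw [add_assoc]
    _ ≤ J ^ (b + 1) * H ^ c := h3 _
    _ ≤ (K * J ^ b) * H ^ c := Ideal.mul_mono_left hb
    _ = K * (J ^ b * H ^ c) := mul_assoc _ _ _
    _ ≤ K * (H ^ b * H ^ c) := Ideal.mul_mono_right (Ideal.mul_mono_left (Ideal.pow_right_mono h2 b))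
    _ = K * H ^ (c + b) := by rw [← pow_add, add_comm b c]

lemma IsRed.exists_pow_le {J H : Ideal A} (h : IsRed J H) :
    ∃ c, ∀ n, H ^ (n + c) ≤ J ^ n := by
  obtain ⟨h2, c, hc⟩ := h
  refine ⟨c, fun n => ?_⟩
  have h3 : H ^ (n + c) ≤ J ^ n * H ^ c := by
    induction n with
    | zero => simp
    | succ n ih =>
      calc H ^ (n + 1 + c) = H ^ (n + c) * H := by rw [← pow_succ]; congr 1; omega
        _ ≤ (J ^ n * H ^ c) * H := Ideal.mul_mono_left ih
        _ = J ^ n * H ^ (c + 1) := by rw [mul_assoc, pow_succ]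
        _ ≤ J ^ n * (J * H ^ c) := Ideal.mul_mono_right hc
        _ = J ^ (n + 1) * H ^ c := by rw [← mul_assoc, pow_succ]
  exact h3.trans Ideal.mul_le_left

end Vale.Agent.P202
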