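import Vale.Agent.P202.SL2Aux
import Vale.Agent.P202.Langton
import Vale.Agent.P202.CoreMain

/-!
The SL2 theorem.
-/

namespace Vale.Agent.P202

open IsLocalRing

section
variable {A : Type*} [CommRing A] {V : Type*} [AddCommGroup V] [Module A V]

/-- cancellation of powers of `x1` in a submodule on which `x1, x2` is regular. -/
lemma mem_pow_smul_of_pow_smul {x1 x2 : A} (W : Submodule A V)
    (r1 : ∀ v ∈ W, x1 • v = 0 → v = 0)
    (r2 : ∀ v ∈ W, ∀ w ∈ W, x2 • v = x1 • w → ∃ u ∈ W, v = x1 • u) (p n : ℕ) {u : V}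
    (hu : u ∈ W) (h : x1 ^ p • u ∈ Ideal.span {x1, x2} ^ (n + p) • W) :
    u ∈ Ideal.span {x1, x2} ^ n • W := by
  have hmap : ∀ k : ℕ, (qPow (Ideal.span {x1, x2}) W k).map W.subtype =
      Ideal.span {x1, x2} ^ k • W := by
    intro k
    rw [qPow, Submodule.map_smul'', Submodule.map_top, Submodule.range_subtype]
  have r1' : ∀ v : W, x1 • v = 0 → v = 0 := by
    intro v hv
    exact Subtype.ext (r1 v v.2 (congrArg Subtype.val hv))
  have r2' : ∀ v w : W, x2 • v = x1 • w → ∃ u : W, v = x1 • u := by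
    intro v w hvw
    obtain ⟨u, hu, huv⟩ := r2 v v.2 w w.2 (congrArg Subtype.val hvw)
    exact ⟨⟨u, hu⟩, Subtype.ext huv⟩
  have key : ∀ p : ℕ, ∀ v : W, x1 ^ p • v ∈ qPow (Ideal.span {x1, x2}) W (n + p) →
      v ∈ qPow (Ideal.span {x1, x2}) W n := by
    intro p
    induction p with
    | zero => intro v hv; simpa using hv
    | succ p ih =>
      intro v hv
      rw [pow_succ', mul_smul] at hv
      exact ih v (mem_qPow_of_x1_smul r1' r2' hv)
  rw [← hmap] at h ⊢
  obtain ⟨w, hw, hwu⟩ := h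
  refine ⟨⟨u, hu⟩, key p _ ?_, rfl⟩
  have : w = x1 ^ p • (⟨u, hu⟩ : W) := Subtype.ext hwu
  rwa [← this]

/-- finite length modules over a local ring are killed by a power of the maximal ideal. -/
lemma exists_pow_smul_le_of_rl [IsLocalRing A] (J : Submodule A V) (hJ : rl J ⊤ ≠ ⊤) :
    ∃ p : ℕ, maximalIdeal A ^ p • (⊤ : Submodule A V) ≤ J := by
  rw [rl_top] at hJ
  obtain ⟨hNo, hAr⟩ := isFiniteLength_iff_isNoetherian_isArtinian.mp (Module.length_ne_top_iff.mp hJ)
  obtain ⟨k, hk⟩ : ∃ k : ℕ, maximalIdeal A ^ k • (⊤ : Submodule A (V ⧸ J)) = ⊥ := by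
    let f : ℕ →o (Submodule A (V ⧸ J))ᵒᵈ :=
      ⟨fun k => OrderDual.toDual (maximalIdeal A ^ k • ⊤), fun a b hab =>
        Submodule.smul_mono_left (Ideal.pow_le_pow_right hab)⟩
    obtain ⟨k, hk⟩ := IsArtinian.monotone_stabilizes f
    refine ⟨k, ?_⟩
    have h1 : maximalIdeal A ^ k • (⊤ : Submodule A (V ⧸ J))
        = maximalIdeal A ^ (k + 1) • ⊤ := hk (k + 1) (Nat.le_succ k)
    refine Submodule.eq_bot_of_le_smul_of_le_jacobson_bot (maximalIdeal A) _
      (IsNoetherian.noetherian _) ?_ (IsLocalRing.maximalIdeal_le_jacobson _)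
    rw [← mul_smul, ← pow_succ']
    exact h1.le
  refine ⟨k, ?_⟩
  have h2 : (maximalIdeal A ^ k • (⊤ : Submodule A V)).map J.mkQ = ⊥ := by
    rw [Submodule.map_smul'', Submodule.map_top, Submodule.range_mkQ, hk]
  intro v hv
  have h3 : J.mkQ v ∈ (maximalIdeal A ^ k • (⊤ : Submodule A V)).map J.mkQ := ⟨v, hv, rfl⟩
  rw [h2, Submodule.mem_bot, Submodule.mkQ_apply, Submodule.Quotient.mk_eq_zero] at h3
  exact h3

/-- colengths of powers of `m` times an ideal. -/
lemma rl_pow_mul_ne_top [IsNoetherianRing A] [IsLocalRing A]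
    (hV : rl (maximalIdeal A • (⊤ : Submodule A V)) ⊤ ≠ ⊤) (C : Ideal A) (n : ℕ) :
    rl ((maximalIdeal A ^ n * C) • (⊤ : Submodule A V)) (C • (⊤ : Submodule A V)) ≠ ⊤ := by
  induction n with
  | zero => simp
  | succ n ih =>
    have h1 : (maximalIdeal A ^ (n + 1) * C) ≤ (maximalIdeal A ^ n * C) :=
      Ideal.mul_mono_left (Ideal.pow_le_pow_right (Nat.le_succ n))
    have h2 : (maximalIdeal A ^ n * C) ≤ C := Ideal.mul_le_right
    rw [rl_add (Submodule.smul_mono_left h1) (Submodule.smul_mono_left h2)]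
    intro h
    rcases WithTop.add_eq_top.mp h with h3 | h3
    · refine rl_smul_ne_top hV (IsNoetherian.noetherian (maximalIdeal A ^ n * C)) _ ?_ h3
      rw [← Submodule.mul_smul]
      refine Submodule.smul_mono_left ?_
      rw [pow_succ, mul_assoc, mul_assoc, mul_comm C]
    · exact ih h3

lemma pow_add_le_pow {m q : Ideal A} {r : ℕ} (hr : m ^ (r + 1) ≤ q * m ^ r) (s : ℕ) :
    m ^ (r + s) ≤ q ^ s := by
  have h1 : ∀ s : ℕ, m ^ (r + s) ≤ q ^ s * m ^ r := by
    intro s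
    induction s with
    | zero => simp
    | succ s ih =>
      calc m ^ (r + (s + 1)) = m ^ (r + s) * m := by rw [← add_assoc, pow_succ]
        _ ≤ (q ^ s * m ^ r) * m := Ideal.mul_mono_left ih
        _ = q ^ s * m ^ (r + 1) := by rw [mul_assoc, ← pow_succ]
        _ ≤ q ^ s * (q * m ^ r) := Ideal.mul_mono_right hr
        _ = q ^ (s + 1) * m ^ r := by rw [← mul_assoc, ← pow_succ]
  exact (h1 s).trans Ideal.mul_le_left

end

/-- a finite module killed by an ideal of finite colength has finite length. -/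
lemma length_quotient_smul_ne_top {S : Type*} [CommRing S] [IsNoetherianRing S] (J : Ideal S)
    (hJ : Module.length S (S ⧸ J) ≠ ⊤) {N : Type*} [AddCommGroup N] [Module S N]
    [Module.Finite S N] : Module.length S (N ⧸ (J • (⊤ : Submodule S N))) ≠ ⊤ := by
  obtain ⟨hNo, hAr⟩ := isFiniteLength_iff_isNoetherian_isArtinian.mp (Module.length_ne_top_iff.mp hJ)
  have : IsArtinianRing (S ⧸ J) := isArtinian_of_tower S hAr
  have : Module.Finite (S ⧸ J) (N ⧸ (J • (⊤ : Submodule S N))) :=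
    Module.Finite.of_restrictScalars_finite S _ _
  have : IsArtinian (S ⧸ J) (N ⧸ (J • (⊤ : Submodule S N))) := inferInstance
  have : IsArtinian S (N ⧸ (J • (⊤ : Submodule S N))) :=
    isArtinian_of_surjective_algebraMap (R := S ⧸ J) (S := S)
      (Ideal.Quotient.mk_surjective)
  have : IsNoetherian S (N ⧸ (J • (⊤ : Submodule S N))) := inferInstance
  exact Module.length_ne_top


theorem SL2 {D S : Type*} [CommRing D] [IsLocalRing D] [IsNoetherianRing D]
    [CommRing S] [IsLocalRing S] [IsNoetherianRing S] [Algebra D S]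
    [IsLocalHom (algebraMap D S)] [Module.Flat D S]
    (hT : Module.length D (S ⧸ (maximalIdeal D • (⊤ : Submodule D S))) ≠ ⊤)
    (C : Ideal D) (x1 x2 : D) (hx1 : x1 ∈ maximalIdeal D) (hx2 : x2 ∈ maximalIdeal D)
    (r1 : ∀ v ∈ C, x1 * v = 0 → v = 0)
    (r2 : ∀ v ∈ C, ∀ w ∈ C, x2 * v = x1 * w → ∃ u ∈ C, v = x1 * u)
    (r : ℕ) (hr : maximalIdeal D ^ (r + 1) ≤ Ideal.span {x1, x2} * maximalIdeal D ^ r)
    (y1 y2 : S) (hy1 : y1 ∈ maximalIdeal S) (hy2 : y2 ∈ maximalIdeal S)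
    (hfin : Module.length D (S ⧸ Ideal.span {y1, y2}) ≠ ⊤) (c : ℕ)
    (hc : Module.length D (S ⧸ ((maximalIdeal D).map (algebraMap D S) ⊔ Ideal.span {y1, y2}))
      = (c : ℕ∞)) :
    (c : ℕ∞) * rl (Ideal.span {x1, x2} * C) C ≤
      rl ((Ideal.span {y1, y2} * C.map (algebraMap D S)).restrictScalars D)
        ((C.map (algebraMap D S)).restrictScalars D) := by
  set q : Ideal D := Ideal.span {x1, x2} with hq
  set m : Ideal D := maximalIdeal D with hm
  have hqm : q ≤ m := by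
    rw [hq, Ideal.span_le]
    rintro x (rfl | hx)
    · exact hx1
    · rw [Set.mem_singleton_iff] at hx; rw [hx]; exact hx2
  -- Step 0: the module `C`
  have r1' : ∀ v : C, x1 • v = 0 → v = 0 := by
    intro v hv
    exact Subtype.ext (r1 v v.2 (congrArg Subtype.val hv))
  have r2' : ∀ v w : C, x2 • v = x1 • w → ∃ u : C, v = x1 • u := by
    intro v w hvw
    obtain ⟨u, hu, huv⟩ := r2 v v.2 w w.2 (congrArg Subtype.val hvw)
    exact ⟨⟨u, hu⟩, Subtype.ext huv⟩
  obtain ⟨F, F1, F2, F3, F4, F5, F6, F7⟩ := init_fil (M := C) x1 x2 hx1 hx2 r1' r2' r hr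
  obtain ⟨hFil, ⟨lo, hi, hPr⟩, e, c0, he⟩ := base_pr F x1 x2 hx1 hx2 F1 F2 F3 F4 F5
  obtain ⟨G, t, l, c', hG, hGF, hFG, hPrG, heG⟩ := exists_balanced hFil hPr he
  have hinj : Function.Injective C.subtype := Submodule.subtype_injective C
  -- the ideals
  let G' : ℕ → Ideal D := fun j => (G j).map C.subtype
  have hG' : Fil m G' := hG.mapInj C.subtype hinj
  have hPrG' : Pr m G' l (l + 1) := hPrG.mapInj C.subtype hinj
  have heG' : EvLin (fun j => rl (G' (j + 1)) (G' j)) e c' :=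
    heG.congrB 0 (fun j _ => (rl_map_of_injective C.subtype hinj _ _).symm)
  have hmapC : ∀ I : Ideal D, (I • (⊤ : Submodule D C)).map C.subtype = I * C := by
    intro I
    rw [Submodule.map_smul'', Submodule.map_top, Submodule.range_subtype, smul_eq_mul]
  have ha : ∀ j, G' j ≤ q ^ j * C := by
    intro j
    rw [← hmapC]
    exact Submodule.map_mono ((hGF j).trans (F6 j))
  have hb : ∀ j, q ^ (j + t + r) * C ≤ G' j := by
    intro j
    rw [← hmapC]
    exact Submodule.map_mono ((F7 (j + t)).trans (hFG j))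
  -- Step 5: the module `S`
  let W : Submodule D S := C • ⊤
  have ha' : ∀ j, G' j • (⊤ : Submodule D S) ≤ q ^ j • W := by
    intro j
    rw [← Submodule.mul_smul]
    exact Submodule.smul_mono_left (ha j)
  have hb' : ∀ j, q ^ (j + t + r) • W ≤ G' j • (⊤ : Submodule D S) := by
    intro j
    rw [← Submodule.mul_smul]
    exact Submodule.smul_mono_left (hb j)
  have hGC : ∀ j, G' j ≤ C := fun j => (ha j).trans Ideal.mul_le_right
  have hNW : ∀ j, G' j • (⊤ : Submodule D S) ≤ W := fun j => Submodule.smul_mono_left (hGC j)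
  -- multiplication maps
  let Y1 : S →ₗ[D] S := LinearMap.mulLeft D y1
  let Y2 : S →ₗ[D] S := LinearMap.mulLeft D y2
  let J : Ideal S := Ideal.span {y1, y2}
  let JD : Submodule D S := J.restrictScalars D
  have hJD : rl JD ⊤ ≠ ⊤ := by
    rw [rl_top]
    have h1 := LinearEquiv.length_eq (Submodule.Quotient.restrictScalarsEquiv D J)
    rw [h1]
    exact hfin
  obtain ⟨p, hp⟩ := exists_pow_smul_le_of_rl JD hJD
  -- submodules of the form `I S` are stable under multiplication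
  have hstab : ∀ (I : Ideal D) (a v : S), v ∈ I • (⊤ : Submodule D S) →
      a * v ∈ I • (⊤ : Submodule D S) := by
    intro I a v hv
    rw [Ideal.smul_top_eq_map] at hv ⊢
    exact Ideal.mul_mem_left _ a hv
  -- `I J` is contained in the sum of the images
  have hIJ : ∀ I : Ideal D, I • JD ≤ Submodule.map Y1 (I • ⊤) ⊔ Submodule.map Y2 (I • ⊤) := by
    intro I
    rw [Submodule.smul_le]
    intro g hg u hu
    obtain ⟨a, b, rfl⟩ := Ideal.mem_span_pair.mp (show u ∈ Ideal.span {y1, y2} from hu)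
    rw [smul_add]
    refine Submodule.add_mem_sup ?_ ?_
    · exact ⟨g • a, Submodule.smul_mem_smul hg trivial, by
        simp only [Y1, LinearMap.mulLeft_apply, mul_smul_comm]
        rw [mul_comm]⟩
    · exact ⟨g • b, Submodule.smul_mem_smul hg trivial, by
        simp only [Y2, LinearMap.mulLeft_apply, mul_smul_comm]
        rw [mul_comm]⟩
  -- Step 7
  let s : ℕ := t + r + p
  have S1 : ∀ j, G' (j + s) • (⊤ : Submodule D S) ≤
      Submodule.map Y1 (G' j • ⊤) ⊔ Submodule.map Y2 (G' j • ⊤) := by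
    intro j
    refine le_trans ?_ (hIJ (G' j))
    refine (ha' (j + s)).trans ?_
    have h1 : q ^ (j + s) = q ^ p * q ^ (j + t + r) := by
      rw [← pow_add]; congr 1; simp only [s]; omega
    rw [h1, Submodule.mul_smul]
    calc q ^ p • q ^ (j + t + r) • W ≤ m ^ p • (G' j • (⊤ : Submodule D S)) :=
          (Submodule.smul_mono_left (Ideal.pow_right_mono hqm p)).trans
            (smul_mono_right _ (hb' j))
      _ = G' j • (m ^ p • (⊤ : Submodule D S)) := by
          rw [← Submodule.mul_smul, ← Submodule.mul_smul, mul_comm]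
      _ ≤ G' j • JD := smul_mono_right _ hp
  -- regularity on `W`
  have w1 : ∀ v ∈ W, x1 • v = 0 → v = 0 := flat_r1 r1
  have w2 : ∀ v ∈ W, ∀ w ∈ W, x2 • v = x1 • w → ∃ u ∈ W, v = x1 • u := flat_r2 r2
  -- Step 8
  let X : ℕ → Submodule D S := fun j =>
    W ⊓ Submodule.comap Y1 (G' j • ⊤) ⊓ Submodule.comap Y2 (G' j • ⊤)
  have S2 : ∀ j, X (j + s) ≤ G' j • (⊤ : Submodule D S) := by
    intro j v hv
    obtain ⟨⟨hvW, hv1⟩, hv2⟩ := hv
    have h1 : x1 ^ p • (1 : S) ∈ JD :=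
      hp (Submodule.smul_mem_smul (Ideal.pow_mem_pow hx1 p) trivial)
    obtain ⟨a, b, hab⟩ := Ideal.mem_span_pair.mp
      (show x1 ^ p • (1 : S) ∈ Ideal.span {y1, y2} from h1)
    have h2 : x1 ^ p • v = a * (y1 * v) + b * (y2 * v) := by
      have : x1 ^ p • v = (x1 ^ p • (1 : S)) * v := by rw [smul_mul_assoc, one_mul]
      rw [this, ← hab]; ring
    have h3 : x1 ^ p • v ∈ G' (j + s) • (⊤ : Submodule D S) := by
      rw [h2]
      exact Submodule.add_mem _ (hstab _ _ _ hv1) (hstab _ _ _ hv2)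
    have h4 := ha' (j + s) h3
    have h5 : q ^ (j + s) = q ^ ((j + t + r) + p) := by
      congr 1; simp only [s]; omega
    rw [h5] at h4
    exact hb' j (mem_pow_smul_of_pow_smul W w1 w2 p _ hvW h4)
  -- finiteness
  have hTm : rl (m • (⊤ : Submodule D S)) ⊤ ≠ ⊤ := by
    rw [rl_top]; exact hT
  have hfinN : ∀ j, rl (G' j • (⊤ : Submodule D S)) W ≠ ⊤ := by
    intro j
    have h1 := rl_pow_mul_ne_top hTm C (r + (j + t + r))
    have h2 : (m ^ (r + (j + t + r)) * C) • (⊤ : Submodule D S) ≤ G' j • ⊤ :=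
      Submodule.smul_mono_left ((Ideal.mul_mono_left (pow_add_le_pow hr _)).trans (hb j))
    intro h3
    exact h1 (top_le_iff.mp (h3 ▸ rl_anti_left h2))
  have hW1 : W.map Y1 ≤ W := by
    rintro _ ⟨v, hv, rfl⟩
    exact hstab _ _ _ hv
  have hW2 : W.map Y2 ≤ W := by
    rintro _ ⟨v, hv, rfl⟩
    exact hstab _ _ _ hv
  have hΘfin : rl (W.map Y1 ⊔ W.map Y2) W ≠ ⊤ :=
    rl_smul_ne_top hJD (IsNoetherian.noetherian C) _ (hIJ C)
  obtain ⟨Θ, hΘ⟩ := ENat.ne_top_iff_exists.mp hΘfin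
  -- Step 11: `y1, y2` is regular on `W`
  let N : Ideal S := C.map (algebraMap D S)
  have hWN : W = N.restrictScalars D := Ideal.smul_top_eq_map C
  have hmemWN : ∀ v : S, v ∈ W ↔ v ∈ N := by
    intro v; rw [hWN]; exact Iff.rfl
  have hJS : Module.length S (S ⧸ J) ≠ ⊤ := by
    obtain ⟨h1, h2⟩ := isFiniteLength_iff_isNoetherian_isArtinian.mp
      (Module.length_ne_top_iff.mp hfin)
    have h3 : IsNoetherian S (S ⧸ J) := isNoetherian_of_tower D h1
    have h4 : IsArtinian S (S ⧸ J) := isArtinian_of_tower D h2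
    exact Module.length_ne_top
  have hreg := regular_of_finite_length (S := S) (N := N) (algebraMap D S x1) (algebraMap D S x2)
    (fun H => hx1 (isUnit_of_map_unit _ _ H)) (fun H => hx2 (isUnit_of_map_unit _ _ H))
    (by
      intro v hv
      apply Subtype.ext
      refine w1 v ((hmemWN _).mpr v.2) ?_
      rw [← algebraMap_smul S x1 (v : S)]
      exact congrArg Subtype.val hv)
    (by
      intro v w hvw
      obtain ⟨u, hu, huv⟩ := w2 v ((hmemWN _).mpr v.2) w ((hmemWN _).mpr w.2) (by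
        rw [← algebraMap_smul S x1 (w : S), ← algebraMap_smul S x2 (v : S)]
        exact congrArg Subtype.val hvw)
      refine ⟨⟨u, (hmemWN _).mp hu⟩, Subtype.ext ?_⟩
      rw [huv, ← algebraMap_smul S x1 u]
      rfl)
    y1 y2 hy1 hy2 (length_quotient_smul_ne_top J hJS)
  obtain ⟨g1, g2⟩ := hreg
  have k1 : ∀ v ∈ W, Y1 v = 0 → v = 0 := by
    intro v hv h
    have h1 := g1 ⟨v, (hmemWN _).mp hv⟩ (Subtype.ext h)
    exact congrArg Subtype.val h1
  have k2 : ∀ v ∈ W, ∀ w ∈ W, Y2 v = Y1 w → ∃ u ∈ W, v = Y1 u := by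
    intro v hv w hw h
    obtain ⟨u, hu⟩ := g2 ⟨v, (hmemWN _).mp hv⟩ ⟨w, (hmemWN _).mp hw⟩ (Subtype.ext h)
    exact ⟨u, (hmemWN _).mpr u.2, congrArg Subtype.val hu⟩
  have hYY : Y1 ∘ₗ Y2 = Y2 ∘ₗ Y1 := by
    ext v
    simp only [Y1, Y2, LinearMap.comp_apply, LinearMap.mulLeft_apply]
    ring
  have S3 : ∀ j, rl (Submodule.map Y1 (G' j • ⊤) ⊔ Submodule.map Y2 (G' j • ⊤))
      (G' j • (⊤ : Submodule D S)) = (Θ : ℕ∞) + rl (G' j • (⊤ : Submodule D S)) (X j) := by
    intro j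
    rw [koszul_identity Y1 Y2 hYY W (G' j • ⊤) (hNW j) (hfinN j) hW1 hW2
      (by rintro _ ⟨v, hv, rfl⟩; exact hstab _ _ _ hv)
      (by rintro _ ⟨v, hv, rfl⟩; exact hstab _ _ _ hv) k1 k2 hΘfin, ← hΘ]
  -- Step 12
  have hcc : Module.length D (S ⧸ ((m • (⊤ : Submodule D S)) ⊔
      (LinearMap.range Y1 ⊔ LinearMap.range Y2))) = (c : ℕ∞) := by
    rw [← hc]
    have h1 : ((m • (⊤ : Submodule D S)) ⊔ (LinearMap.range Y1 ⊔ LinearMap.range Y2)) =
        (m.map (algebraMap D S) ⊔ Ideal.span {y1, y2}).restrictScalars D := by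
      rw [Ideal.smul_top_eq_map]
      ext v
      simp only [Submodule.restrictScalars_mem, Submodule.mem_sup, LinearMap.mem_range]
      constructor
      · rintro ⟨a, ha, _, ⟨_, ⟨b, rfl⟩, _, ⟨d, rfl⟩, rfl⟩, rfl⟩
        refine ⟨a, ha, _, Ideal.mem_span_pair.mpr ⟨b, d, rfl⟩, ?_⟩
        simp only [Y1, Y2, LinearMap.mulLeft_apply]
        ring
      · rintro ⟨a, ha, z, hz, rfl⟩
        obtain ⟨b, d, rfl⟩ := Ideal.mem_span_pair.mp hz
        refine ⟨a, ha, _, ⟨_, ⟨b, rfl⟩, _, ⟨d, rfl⟩, rfl⟩, ?_⟩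
        simp only [Y1, Y2, LinearMap.mulLeft_apply]
        ring
    rw [h1]
    exact LinearEquiv.length_eq (Submodule.Quotient.restrictScalarsEquiv D _)
  have hcore := core (A := D) (V := S) hT Y1 Y2 G' hG' l e c' hPrG' heG' W (hNW 0) X
    (fun j => rfl) s (Filter.Eventually.of_forall S1) (Filter.Eventually.of_forall S2) Θ
    (Filter.Eventually.of_forall S3) c hcc
  -- Step 13
  have hfinC : ∀ n : ℕ, rl (m ^ n • (⊤ : Submodule D C)) ⊤ ≠ ⊤ := by
    intro n
    induction n with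
    | zero => simp
    | succ n ih =>
      rw [rl_add (L := m ^ n • (⊤ : Submodule D C))
        (Submodule.smul_mono_left (Ideal.pow_le_pow_right (Nat.le_succ n))) le_top]
      intro h
      rcases WithTop.add_eq_top.mp h with h3 | h3
      · refine BaseAux.rl_ne_top_of_smul_le ?_ h3
        rw [← Submodule.mul_smul, ← pow_succ']
      · exact ih h3
  have hfinF : ∀ j, rl (F j) ⊤ ≠ ⊤ := by
    intro j h
    refine hfinC (r + (j + r)) (top_le_iff.mp (h ▸ rl_anti_left ?_))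
    exact (Submodule.smul_mono_left (pow_add_le_pow hr _)).trans (F7 j)
  have hL0 : rl (qPow q C 1) ⊤ = rl (q * C) C := by
    rw [← rl_map_of_injective C.subtype hinj, qPow, pow_one, hmapC, Submodule.map_top,
      Submodule.range_subtype]
  have hLfin : rl (qPow q C 1) ⊤ ≠ ⊤ := by
    intro h
    refine hfinC (r + 1) (top_le_iff.mp (h ▸ rl_anti_left ?_))
    exact Submodule.smul_mono_left (pow_add_le_pow hr _)
  obtain ⟨L, hL⟩ := ENat.ne_top_iff_exists.mp hLfin
  have hLe : (L : ℤ) ≤ e := le_slope r1' r2' L hL.symm F1 he hfinF F6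
  -- Step 14
  have hfinal : (c : ℤ) * L ≤ Θ :=
    (mul_le_mul_of_nonneg_left hLe (Int.natCast_nonneg c)).trans hcore
  have hfinal' : c * L ≤ Θ := by exact_mod_cast hfinal
  have hlast : rl ((Ideal.span {y1, y2} * C.map (algebraMap D S)).restrictScalars D)
        ((C.map (algebraMap D S)).restrictScalars D) = (Θ : ℕ∞) := by
    rw [hΘ, ← hWN]
    congr 1
    ext v
    constructor
    · intro hv
      have hv' : v ∈ Ideal.span {y1, y2} * N := hv
      rw [← smul_eq_mul] at hv'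
      obtain ⟨a, ha, b, hb, rfl⟩ := exists_of_mem_span_pair_smul hv'
      exact Submodule.add_mem_sup ⟨a, (hmemWN _).mpr ha, rfl⟩ ⟨b, (hmemWN _).mpr hb, rfl⟩
    · intro hv
      obtain ⟨_, ⟨a, ha, rfl⟩, _, ⟨b, hb, rfl⟩, rfl⟩ := Submodule.mem_sup.mp hv
      exact Ideal.add_mem _
        (Ideal.mul_mem_mul (Ideal.subset_span (by simp)) ((hmemWN _).mp ha))
        (Ideal.mul_mem_mul (Ideal.subset_span (by simp)) ((hmemWN _).mp hb))
  rw [hlast, ← hL0, ← hL]
  exact_mod_cast hfinal'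

end Vale.Agent.P202
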