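import Vale.Agent.P202.Base
import Vale.Agent.P202.Init
import Vale.Agent.P202.Koszul
import Vale.Agent.P202.Flat

/-!
Auxiliary results for the SL2 theorem: transfer of filtrations, flatness, finiteness, growth.
-/

namespace Vale.Agent.P202

open IsLocalRing

/-! ### transfer along an injective map -/

section transfer
variable {A : Type*} [CommRing A] {M M' : Type*} [AddCommGroup M] [Module A M]
  [AddCommGroup M'] [Module A M']

lemma Fil.mapInj {m : Ideal A} {G : ℕ → Submodule A M} (hG : Fil m G) (f : M →ₗ[A] M')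
    (hf : Function.Injective f) : Fil m (fun j => (G j).map f) := by
  refine ⟨fun j => Submodule.map_mono (hG.anti j), fun j => ?_, fun j => ?_⟩
  · rw [← Submodule.map_smul'']
    exact Submodule.map_mono (hG.smul j)
  · rw [rl_map_of_injective f hf]
    exact hG.fin j

lemma Pr.mapInj {m : Ideal A} {G : ℕ → Submodule A M} {lo hi : ℤ} (hG : Pr m G lo hi)
    (f : M →ₗ[A] M') (hf : Function.Injective f) : Pr m (fun j => (G j).map f) lo hi := by
  intro P hP
  have hPr : ∀ j, ((P j).comap f).map f = P j := by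
    intro j
    rw [Submodule.map_comap_eq, inf_eq_right]
    exact (hP.le j).trans (LinearMap.map_le_range)
  have hQ : SubFil m G (fun j => (P j).comap f) := by
    refine ⟨fun j => ?_, fun j => ?_, fun j => ?_⟩
    · intro v hv
      obtain ⟨w, hw, hwv⟩ := hP.le j hv
      rwa [hf hwv] at hw
    · intro v hv
      exact hP.ge j ⟨v, hv, rfl⟩
    · rw [Submodule.smul_le]
      intro a ha v hv
      rw [Submodule.mem_comap, map_smul]
      exact hP.smul j (Submodule.smul_mem_smul ha hv)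
  obtain ⟨a, x, b, y, h1, h2, h3, h4⟩ := hG _ hQ
  refine ⟨a, x, b, y, ?_, ?_, h3, h4⟩
  · refine h1.congrB 0 (fun j _ => ?_)
    rw [← rl_map_of_injective f hf, hPr]
  · refine h2.congrB 0 (fun j _ => ?_)
    rw [← rl_map_of_injective f hf, hPr]

end transfer

/-! ### regular pairs and flatness -/

section flat
variable {A : Type*} [CommRing A] {V : Type*} [AddCommGroup V] [Module A V] [Module.Flat A V]

open TensorProduct

/-- the evaluation map from `C ⊗ V` to `V`. -/
noncomputable def evC (C : Ideal A) (V : Type*) [AddCommGroup V] [Module A V] :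
    (C ⊗[A] V) →ₗ[A] V :=
  TensorProduct.lift ((LinearMap.lsmul A V).comp (Submodule.subtype C))

omit [Module.Flat A V] in
lemma evC_tmul (C : Ideal A) (z : C) (v : V) : evC C V (z ⊗ₜ v) = (z : A) • v := by
  simp [evC]

lemma evC_injective (C : Ideal A) : Function.Injective (evC C V) := by
  have h1 := Module.Flat.rTensor_preserves_injective_linearMap (M := V)
    (Submodule.subtype C) (Submodule.subtype_injective C)
  have h2 : evC C V = (TensorProduct.lid A V).toLinearMap ∘ₗ
      (LinearMap.rTensor V (Submodule.subtype C)) := by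
    ext z v
    simp [evC]
  rw [h2]
  exact (TensorProduct.lid A V).injective.comp h1

omit [Module.Flat A V] in
lemma exists_evC (C : Ideal A) {v : V} (hv : v ∈ C • (⊤ : Submodule A V)) :
    ∃ z : C ⊗[A] V, evC C V z = v := by
  have h : C • (⊤ : Submodule A V) ≤ LinearMap.range (evC C V) := by
    rw [Submodule.smul_le]
    intro r hr n _
    exact ⟨(⟨r, hr⟩ : C) ⊗ₜ n, evC_tmul _ _ _⟩
  exact h hv

omit [Module.Flat A V] in
lemma evC_mem (C : Ideal A) (z : C ⊗[A] V) : evC C V z ∈ C • (⊤ : Submodule A V) := by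
  induction z with
  | zero => simp
  | add a b ha hb => rw [map_add]; exact Submodule.add_mem _ ha hb
  | tmul c v => rw [evC_tmul]; exact Submodule.smul_mem_smul c.2 trivial

omit [Module.Flat A V] in
lemma rTensor_lsmul {N : Type*} [AddCommGroup N] [Module A N] (x : A) :
    LinearMap.rTensor V (LinearMap.lsmul A N x) = LinearMap.lsmul A (N ⊗[A] V) x := by
  apply TensorProduct.ext'
  intro n v
  simp [TensorProduct.smul_tmul']

lemma flat_r1 {C : Ideal A} {x1 : A} (r1 : ∀ v ∈ C, x1 * v = 0 → v = 0) :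
    ∀ v ∈ C • (⊤ : Submodule A V), x1 • v = 0 → v = 0 := by
  intro v hv h
  obtain ⟨z, rfl⟩ := exists_evC C hv
  have hinj : Function.Injective (LinearMap.lsmul A C x1) := by
    rw [injective_iff_map_eq_zero]
    intro c hc
    apply Subtype.ext
    exact r1 c c.2 (congrArg Subtype.val hc)
  have h1 := Module.Flat.rTensor_preserves_injective_linearMap (M := V) _ hinj
  rw [rTensor_lsmul] at h1
  rw [← map_smul, ← map_zero (evC C V)] at h
  have h2 := evC_injective C h
  have h3 : z = 0 := h1 (by rw [map_zero]; exact h2)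
  rw [h3, map_zero]

lemma flat_r2 {C : Ideal A} {x1 x2 : A}
    (r2 : ∀ v ∈ C, ∀ w ∈ C, x2 * v = x1 * w → ∃ u ∈ C, v = x1 * u) :
    ∀ v ∈ C • (⊤ : Submodule A V), ∀ w ∈ C • (⊤ : Submodule A V), x2 • v = x1 • w →
      ∃ u ∈ C • (⊤ : Submodule A V), v = x1 • u := by
  intro v hv w hw h
  obtain ⟨z, rfl⟩ := exists_evC C hv
  obtain ⟨z', rfl⟩ := exists_evC C hw
  rw [← map_smul, ← map_smul] at h
  have h0 : x2 • z = x1 • z' := evC_injective C h
  -- the quotient of `C` by `x1 C`
  let f : C →ₗ[A] C := LinearMap.lsmul A C x1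
  let g : C →ₗ[A] (C ⧸ LinearMap.range f) := Submodule.mkQ _
  have hex : Function.Exact f g := by
    rw [LinearMap.exact_iff, Submodule.ker_mkQ]
  have hexT := rTensor_exact V hex (Submodule.mkQ_surjective _)
  have hinj : Function.Injective (LinearMap.lsmul A (C ⧸ LinearMap.range f) x2) := by
    rw [injective_iff_map_eq_zero]
    intro c hc
    obtain ⟨c, rfl⟩ := Submodule.Quotient.mk_surjective _ c
    have hc' : (Submodule.Quotient.mk (x2 • c) : C ⧸ LinearMap.range f) = 0 := hc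
    rw [Submodule.Quotient.mk_eq_zero] at hc' ⊢
    obtain ⟨d, hd⟩ := hc'
    obtain ⟨u, hu, huv⟩ := r2 c c.2 d d.2 (congrArg Subtype.val hd).symm
    exact ⟨⟨u, hu⟩, Subtype.ext huv.symm⟩
  have h1 := Module.Flat.rTensor_preserves_injective_linearMap (M := V) _ hinj
  rw [rTensor_lsmul] at h1
  have h2 : LinearMap.rTensor V g z = 0 := by
    apply h1
    rw [map_zero]
    change x2 • LinearMap.rTensor V g z = 0
    rw [← map_smul, h0]
    have h3 : x1 • z' = LinearMap.rTensor V f z' := by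
      rw [rTensor_lsmul]; rfl
    rw [h3]
    exact (hexT (LinearMap.rTensor V f z')).mpr ⟨z', rfl⟩
  obtain ⟨u, hu⟩ := (hexT z).mp h2
  refine ⟨evC C V u, evC_mem C u, ?_⟩
  rw [← hu, ← map_smul]
  congr 1

end flat

/-! ### finiteness -/

section finite
variable {A : Type*} [CommRing A] {V : Type*} [AddCommGroup V] [Module A V]

lemma rl_sup_right_le (K N₁ N₂ : Submodule A V) : rl K (N₁ ⊔ N₂) ≤ rl K N₁ + rl K N₂ := by
  rw [← rl_sup_right K (N₁ ⊔ N₂), ← sup_assoc,
    rl_add (le_sup_left : K ≤ K ⊔ N₁) (le_sup_left : K ⊔ N₁ ≤ K ⊔ N₁ ⊔ N₂), rl_sup_right,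
    rl_sup_right (K ⊔ N₁) N₂]
  gcongr
  exact rl_anti_left le_sup_left

/-- lengths of `K V` modulo a submodule containing `K U`. -/
lemma rl_smul_ne_top {U : Submodule A V} (hU : rl U ⊤ ≠ ⊤) {K : Ideal A} (hK : K.FG)
    (W : Submodule A V) (hW : K • U ≤ W) : rl W (K • (⊤ : Submodule A V)) ≠ ⊤ := by
  induction K, hK using Submodule.fg_induction generalizing W with
  | singleton a =>
    have h1 : rl W ((Submodule.span A {a} : Ideal A) • (⊤ : Submodule A V)) ≤ rl U ⊤ := by
      have h2 : (Submodule.span A {a} : Ideal A) • (⊤ : Submodule A V)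
          ≤ (⊤ : Submodule A V).map (BaseAux.mu V a) := by
        rw [Submodule.smul_le]
        intro r hr v _
        obtain ⟨b, rfl⟩ := Submodule.mem_span_singleton.mp hr
        refine ⟨b • v, trivial, ?_⟩
        rw [BaseAux.mu_apply, smul_smul, smul_eq_mul, mul_comm]
      refine (rl_mono_right h2).trans ?_
      rw [BaseAux.rl_map_left]
      refine rl_anti_left ?_
      intro u hu
      exact hW (Submodule.smul_mem_smul (Submodule.mem_span_singleton_self a) hu)
    exact fun h => hU (top_le_iff.mp (h ▸ h1))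
  | sup K₁ K₂ _ _ h₁ h₂ =>
    have h3 := h₁ W ((Submodule.smul_mono_left le_sup_left).trans hW)
    have h4 := h₂ W ((Submodule.smul_mono_left le_sup_right).trans hW)
    rw [Submodule.sup_smul]
    intro h
    have h5 := rl_sup_right_le W (K₁ • (⊤ : Submodule A V)) (K₂ • ⊤)
    rw [h, top_le_iff] at h5
    rcases WithTop.add_eq_top.mp h5 with h6 | h6
    · exact h3 h6
    · exact h4 h6

end finite

/-! ### growth of the `q`-adic filtration -/

section growth
variable {A : Type*} [CommRing A] {M : Type*} [AddCommGroup M] [Module A M]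

/-- the layers of the filtration by powers of a regular pair are large. -/
lemma le_rl_qPow {x1 x2 : A} (r1 : ∀ v : M, x1 • v = 0 → v = 0)
    (r2 : ∀ v w : M, x2 • v = x1 • w → ∃ u : M, v = x1 • u) (n : ℕ) :
    ((n + 1 : ℕ) : ℕ∞) * rl (qPow (Ideal.span {x1, x2}) M 1) ⊤ ≤
      rl (qPow (Ideal.span {x1, x2}) M (n + 1)) (qPow (Ideal.span {x1, x2}) M n) := by
  set q : Ideal A := Ideal.span {x1, x2} with hq
  induction n with
  | zero => simp [qPow_zero]
  | succ n ih =>
    have hx1 : (qPow q M n).map (BaseAux.mu M x1) ≤ qPow q M (n + 1) := by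
      rintro _ ⟨v, hv, rfl⟩
      exact smul_mem_qPow mem_span_pair_left hv
    rw [rl_add (le_sup_left : qPow q M (n + 1 + 1) ≤
      qPow q M (n + 1 + 1) ⊔ (qPow q M n).map (BaseAux.mu M x1))
      (sup_le (qPow_succ_le q _) hx1), rl_sup_right, BaseAux.rl_map_left]
    have e1 : (qPow q M (n + 1 + 1)).comap (BaseAux.mu M x1) = qPow q M (n + 1) := by
      apply le_antisymm
      · intro v hv
        exact mem_qPow_of_x1_smul r1 r2 hv
      · intro v hv
        exact smul_mem_qPow mem_span_pair_left hv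
    rw [e1]
    have e2 : rl (qPow q M 1) ⊤ ≤
        rl (qPow q M (n + 1 + 1) ⊔ (qPow q M n).map (BaseAux.mu M x1)) (qPow q M (n + 1)) := by
      have e3 : (⊤ : Submodule A M).map (BaseAux.mu M (x2 ^ (n + 1))) ≤ qPow q M (n + 1) := by
        rintro _ ⟨v, hv, rfl⟩
        have h5 : x2 ^ (n + 1) • v ∈ qPow q M (0 + (n + 1)) :=
          pow_smul_mem_qPow (Ideal.pow_mem_pow mem_span_pair_right _)
            (by rw [qPow_zero]; trivial)
        rwa [zero_add] at h5
      refine le_trans ?_ (rl_mono_right e3)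
      rw [BaseAux.rl_map_left]
      refine rl_anti_left ?_
      intro v hv
      obtain ⟨a, ha, b, hb, hab⟩ := Submodule.mem_sup.mp (show BaseAux.mu M (x2 ^ (n + 1)) v ∈ _
        from hv)
      obtain ⟨b, hb, rfl⟩ := hb
      obtain ⟨w, hw, u, rfl⟩ := exists_of_mem_qPow (n + 1) a ha
      simp only [BaseAux.mu_apply] at hab
      have h1 : x2 ^ (n + 1) • (v - x2 • u) = x1 • (w + b) := by
        rw [smul_sub, smul_smul, ← pow_succ, ← hab, smul_add]; abel
      obtain ⟨u', hu'⟩ := pow_regular_mod r2 (n + 1) _ _ h1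
      have h2 : v = x1 • u' + x2 • u := by rw [← hu']; abel
      rw [h2, qPow_succ, qPow_zero]
      exact Submodule.add_mem _ (Submodule.smul_mem_smul mem_span_pair_left trivial)
        (Submodule.smul_mem_smul mem_span_pair_right trivial)
    calc ((n + 1 + 1 : ℕ) : ℕ∞) * rl (qPow q M 1) ⊤
        = ((n + 1 : ℕ) : ℕ∞) * rl (qPow q M 1) ⊤ + rl (qPow q M 1) ⊤ := by
          push_cast; ring
      _ ≤ _ := add_le_add ih e2

/-- quadratic growth of the colengths of `q ^ n M`. -/
lemma le_rl_qPow_top {x1 x2 : A} (r1 : ∀ v : M, x1 • v = 0 → v = 0)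
    (r2 : ∀ v w : M, x2 • v = x1 • w → ∃ u : M, v = x1 • u) (L : ℕ)
    (hL : rl (qPow (Ideal.span {x1, x2}) M 1) ⊤ = (L : ℕ∞)) (n : ℕ) :
    ((∑ i ∈ Finset.range n, (i + 1) * L : ℕ) : ℕ∞) ≤
      rl (qPow (Ideal.span {x1, x2}) M n) ⊤ := by
  induction n with
  | zero => simp
  | succ n ih =>
    rw [Finset.sum_range_succ, rl_add (qPow_succ_le _ n) le_top, add_comm]
    push_cast at ih ⊢
    refine add_le_add ?_ ih
    have h1 := le_rl_qPow r1 r2 n
    rw [hL] at h1
    exact_mod_cast h1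

/-- sums of eventually linear increments. -/
lemma rl_top_le_of_evLin {F : ℕ → Submodule A M} (anti : ∀ j, F (j + 1) ≤ F j) {e c : ℤ}
    (he : EvLin (fun j => rl (F (j + 1)) (F j)) e c) (hfin : ∀ j, rl (F j) ⊤ ≠ ⊤) :
    ∃ (j₀ N : ℕ), ∀ k : ℕ, ∃ n : ℕ, rl (F (j₀ + k)) ⊤ = (n : ℕ∞) ∧
      (n : ℤ) = N + ∑ i ∈ Finset.range k, (e * (j₀ + i) + c) := by
  obtain ⟨j₀, hj₀⟩ := he
  obtain ⟨N, hN⟩ := ENat.ne_top_iff_exists.mp (hfin j₀)
  refine ⟨j₀, N, fun k => ?_⟩
  induction k with
  | zero => exact ⟨N, hN.symm, by simp⟩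
  | succ k ih =>
    obtain ⟨n, hn, hn'⟩ := ih
    obtain ⟨l, hl, hl'⟩ := hj₀ (j₀ + k) (by omega)
    refine ⟨l + n, ?_, ?_⟩
    · rw [← add_assoc, rl_add (anti (j₀ + k)) le_top, hn]
      push_cast
      rw [← hl]
    · rw [Finset.sum_range_succ]
      push_cast at hl' ⊢
      rw [hl', hn']; ring

/-- the slope of a filtration below the `q`-adic one is at least the colength of `q`. -/
lemma le_slope {x1 x2 : A} (r1 : ∀ v : M, x1 • v = 0 → v = 0)
    (r2 : ∀ v w : M, x2 • v = x1 • w → ∃ u : M, v = x1 • u) (L : ℕ)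
    (hL : rl (qPow (Ideal.span {x1, x2}) M 1) ⊤ = (L : ℕ∞))
    {F : ℕ → Submodule A M} (anti : ∀ j, F (j + 1) ≤ F j) {e c : ℤ}
    (he : EvLin (fun j => rl (F (j + 1)) (F j)) e c) (hfin : ∀ j, rl (F j) ⊤ ≠ ⊤)
    (hF : ∀ j, F j ≤ qPow (Ideal.span {x1, x2}) M j) : (L : ℤ) ≤ e := by
  obtain ⟨j₀, N, h⟩ := rl_top_le_of_evLin anti he hfin
  by_contra hlt
  push Not at hlt
  -- compare at a large index
  have hs : ∀ k : ℕ, 2 * ∑ i ∈ Finset.range k, (e * (j₀ + i) + c)
      = k * (2 * e * j₀ + 2 * c + e * (k - 1)) := by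
    intro k
    induction k with
    | zero => simp
    | succ k ih => rw [Finset.sum_range_succ, mul_add, ih]; push_cast; ring
  have hs2 : ∀ k : ℕ, 2 * ∑ i ∈ Finset.range k, (((i : ℤ) + 1) * L) = k * (k + 1) * L := by
    intro k
    induction k with
    | zero => simp
    | succ k ih => rw [Finset.sum_range_succ, mul_add, ih]; push_cast; ring
  have key : ∀ k : ℕ, ((k : ℤ) + j₀) * (k + j₀ + 1) * L ≤
      2 * N + k * (2 * e * j₀ + 2 * c + e * (k - 1)) := by
    intro k
    obtain ⟨n, hn, hn'⟩ := h k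
    have h1 := le_rl_qPow_top r1 r2 L hL (j₀ + k)
    have h2 := h1.trans (rl_anti_left (hF (j₀ + k)))
    rw [hn] at h2
    have h3 : (∑ i ∈ Finset.range (j₀ + k), (i + 1) * L : ℕ) ≤ n := by exact_mod_cast h2
    have h4 : (∑ i ∈ Finset.range (j₀ + k), ((i : ℤ) + 1) * L) ≤ n := by exact_mod_cast h3
    have h5 := hs2 (j₀ + k)
    have h6 := hs k
    push_cast at h5
    rw [hn'] at h4
    nlinarith
  -- choose k large
  obtain ⟨k, hk⟩ : ∃ k : ℕ, k = (2 * N + (2 * e * j₀ + 2 * c - e).natAbs + 1) := ⟨_, rfl⟩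
  have h7 := key k
  have h8 : (k : ℤ) * k * L ≤ ((k : ℤ) + j₀) * (k + j₀ + 1) * L := by
    have : (0 : ℤ) ≤ L := Int.natCast_nonneg _
    have h9 : (k : ℤ) * k ≤ ((k : ℤ) + j₀) * (k + j₀ + 1) := by
      have : (0 : ℤ) ≤ k := Int.natCast_nonneg _
      have : (0 : ℤ) ≤ j₀ := Int.natCast_nonneg _
      nlinarith
    exact mul_le_mul_of_nonneg_right h9 this
  have h10 : (k : ℤ) * k * (L - e) ≤ 2 * N + k * (2 * e * j₀ + 2 * c - e) := by
    nlinarith
  have h11 : (k : ℤ) * k ≤ (k : ℤ) * k * (L - e) := by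
    have : (1 : ℤ) ≤ L - e := by omega
    have h12 : (0 : ℤ) ≤ (k : ℤ) * k := by positivity
    nlinarith
  have h13 : (2 * e * j₀ + 2 * c - e) ≤ ((2 * e * j₀ + 2 * c - e).natAbs : ℤ) := by
    exact Int.le_natAbs
  set T : ℤ := 2 * e * j₀ + 2 * c - e with hT
  have hk' : (k : ℤ) = 2 * N + (T.natAbs : ℤ) + 1 := by rw [hk]; push_cast; ring
  have hk0 : (1 : ℤ) ≤ k := by
    have : (0 : ℤ) ≤ N := Int.natCast_nonneg _
    have : (0 : ℤ) ≤ (T.natAbs : ℤ) := Int.natCast_nonneg _
    linarith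
  have h14 : (k : ℤ) * T ≤ k * (T.natAbs : ℤ) := by
    exact mul_le_mul_of_nonneg_left h13 (by linarith)
  have h15 : (k : ℤ) * k = k * (2 * N) + k * (T.natAbs : ℤ) + k := by
    conv_lhs => rw [hk']
    rw [← hk']
    nlinarith
  have h16 : (2 * N : ℤ) ≤ k * (2 * N) := by
    have : (0 : ℤ) ≤ 2 * N := by positivity
    nlinarith
  linarith

end growth

end Vale.Agent.P202
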