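import Vale.Agent.P202.Asym
import Vale.Agent.P202.QuotLen
import Mathlib.Data.Finsupp.Fin

/-!
Passing to the quotient by one element of a system of generators.
-/

set_option linter.unusedSectionVars false

namespace Vale.Agent.P202

open Ideal Finset

variable {A : Type*} [CommRing A]

lemma mon_cons {δ : ℕ} (z : A) (y : Fin δ → A) (j : ℕ) (v : Fin δ →₀ ℕ) :
    mon (Fin.cons z y : Fin (δ + 1) → A) (Finsupp.cons j v) = z ^ j * mon y v := by
  rw [mon, mon, Fin.prod_univ_succ]
  simp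

lemma cons_mono {δ : ℕ} {j j' : ℕ} {v v' : Fin δ →₀ ℕ} (h : j ≤ j') (hv : v ≤ v') :
    Finsupp.cons j v ≤ Finsupp.cons j' v' := by
  intro i
  refine Fin.cases ?_ (fun i => ?_) i
  · simpa using h
  · simpa using hv i

lemma degree_cons {δ : ℕ} (u : Fin (δ + 1) →₀ ℕ) :
    u.degree = u 0 + (Finsupp.tail u).degree := by
  rw [Finsupp.degree_eq_sum, Finsupp.degree_eq_sum, Fin.sum_univ_succ]
  rfl

/-- (P4) -/
lemma ell_span_pow_sup_le {δ : ℕ} (z : A) (y : Fin δ → A) (a n : ℕ) :
    ell (Ideal.span {z ^ a} ⊔ Ideal.span (Set.range y) ^ n) ≤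
      ∑ j ∈ Finset.range a, ∑ v ∈ tri (Fin δ) n,
        gp (Fin.cons z y : Fin (δ + 1) → A) (Finsupp.cons j v) := by
  classical
  set Y : Fin (δ + 1) → A := Fin.cons z y with hY
  set I := Ideal.span {z ^ a} ⊔ Ideal.span (Set.range y) ^ n with hI
  have hmem : ∀ u : Fin (δ + 1) →₀ ℕ, (a ≤ u 0 ∨ n ≤ (Finsupp.tail u).degree) → mon Y u ∈ I := by
    intro u hu
    rw [← Finsupp.cons_tail u, hY, mon_cons, hI]
    rcases hu with hu | hu
    · refine Ideal.mem_sup_left (Ideal.mul_mem_right _ _ ?_)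
      exact Ideal.mem_span_singleton.mpr (pow_dvd_pow z hu)
    · exact Ideal.mem_sup_right (Ideal.mul_mem_left _ _
        (Ideal.pow_le_pow_right hu (mon_mem_pow y _)))
  have h0 : FS Y {w | w ∉ tri (Fin (δ + 1)) (a + n)} ⊔ I = I := by
    rw [sup_eq_right, FS, Ideal.span_le]
    rintro _ ⟨u, hu, rfl⟩
    rw [Set.mem_ofPred_eq, mem_tri, degree_cons] at hu
    exact hmem u (by omega)
  have h1 : ell I = ∑ u ∈ tri (Fin (δ + 1)) (a + n), piece Y I u := by
    rw [← ell_eq_sum Y I _ (tri_initial _), h0]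
  set S0 := (tri (Fin (δ + 1)) (a + n)).filter (fun u => u 0 < a ∧ (Finsupp.tail u).degree < n)
    with hS0
  have h2 : ∑ u ∈ tri (Fin (δ + 1)) (a + n), piece Y I u ≤ ∑ u ∈ S0, gp Y u := by
    rw [hS0, Finset.sum_filter]
    refine Finset.sum_le_sum fun u _ => ?_
    by_cases h : u 0 < a ∧ (Finsupp.tail u).degree < n
    · rw [if_pos h]; exact piece_le_gp Y _ u
    · rw [if_neg h, piece_eq_zero_iff.mpr]
      refine Ideal.mem_sup_right (hmem u ?_)
      by_contra hc
      push Not at hc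
      exact h hc
  have h3 : S0 ⊆ (Finset.range a ×ˢ tri (Fin δ) n).image (fun p => Finsupp.cons p.1 p.2) := by
    intro u hu
    rw [hS0, Finset.mem_filter] at hu
    rw [Finset.mem_image]
    refine ⟨(u 0, Finsupp.tail u), ?_, Finsupp.cons_tail u⟩
    rw [Finset.mem_product, Finset.mem_range, mem_tri]
    exact hu.2
  have hinj : Set.InjOn (fun p : ℕ × (Fin δ →₀ ℕ) => Finsupp.cons p.1 p.2)
      (Finset.range a ×ˢ tri (Fin δ) n : Finset _) := by
    rintro ⟨j, v⟩ _ ⟨j', v'⟩ _ h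
    have := Finsupp.cons_injective2 h
    rw [Prod.mk.injEq]
    exact this
  calc ell I ≤ ∑ u ∈ S0, gp Y u := h1 ▸ h2
    _ ≤ ∑ u ∈ (Finset.range a ×ˢ tri (Fin δ) n).image (fun p => Finsupp.cons p.1 p.2), gp Y u :=
        Finset.sum_le_sum_of_subset_of_nonneg h3 fun _ _ _ => zero_le
    _ = ∑ p ∈ Finset.range a ×ˢ tri (Fin δ) n, gp Y (Finsupp.cons p.1 p.2) :=
        Finset.sum_image hinj
    _ = _ := Finset.sum_product _ _ _

lemma ell_span_pow_sup_le' {δ : ℕ} (z : A) (y : Fin δ → A) (a n : ℕ) :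
    ell (Ideal.span {z ^ a} ⊔ Ideal.span (Set.range y) ^ n) ≤
      (tri (Fin δ) n).card * (a * emin (Fin.cons z y : Fin (δ + 1) → A) +
        umin (Fin.cons z y : Fin (δ + 1) → A) 0 * gp (Fin.cons z y : Fin (δ + 1) → A) 0) +
      a * (errB (Fin.cons z y : Fin (δ + 1) → A) * (n ^ (δ - 1) : ℕ)) := by
  classical
  refine (ell_span_pow_sup_le z y a n).trans ?_
  set Y : Fin (δ + 1) → A := Fin.cons z y with hY
  have hc : ∀ j ∈ Finset.range a, ∑ v ∈ tri (Fin δ) n, gp Y (Finsupp.cons j v) ≤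
      ((tri (Fin δ) n).card * emin Y + errB Y * (n ^ (δ - 1) : ℕ)) +
        (if j < umin Y 0 then (tri (Fin δ) n).card * gp Y 0 else 0) := by
    intro j _
    split_ifs with h
    · refine le_add_left ?_
      rw [← nsmul_eq_mul, ← Finset.sum_const]
      exact Finset.sum_le_sum fun v _ => gp_le_zero Y _
    · rw [add_zero]
      refine (sum_le_of_bounds (fun v => gp Y (Finsupp.cons j v)) (gp Y 0) (emin Y)
        (Finsupp.tail (umin Y)) (fun v => gp_le_zero Y _) (fun v hv => ?_) n (tri (Fin δ) n)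
        (tri_subset_box n)).trans ?_
      · refine gp_le_emin ?_
        rw [← Finsupp.cons_tail (umin Y)]
        exact cons_mono (not_lt.mp h) hv
      · rw [Fintype.card_fin, errB]
        gcongr
        rw [Fin.sum_univ_succ]
        exact Nat.le_add_left _ _
  refine (Finset.sum_le_sum hc).trans ?_
  rw [Finset.sum_add_distrib, Finset.sum_const, Finset.card_range, nsmul_eq_mul, mul_add,
    Finset.sum_ite, Finset.sum_const_zero, add_zero, Finset.sum_const, nsmul_eq_mul]
  have hcard : (((Finset.range a).filter (fun j => j < umin Y 0)).card : ℕ∞) ≤ (umin Y 0 : ℕ) := by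
    have : ((Finset.range a).filter (fun j => j < umin Y 0)).card ≤ umin Y 0 := by
      refine (Finset.card_le_card (t := Finset.range (umin Y 0)) ?_).trans (by simp)
      intro j hj
      rw [Finset.mem_filter] at hj
      exact Finset.mem_range.mpr hj.2
    exact_mod_cast this
  calc _ ≤ (a * ((tri (Fin δ) n).card * emin Y) + a * (errB Y * (n ^ (δ - 1) : ℕ))) +
        (umin Y 0 : ℕ) * ((tri (Fin δ) n).card * gp Y 0) := by gcongr
    _ = _ := by ring

end Vale.Agent.P202
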