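import Vale.Agent.P202.Sumf
import Mathlib.Analysis.SpecialFunctions.Choose
import Mathlib.Analysis.Asymptotics.SpecificAsymptotics

/-!
Asymptotics of iterated sums.
-/

namespace Vale.Agent.P202

open Filter Topology Asymptotics

lemma sum_div_tendsto {a b : ℕ → ℝ} {e : ℝ} (hb : ∀ i, 0 < b i)
    (hsum : Tendsto (fun n => ∑ i ∈ Finset.range n, b i) atTop atTop)
    (h : Tendsto (fun i => a i / b i) atTop (𝓝 e)) :
    Tendsto (fun n => (∑ i ∈ Finset.range n, a i) / ∑ i ∈ Finset.range n, b i) atTop (𝓝 e) := by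
  have h1 : (fun i => a i - e * b i) =o[atTop] b := by
    rw [isLittleO_iff_tendsto' (Eventually.of_forall fun i hi => absurd hi (hb i).ne')]
    have h2 : Tendsto (fun i => a i / b i - e) atTop (𝓝 (e - e)) := h.sub tendsto_const_nhds
    rw [sub_self] at h2
    refine h2.congr fun i => ?_
    have := (hb i).ne'
    field_simp
  have h3 := (IsLittleO.sum_range h1 (fun i => (hb i).le) hsum).tendsto_div_nhds_zero
  have h4 : Tendsto (fun n => (∑ i ∈ Finset.range n, (a i - e * b i)) /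
      (∑ i ∈ Finset.range n, b i) + e) atTop (𝓝 (0 + e)) := h3.add tendsto_const_nhds
  rw [zero_add] at h4
  refine h4.congr' ?_
  filter_upwards [hsum.eventually_gt_atTop 0] with n hn
  rw [Finset.sum_sub_distrib, ← Finset.mul_sum]
  have := hn.ne'
  field_simp
  ring

lemma tendsto_add_div (c s : ℕ) :
    Tendsto (fun n : ℕ => (((n + c : ℕ) : ℝ) ^ s) / (n : ℝ) ^ s) atTop (𝓝 1) := by
  have h1 : Tendsto (fun n : ℕ => 1 + (c : ℝ) / n) atTop (𝓝 (1 + 0)) :=
    tendsto_const_nhds.add (tendsto_const_div_atTop_nhds_zero_nat (c : ℝ))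
  rw [add_zero] at h1
  have h2 := h1.pow s
  rw [one_pow] at h2
  refine h2.congr' ?_
  filter_upwards [eventually_gt_atTop 0] with n hn
  have : (n : ℝ) ≠ 0 := by positivity
  rw [← div_pow, Nat.cast_add]
  congr 1
  field_simp

lemma tendsto_choose_div (c s : ℕ) :
    Tendsto (fun n : ℕ => (s.factorial : ℝ) * (((n + c).choose s : ℕ) : ℝ) / (n : ℝ) ^ s) atTop
      (𝓝 1) := by
  have h0 := isEquivalent_choose s
  have hz : ∀ᶠ x : ℕ in atTop, ((x : ℝ) ^ s / (s.factorial : ℝ)) ≠ 0 := by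
    filter_upwards [eventually_gt_atTop 0] with n hn
    positivity
  rw [isEquivalent_iff_tendsto_one hz] at h0
  have h1 := h0.comp (tendsto_add_atTop_nat c)
  have h2 := h1.mul (tendsto_add_div c s)
  rw [one_mul] at h2
  refine h2.congr' ?_
  filter_upwards [eventually_gt_atTop 0] with n hn
  have h3 : (n : ℝ) ≠ 0 := by positivity
  have h4 : (s.factorial : ℝ) ≠ 0 := by positivity
  have h5 : ((n + c : ℕ) : ℝ) ≠ 0 := by positivity
  simp only [Function.comp_apply, Pi.div_apply]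
  field_simp

lemma sum_choose_range (s j : ℕ) :
    ∑ i ∈ Finset.range j, (i + s).choose s = (j + s).choose (s + 1) := by
  rcases j with _ | j
  · simp
  · rw [Nat.sum_range_add_choose]
    congr 1
    ring

lemma tendsto_sum_step {s : ℕ} {L : ℕ → ℝ} {e : ℝ}
    (h : Tendsto (fun N : ℕ => (s.factorial : ℝ) * L N / (N : ℝ) ^ s) atTop (𝓝 e)) :
    Tendsto (fun N : ℕ => ((s + 1).factorial : ℝ) * (∑ i ∈ Finset.range N, L (i + 1)) /
      (N : ℝ) ^ (s + 1)) atTop (𝓝 e) := by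
  have h1 : Tendsto (fun i : ℕ => L (i + 1) / (((i + s).choose s : ℕ) : ℝ)) atTop (𝓝 e) := by
    have h2 := h.comp (tendsto_add_atTop_nat 1)
    have h3 := (tendsto_choose_div s s)
    have h4 := (h2.mul (tendsto_add_div 1 s)).div h3 one_ne_zero
    rw [mul_one, div_one] at h4
    refine h4.congr' ?_
    filter_upwards [eventually_gt_atTop 0] with n hn
    have h5 : (n : ℝ) ≠ 0 := by positivity
    have h6 : (s.factorial : ℝ) ≠ 0 := by positivity
    have h7 : ((n + 1 : ℕ) : ℝ) ≠ 0 := by positivity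
    have h8 : (((n + s).choose s : ℕ) : ℝ) ≠ 0 := by
      have : 0 < (n + s).choose s := Nat.choose_pos (by omega)
      positivity
    simp only [Function.comp_apply, Pi.div_apply]
    field_simp
  have hsum : Tendsto (fun n : ℕ => ∑ i ∈ Finset.range n, (((i + s).choose s : ℕ) : ℝ)) atTop
      atTop := by
    refine tendsto_atTop_mono ?_ tendsto_natCast_atTop_atTop
    intro n
    have : ∀ i ∈ Finset.range n, (1 : ℝ) ≤ (((i + s).choose s : ℕ) : ℝ) := by
      intro i _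
      exact_mod_cast Nat.choose_pos (by omega)
    calc (n : ℝ) = ∑ i ∈ Finset.range n, (1 : ℝ) := by simp
      _ ≤ _ := Finset.sum_le_sum this
  have h2 := sum_div_tendsto (a := fun i => L (i + 1)) (fun i => by
    have : 0 < (i + s).choose s := Nat.choose_pos (by omega)
    positivity) hsum h1
  have h3 := h2.mul (tendsto_choose_div s (s + 1))
  rw [mul_one] at h3
  refine h3.congr' ?_
  filter_upwards [eventually_gt_atTop 0] with n hn
  have h5 : (n : ℝ) ≠ 0 := by positivity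
  have h8 : (((n + s).choose (s + 1) : ℕ) : ℝ) ≠ 0 := by
    have : 0 < (n + s).choose (s + 1) := Nat.choose_pos (by omega)
    positivity
  have h9 : ∑ i ∈ Finset.range n, (((i + s).choose s : ℕ) : ℝ) =
      (((n + s).choose (s + 1) : ℕ) : ℝ) := by
    rw [← sum_choose_range]
    push_cast
    rfl
  rw [h9]
  field_simp

lemma sumf_ne_top {L : ℕ → ℕ∞} (h : ∀ i, L i ≠ ⊤) (j : ℕ) : sumf L j ≠ ⊤ := by
  rw [sumf]
  exact WithTop.sum_ne_top.mpr fun i _ => h (i + 1)

lemma sumf_toNat {L : ℕ → ℕ∞} (h : ∀ i, L i ≠ ⊤) (j : ℕ) :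
    (sumf L j).toNat = ∑ i ∈ Finset.range j, (L (i + 1)).toNat := by
  have h1 : sumf L j = ((∑ i ∈ Finset.range j, (L (i + 1)).toNat : ℕ) : ℕ∞) := by
    rw [sumf]
    push_cast
    refine Finset.sum_congr rfl fun i _ => ?_
    exact (ENat.natCast_toNat (h (i + 1))).symm
  rw [h1, ENat.toNat_natCast]

lemma sumf_iterate_tendsto {L : ℕ → ℕ∞} (h : ∀ i, L i ≠ ⊤) {s : ℕ} {e : ℝ}
    (he : Tendsto (fun N : ℕ => (s.factorial : ℝ) * ((L N).toNat : ℝ) / (N : ℝ) ^ s) atTop
      (𝓝 e)) (p : ℕ) :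
    (∀ j, sumf^[p] L j ≠ ⊤) ∧
      Tendsto (fun N : ℕ => ((s + p).factorial : ℝ) * ((sumf^[p] L N).toNat : ℝ) /
        (N : ℝ) ^ (s + p)) atTop (𝓝 e) := by
  induction p with
  | zero => exact ⟨h, he⟩
  | succ p ih =>
    obtain ⟨ih1, ih2⟩ := ih
    refine ⟨fun j => ?_, ?_⟩
    · rw [Function.iterate_succ_apply']
      exact sumf_ne_top ih1 j
    · have h3 := tendsto_sum_step ih2
      refine h3.congr fun N => ?_
      rw [Function.iterate_succ_apply', sumf_toNat ih1]
      push_cast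
      rfl

/-- If iterated sums are comparable then so are the leading coefficients. -/
theorem coeff_le_of_sumf_le {L L' : ℕ → ℕ∞} (h : ∀ i, L i ≠ ⊤) (h' : ∀ i, L' i ≠ ⊤) {s p : ℕ}
    {e e' : ℕ}
    (he : Tendsto (fun N : ℕ => (s.factorial : ℝ) * ((L N).toNat : ℝ) / (N : ℝ) ^ s) atTop
      (𝓝 (e : ℝ)))
    (he' : Tendsto (fun N : ℕ => ((s + 1).factorial : ℝ) * ((L' N).toNat : ℝ) /
      (N : ℝ) ^ (s + 1)) atTop (𝓝 (e' : ℝ)))
    (hle : ∀ j, (sumf^[p + 1] L) j ≤ (sumf^[p] L') j) : e ≤ e' := by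
  obtain ⟨h1, h2⟩ := sumf_iterate_tendsto h he (p + 1)
  obtain ⟨h3, h4⟩ := sumf_iterate_tendsto h' he' p
  have h5 : s + (p + 1) = s + 1 + p := by ring
  rw [h5] at h2
  have h6 : (e : ℝ) ≤ (e' : ℝ) := by
    refine le_of_tendsto_of_tendsto' h2 h4 fun N => ?_
    have h7 : (sumf^[p + 1] L N).toNat ≤ (sumf^[p] L' N).toNat :=
      ENat.toNat_le_toNat (hle N) (h3 N)
    gcongr
  exact_mod_cast h6

end Vale.Agent.P202
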