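import Vale.Agent.P202.Basic

/-!
Iterated summation of `ℕ∞`-valued sequences.
-/

namespace Vale.Agent.P202

/-- iterated summation. -/
def sumf (L : ℕ → ℕ∞) : ℕ → ℕ∞ := fun j => ∑ i ∈ Finset.range j, L (i + 1)

lemma sumf_mono {L L' : ℕ → ℕ∞} (h : ∀ j, L j ≤ L' j) (j : ℕ) : sumf L j ≤ sumf L' j :=
  Finset.sum_le_sum fun i _ => h (i + 1)

lemma sumf_iterate_mono {L L' : ℕ → ℕ∞} (h : ∀ j, L j ≤ L' j) (p j : ℕ) :
    sumf^[p] L j ≤ sumf^[p] L' j := by
  induction p generalizing j with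
  | zero => exact h j
  | succ p ih =>
    rw [Function.iterate_succ_apply', Function.iterate_succ_apply']
    exact sumf_mono ih j

end Vale.Agent.P202
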