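import Vale.Agent.P202.CharP.GenFinalC

/-!
P202: reduction of Lech's inequality to the components of maximal dimension.
-/

set_option linter.unusedSectionVars false
set_option linter.unusedVariables false

namespace Vale.Agent.P202

open IsLocalRing Filter Topology TensorProduct

universe u

section

variable {B : Type*} [CommRing B]

theorem tc_length_exact {J : Ideal B} {M₁ M₂ M₃ : Type*} [AddCommGroup M₁] [Module B M₁]
    [AddCommGroup M₂] [Module B M₂] [AddCommGroup M₃] [Module B M₃]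
    (f : M₁ →ₗ[B] M₂) (g : M₂ →ₗ[B] M₃) (hg : Function.Surjective g)
    (hfg : Function.Exact f g) :
    Module.length B (M₂ ⧸ (J • (⊤ : Submodule B M₂))) =
      Module.length B (M₁ ⧸ (J • (⊤ : Submodule B M₂)).comap f) +
      Module.length B (M₃ ⧸ (J • (⊤ : Submodule B M₃))) := by
  have hmap : (J • (⊤ : Submodule B M₂)).map g = J • (⊤ : Submodule B M₃) := by
    rw [Submodule.map_smul'', Submodule.map_top, LinearMap.range_eq_top.mpr hg]
  have hle : (J • (⊤ : Submodule B M₂)) ≤ (J • (⊤ : Submodule B M₃)).comap g := by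
    rw [← Submodule.map_le_iff_le_comap, hmap]
  refine Module.length_eq_add_of_exact (Submodule.mapQ _ _ f le_rfl) (Submodule.mapQ _ _ g hle)
    ?_ ?_ ?_
  · rw [← LinearMap.ker_eq_bot, LinearMap.ker_eq_bot']
    intro m hm
    obtain ⟨m, rfl⟩ := Submodule.Quotient.mk_surjective _ m
    rw [Submodule.mapQ_apply, Submodule.Quotient.mk_eq_zero] at hm
    rw [Submodule.Quotient.mk_eq_zero]
    exact hm
  · intro m
    obtain ⟨m, rfl⟩ := Submodule.Quotient.mk_surjective _ m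
    obtain ⟨m, rfl⟩ := hg m
    exact ⟨Submodule.Quotient.mk m, by rw [Submodule.mapQ_apply]⟩
  · intro m
    constructor
    · intro hm
      obtain ⟨m, rfl⟩ := Submodule.Quotient.mk_surjective _ m
      rw [Submodule.mapQ_apply, Submodule.Quotient.mk_eq_zero, ← hmap] at hm
      obtain ⟨m', hm', h⟩ := hm
      have h1 : g (m - m') = 0 := by rw [map_sub, h, sub_self]
      obtain ⟨n, hn⟩ := (hfg _).mp h1
      refine ⟨Submodule.Quotient.mk n, ?_⟩
      rw [Submodule.mapQ_apply, hn, Submodule.Quotient.mk_sub,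
        (Submodule.Quotient.mk_eq_zero _).mpr hm', sub_zero]
    · rintro ⟨n, rfl⟩
      obtain ⟨n, rfl⟩ := Submodule.Quotient.mk_surjective _ n
      rw [Submodule.mapQ_apply, Submodule.mapQ_apply, (hfg _).mpr ⟨n, rfl⟩,
        Submodule.Quotient.mk_zero]

theorem tc_length_le {M : Type*} [AddCommGroup M] [Module B M] {N₁ N₂ : Submodule B M}
    (h : N₁ ≤ N₂) : Module.length B (M ⧸ N₂) ≤ Module.length B (M ⧸ N₁) :=
  Module.length_le_of_surjective (Submodule.factor h) (Submodule.factor_surjective h)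

theorem tc_sub {J : Ideal B} {M₁ M₂ M₃ : Type*} [AddCommGroup M₁] [Module B M₁]
    [AddCommGroup M₂] [Module B M₂] [AddCommGroup M₃] [Module B M₃]
    (f : M₁ →ₗ[B] M₂) (g : M₂ →ₗ[B] M₃) (hg : Function.Surjective g)
    (hfg : Function.Exact f g) :
    Module.length B (M₂ ⧸ (J • (⊤ : Submodule B M₂))) ≤
      Module.length B (M₁ ⧸ (J • (⊤ : Submodule B M₁))) +
      Module.length B (M₃ ⧸ (J • (⊤ : Submodule B M₃))) := by
  rw [tc_length_exact f g hg hfg]
  refine add_le_add (tc_length_le ?_) le_rfl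
  rw [← Submodule.map_le_iff_le_comap, Submodule.map_smul'']
  exact Submodule.smul_mono le_rfl le_top

theorem tc_super [IsNoetherianRing B] (I : Ideal B) {M₁ M₂ M₃ : Type*} [AddCommGroup M₁]
    [Module B M₁] [AddCommGroup M₂] [Module B M₂] [Module.Finite B M₂]
    [AddCommGroup M₃] [Module B M₃]
    (f : M₁ →ₗ[B] M₂) (g : M₂ →ₗ[B] M₃) (hf : Function.Injective f) (hg : Function.Surjective g)
    (hfg : Function.Exact f g) : ∃ k : ℕ, ∀ N : ℕ,
      Module.length B (M₁ ⧸ (I ^ N • (⊤ : Submodule B M₁))) +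
      Module.length B (M₃ ⧸ (I ^ (N + k) • (⊤ : Submodule B M₃))) ≤
      Module.length B (M₂ ⧸ (I ^ (N + k) • (⊤ : Submodule B M₂))) := by
  obtain ⟨k, hk⟩ := I.exists_pow_inf_eq_pow_smul (LinearMap.range f)
  refine ⟨k, fun N => ?_⟩
  rw [tc_length_exact f g hg hfg]
  refine add_le_add (tc_length_le ?_) le_rfl
  intro m hm
  have h1 := hk (N + k) (by omega)
  have h2 : f m ∈ I ^ (N + k) • (⊤ : Submodule B M₂) ⊓ LinearMap.range f := ⟨hm, m, rfl⟩
  rw [h1, Nat.add_sub_cancel] at h2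
  have h3 : f m ∈ I ^ N • (LinearMap.range f) :=
    Submodule.smul_mono le_rfl inf_le_right h2
  rw [LinearMap.range_eq_map, ← Submodule.map_smul''] at h3
  obtain ⟨m', hm', h⟩ := h3
  rwa [← hf h]

end

section

variable (B : Type*) [CommRing B] [IsLocalRing B] [IsNoetherianRing B]

/-- the growth function of a module. -/
noncomputable def tcl (M : Type*) [AddCommGroup M] [Module B M] (N : ℕ) : ℕ :=
  (Module.length B (M ⧸ (maximalIdeal B ^ N • (⊤ : Submodule B M)))).toNat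

theorem tc_fin (M : Type*) [AddCommGroup M] [Module B M] [Module.Finite B M] (N : ℕ) :
    Module.length B (M ⧸ (maximalIdeal B ^ N • (⊤ : Submodule B M))) ≠ ⊤ := by
  refine length_ne_top_of_killed (I := maximalIdeal B ^ N) (ell_ne_top_of_pow_le le_rfl) _ ?_
  intro r hr m
  obtain ⟨m, rfl⟩ := Submodule.Quotient.mk_surjective _ m
  rw [← Submodule.Quotient.mk_smul, Submodule.Quotient.mk_eq_zero]
  exact Submodule.smul_mem_smul hr Submodule.mem_top

theorem tcl_coe (M : Type*) [AddCommGroup M] [Module B M] [Module.Finite B M] (N : ℕ) :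
    (tcl B M N : ℕ∞) = Module.length B (M ⧸ (maximalIdeal B ^ N • (⊤ : Submodule B M))) :=
  ENat.natCast_toNat (tc_fin B M N)

theorem tcl_mono (M : Type*) [AddCommGroup M] [Module B M] [Module.Finite B M] {N N' : ℕ}
    (h : N ≤ N') : tcl B M N ≤ tcl B M N' := by
  have h1 : (tcl B M N : ℕ∞) ≤ tcl B M N' := by
    rw [tcl_coe, tcl_coe]
    exact tc_length_le (Submodule.smul_mono (Ideal.pow_le_pow_right h) le_rfl)
  exact_mod_cast h1

end

section

variable (R S : Type u) [CommRing R] [IsLocalRing R] [IsNoetherianRing R]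
  [CommRing S] [IsLocalRing S] [IsNoetherianRing S] [Algebra R S]

/-- asymptotic comparison of a module with its base change. -/
def Cmp (d s : ℕ) (M : Type u) [AddCommGroup M] [Module R M] : Prop :=
  ∀ ε : ℝ, 0 < ε → ∃ c : ℕ, ∀ᶠ N : ℕ in atTop,
    (d.factorial : ℝ) * (tcl R M N : ℝ) / (N : ℝ) ^ d ≤
      (s.factorial : ℝ) * (tcl S (S ⊗[R] M) (N + c) : ℝ) / (N : ℝ) ^ s + ε

variable {R S}

theorem Cmp.exact [Module.Flat R S] {d s : ℕ} {M₁ M₂ M₃ : Type u} [AddCommGroup M₁] [Module R M₁]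
    [Module.Finite R M₁] [AddCommGroup M₂] [Module R M₂] [Module.Finite R M₂]
    [AddCommGroup M₃] [Module R M₃] [Module.Finite R M₃]
    (f : M₁ →ₗ[R] M₂) (g : M₂ →ₗ[R] M₃) (hf : Function.Injective f)
    (hg : Function.Surjective g) (hfg : Function.Exact f g) (h₁ : Cmp R S d s M₁)
    (h₃ : Cmp R S d s M₃) : Cmp R S d s M₂ := by
  intro ε hε
  obtain ⟨c₁, h₁⟩ := h₁ (ε / 2) (half_pos hε)
  obtain ⟨c₃, h₃⟩ := h₃ (ε / 2) (half_pos hε)
  have hf' : Function.Injective (f.baseChange S) :=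
    Module.Flat.lTensor_preserves_injective_linearMap (M := S) f hf
  have hg' : Function.Surjective (g.baseChange S) := LinearMap.lTensor_surjective S hg
  have hfg' : Function.Exact (f.baseChange S) (g.baseChange S) := lTensor_exact S hfg hg
  obtain ⟨k, hk⟩ := tc_super (maximalIdeal S) (f.baseChange S) (g.baseChange S) hf' hg' hfg'
  refine ⟨max c₁ c₃ + k, ?_⟩
  filter_upwards [h₁, h₃] with N h₁ h₃
  have e1 : tcl R M₂ N ≤ tcl R M₁ N + tcl R M₃ N := by
    have : (tcl R M₂ N : ℕ∞) ≤ tcl R M₁ N + tcl R M₃ N := by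
      rw [tcl_coe, tcl_coe, tcl_coe]
      exact tc_sub f g hg hfg
    exact_mod_cast this
  have e2 : tcl S (S ⊗[R] M₁) (N + c₁) + tcl S (S ⊗[R] M₃) (N + c₃) ≤
      tcl S (S ⊗[R] M₂) (N + (max c₁ c₃ + k)) := by
    have h4 : (tcl S (S ⊗[R] M₁) (N + max c₁ c₃) : ℕ∞) +
        tcl S (S ⊗[R] M₃) (N + max c₁ c₃ + k) ≤ tcl S (S ⊗[R] M₂) (N + max c₁ c₃ + k) := by
      rw [tcl_coe, tcl_coe, tcl_coe]
      exact hk _
    have h5 : tcl S (S ⊗[R] M₁) (N + max c₁ c₃) + tcl S (S ⊗[R] M₃) (N + max c₁ c₃ + k) ≤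
        tcl S (S ⊗[R] M₂) (N + max c₁ c₃ + k) := by exact_mod_cast h4
    have h6 := tcl_mono S (S ⊗[R] M₁) (by omega : N + c₁ ≤ N + max c₁ c₃)
    have h7 := tcl_mono S (S ⊗[R] M₃) (by omega : N + c₃ ≤ N + max c₁ c₃ + k)
    rw [← add_assoc]
    omega
  have e1' : (tcl R M₂ N : ℝ) ≤ tcl R M₁ N + tcl R M₃ N := by exact_mod_cast e1
  have e2' : (tcl S (S ⊗[R] M₁) (N + c₁) : ℝ) + tcl S (S ⊗[R] M₃) (N + c₃) ≤
      tcl S (S ⊗[R] M₂) (N + (max c₁ c₃ + k)) := by exact_mod_cast e2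
  calc (d.factorial : ℝ) * (tcl R M₂ N : ℝ) / (N : ℝ) ^ d ≤
      (d.factorial : ℝ) * ((tcl R M₁ N : ℝ) + tcl R M₃ N) / (N : ℝ) ^ d := by gcongr
    _ = (d.factorial : ℝ) * (tcl R M₁ N : ℝ) / (N : ℝ) ^ d +
        (d.factorial : ℝ) * (tcl R M₃ N : ℝ) / (N : ℝ) ^ d := by rw [mul_add, add_div]
    _ ≤ ((s.factorial : ℝ) * (tcl S (S ⊗[R] M₁) (N + c₁) : ℝ) / (N : ℝ) ^ s + ε / 2) +
        ((s.factorial : ℝ) * (tcl S (S ⊗[R] M₃) (N + c₃) : ℝ) / (N : ℝ) ^ s + ε / 2) :=
          add_le_add h₁ h₃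
    _ = (s.factorial : ℝ) * ((tcl S (S ⊗[R] M₁) (N + c₁) : ℝ) +
        tcl S (S ⊗[R] M₃) (N + c₃)) / (N : ℝ) ^ s + ε := by
          rw [mul_add, add_div]; ring
    _ ≤ _ := by gcongr

end


theorem tc_dim_formula {R S : Type*} [CommRing R] [IsLocalRing R] [IsNoetherianRing R]
    [CommRing S] [IsLocalRing S] [IsNoetherianRing S] [Algebra R S]
    [IsLocalHom (algebraMap R S)] [Module.Flat R S] :
    ringKrullDim S = ringKrullDim R + ringKrullDim (S ⧸ (maximalIdeal R).map (algebraMap R S)) := by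
  set J := (maximalIdeal R).map (algebraMap R S) with hJ
  have hJle : J ≤ maximalIdeal S := by
    rw [hJ, Ideal.map_le_iff_le_comap]
    intro a ha
    exact (IsLocalRing.mem_maximalIdeal _).mpr fun h =>
      (IsLocalRing.mem_maximalIdeal _).mp ha (isUnit_of_map_unit (algebraMap R S) a h)
  have hnt : Nontrivial (S ⧸ J) :=
    Ideal.Quotient.nontrivial_iff.mpr (ne_top_of_le_ne_top (maximalIdeal.isMaximal S).ne_top hJle)
  have hloc : IsLocalRing (S ⧸ J) := IsLocalRing.of_surjective' _ Ideal.Quotient.mk_surjective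
  have h1 := Ideal.height_eq_height_add_of_liesOver_of_hasGoingDown (maximalIdeal R)
      (maximalIdeal S)
  have h2 : (maximalIdeal S).map (Ideal.Quotient.mk J) = maximalIdeal (S ⧸ J) := by
    have h3 : ((maximalIdeal S).map (Ideal.Quotient.mk J)).IsMaximal :=
      Ideal.IsMaximal.map_of_surjective_of_ker_le Ideal.Quotient.mk_surjective
        (by rw [Ideal.mk_ker]; exact hJle)
    exact IsLocalRing.eq_maximalIdeal h3
  rw [← hJ, h2] at h1
  rw [← IsLocalRing.maximalIdeal_height_eq_ringKrullDim,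
    ← IsLocalRing.maximalIdeal_height_eq_ringKrullDim,
    ← IsLocalRing.maximalIdeal_height_eq_ringKrullDim, h1]
  push_cast
  rfl

theorem tc_map_max {R : Type*} [CommRing R] [IsLocalRing R] (P : Ideal R) (hP : P ≤ maximalIdeal R)
    [IsLocalRing (R ⧸ P)] :
    (maximalIdeal R).map (Ideal.Quotient.mk P) = maximalIdeal (R ⧸ P) := by
  have h3 : ((maximalIdeal R).map (Ideal.Quotient.mk P)).IsMaximal :=
    Ideal.IsMaximal.map_of_surjective_of_ker_le Ideal.Quotient.mk_surjective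
      (by rw [Ideal.mk_ker]; exact hP)
  exact IsLocalRing.eq_maximalIdeal h3

section

variable {R S : Type u} [CommRing R] [IsLocalRing R] [IsNoetherianRing R]
  [CommRing S] [IsLocalRing S] [IsNoetherianRing S] [Algebra R S]
  [IsLocalHom (algebraMap R S)] [Module.Flat R S]

theorem tc_loc_quot (P : Ideal R) (hP : P ≤ maximalIdeal R) : IsLocalRing (R ⧸ P) := by
  have hnt : Nontrivial (R ⧸ P) :=
    Ideal.Quotient.nontrivial_iff.mpr (ne_top_of_le_ne_top (maximalIdeal.isMaximal R).ne_top hP)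
  exact IsLocalRing.of_surjective' _ Ideal.Quotient.mk_surjective

theorem tc_map_le (P : Ideal R) (hP : P ≤ maximalIdeal R) :
    P.map (algebraMap R S) ≤ maximalIdeal S := by
  rw [Ideal.map_le_iff_le_comap]
  intro a ha
  exact (IsLocalRing.mem_maximalIdeal _).mpr fun h =>
    (IsLocalRing.mem_maximalIdeal _).mp (hP ha) (isUnit_of_map_unit (algebraMap R S) a h)

theorem tc_algebraMap_mk (P : Ideal R) (a : R) :
    algebraMap (R ⧸ P) (S ⧸ P.map (algebraMap R S)) (Ideal.Quotient.mk P a) =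
      Ideal.Quotient.mk _ (algebraMap R S a) := rfl

theorem tc_islocalhom (P : Ideal R) (hP : P ≤ maximalIdeal R) [IsLocalRing (R ⧸ P)]
    [IsLocalRing (S ⧸ P.map (algebraMap R S))] :
    IsLocalHom (algebraMap (R ⧸ P) (S ⧸ P.map (algebraMap R S))) := by
  refine ⟨fun a ha => ?_⟩
  obtain ⟨a, rfl⟩ := Ideal.Quotient.mk_surjective a
  by_contra hna
  have h1 : a ∈ maximalIdeal R := by
    rw [mem_maximalIdeal, mem_nonunits_iff]
    intro h
    exact hna (h.map _)
  have h2 : algebraMap R S a ∈ maximalIdeal S := by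
    rw [mem_maximalIdeal, mem_nonunits_iff]
    intro h
    exact (mem_maximalIdeal _).mp h1 (isUnit_of_map_unit (algebraMap R S) a h)
  rw [tc_algebraMap_mk] at ha
  have h3 : Ideal.Quotient.mk (P.map (algebraMap R S)) (algebraMap R S a) ∈
      maximalIdeal (S ⧸ P.map (algebraMap R S)) := by
    rw [← tc_map_max _ (tc_map_le P hP)]
    exact Ideal.mem_map_of_mem _ h2
  exact (mem_maximalIdeal _).mp h3 ha

theorem tc_dim_quot (P : Ideal R) (hP : P ≤ maximalIdeal R)
    (hd : ringKrullDim (R ⧸ P) = ringKrullDim R) :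
    ringKrullDim (S ⧸ P.map (algebraMap R S)) = ringKrullDim S := by
  have l1 := tc_loc_quot P hP
  have l2 := tc_loc_quot (P.map (algebraMap R S)) (tc_map_le P hP)
  have l3 := tc_islocalhom (S := S) P hP
  have l4 : Module.Flat (R ⧸ P) (S ⧸ P.map (algebraMap R S)) := flat_quot P
  rw [tc_dim_formula (R := R) (S := S), tc_dim_formula (R := R ⧸ P)
    (S := S ⧸ P.map (algebraMap R S)), hd]
  congr 1
  set J := (maximalIdeal R).map (algebraMap R S) with hJ
  have h1 : (maximalIdeal (R ⧸ P)).map (algebraMap (R ⧸ P) (S ⧸ P.map (algebraMap R S))) =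
      J.map (Ideal.Quotient.mk (P.map (algebraMap R S))) := by
    rw [← tc_map_max P hP, Ideal.map_map, hJ, Ideal.map_map]
    rfl
  have h2 : (J.map (Ideal.Quotient.mk (P.map (algebraMap R S)))).comap
      (Ideal.Quotient.mk (P.map (algebraMap R S))) = J := by
    rw [Ideal.comap_map_quotientMk]
    exact sup_eq_right.mpr (Ideal.map_mono hP)
  rw [h1]
  let φ : S →+* ((S ⧸ P.map (algebraMap R S)) ⧸
      J.map (Ideal.Quotient.mk (P.map (algebraMap R S)))) :=
    (Ideal.Quotient.mk _).comp (Ideal.Quotient.mk _)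
  have hφ : Function.Surjective φ :=
    Ideal.Quotient.mk_surjective.comp Ideal.Quotient.mk_surjective
  have hker : RingHom.ker φ = J := by
    rw [← RingHom.comap_ker, Ideal.mk_ker, h2]
  exact (ringKrullDim_eq_of_ringEquiv ((Ideal.quotEquivOfEq hker.symm).trans
    (RingHom.quotientKerEquivOfSurjective hφ))).symm

end


section

theorem tcl_congr (B : Type*) [CommRing B] [IsLocalRing B] {M M' : Type*} [AddCommGroup M]
    [Module B M] [AddCommGroup M'] [Module B M'] (e : M ≃ₗ[B] M') (N : ℕ) :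
    Module.length B (M ⧸ (maximalIdeal B ^ N • (⊤ : Submodule B M))) =
      Module.length B (M' ⧸ (maximalIdeal B ^ N • (⊤ : Submodule B M'))) := by
  refine (Submodule.Quotient.equiv _ _ e ?_).length_eq
  rw [Submodule.map_smul'', Submodule.map_top]
  congr 1
  exact LinearEquiv.range e

theorem tcl_quot {B : Type*} [CommRing B] [IsLocalRing B] (J : Ideal B) (hJ : J ≤ maximalIdeal B)
    [IsLocalRing (B ⧸ J)] (N : ℕ) :
    Module.length B ((B ⧸ J) ⧸ (maximalIdeal B ^ N • (⊤ : Submodule B (B ⧸ J)))) =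
      Module.length (B ⧸ J) ((B ⧸ J) ⧸ maximalIdeal (B ⧸ J) ^ N) := by
  rw [← tc_map_max J hJ, ← Ideal.map_pow]
  have h : ((maximalIdeal B ^ N) • (⊤ : Submodule B (B ⧸ J))) =
      ((maximalIdeal B ^ N).map (algebraMap B (B ⧸ J))).restrictScalars B :=
    Ideal.smul_top_eq_map _
  rw [h]
  rw [← Module.length_eq_of_surjective (S := B) (R := B ⧸ J)
    (M := (B ⧸ J) ⧸ (maximalIdeal B ^ N).map (Ideal.Quotient.mk J)) Ideal.Quotient.mk_surjective]
  exact (Submodule.Quotient.restrictScalarsEquiv B _).length_eq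

variable {R S : Type u} [CommRing R] [IsLocalRing R] [IsNoetherianRing R]
  [CommRing S] [IsLocalRing S] [IsNoetherianRing S] [Algebra R S]
  [IsLocalHom (algebraMap R S)] [Module.Flat R S]

/-- primes of smaller dimension. -/
theorem Cmp.small (hmult : ∀ (A : Type u) [CommRing A] [IsLocalRing A] [IsNoetherianRing A]
      (d : ℕ), ringKrullDim A = d → ∃ e : ℕ, Tendsto (hsSeq A d) atTop (𝓝 (e : ℝ)))
    {d s d' : ℕ} (P : Ideal R) (hP : P ≤ maximalIdeal R)
    (hd' : ringKrullDim (R ⧸ P) = d') (hlt : d' < d) {M : Type u} [AddCommGroup M] [Module R M]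
    (e : M ≃ₗ[R] (R ⧸ P)) : Cmp R S d s M := by
  intro ε hε
  have l1 := tc_loc_quot P hP
  obtain ⟨eP, heP⟩ := hmult (R ⧸ P) d' hd'
  refine ⟨0, ?_⟩
  have h1 : Tendsto (fun N : ℕ => ((d.factorial : ℝ) / (d'.factorial : ℝ)) *
      (hsSeq (R ⧸ P) d' N * ((N : ℝ) ^ (d - d'))⁻¹)) atTop
      (𝓝 (((d.factorial : ℝ) / (d'.factorial : ℝ)) * ((eP : ℝ) * 0))) := by
    refine (heP.mul ?_).const_mul _
    have h2 : Tendsto (fun N : ℕ => (N : ℝ) ^ (d - d')) atTop atTop :=
      (tendsto_pow_atTop (by omega)).comp tendsto_natCast_atTop_atTop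
    exact h2.inv_tendsto_atTop
  rw [mul_zero, mul_zero] at h1
  filter_upwards [h1.eventually (gt_mem_nhds hε), eventually_gt_atTop 0] with N hN hN0
  have hN' : (0 : ℝ) < N := by exact_mod_cast hN0
  have e1 : (tcl R M N : ℝ) =
      ((Module.length (R ⧸ P) ((R ⧸ P) ⧸ maximalIdeal (R ⧸ P) ^ N)).toNat : ℝ) := by
    unfold tcl
    rw [tcl_congr R e, tcl_quot P hP]
  have e2 : (d.factorial : ℝ) * (tcl R M N : ℝ) / (N : ℝ) ^ d =
      ((d.factorial : ℝ) / (d'.factorial : ℝ)) *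
      (hsSeq (R ⧸ P) d' N * ((N : ℝ) ^ (d - d'))⁻¹) := by
    unfold hsSeq
    rw [e1]
    have h3 : (N : ℝ) ^ d = (N : ℝ) ^ d' * (N : ℝ) ^ (d - d') := by
      rw [← pow_add]; congr 1; omega
    have h4 : (d'.factorial : ℝ) ≠ 0 := by exact_mod_cast d'.factorial_ne_zero
    rw [h3]
    field_simp
  rw [e2]
  have h5 : (0 : ℝ) ≤ (s.factorial : ℝ) * (tcl S (S ⊗[R] M) (N + 0) : ℝ) / (N : ℝ) ^ s := by
    positivity
  linarith

/-- primes of maximal dimension. -/
theorem Cmp.top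
    {d s : ℕ} (P : Ideal R) (hP : P ≤ maximalIdeal R) [IsLocalRing (R ⧸ P)]
    [IsLocalRing (S ⧸ P.map (algebraMap R S))] {eR eS : ℕ} (hle : eR ≤ eS)
    (heR : Tendsto (hsSeq (R ⧸ P) d) atTop (𝓝 (eR : ℝ)))
    (heS : Tendsto (hsSeq (S ⧸ P.map (algebraMap R S)) s) atTop (𝓝 (eS : ℝ)))
    {M : Type u} [AddCommGroup M] [Module R M]
    (e : M ≃ₗ[R] (R ⧸ P)) : Cmp R S d s M := by
  intro ε hε
  refine ⟨0, ?_⟩
  have hle' : (eR : ℝ) ≤ eS := by exact_mod_cast hle
  filter_upwards [heR.eventually (gt_mem_nhds (show (eR : ℝ) < eR + ε / 2 by linarith)),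
    heS.eventually (lt_mem_nhds (show (eS : ℝ) - ε / 2 < eS by linarith))] with N h1 h2
  have e1 : (tcl R M N : ℝ) =
      ((Module.length (R ⧸ P) ((R ⧸ P) ⧸ maximalIdeal (R ⧸ P) ^ N)).toNat : ℝ) := by
    unfold tcl
    rw [tcl_congr R e, tcl_quot P hP]
  let e' : S ⊗[R] M ≃ₗ[S] (S ⧸ P.map (algebraMap R S)) :=
    (e.baseChange R S M (R ⧸ P)).trans
      (Algebra.TensorProduct.quotIdealMapEquivTensorQuot S P).toLinearEquiv.symm
  have e2 : (tcl S (S ⊗[R] M) (N + 0) : ℝ) =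
      ((Module.length (S ⧸ P.map (algebraMap R S)) ((S ⧸ P.map (algebraMap R S)) ⧸
        maximalIdeal (S ⧸ P.map (algebraMap R S)) ^ N)).toNat : ℝ) := by
    unfold tcl
    rw [tcl_congr S e', tcl_quot _ (tc_map_le P hP), add_zero]
  rw [e1, e2]
  unfold hsSeq at h1 h2
  linarith

/-- reduction to the components. -/
theorem tc_main (hmult : ∀ (A : Type u) [CommRing A] [IsLocalRing A] [IsNoetherianRing A]
      (d : ℕ), ringKrullDim A = d → ∃ e : ℕ, Tendsto (hsSeq A d) atTop (𝓝 (e : ℝ)))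
    {d s : ℕ} (hR : ringKrullDim R = d) (hS : ringKrullDim S = s) (eR eS : ℕ)
    (heR : Tendsto (hsSeq R d) atTop (𝓝 (eR : ℝ)))
    (heS : Tendsto (hsSeq S s) atTop (𝓝 (eS : ℝ)))
    (H : ∀ (P : Ideal R) [P.IsPrime], ringKrullDim (R ⧸ P) = ringKrullDim R →
      ∀ [IsLocalRing (R ⧸ P)] [IsLocalRing (S ⧸ P.map (algebraMap R S))]
      [IsLocalHom (algebraMap (R ⧸ P) (S ⧸ P.map (algebraMap R S)))]
      [Module.Flat (R ⧸ P) (S ⧸ P.map (algebraMap R S))] (e₁ e₂ : ℕ),
      ringKrullDim (R ⧸ P) = d → ringKrullDim (S ⧸ P.map (algebraMap R S)) = s →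
      Tendsto (hsSeq (R ⧸ P) d) atTop (𝓝 (e₁ : ℝ)) →
      Tendsto (hsSeq (S ⧸ P.map (algebraMap R S)) s) atTop (𝓝 (e₂ : ℝ)) → e₁ ≤ e₂) :
    eR ≤ eS := by
  have key : Cmp R S d s R := by
    refine IsNoetherianRing.induction_on_isQuotientEquivQuotientPrime R
      (M := R) inferInstance (motive := fun M _ _ _ => Cmp R S d s M) ?_ ?_ ?_
    · intro M _ _ _ hM ε hε
      refine ⟨0, Eventually.of_forall fun N => ?_⟩
      have h1 : tcl R M N = 0 := by
        unfold tcl
        rw [Module.length_eq_zero]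
        rfl
      rw [h1]
      have h5 : (0 : ℝ) ≤ (s.factorial : ℝ) * (tcl S (S ⊗[R] M) (N + 0) : ℝ) / (N : ℝ) ^ s := by
        positivity
      simp only [Nat.cast_zero, mul_zero, zero_div]
      linarith
    · intro M _ _ _ P e
      have hPp : P.1.IsPrime := P.2
      have hP : P.1 ≤ maximalIdeal R := IsLocalRing.le_maximalIdeal P.2.ne_top
      have l1 := tc_loc_quot P.1 hP
      have l2 := tc_loc_quot (P.1.map (algebraMap R S)) (tc_map_le P.1 hP)
      have l3 := tc_islocalhom (S := S) P.1 hP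
      have l4 : Module.Flat (R ⧸ P.1) (S ⧸ P.1.map (algebraMap R S)) := flat_quot P.1
      have hle : ringKrullDim (R ⧸ P.1) ≤ ringKrullDim R := ringKrullDim_quotient_le P.1
      rcases hle.lt_or_eq with hlt | heq
      · have h1 := IsLocalRing.maximalIdeal_height_eq_ringKrullDim (R := R ⧸ P.1)
        have h2 : (maximalIdeal (R ⧸ P.1)).height ≠ ⊤ := Ideal.height_ne_top_of_isPrime
        obtain ⟨d', hd'⟩ := ENat.ne_top_iff_exists.mp h2
        have h3 : ringKrullDim (R ⧸ P.1) = d' := by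
          rw [← h1, ← hd']
          rfl
        refine Cmp.small hmult P.1 hP h3 ?_ e
        rw [h3, hR] at hlt
        exact_mod_cast hlt
      · have hd1 : ringKrullDim (R ⧸ P.1) = d := heq.trans hR
        have hs1 : ringKrullDim (S ⧸ P.1.map (algebraMap R S)) = s :=
          (tc_dim_quot P.1 hP heq).trans hS
        obtain ⟨e₁, he₁⟩ := hmult _ d hd1
        obtain ⟨e₂, he₂⟩ := hmult _ s hs1
        exact Cmp.top P.1 hP (H P.1 heq e₁ e₂ hd1 hs1 he₁ he₂) he₁ he₂ e
    · intro M₁ _ _ _ M₂ _ _ _ M₃ _ _ _ f g hf hg hfg h₁ h₃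
      exact Cmp.exact f g hf hg hfg h₁ h₃
  have hreal : (eR : ℝ) ≤ eS := by
    refine le_of_forall_pos_le_add fun ε hε => ?_
    obtain ⟨c, hc⟩ := key ε hε
    have e1 : ∀ N, (d.factorial : ℝ) * (tcl R R N : ℝ) / (N : ℝ) ^ d = hsSeq R d N := by
      intro N
      unfold tcl hsSeq
      rw [smul_eq_mul, Ideal.mul_top]
    have e2 : ∀ N, tcl S (S ⊗[R] R) N = (Module.length S (S ⧸ maximalIdeal S ^ N)).toNat := by
      intro N
      unfold tcl
      rw [tcl_congr S (TensorProduct.AlgebraTensorModule.rid R S S), smul_eq_mul, Ideal.mul_top]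
    have h2 : Tendsto (fun N : ℕ => (s.factorial : ℝ) *
        ((Module.length S (S ⧸ maximalIdeal S ^ (N + c))).toNat : ℝ) / (N : ℝ) ^ s) atTop
        (𝓝 ((eS : ℝ) * 1)) := by
      have h3 : Tendsto (fun N : ℕ => hsSeq S s (N + c)) atTop (𝓝 (eS : ℝ)) :=
        (tendsto_add_atTop_iff_nat c).mpr heS
      have h4 : Tendsto (fun N : ℕ => (((N + c : ℕ) : ℝ) / (N : ℝ)) ^ s) atTop (𝓝 1) := by
        have h5 : Tendsto (fun N : ℕ => 1 + (c : ℝ) / N) atTop (𝓝 (1 + 0)) :=
          tendsto_const_nhds.add (tendsto_const_div_atTop_nhds_zero_nat (c : ℝ))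
        rw [add_zero] at h5
        have h6 := h5.pow s
        rw [one_pow] at h6
        refine h6.congr' ?_
        filter_upwards [eventually_gt_atTop 0] with N hN
        have : (N : ℝ) ≠ 0 := by positivity
        congr 1
        push_cast
        field_simp
      refine (h3.mul h4).congr' ?_
      filter_upwards [eventually_gt_atTop 0] with N hN
      have h7 : (N : ℝ) ≠ 0 := by positivity
      have h8 : ((N + c : ℕ) : ℝ) ≠ 0 := by positivity
      unfold hsSeq
      rw [div_pow]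
      field_simp
    rw [mul_one] at h2
    refine le_of_tendsto_of_tendsto heR (h2.add_const ε) ?_
    filter_upwards [hc] with N hN
    rw [e1, e2] at hN
    exact hN
  exact_mod_cast hreal

end


/-- The final theorem: all top-dimensional components equicharacteristic. -/
theorem hand_top (HC : ∀ (p : ℕ) [Fact p.Prime], CharP.TheoremC.{u} p)
    {R S : Type u} [CommRing R] [IsLocalRing R] [IsNoetherianRing R]
    [CommRing S] [IsLocalRing S] [IsNoetherianRing S]
    [Algebra R S] [IsLocalHom (algebraMap R S)] [Module.Flat R S] :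
    ∃ d s eR eS : ℕ, ringKrullDim R = d ∧ ringKrullDim S = s ∧
      Tendsto (fun N : ℕ => (d.factorial : ℝ) *
        ((Module.length R (R ⧸ maximalIdeal R ^ N)).toNat : ℝ) / (N : ℝ) ^ d) atTop
        (𝓝 (eR : ℝ)) ∧
      Tendsto (fun N : ℕ => (s.factorial : ℝ) *
        ((Module.length S (S ⧸ maximalIdeal S ^ N)).toNat : ℝ) / (N : ℝ) ^ s) atTop
        (𝓝 (eS : ℝ)) ∧
      ((∀ (P : Ideal R) [P.IsPrime], ringKrullDim (R ⧸ P) = ringKrullDim R →
        ∃ (k : Type u) (_ : Field k), Nonempty (Algebra k (R ⧸ P))) → eR ≤ eS) ∧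
      (3 ≤ d → eR ≤ (d - 2).factorial * eS) := by
  obtain ⟨d, hd⟩ := exists_dim R
  obtain ⟨s, hs⟩ := exists_dim S
  obtain ⟨eR, heR⟩ := exists_mult_all hd
  obtain ⟨eS, heS⟩ := exists_mult_all hs
  refine ⟨d, s, eR, eS, hd, hs, heR, heS, ?_, fun h3 => all_flat h3 hd hs eR eS heR heS⟩
  intro hk
  refine tc_main (R := R) (S := S) (fun A _ _ _ n hn => exists_mult_all hn) hd hs eR eS heR heS ?_
  intro P _ hPd _ _ _ _ e₁ e₂ hd1 hs1 he₁ he₂
  obtain ⟨k, _, ⟨_⟩⟩ := hk P hPd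
  obtain ⟨d', s', e₁', e₂', h1, h2, h3, h4, h5, -⟩ :=
    CharP.hand_field HC (R := R ⧸ P) (S := S ⧸ P.map (algebraMap R S))
  have hdd : d = d' := by
    have : ((d : ℕ) : WithBot ℕ∞) = ((d' : ℕ) : WithBot ℕ∞) := hd1.symm.trans h1
    exact_mod_cast this
  have hss : s = s' := by
    have : ((s : ℕ) : WithBot ℕ∞) = ((s' : ℕ) : WithBot ℕ∞) := hs1.symm.trans h2
    exact_mod_cast this
  subst hdd hss
  have e1 : (e₁ : ℝ) = e₁' := tendsto_nhds_unique he₁ h3
  have e2 : (e₂ : ℝ) = e₂' := tendsto_nhds_unique he₂ h4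
  have e1' : e₁ = e₁' := by exact_mod_cast e1
  have e2' : e₂ = e₂' := by exact_mod_cast e2
  rw [e1', e2']
  exact h5 k

end Vale.Agent.P202
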